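import Crest.Agent.R68.Base

/-! # Row 68: auxiliary estimates for `approx_contr` -/

set_option autoImplicit false
open MeasureTheory Set Filter Topology
open scoped ENNReal NNReal
open Crest.AnalysisR.VecCalc3 Crest.AnalysisR.PDE.Boltzmann

namespace Crest.Agent.R68.AxA
noncomputable section

theorem posOp_w {w : PF} (hw : Measurable w) : PosOp (fun f p => w p * f p) :=
  PosOp.id.mul hw

theorem posOp_cut (P : Par) : PosOp (cut P) := by
  have h : cut P = fun f p => (if p.1 ∈ Icc 0 P.t0 then 1 else 0 : ℝ≥0∞) * f p := by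
    funext f p
    unfold cut
    split_ifs <;> simp
  rw [h]
  exact posOp_w (Measurable.ite (measurableSet_Icc.preimage measurable_fst) measurable_const
    measurable_const)

theorem lint_exp {Λ t : ℝ} (hΛ : 0 < Λ) (ht : 0 ≤ t) :
    ∫⁻ s in Ioo 0 t, ENNReal.ofReal (Real.exp (Λ * s)) ≤ ENNReal.ofReal (Real.exp (Λ * t) / Λ) := by
  have h := fA_lint_deriv (a := 0) (b := t) ht (g := fun s => Real.exp (Λ * s) / Λ)
    (g' := fun s => Real.exp (Λ * s)) (by fun_prop) (fun x _ => by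
      have h1 := (((hasDerivAt_id x).const_mul Λ).exp).div_const Λ
      simp only [id, mul_one] at h1
      rwa [mul_div_cancel_right₀ _ hΛ.ne'] at h1) (fun x _ => (Real.exp_pos _).le)
  rw [h]
  refine ENNReal.ofReal_le_ofReal ?_
  have : 0 ≤ Real.exp (Λ * 0) / Λ := by positivity
  linarith

theorem Maj_split (E D D' β : PF) (hE : Measurable E) (q : Ph) (c : ℝ≥0∞)
    (hD : D (fl q 0) ≤ c + D' (fl q 0)) :
    Maj 0 E D β q ≤ c + Maj 0 E D' 0 q + Ia 0 β q := by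
  unfold Maj Ia
  have hm : Measurable fun s => QF E E (fl q s) :=
    (measurable_QF hE hE).comp (PosA.measurable_fl' q)
  rw [lintegral_add_left hm]
  simp only [Pi.zero_apply, add_zero]
  calc _ ≤ (c + D' (fl q 0)) + ((∫⁻ s in Ioo 0 q.1, QF E E (fl q s)) +
        ∫⁻ s in Ioo 0 q.1, β (fl q s)) := by gcongr
    _ = _ := by ring

theorem Lam_Gh_le {P : Par} (hP : P.Basic) (b : ℝ≥0∞) {p : Ph} (hp : p.1 ∈ Icc 0 P.t0) :
    Lam (Gh P b) p 0 ≤ Lam (env P b) p 0 := by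
  refine setLIntegral_mono' measurableSet_Ioo fun s hs => ?_
  exact LL_mono_ae (.of_forall fun η =>
    Gh_le_env hP b (p := (s, (fl p s).2.1, η)) ⟨hs.1.le, hs.2.le.trans hp.2⟩) _

/-- the common estimate -/
theorem main (Ka : ℝ) (hKa : 0 ≤ Ka) : ∀ᶠ P in parF, ∀ τ : ℝ, 0 < τ → ∃ Λ : ℝ, 0 < Λ ∧
    ∀ (D : PF) (p : Ph), p.1 ∈ Icc 0 P.t0 → ∀ c : ℝ≥0∞, D (fl p 0) ≤ c + g0 P (fl p 0) →
    ∀ φ : ℝ → ℝ≥0∞, (∀ s, s ≤ τ → φ s = 0) → (∀ s, φ s ≤ ENNReal.ofReal (Real.exp (Λ * s))) →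
    ∫⁻ s in Ioo 0 p.1, φ s * (2 * QF (env P 1) (Gh P 1) (fl p s) +
        Maj 0 (env P 1) D (seed τ (Ka * P.s1 ^ P.k2 * τ ^ 1800)) (fl p s) * LF (Gh P 1) (fl p s)) ≤
      ENNReal.ofReal (Real.exp (Λ * p.1)) *
        (c * Lam (Gh P 1) p 0 + 2⁻¹ * (ZZ P p + wY P (omF P 1) p)) := by
  obtain ⟨K₁, hK₁, h₁⟩ := TT_point
  obtain ⟨K₂, hK₂, h₂⟩ := Maj_g0_two
  have h8 : (0 : ℝ≥0∞) < 8⁻¹ := by simp
  filter_upwards [ev_basic, h₂, loss_small (K₂ + ENNReal.ofReal (3 * Ka)) (by finiteness) 8⁻¹ h8,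
    Rest_small 8⁻¹ h8] with P hP h₂ h₃ h₄ τ hτ
  have hk : 0 ≤ K₁.toReal := ENNReal.toReal_nonneg
  refine ⟨8 * K₁.toReal / τ + 1, by positivity, ?_⟩
  set Λ := 8 * K₁.toReal / τ + 1 with hΛ
  have hΛ0 : 0 < Λ := by positivity
  intro D p hp c hD φ hφ0 hφ
  set E := ENNReal.ofReal (Real.exp (Λ * p.1)) with hE
  have hEt : E ≠ ⊤ := ENNReal.ofReal_ne_top
  set W := wY P (omF P 1) p with hW
  have key : ∀ s ∈ Ioo 0 p.1, φ s * (2 * QF (env P 1) (Gh P 1) (fl p s) +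
        Maj 0 (env P 1) D (seed τ (Ka * P.s1 ^ P.k2 * τ ^ 1800)) (fl p s) * LF (Gh P 1) (fl p s)) ≤
      K₁ * (ENNReal.ofReal τ)⁻¹ * W * ENNReal.ofReal (Real.exp (Λ * s)) +
        (E * Rest P 1 (fl p s) + (E * c * LF (Gh P 1) (fl p s) +
          E * ((ZZ P p + (K₂ + ENNReal.ofReal (3 * Ka)) *
            (omF P 1 (lst (fl p s)) * Ga (aT P.k3 s) p.2.2) * Sg p) * LF (Gh P 1) (fl p s)))) := by
    intro s hs
    by_cases hsτ : s ≤ τ
    · rw [hφ0 s hsτ, zero_mul]; exact zero_le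
    have hsτ' : τ < s := not_le.1 hsτ
    have hs' : (fl p s).1 ∈ Icc 0 P.t0 := ⟨hs.1.le, hs.2.le.trans hp.2⟩
    have e1 : φ s ≤ E := (hφ s).trans (ENNReal.ofReal_le_ofReal (Real.exp_le_exp.2
      (mul_le_mul_of_nonneg_left hs.2.le hΛ0.le)))
    have e2 : 2 * QF (c0 P) (wY P (omF P 1)) (fl p s) ≤ K₁ * (ENNReal.ofReal τ)⁻¹ * W := by
      refine (h₁ P hP _ (adm_omF hP 1) p hp s hs).trans ?_
      have : npw s 1 ≤ (ENNReal.ofReal τ)⁻¹ := by
        rw [npw, ENNReal.rpow_neg_one]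
        exact ENNReal.inv_le_inv.2 (ENNReal.ofReal_le_ofReal hsτ'.le)
      gcongr
    have e3 : Ia 0 (seed τ (Ka * P.s1 ^ P.k2 * τ ^ 1800)) (fl p s) ≤ ENNReal.ofReal (3 * Ka) *
        (omF P 1 (lst (fl p s)) * Ga (aT P.k3 s) p.2.2) * Sg p := by
      refine (Ia_seed_le hP hτ hKa le_rfl (fl p s) hs').trans ?_
      refine le_trans ?_ (le_mul_of_one_le_right' (one_le_Sg p))
      have : wnF P (lst (fl p s)) ≤ omF P 1 (lst (fl p s)) := by
        unfold omF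
        rw [one_mul]
        exact le_add_self
      exact mul_le_mul_right (mul_le_mul_left this _) _
    have e4 : Maj 0 (env P 1) D (seed τ (Ka * P.s1 ^ P.k2 * τ ^ 1800)) (fl p s) ≤
        c + (ZZ P p + (K₂ + ENNReal.ofReal (3 * Ka)) *
            (omF P 1 (lst (fl p s)) * Ga (aT P.k3 s) p.2.2) * Sg p) := by
      refine (Maj_split _ D (g0 P) _ (measurable_env P 1) (fl p s) c (by rwa [fl_fl])).trans ?_
      refine (add_le_add (add_le_add le_rfl (h₂ 1 le_rfl p hp s ⟨hs.1.le, hs.2.le⟩)) e3).trans_eq ?_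
      ring
    rw [QF_env_Gh, mul_add, mul_add, add_assoc]
    refine add_le_add ?_ (add_le_add (mul_le_mul_left e1 _) ?_)
    · rw [mul_comm]
      exact mul_le_mul' e2 (hφ s)
    · refine (mul_le_mul' e1 (mul_le_mul_left e4 _)).trans_eq ?_
      ring
  refine (setLIntegral_mono' measurableSet_Ioo key).trans ?_
  have m0 : Measurable fun s : ℝ => ENNReal.ofReal (Real.exp (Λ * s)) := by fun_prop
  have m1 : Measurable fun s => Rest P 1 (fl p s) :=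
    (measurable_Rest P 1).comp (PosA.measurable_fl' p)
  have m2 : Measurable fun s => LF (Gh P 1) (fl p s) :=
    (measurable_LF (measurable_Gh P 1)).comp (PosA.measurable_fl' p)
  rw [lintegral_add_left (m0.const_mul _), lintegral_add_left (m1.const_mul _),
    lintegral_add_left (m2.const_mul _), lintegral_const_mul _ m0, lintegral_const_mul _ m1,
    lintegral_const_mul _ m2, lintegral_const_mul' _ _ hEt]
  have f1 : K₁ * (ENNReal.ofReal τ)⁻¹ * ENNReal.ofReal (Real.exp (Λ * p.1) / Λ) ≤ E * 8⁻¹ := by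
    have : (8⁻¹ : ℝ≥0∞) = ENNReal.ofReal 8⁻¹ := by
      rw [ENNReal.ofReal_inv_of_pos (by norm_num)]; simp
    rw [this, hE, ← ENNReal.ofReal_toReal hK₁, ← ENNReal.ofReal_inv_of_pos hτ,
      ← ENNReal.ofReal_mul hk, ← ENNReal.ofReal_mul (by positivity),
      ← ENNReal.ofReal_mul (by positivity)]
    refine ENNReal.ofReal_le_ofReal ?_
    have h1 : K₁.toReal * τ⁻¹ / Λ ≤ 8⁻¹ := by
      rw [div_le_iff₀ hΛ0, hΛ]
      have : 8⁻¹ * (8 * K₁.toReal / τ + 1) = K₁.toReal * τ⁻¹ + 8⁻¹ := by ring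
      rw [this]
      norm_num
    calc K₁.toReal * τ⁻¹ * (Real.exp (Λ * p.1) / Λ)
        = Real.exp (Λ * p.1) * (K₁.toReal * τ⁻¹ / Λ) := by ring
      _ ≤ _ := by gcongr
  have f2 : K₁ * (ENNReal.ofReal τ)⁻¹ * W * ∫⁻ s in Ioo 0 p.1, ENNReal.ofReal (Real.exp (Λ * s)) ≤
      E * (8⁻¹ * (ZZ P p + W)) := by
    calc _ ≤ K₁ * (ENNReal.ofReal τ)⁻¹ * W * ENNReal.ofReal (Real.exp (Λ * p.1) / Λ) :=
          mul_le_mul_right (lint_exp hΛ0 hp.1) _
      _ = K₁ * (ENNReal.ofReal τ)⁻¹ * ENNReal.ofReal (Real.exp (Λ * p.1) / Λ) * W := by ring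
      _ ≤ E * 8⁻¹ * (ZZ P p + W) := mul_le_mul' f1 le_add_self
      _ = _ := by ring
  have f3 := h₄ 1 le_rfl p hp
  have f4 := h₃ 1 le_rfl p hp
  have f5 : (8⁻¹ : ℝ≥0∞) + 8⁻¹ + 8⁻¹ ≤ 2⁻¹ := by
    have h1 : (8⁻¹ : ℝ≥0∞) + 8⁻¹ + 8⁻¹ ≤ 4 * 8⁻¹ := by
      rw [show (4 : ℝ≥0∞) = 1 + 1 + 1 + 1 by norm_num]
      simp only [add_mul, one_mul]
      exact le_self_add
    refine h1.trans_eq ?_
    rw [show (8 : ℝ≥0∞) = 4 * 2 by norm_num, ENNReal.mul_inv (by simp) (by simp), ← mul_assoc,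
      ENNReal.mul_inv_cancel (by simp) (by simp), one_mul]
  calc _ ≤ E * (8⁻¹ * (ZZ P p + W)) + (E * (8⁻¹ * (ZZ P p + W)) + (E * c * Lam (Gh P 1) p 0 +
        E * (8⁻¹ * (ZZ P p + W)))) :=
        add_le_add f2 (add_le_add (mul_le_mul_right f3 _)
          (add_le_add le_rfl (mul_le_mul_right f4 _)))
    _ = E * (c * Lam (Gh P 1) p 0 + (8⁻¹ + 8⁻¹ + 8⁻¹) * (ZZ P p + W)) := by ring
    _ ≤ _ := by gcongr

end
end Crest.Agent.R68.AxA
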