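import Crest.Agent.R68.Base

/-! # Row 68: the seeds are visible (auxiliary lemmas for `approx_visible`) -/

set_option autoImplicit false
open MeasureTheory Set Filter Topology
open scoped ENNReal NNReal
open Crest.AnalysisR.VecCalc3 Crest.AnalysisR.PDE.Boltzmann

namespace Crest.Agent.R68.ApproxV
noncomputable section

theorem x1_uu (b : Bool) (t : ℝ) (x : R3) : x1 (uu b t x) = 0 := by
  simp only [uu, XX, x1_add, x1_smul, x1_sub, x1_ee, x1_pr, mul_zero, sub_zero, add_zero]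

theorem DD_le (b : Bool) (t : ℝ) (x : R3) : DD b (t, x, nn) ≤ 1 := by
  unfold DD
  split_ifs with h
  · have h1 : 1 ≤ ‖ww b t (lbl (t, x, nn)) nn‖ := by
      have := abs_x1_le (ww b t (lbl (t, x, nn)) nn)
      rwa [ww, x1_sub, x1_uu, x1_nn, sub_zero, abs_one] at this
    exact ENNReal.rpow_le_one_of_one_le_of_neg (ENNReal.one_le_ofReal.2 h1) (by norm_num)
  · exact zero_le_one

theorem Sg_le (t : ℝ) (x : R3) : Sg (t, x, nn) ≤ 4 := by
  have h1 : npw |x1 nn| (1 / 4) = 1 := by simp [npw, x1_nn]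
  have h2 : DS (t, x, nn) ≤ 1 + 1 := by
    simp only [DS, Fintype.sum_bool]
    exact add_le_add (DD_le _ _ _) (DD_le _ _ _)
  calc Sg (t, x, nn) = 1 + 1 + DS (t, x, nn) := by simp only [Sg, h1]
    _ ≤ 1 + 1 + (1 + 1) := add_le_add le_rfl h2
    _ = 4 := by norm_num

theorem tn_zero : tn (0 : R3) = 0 := le_antisymm (by simpa using tn_le_norm 0) (tn_nonneg _)

theorem wnF_le {P : Par} (hP : P.Basic) {u : ℝ} (hu : 0 ≤ u) (h : u ≤ P.s1) :
    wnF P u ≤ ENNReal.ofReal (2 * (P.s1 ^ P.k2 * u ^ 2400)) := by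
  have hs : 0 ≤ P.s1 := hu.trans h
  obtain ⟨k, hk⟩ : ∃ k, P.k2 = 2400 + k := Nat.exists_eq_add_of_le (by have := hP.k2_ge; omega)
  have h1 : P.s1 ^ 2400 * u ^ P.k2 ≤ P.s1 ^ P.k2 * u ^ 2400 := by
    rw [hk, pow_add, pow_add]
    have : u ^ k ≤ P.s1 ^ k := pow_le_pow_left₀ hu h k
    calc P.s1 ^ 2400 * (u ^ 2400 * u ^ k) ≤ P.s1 ^ 2400 * (u ^ 2400 * P.s1 ^ k) := by gcongr
      _ = _ := by ring
  unfold wnF pw
  rw [← ENNReal.ofReal_mul (by positivity), ← ENNReal.ofReal_mul (by positivity),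
    ← ENNReal.ofReal_add (by positivity) (by positivity)]
  exact ENNReal.ofReal_le_ofReal (by linarith)

theorem Lam_le {P : Par} {K : ℝ≥0∞}
    (hK : ∀ q : Ph, q.1 ∈ Ioc 0 P.t0 →
      ∫⁻ η, ENNReal.ofReal (jb η) * sec (env P 1) q η ≤ K * npw (ell q) 1)
    {Fb : PF} (hF : Fb ≤ env P 1) {τ : ℝ} (hτ : 0 < τ) (ht : 2 * τ ≤ P.t0) {s : ℝ}
    (hs : s ∈ Ioo τ (2 * τ)) : Lam Fb (2 * τ, 0, nn) s ≤ 26 * K := by
  have h1 : ∀ σ ∈ Ioo s (2 * τ), LF Fb (fl (2 * τ, 0, nn) σ) ≤ 26 * K * (ENNReal.ofReal τ)⁻¹ := by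
    intro σ hσ
    have hσ0 : τ < σ := hs.1.trans hσ.1
    refine (LF_mono hF _).trans ((LL_le_moment _ (measurable_sec (measurable_env P 1) _) _).trans ?_)
    have h2 := hK (fl (2 * τ, 0, nn) σ) ⟨hτ.trans hσ0, hσ.2.le.trans ht⟩
    have h3 : npw (ell (fl (2 * τ, 0, nn) σ)) 1 ≤ (ENNReal.ofReal τ)⁻¹ := by
      rw [npw, ENNReal.rpow_neg_one]
      refine ENNReal.inv_le_inv.2 (ENNReal.ofReal_le_ofReal ?_)
      have := tn_nonneg (fl (2 * τ, 0, nn) σ).2.1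
      have e : (fl (2 * τ, 0, nn) σ).1 = σ := rfl
      unfold ell
      rw [e]
      linarith
    have h4 : ENNReal.ofReal (jb (fl (2 * τ, 0, nn) σ).2.2) = 2 := by
      have e : (fl (2 * τ, 0, nn) σ).2.2 = nn := rfl
      rw [e, jb, norm_nn]; norm_num
    rw [h4]
    calc 13 * 2 * ∫⁻ η, ENNReal.ofReal (jb η) * sec (env P 1) (fl (2 * τ, 0, nn) σ) η
        ≤ 13 * 2 * (K * (ENNReal.ofReal τ)⁻¹) := by
          gcongr
          exact h2.trans (by gcongr)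
      _ = 26 * K * (ENNReal.ofReal τ)⁻¹ := by ring
  calc Lam Fb (2 * τ, 0, nn) s
      ≤ ∫⁻ _ in Ioo s (2 * τ), 26 * K * (ENNReal.ofReal τ)⁻¹ :=
        setLIntegral_mono' measurableSet_Ioo h1
    _ = 26 * K * (ENNReal.ofReal τ)⁻¹ * ENNReal.ofReal (2 * τ - s) := by
        rw [setLIntegral_const, Real.volume_Ioo]
    _ ≤ 26 * K * (ENNReal.ofReal τ)⁻¹ * ENNReal.ofReal τ := by
        gcongr
        linarith [hs.1]
    _ = 26 * K := by
        rw [mul_assoc, ENNReal.inv_mul_cancel (by simpa using hτ) ENNReal.ofReal_ne_top, mul_one]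

theorem Duh_ge {Fb D : PF} {L : ℝ≥0∞} {τ α : ℝ} (hτ : 0 < τ) (hα : 0 ≤ α)
    (hL : ∀ s ∈ Ioo τ (2 * τ), Lam Fb (2 * τ, 0, nn) s ≤ L) :
    ex L * ENNReal.ofReal α ≤ Duh 0 Fb D (seed τ α) (2 * τ, 0, nn) := by
  have h1 : ∀ s ∈ Ioo τ (2 * τ), ex L * ENNReal.ofReal (α / τ) ≤
      ex (Lam Fb (2 * τ, 0, nn) s) *
        (QF Fb Fb (fl (2 * τ, 0, nn) s) + seed τ α (fl (2 * τ, 0, nn) s)) := by
    intro s hs
    refine mul_le_mul' (ex_anti (hL s hs)) (le_add_left (le_of_eq ?_))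
    unfold seed
    rw [if_pos]
    refine ⟨Ioo_subset_Icc_self hs, (tn_le_norm _).trans ?_, ?_⟩
    · have e : (fl (2 * τ, 0, nn) s).2.1 = 0 - (2 * τ - s) • nn := rfl
      rw [e, zero_sub, norm_neg, norm_smul, norm_nn, mul_one, Real.norm_eq_abs,
        abs_of_pos (by linarith [hs.2])]
      linarith [hs.1]
    · have e : (fl (2 * τ, 0, nn) s).2.2 = nn := rfl
      rw [e, sub_self, norm_zero]; norm_num
  calc ex L * ENNReal.ofReal α = ∫⁻ _ in Ioo τ (2 * τ), ex L * ENNReal.ofReal (α / τ) := by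
        rw [setLIntegral_const, Real.volume_Ioo, mul_assoc, ← ENNReal.ofReal_mul (by positivity)]
        congr 2
        field_simp
        ring
    _ ≤ ∫⁻ s in Ioo τ (2 * τ), ex (Lam Fb (2 * τ, 0, nn) s) *
        (QF Fb Fb (fl (2 * τ, 0, nn) s) + seed τ α (fl (2 * τ, 0, nn) s)) :=
        setLIntegral_mono' measurableSet_Ioo h1
    _ ≤ ∫⁻ s in Ioo 0 (2 * τ), ex (Lam Fb (2 * τ, 0, nn) s) *
        (QF Fb Fb (fl (2 * τ, 0, nn) s) + seed τ α (fl (2 * τ, 0, nn) s)) :=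
        lintegral_mono_set (Ioo_subset_Ioo_left hτ.le)
    _ ≤ _ := le_add_left le_rfl

theorem visible : ∃ Ka : ℝ, 0 ≤ Ka ∧ ∀ᶠ P in parF, ∀ᶠ τ in 𝓝[>] (0 : ℝ), ∃ p : Ph,
    p.1 ∈ Icc 0 P.t0 ∧ ∀ Fb : PF, Fb ≤ env P 1 →
      1 / 4 ≤ (Duh 0 Fb (g0 P) (seed τ (Ka * P.s1 ^ P.k2 * τ ^ 1800)) p -
        (1 / 2 * ZZ P p + 3 / 2 * wY P (wbF P) p)) / (ZZ P p + wY P (wnF P) p) := by
  obtain ⟨K, hK, hm⟩ := moment_env
  have hL : 26 * K ≠ ⊤ := by finiteness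
  refine ⟨16 * 2 ^ 1800 * Real.exp (26 * K).toReal, by positivity, ?_⟩
  filter_upwards [ev_basic, hm, ev_wbF_le 1 one_pos] with P hP hm hw
  have hs1 : 0 < P.s1 := by have := hP.r0_pos; unfold Par.s1; positivity
  have hc : Continuous fun τ : ℝ => (2 * τ) ^ (3 / 4 : ℝ) :=
    (continuous_const.mul continuous_id).rpow_const fun _ => Or.inr (by norm_num)
  have e1 : ∀ᶠ τ in 𝓝[>] (0 : ℝ), (2 * τ) ^ (3 / 4 : ℝ) ≤ P.s1 :=
    nhdsWithin_le_nhds ((hc.continuousAt (x := 0)).eventually_le_const (by simpa using hs1))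
  have e2 : ∀ᶠ τ in 𝓝[>] (0 : ℝ), 2 * τ ≤ P.t0 :=
    nhdsWithin_le_nhds (((continuous_const.mul continuous_id).continuousAt
      (x := (0 : ℝ))).eventually_le_const (by simpa using hP.t0_pos))
  filter_upwards [e1, e2, self_mem_nhdsWithin] with τ h1 h2 hτ
  have hτ : 0 < τ := hτ
  have hp : ((2 * τ, 0, nn) : Ph).1 ∈ Icc 0 P.t0 := ⟨by positivity, h2⟩
  refine ⟨(2 * τ, 0, nn), hp, fun Fb hF => ?_⟩
  have hZ : ZZ P (2 * τ, 0, nn) = 0 := by
    by_contra h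
    have := (supp_ZZ hP hp.1 h).2
    simp only [x1_nn, cθ] at this
    norm_num at this
  have hl : lst (2 * τ, 0, nn) = (2 * τ) ^ (3 / 4 : ℝ) := by simp [lst, tn_zero]
  have hu : 0 < (2 * τ) ^ (3 / 4 : ℝ) := by positivity
  have hY : YY P (2 * τ, 0, nn) ≤ 4 := by
    have ha := (aT_mem hP hp).1
    have : Ga (aT P.k3 (2 * τ)) nn ≤ 1 := by
      refine ENNReal.ofReal_le_one.2 (Real.exp_le_one_iff.2 ?_)
      have : 0 ≤ aT P.k3 (2 * τ) * ‖nn‖ ^ 2 := mul_nonneg (by linarith) (by positivity)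
      linarith
    calc YY P (2 * τ, 0, nn) ≤ 1 * 4 := mul_le_mul' this (Sg_le _ _)
      _ = 4 := one_mul _
  have hY0 : YY P (2 * τ, 0, nn) ≠ 0 :=
    mul_ne_zero (ENNReal.ofReal_pos.2 (Real.exp_pos _)).ne'
      (zero_lt_one.trans_le (one_le_Sg _)).ne'
  have hpow : ((2 * τ) ^ (3 / 4 : ℝ)) ^ 2400 = 2 ^ 1800 * τ ^ 1800 := by
    rw [← Real.rpow_natCast, ← Real.rpow_mul (by positivity), ← mul_pow, ← Real.rpow_natCast]
    norm_num
  set w := wY P (wnF P) (2 * τ, 0, nn) with hw_def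
  have hw0 : w ≠ 0 := mul_ne_zero (by rw [hl]; exact (wnF_pos hP hu).ne') hY0
  have hwB : w ≤ ENNReal.ofReal (2 * (P.s1 ^ P.k2 * (2 ^ 1800 * τ ^ 1800))) * 4 := by
    rw [← hpow]
    exact mul_le_mul' (by rw [hl]; exact wnF_le hP hu.le h1) hY
  have hwt : w ≠ ⊤ := ne_top_of_le_ne_top (by finiteness) hwB
  have hb : wY P (wbF P) (2 * τ, 0, nn) ≤ w := by
    refine mul_le_mul' ?_ le_rfl
    rw [hl]
    simpa using hw _ ⟨hu.le, by linarith⟩
  have hg : 2 * w ≤ Duh 0 Fb (g0 P)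
      (seed τ (16 * 2 ^ 1800 * Real.exp (26 * K).toReal * P.s1 ^ P.k2 * τ ^ 1800))
        (2 * τ, 0, nn) := by
    refine le_trans ?_ (Duh_ge hτ (by positivity) fun s hs => Lam_le (hm 1 le_rfl) hF hτ h2 hs)
    rw [ex, if_neg hL, ← ENNReal.ofReal_mul (Real.exp_pos _).le]
    calc 2 * w ≤ 2 * (ENNReal.ofReal (2 * (P.s1 ^ P.k2 * (2 ^ 1800 * τ ^ 1800))) * 4) := by gcongr
      _ = ENNReal.ofReal (8 * (2 * (P.s1 ^ P.k2 * (2 ^ 1800 * τ ^ 1800)))) := by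
          rw [ENNReal.ofReal_mul (p := 8) (by norm_num)]
          generalize ENNReal.ofReal (2 * (P.s1 ^ P.k2 * (2 ^ 1800 * τ ^ 1800))) = z
          rw [ENNReal.ofReal_ofNat]
          ring
      _ = _ := by
          congr 1
          rw [Real.exp_neg]
          generalize (2 : ℝ) ^ 1800 = c
          field_simp
          ring
  rw [hZ, mul_zero, zero_add, zero_add, ENNReal.le_div_iff_mul_le (Or.inl hw0) (Or.inl hwt)]
  refine ENNReal.le_sub_of_add_le_right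
    (ENNReal.mul_ne_top (by finiteness) (ne_top_of_le_ne_top hwt hb)) (le_trans ?_ hg)
  calc 1 / 4 * w + 3 / 2 * wY P (wbF P) (2 * τ, 0, nn) ≤ 1 / 2 * w + 3 / 2 * w := by
        gcongr
        norm_num
    _ = 2 * w := by
        rw [← add_mul, ENNReal.div_add_div_same]
        congr 1
        rw [ENNReal.div_eq_inv_mul, show (1 : ℝ≥0∞) + 3 = 2 * 2 by norm_num, ← mul_assoc,
          ENNReal.inv_mul_cancel (by norm_num) (by norm_num), one_mul]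

end
end Crest.Agent.R68.ApproxV
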