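import Crest.Agent.R68.Base
import Crest.Agent.R68.ApproxAuxA
import Crest.Agent.R68.ApproxAuxV

/-! # Row 68: approximate solutions with seeds -/

set_option autoImplicit false
open MeasureTheory Set Filter Topology
open scoped ENNReal NNReal
open Crest.AnalysisR.VecCalc3 Crest.AnalysisR.PDE.Boltzmann

namespace Crest.Agent.R68
noncomputable section

/-- clamp: the base solution before `τ`, the envelope afterwards -/
def clA (P : Par) (F1 : PF) (τ : ℝ) (f : PF) : PF := fun p =>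
  if p.1 ≤ τ then F1 p else min (f p) (env P 1 p)

/-- the clamped Duhamel map -/
def PhiA (P : Par) (F1 : PF) (τ α : ℝ) (f : PF) : PF :=
  cut P (Duh 0 (clA P F1 τ f) (F0 P) (seed τ α))

/-- restriction to times after `τ` -/
def after (τ : ℝ) (d : PF) : PF := fun q => if q.1 ≤ τ then 0 else d q

/-- stability operator with datum `D` and maximal seed amplitude `A` -/
def MA (P : Par) (D : PF) (τ A : ℝ) (d : PF) : PF :=
  cut P (Ia 0 (fun q => 2 * QF (env P 1) (after τ d) q +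
    Maj 0 (env P 1) D (seed τ A) q * LF (after τ d) q))

/-- weight with exponential growth in time -/
def GA (P : Par) (Λ : ℝ) : PF := cut P (fun p => ENNReal.ofReal (Real.exp (Λ * p.1)) * Gh P 1 p)

/-- non-cold part of the clamped map -/
def gA (P : Par) (F1 : PF) (τ α : ℝ) (f : PF) : PF := Duh 0 (clA P F1 τ f) (g0 P) (seed τ α)

/-- size of the neutron population -/
def NA (P : Par) (g : PF) : ℝ≥0∞ := ⨆ p : Ph, ⨆ _ : p.1 ∈ Icc 0 P.t0,
  (g p - (1 / 2 * ZZ P p + 3 / 2 * wY P (wbF P) p)) / (ZZ P p + wY P (wnF P) p)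

theorem posOp_after (τ : ℝ) : PosOp (after τ) := by
  have h : after τ = fun f p => (if p.1 ≤ τ then 0 else 1 : ℝ≥0∞) * f p := by
    funext f p
    unfold after
    split_ifs <;> simp
  rw [h]
  exact AxA.posOp_w (Measurable.ite (measurableSet_le measurable_fst measurable_const)
    measurable_const measurable_const)

theorem posOp_MA (P : Par) {D : PF} (hD : Measurable D) (τ A : ℝ) : PosOp (MA P D τ A) :=
  (AxA.posOp_cut P).comp ((posOp_Ia 0).comp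
    ((((posOp_QF (measurable_env P 1)).comp (posOp_after τ)).mul (w := fun _ => 2)
      measurable_const).plus ((posOp_LF.comp (posOp_after τ)).mul
        (measurable_Maj (measurable_env P 1) hD (measurable_seed τ A) 0))))

theorem killsNull_MA (P : Par) {D : PF} (hD : Measurable D) (τ A : ℝ) : KillsNull (MA P D τ A) := by
  have _ := hD
  intro f hf hn p
  have hm : Measurable (after τ f) := (posOp_after τ).meas f hf
  have hn' : NullSec (after τ f) := fun s z => (hn s z).mono fun η h => by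
    unfold after
    split_ifs
    · rfl
    · exact h
  have h1 := killsNull_QF (measurable_env P 1) _ hm hn'
  have h2 := killsNull_LF _ hm hn'
  unfold MA cut Ia
  split_ifs
  · simp only [h1, h2, mul_zero, add_zero, lintegral_zero]
  · rfl

theorem MA_GA (P : Par) (D : PF) (τ A Λ : ℝ) {p : Ph} (hp : p.1 ∈ Icc 0 P.t0) :
    MA P D τ A (GA P Λ) p = ∫⁻ s in Ioo 0 p.1,
      (if s ≤ τ then 0 else if s ∈ Icc 0 P.t0 then ENNReal.ofReal (Real.exp (Λ * s)) else 0) *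
      (2 * QF (env P 1) (Gh P 1) (fl p s) +
        Maj 0 (env P 1) D (seed τ A) (fl p s) * LF (Gh P 1) (fl p s)) := by
  set φ : ℝ × R3 → ℝ≥0∞ := fun z =>
    if z.1 ≤ τ then 0 else if z.1 ∈ Icc 0 P.t0 then ENNReal.ofReal (Real.exp (Λ * z.1)) else 0
    with hφ
  have e : after τ (GA P Λ) = fun q => φ (q.1, q.2.1) * Gh P 1 q := by
    funext q
    simp only [after, GA, cut, hφ]
    split_ifs <;> simp
  have e' : env P 1 = fun q => (fun _ : ℝ × R3 => (1 : ℝ≥0∞)) (q.1, q.2.1) * env P 1 q := by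
    funext q
    simp
  have h1 : ∀ q, QF (env P 1) (after τ (GA P Λ)) q = φ (q.1, q.2.1) * QF (env P 1) (Gh P 1) q := by
    intro q
    have := QF_mul_tx (measurable_env P 1) (measurable_Gh P 1) (fun _ => 1) φ q
    rw [← e', one_mul] at this
    rw [e, this]
  have h2 : ∀ q, LF (after τ (GA P Λ)) q = φ (q.1, q.2.1) * LF (Gh P 1) q := fun q => by
    rw [e, LF_mul_tx (measurable_Gh P 1)]
  unfold MA cut Ia
  rw [if_pos hp]
  refine lintegral_congr fun s => ?_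
  beta_reduce
  rw [h1, h2]
  change _ = φ (s, (fl p s).2.1) * _
  change 2 * (φ (s, (fl p s).2.1) * _) + _ * (φ (s, (fl p s).2.1) * _) = _
  ring

/-- (A1) `e^{Λ s} ≤ e^{Λ t}` for all terms except the multiplication term, for which `TT_point` gives
`∫_τ^t e^{Λ s} K/τ ds ≤ K/(τ Λ) e^{Λ t}`.  `Maj 0 env D seed = D♯-part + Maj 0 env g0 0 + Ia 0 seed`,
`Maj_g0_two`, `Ia_seed_le`, `loss_small` with `Km = K + 3 Ka`, `Lam_cold`, `Rest_small`;
the second statement uses `wbF_le_wnF` and `TT_om`. -/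
theorem approx_contr (Ka : ℝ) (hKa : 0 ≤ Ka) : ∀ᶠ P in parF, ∀ τ : ℝ, 0 < τ → ∃ Λ : ℝ, 0 ≤ Λ ∧
    (∀ p, MA P (F0 P) τ (Ka * P.s1 ^ P.k2 * τ ^ 1800) (GA P Λ) p ≤ 2⁻¹ * GA P Λ p) ∧
    ∃ C : ℝ≥0∞, C ≠ ⊤ ∧ ∀ p : Ph, p.1 ∈ Icc 0 P.t0 →
      MA P (g0 P) τ (Ka * P.s1 ^ P.k2 * τ ^ 1800) (GA P Λ) p ≤ C * (ZZ P p + wY P (wnF P) p) := by
  filter_upwards [ev_basic, AxA.main Ka hKa, Lam_cold 2⁻¹ (by simp)] with P hP h hc τ hτ
  obtain ⟨Λ, hΛ, h⟩ := h τ hτ
  have hφ0 : ∀ s : ℝ, s ≤ τ → (if s ≤ τ then 0 else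
      if s ∈ Icc 0 P.t0 then ENNReal.ofReal (Real.exp (Λ * s)) else 0 : ℝ≥0∞) = 0 :=
    fun s hs => if_pos hs
  have hφ : ∀ s : ℝ, (if s ≤ τ then 0 else
      if s ∈ Icc 0 P.t0 then ENNReal.ofReal (Real.exp (Λ * s)) else 0 : ℝ≥0∞) ≤
      ENNReal.ofReal (Real.exp (Λ * s)) := fun s => by
    split_ifs <;> simp
  refine ⟨Λ, hΛ.le, fun p => ?_, ?_⟩
  · by_cases hp : p.1 ∈ Icc 0 P.t0
    · rw [MA_GA P _ τ _ Λ hp]
      refine (h (F0 P) p hp (c0 P p) (by rw [F0, c0_fl]) _ hφ0 hφ).trans ?_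
      have h1 : c0 P p * Lam (Gh P 1) p 0 ≤ 2⁻¹ * (ENNReal.ofReal √p.1 * c0 P p) := by
        by_cases h0 : c0 P p = 0
        · simp [h0]
        · refine (mul_le_mul_right ((AxA.Lam_Gh_le hP 1 hp).trans (hc 1 le_rfl p hp h0)) _).trans_eq ?_
          ring
      unfold GA cut
      rw [if_pos hp]
      refine (mul_le_mul_right (add_le_add h1 le_rfl) _).trans_eq ?_
      unfold Gh
      ring
    · unfold MA cut
      rw [if_neg hp]
      exact zero_le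
  · obtain ⟨C, hC, hw⟩ := wbF_le_wnF hP
    refine ⟨ENNReal.ofReal (Real.exp (Λ * P.t0)) * (2 * C + 1), by finiteness, fun p hp => ?_⟩
    rw [MA_GA P _ τ _ Λ hp]
    refine (h (g0 P) p hp 0 (by rw [zero_add]) _ hφ0 hφ).trans ?_
    rw [zero_mul, zero_add, mul_assoc]
    refine mul_le_mul' (ENNReal.ofReal_le_ofReal (Real.exp_le_exp.2
      (mul_le_mul_of_nonneg_left hp.2 hΛ.le))) ?_
    have h1 : wY P (omF P 1) p ≤ (2 * C + 1) * wY P (wnF P) p := by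
      have h2 := hw (lst p) ⟨lst_nonneg hp.1, lst_le_two (OpsA1.t0_le_one hP hp)⟩
      unfold wY omF
      calc (2 * wbF P (lst p) + 1 * wnF P (lst p)) * YY P p
          ≤ (2 * (C * wnF P (lst p)) + 1 * wnF P (lst p)) * YY P p := by gcongr
        _ = _ := by ring
    calc 2⁻¹ * (ZZ P p + wY P (omF P 1) p) ≤ 1 * (ZZ P p + wY P (omF P 1) p) := by
          gcongr; simp
      _ ≤ (2 * C + 1) * ZZ P p + (2 * C + 1) * wY P (wnF P) p := by
          rw [one_mul]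
          exact add_le_add (le_mul_of_one_le_left' le_add_self) h1
      _ = _ := by ring

section Ap2
variable {P : Par} {F1 f g : PF} {τ : ℝ}

theorem Ap2_meas (h1 : Measurable F1) (hf : Measurable f) : Measurable (clA P F1 τ f) := by
  unfold clA
  exact Measurable.ite (measurableSet_le measurable_fst measurable_const) h1
    (hf.min (measurable_env P 1))

theorem Ap2_per (h1 : Per F1) (hf : Per f) : Per (clA P F1 τ f) := by
  intro t x v m
  simp only [clA, h1 t x v m, hf t x v m, per_env P 1 t x v m]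

theorem Ap2_le (h : ESol P 0 0 F1) : clA P F1 τ f ≤ env P 1 := by
  intro p
  unfold clA
  split_ifs
  · exact (h.le_env p).trans (env_mono P zero_le_one p)
  · exact min_le_right _ _

theorem Ap2_dd : ddF (clA P F1 τ f) (clA P F1 τ g) ≤ after τ (ddF f g) := by
  intro p
  unfold ddF clA after
  split_ifs
  · exact (dd_self _).le
  · exact (dd_min_le _ _ _).trans (min_le_left _ _)

theorem Ap2_stab (h : ESol P 0 0 F1) (hτ : 0 < τ) {D : PF} (hD : Measurable D) {α A : ℝ}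
    (hα : α ≤ A) (hf : Measurable f) (hg : Measurable g) {p : Ph} (hp : p.1 ∈ Icc 0 P.t0) :
    dd (Duh 0 (clA P F1 τ f) D (seed τ α) p) (Duh 0 (clA P F1 τ g) D (seed τ α) p) ≤
      MA P D τ A (ddF f g) p := by
  refine (dd_Duh_le (Ap2_meas h.meas hf) (Ap2_meas h.meas hg) (measurable_env P 1) hD
    (measurable_seed τ α) (Ap2_le h) (Ap2_le h) p).trans ?_
  rw [MA, cut, if_pos hp]
  refine lintegral_mono fun s => add_le_add (mul_le_mul_right (QF_mono le_rfl Ap2_dd _) _)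
    (mul_le_mul' ?_ (LF_mono Ap2_dd _))
  exact add_le_add le_rfl (lintegral_mono fun _ => add_le_add le_rfl (seed_mono hτ hα _))

theorem Ap2_seed (hP : P.Basic) (hτ : 0 < τ) {c α : ℝ} (hc : 0 ≤ c)
    (hα : α ≤ c * P.s1 ^ P.k2 * τ ^ 1800) {p : Ph} (hp : p.1 ∈ Icc 0 P.t0) :
    Ia 0 (seed τ α) p ≤ ENNReal.ofReal (3 * c) * wY P (wnF P) p :=
  (Ia_seed_le hP hτ hc hα p hp).trans
    (mul_le_mul_right (mul_le_mul_right (le_mul_of_one_le_right' (one_le_Sg p)) _) _)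

theorem Ap2_Gh {Λ : ℝ} (hΛ : 0 ≤ Λ) {p : Ph} (hp : p.1 ∈ Icc 0 P.t0) : Gh P 1 p ≤ GA P Λ p := by
  rw [GA, cut, if_pos hp]
  exact le_mul_of_one_le_left'
    (ENNReal.one_le_ofReal.2 (Real.one_le_exp (mul_nonneg hΛ hp.1)))

theorem Ap2_wn (p : Ph) : wY P (wnF P) p ≤ Gh P 1 p :=
  le_trans (mul_le_mul_left (le_add_self.trans_eq' (one_mul _)) _) le_add_self

theorem Ap2_meas_GA (Λ : ℝ) : Measurable (GA P Λ) :=
  measurable_cut P (((measurable_fst.const_mul Λ).exp.ennreal_ofReal).mul (measurable_Gh P 1))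

theorem Ap2_fin_GA (Λ : ℝ) : FinSec (GA P Λ) := fun s z =>
  (finSec_Gh P ENNReal.one_ne_top s z).mono fun η h => by
    unfold GA cut
    split_ifs
    · exact ENNReal.mul_ne_top ENNReal.ofReal_ne_top h
    · exact ENNReal.zero_ne_top

theorem Ap2_c0 (hP : P.Basic) (h : ESol P 0 0 F1) (hτ : 0 < τ) {K : ℝ≥0∞}
    (hK : ∀ b : ℝ≥0∞, b ≤ 1 → ∀ f β : PF, Measurable β → f ≤ env P b → ∀ p : Ph,
      p.1 ∈ Icc 0 P.t0 → dd (Duh 0 f (F0 P) β p) (c0 P p) ≤ K * Gh P b p + Ia 0 β p)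
    {Ka α Λ : ℝ} (hKa : 0 ≤ Ka) (hα : α ≤ Ka * P.s1 ^ P.k2 * τ ^ 1800) (hΛ : 0 ≤ Λ) (p : Ph) :
    dd (PhiA P F1 τ α f p) (cut P (c0 P) p) ≤ (K + ENNReal.ofReal (3 * Ka)) * GA P Λ p := by
  unfold PhiA cut
  split_ifs with hp
  · refine (hK 1 le_rfl _ _ (measurable_seed τ α) (Ap2_le h) p hp).trans ?_
    rw [add_mul]
    exact add_le_add (mul_le_mul_right (Ap2_Gh hΛ hp) _) ((Ap2_seed hP hτ hKa hα hp).trans
      (mul_le_mul_right ((Ap2_wn p).trans (Ap2_Gh hΛ hp)) _))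
  · exact (dd_self _).le.trans zero_le

theorem Ap2_lip (hP : P.Basic) (h : ESol P 0 0 F1) (hτ : 0 < τ) {D : PF} (hD : Measurable D)
    {α α' A : ℝ} (hα : α ∈ Icc 0 A) (hα' : 0 ≤ α') (hf : Measurable f) (hg : Measurable g)
    {p : Ph} (hp : p.1 ∈ Icc 0 P.t0) :
    dd (Duh 0 (clA P F1 τ f) D (seed τ α) p) (Duh 0 (clA P F1 τ g) D (seed τ α') p) ≤
      ENNReal.ofReal (3 / (P.s1 ^ P.k2 * τ ^ 1800)) * ENNReal.ofReal |α - α'| * wY P (wnF P) p +
        MA P D τ A (ddF f g) p := by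
  have hs : 0 < P.s1 ^ P.k2 * τ ^ 1800 := by
    have := hP.r0_pos
    unfold Par.s1
    positivity
  rw [add_comm]
  refine (dd_triangle _ _ _).trans (add_le_add (Ap2_stab h hτ hD hα.2 hf hg hp)
    ((dd_Duh_src_le (Ap2_meas h.meas hg) (measurable_seed τ α) (measurable_seed τ α') p).trans ?_))
  rw [ddF_seed hτ hα.1 hα']
  refine (Ap2_seed hP hτ (c := |α - α'| / (P.s1 ^ P.k2 * τ ^ 1800)) (by positivity) ?_ hp).trans_eq
    ?_
  · rw [mul_assoc, div_mul_cancel₀ _ hs.ne']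
  · rw [← ENNReal.ofReal_mul (by positivity), mul_div_assoc', div_mul_eq_mul_div]

end Ap2

/-- (A2) `fixed_point` started at `cut c0` (`ev_dd_Duh_c0`, `Ia_seed_le`); note
`ddF (clA f) (clA g) ≤ after τ (ddF f g)` and monotonicity of `Maj` in the seed. -/
theorem approx_exists (Ka : ℝ) (hKa : 0 ≤ Ka) : ∀ᶠ P in parF, ∀ F1, ESol P 0 0 F1 → ∀ τ : ℝ, 0 < τ →
    ∀ α ∈ Icc 0 (Ka * P.s1 ^ P.k2 * τ ^ 1800), ∃ F : PF, Measurable F ∧ Per F ∧ PhiA P F1 τ α F = F := by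
  obtain ⟨K, hK, h1⟩ := ev_dd_Duh_c0
  filter_upwards [ev_basic, h1, approx_contr Ka hKa] with P hP h1 h2 F1 h τ hτ α hα
  obtain ⟨Λ, hΛ, hc, -⟩ := h2 τ hτ
  refine fixed_point (PhiA P F1 τ α)
    (fun f hf => measurable_cut P (measurable_Duh (Ap2_meas h.meas hf) (measurable_F0 P)
      (measurable_seed τ α) 0))
    (fun f hf => per_cut P ((Ap2_per h.per hf).Duh (per_F0 P) (per_seed τ α) 0))
    (posOp_MA P (measurable_F0 P) τ _) (killsNull_MA P (measurable_F0 P) τ _)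
    (fun f g hf hg p => ?_) (Ap2_meas_GA Λ) (Ap2_fin_GA Λ) hc (measurable_cut P (measurable_c0 P))
    (per_cut P (per_c0 P)) (C := K + ENNReal.ofReal (3 * Ka)) (by finiteness)
    (Ap2_c0 hP h hτ h1 hKa hα.2 hΛ)
  unfold PhiA cut
  split_ifs with hp
  · exact Ap2_stab h hτ (measurable_F0 P) hα.2 hf hg hp
  · exact (dd_self _).le.trans zero_le

theorem PhiA_base {P : Par} {F1 : PF} (h : ESol P 0 0 F1) (τ : ℝ) :
    PhiA P F1 τ 0 F1 = F1 ∧ gA P F1 τ 0 F1 = gp P 0 F1 := by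
  have e1 : clA P F1 τ F1 = F1 := by
    funext p
    unfold clA
    split_ifs
    · rfl
    · exact min_eq_left ((h.le_env p).trans (env_mono P zero_le_one p))
  have e2 : seed τ 0 = 0 := by
    funext p
    simp [seed]
  unfold PhiA gA gp
  rw [e1, e2]
  refine ⟨funext fun p => ?_, rfl⟩
  unfold cut
  split_ifs with hp
  · exact (h.eq p hp).symm
  · exact (h.zero p hp).symm

/-- (A3) Lipschitz dependence: `ddF F F' ≤ B GA + MA (ddF F F')` with `B = C |α - α'|`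
(`dd_Duh_le`, `dd_Duh_src_le`, `ddF_seed`, `Ia_seed_le`), `ddF F F' ≤ C' GA` (`ev_dd_Duh_c0`), so
`le_of_contr`; then apply `dd_Duh_le` with datum `g0` and the second part of `approx_contr`. -/
theorem approx_lip (Ka : ℝ) (hKa : 0 ≤ Ka) : ∀ᶠ P in parF, ∀ F1, ESol P 0 0 F1 → ∀ τ : ℝ, 0 < τ →
    ∃ C : ℝ≥0∞, C ≠ ⊤ ∧ ∀ α ∈ Icc 0 (Ka * P.s1 ^ P.k2 * τ ^ 1800),
      ∀ α' ∈ Icc 0 (Ka * P.s1 ^ P.k2 * τ ^ 1800), ∀ F F' : PF, Measurable F → Measurable F' →
        PhiA P F1 τ α F = F → PhiA P F1 τ α' F' = F' → ∀ p : Ph, p.1 ∈ Icc 0 P.t0 →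
        dd (gA P F1 τ α F p) (gA P F1 τ α' F' p) ≤
          C * ENNReal.ofReal |α - α'| * (ZZ P p + wY P (wnF P) p) := by
  obtain ⟨K, hK, h1⟩ := ev_dd_Duh_c0
  filter_upwards [ev_basic, h1, approx_contr Ka hKa] with P hP h1 h2 F1 h τ hτ
  obtain ⟨Λ, hΛ, hc, C, hC, hc'⟩ := h2 τ hτ
  set B₀ := ENNReal.ofReal (3 / (P.s1 ^ P.k2 * τ ^ 1800))
  refine ⟨(1 + 2 * C) * B₀, by finiteness, fun α hα α' hα' F F' hF hF' e e' p hp => ?_⟩
  have hd : Measurable (ddF F F') := measurable_dd hF hF'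
  have h3 : ∀ q, ddF F F' q ≤ 2 * (B₀ * ENNReal.ofReal |α - α'|) * GA P Λ q := by
    refine le_of_contr (posOp_MA P (measurable_F0 P) τ _) (killsNull_MA P (measurable_F0 P) τ _)
      (Ap2_meas_GA Λ) (Ap2_fin_GA Λ) hc hd (C := 2 * (K + ENNReal.ofReal (3 * Ka)))
      (by finiteness) (fun q => ?_) fun q => ?_
    · have k1 := Ap2_c0 (f := F) hP h hτ h1 hKa hα.2 hΛ q
      have k2 := Ap2_c0 (f := F') hP h hτ h1 hKa hα'.2 hΛ q
      rw [e] at k1
      rw [e', dd_comm] at k2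
      rw [mul_assoc, two_mul]
      exact (dd_triangle _ _ _).trans (add_le_add k1 k2)
    · rw [show ddF F F' q = dd (PhiA P F1 τ α F q) (PhiA P F1 τ α' F' q) by rw [e, e']; rfl]
      unfold PhiA cut
      split_ifs with hq
      · exact (Ap2_lip hP h hτ (measurable_F0 P) hα hα'.1 hF hF' hq).trans
          (add_le_add (mul_le_mul_right ((Ap2_wn q).trans (Ap2_Gh hΛ hq)) _) le_rfl)
      · exact (dd_self _).le.trans zero_le
  have hM := posOp_MA P (measurable_g0 P) τ (Ka * P.s1 ^ P.k2 * τ ^ 1800)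
  have h4 := hM.mono _ _ hd ((Ap2_meas_GA Λ).const_mul _) h3 p
  rw [hM.smul _ _ (Ap2_meas_GA Λ)] at h4
  have h5 : wY P (wnF P) p ≤ ZZ P p + wY P (wnF P) p := le_add_self
  calc _ ≤ _ := Ap2_lip hP h hτ (measurable_g0 P) hα hα'.1 hF hF' hp
    _ ≤ B₀ * ENNReal.ofReal |α - α'| * (ZZ P p + wY P (wnF P) p) +
        2 * (B₀ * ENNReal.ofReal |α - α'|) * (C * (ZZ P p + wY P (wnF P) p)) :=
      add_le_add (mul_le_mul_right h5 _) (h4.trans (mul_le_mul_right (hc' p hp) _))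
    _ = _ := by ring

/-- (A4) At `p = (2τ, 0, nn)`: `ZZ p = 0` (`supp_ZZ`), `Sg p ≤ 4`, `Lam ≤ ∫_τ^{2τ} LF env ≤ K_L`
(`LL_le_moment`, `moment_env`, `ell ≥ 8τ`), so `gA p ≥ A e^{-K_L}`, while
`wnF ((2τ)^{3/4}) ≤ 2 s₁^{k2} (2τ)^{1800}` and `wbF ≤ wnF` there (`ev_wbF_le`).
Take `Ka = 16 · 2^{1800} e^{K_L}`. -/
theorem approx_visible : ∃ Ka : ℝ, 0 ≤ Ka ∧ ∀ᶠ P in parF, ∀ F1, ESol P 0 0 F1 →
    ∀ᶠ τ in 𝓝[>] (0 : ℝ), ∀ F : PF, Measurable F →
      1 / 4 ≤ NA P (gA P F1 τ (Ka * P.s1 ^ P.k2 * τ ^ 1800) F) := by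
  obtain ⟨Ka, hKa, h⟩ := ApproxV.visible
  refine ⟨Ka, hKa, h.mono fun P h F1 h1 => h.mono fun τ h F _ => ?_⟩
  obtain ⟨p, hp, h⟩ := h
  refine le_iSup₂_of_le p hp (h _ fun q => ?_)
  unfold clA
  split_ifs
  · exact (h1.le_env q).trans (env_mono P zero_le_one q)
  · exact min_le_right _ _

theorem apx4_NA_le {P : Par} {g : PF} {c : ℝ≥0∞} (h : ∀ p : Ph, p.1 ∈ Icc 0 P.t0 →
    g p ≤ 1 / 2 * ZZ P p + 3 / 2 * wY P (wbF P) p + c * (ZZ P p + wY P (wnF P) p)) :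
    NA P g ≤ c :=
  iSup₂_le fun p hp => ENNReal.div_le_of_le_mul (tsub_le_iff_left.2 (h p hp))

theorem apx4_le_of_NA {P : Par} {g : PF} {c : ℝ≥0∞} (h0 : c ≠ 0) (h1 : c ≠ ⊤) (h : NA P g ≤ c)
    {p : Ph} (hp : p.1 ∈ Icc 0 P.t0) :
    g p ≤ 1 / 2 * ZZ P p + 3 / 2 * wY P (wbF P) p + c * (ZZ P p + wY P (wnF P) p) :=
  tsub_le_iff_left.1 ((ENNReal.div_le_iff_le_mul (Or.inr h1) (Or.inr h0)).1
    ((le_iSup₂ (f := fun (p : Ph) (_ : p.1 ∈ Icc 0 P.t0) =>
      (g p - (1 / 2 * ZZ P p + 3 / 2 * wY P (wbF P) p)) / (ZZ P p + wY P (wnF P) p)) p hp).trans h))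

theorem apx4_NA_lip {P : Par} {g g' : PF} {c : ℝ≥0∞} (h : ∀ p : Ph, p.1 ∈ Icc 0 P.t0 →
    g p ≤ g' p + c * (ZZ P p + wY P (wnF P) p)) : NA P g ≤ NA P g' + c := by
  refine iSup₂_le fun p hp => ?_
  refine (ENNReal.div_le_div_right ((tsub_le_tsub_right (h p hp) _).trans add_tsub_le_tsub_add)
    _).trans ?_
  rw [ENNReal.add_div]
  refine add_le_add (le_iSup₂ (f := fun (p : Ph) (_ : p.1 ∈ Icc 0 P.t0) =>
    (g' p - (1 / 2 * ZZ P p + 3 / 2 * wY P (wbF P) p)) / (ZZ P p + wY P (wnF P) p)) p hp) ?_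
  exact ENNReal.div_le_of_le_mul le_rfl

theorem apx4_num {a b : ℕ} {c d : ℕ} (hb : b ≠ 0) (hd : d ≠ 0) (h : a * d ≤ c * b) :
    (a : ℝ≥0∞) / b ≤ (c : ℝ≥0∞) / d := by
  have hb' : (0 : ℝ) < b := by positivity
  have hd' : (0 : ℝ) < d := by positivity
  rw [← ENNReal.ofReal_natCast a, ← ENNReal.ofReal_natCast b, ← ENNReal.ofReal_natCast c,
    ← ENNReal.ofReal_natCast d, ← ENNReal.ofReal_div_of_pos hb', ← ENNReal.ofReal_div_of_pos hd']
  refine ENNReal.ofReal_le_ofReal ?_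
  rw [div_le_div_iff₀ hb' hd']
  exact_mod_cast h

theorem apx4_sol {P : Par} {F1 F : PF} (h1 : ESol P 0 0 F1) {τ α : ℝ} (hm : Measurable F)
    (hp : Per F) (hF : PhiA P F1 τ α F = F) (hN : NA P (gA P F1 τ α F) = 1 / 4) :
    ESol P 1 (seed τ α) F ∧ (∀ p : Ph, p.1 ≤ τ → F p = F1 p) ∧ Wit P (seed τ α) F := by
  have hin : ∀ p : Ph, p.1 ∈ Icc 0 P.t0 → F p = Duh 0 (clA P F1 τ F) (F0 P) (seed τ α) p :=
    fun p hp => by rw [← congrFun hF p, PhiA, cut, if_pos hp]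
  have hout : ∀ p : Ph, p.1 ∉ Icc 0 P.t0 → F p = 0 :=
    fun p hp => by rw [← congrFun hF p, PhiA, cut, if_neg hp]
  have hbd : ∀ p : Ph, p.1 ∈ Icc 0 P.t0 → gA P F1 τ α F p ≤
      3 / 4 * ZZ P p + 3 / 2 * wY P (wbF P) p + 1 / 4 * wY P (wnF P) p := fun p hp => by
    refine (apx4_le_of_NA (by simp) (by simp) hN.le hp).trans (le_of_eq ?_)
    have : (3 / 4 : ℝ≥0∞) = 1 / 2 + 1 / 4 := by
      have h2 : (1 / 2 : ℝ≥0∞) = 2 / 4 := le_antisymm
        (by exact_mod_cast apx4_num (a := 1) (b := 2) (c := 2) (d := 4) (by simp) (by simp) le_rfl)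
        (by exact_mod_cast apx4_num (a := 2) (b := 4) (c := 1) (d := 2) (by simp) (by simp) le_rfl)
      rw [h2, ← ENNReal.add_div]
      norm_num
    rw [this]
    ring
  have henv : ∀ p, F p ≤ env P 1 p := fun p => by
    by_cases hp : p.1 ∈ Icc 0 P.t0
    · rw [hin p hp]
      refine (Duh_add_datum (a := 0) (clA P F1 τ F) (c0 P) (g0 P) (seed τ α) p).le.trans ?_
      rw [c0_fl, env, add_assoc]
      refine add_le_add (mul_le_of_le_one_right' (ex_le_one _)) ((hbd p hp).trans ?_)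
      have e : wY P (omF P 1) p = 2 * wY P (wbF P) p + 1 * wY P (wnF P) p := by
        simp only [wY, omF]
        ring
      rw [e, add_assoc]
      refine add_le_add (mul_le_of_le_one_left' ?_) (add_le_add (mul_le_mul_left ?_ _)
        (mul_le_mul_left ?_ _))
      · simpa using apx4_num (a := 3) (b := 4) (c := 1) (d := 1) (by simp) (by simp) (by simp)
      · simpa using apx4_num (a := 3) (b := 2) (c := 2) (d := 1) (by simp) (by simp) (by simp)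
      · simp
    · rw [hout p hp]
      exact zero_le
  have hearly : ∀ p : Ph, p.1 ≤ τ → F p = F1 p := fun p hpτ => by
    by_cases hp : p.1 ∈ Icc 0 P.t0
    · rw [hin p hp, h1.eq p hp]
      refine Duh_congr p (fun q hq => if_pos (hq.2.le.trans hpτ)) (fun _ _ => rfl) fun q hq => ?_
      exact if_neg fun h => absurd h.1.1 (not_le.2 (hq.2.trans_le hpτ))
    · rw [hout p hp, h1.zero p hp]
  have hcl : clA P F1 τ F = F := by
    funext p
    unfold clA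
    split_ifs with h
    · exact (hearly p h).symm
    · exact min_eq_left (henv p)
  have hg : gA P F1 τ α F = gp P (seed τ α) F := by rw [gA, hcl, gp]
  rw [hcl] at hin
  rw [hg] at hbd hN
  refine ⟨⟨hm, hp, hout, hin, hbd⟩, hearly, ?_⟩
  by_contra hW
  have h5 : NA P (gp P (seed τ α) F) ≤ 1 / 5 := apx4_NA_le fun p hp => by
    refine (not_lt.1 fun h => hW ⟨p, hp, h⟩).trans ?_
    exact add_le_add le_rfl (mul_le_mul_right le_add_self _)
  rw [hN] at h5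
  norm_num at h5

/-- (A5) choose fixed points `F α`; `α ↦ (NA (gA α (F α))).toReal` is Lipschitz on `[0, A]`, vanishes at
`0` (compare with `F1`, `PhiA_base`, `F1.bd` is not enough: use `Maj_g0` with `b = 0`, which gives
`gp F1 ≤ ZZ/4 + 6/5 wY wbF`), and is `≥ 1/4` at `A`: intermediate value theorem.  `NA ≤ 1/4` makes the clamp
inactive, `NA > 1/5` gives `Wit`. -/
theorem ev_approx : ∃ Ka : ℝ, 0 ≤ Ka ∧ ∀ᶠ P in parF, ∀ F1, ESol P 0 0 F1 →
    ∀ᶠ τ in 𝓝[>] (0 : ℝ), ∃ α ∈ Icc 0 (Ka * P.s1 ^ P.k2 * τ ^ 1800), ∃ F : PF,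
      ESol P 1 (seed τ α) F ∧ (∀ p : Ph, p.1 ≤ τ → F p = F1 p) ∧ Wit P (seed τ α) F := by
  obtain ⟨Ka, hKa, hvis⟩ := approx_visible
  obtain ⟨K, -, hK⟩ := Maj_g0
  refine ⟨Ka, hKa, ?_⟩
  filter_upwards [ev_basic, hvis, approx_exists Ka hKa, approx_lip Ka hKa, hK]
    with P hP hvis hex hlip hK F1 h1
  filter_upwards [hvis F1 h1, self_mem_nhdsWithin] with τ hvis hτ
  obtain ⟨C, hC, hlip⟩ := hlip F1 h1 τ hτ
  replace hex := hex F1 h1 τ hτ
  have hτ' : 0 < τ := hτ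
  have hs1 : 0 < P.s1 := div_pos hP.r0_pos (by norm_num)
  have hA : 0 ≤ Ka * P.s1 ^ P.k2 * τ ^ 1800 := by positivity
  generalize Ka * P.s1 ^ P.k2 * τ ^ 1800 = A at hvis hex hlip hA ⊢
  choose! F hm hp hF using hex
  set N : ℝ → ℝ≥0∞ := fun α => NA P (gA P F1 τ α (F α)) with hN
  have hL : ∀ α ∈ Icc 0 A, ∀ α' ∈ Icc 0 A, N α ≤ N α' + C * ENNReal.ofReal |α - α'| :=
    fun α hα α' hα' => apx4_NA_lip fun p hp' => (dd_le_iff.1
      (hlip α hα α' hα' _ _ (hm α hα) (hm α' hα') (hF α hα) (hF α' hα') p hp')).1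
  have h0 : (0 : ℝ) ∈ Icc 0 A := ⟨le_rfl, hA⟩
  have hA' : A ∈ Icc 0 A := ⟨hA, le_rfl⟩
  have hN0 : N 0 = 0 := by
    refine le_antisymm (apx4_NA_le fun p hp' => ?_) zero_le
    have h2 := (dd_le_iff.1 (hlip 0 h0 0 h0 _ _ (hm 0 h0) h1.meas (hF 0 h0)
      (PhiA_base h1 τ).1 p hp')).1
    rw [(PhiA_base h1 τ).2, sub_self, abs_zero, ENNReal.ofReal_zero, mul_zero, zero_mul,
      add_zero] at h2
    refine h2.trans ((Duh_le_Maj h1.le_env p).trans ((hK 0 zero_le p hp').trans ?_))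
    rw [mul_zero, zero_mul, zero_mul]
    refine add_le_add (add_le_add (mul_le_mul_left ?_ _) (mul_le_mul_left ?_ _)) le_rfl
    · exact_mod_cast apx4_num (a := 1) (b := 4) (c := 1) (d := 2) (by simp) (by simp) (by simp)
    · exact_mod_cast apx4_num (a := 6) (b := 5) (c := 3) (d := 2) (by simp) (by simp) (by simp)
  have hfin : ∀ α ∈ Icc 0 A, N α ≠ ⊤ := fun α hα => by
    refine ne_top_of_le_ne_top ?_ (hL α hα 0 h0)
    rw [hN0, zero_add]
    exact ENNReal.mul_ne_top hC ENNReal.ofReal_ne_top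
  have hL' : ∀ α ∈ Icc 0 A, ∀ α' ∈ Icc 0 A,
      (N α).toReal ≤ (N α').toReal + C.toReal * |α - α'| := fun α hα α' hα' => by
    have h2 := ENNReal.mul_ne_top hC (ENNReal.ofReal_ne_top (r := |α - α'|))
    have := ENNReal.toReal_mono (ENNReal.add_ne_top.2 ⟨hfin α' hα', h2⟩) (hL α hα α' hα')
    rwa [ENNReal.toReal_add (hfin α' hα') h2, ENNReal.toReal_mul,
      ENNReal.toReal_ofReal (abs_nonneg _)] at this
  have hc : ContinuousOn (fun α => (N α).toReal) (Icc 0 A) := by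
    refine (LipschitzOnWith.of_dist_le_mul (K := C.toNNReal) fun α hα α' hα' => ?_).continuousOn
    have h2 := hL' α hα α' hα'
    have h3 := hL' α' hα' α hα
    rw [abs_sub_comm] at h3
    rw [Real.dist_eq, Real.dist_eq, abs_le]
    change -(C.toReal * _) ≤ _ ∧ _ ≤ C.toReal * _
    constructor <;> linarith
  obtain ⟨α, hα, e⟩ := intermediate_value_Icc hA hc (a := 0) (show (1 / 4 : ℝ) ∈ _ from ⟨by
    rw [hN0]; norm_num, by
    have := ENNReal.toReal_mono (hfin A hA') (hvis (F A) (hm A hA'))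
    simpa using this⟩)
  refine ⟨α, hα, F α, apx4_sol h1 (hm α hα) (hp α hα) (hF α hα) ?_⟩
  refine (ENNReal.toReal_eq_toReal_iff' (hfin α hα) (by simp)).1 ?_
  rw [show (N α).toReal = 1 / 4 from e]
  simp

end
end Crest.Agent.R68
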