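import Crest.Agent.R68.PlaneA

/-! # Row 68: plane integrals, part B -/

set_option autoImplicit false
open MeasureTheory Set Filter Topology
open scoped ENNReal NNReal
open Crest.AnalysisR.VecCalc3 Crest.AnalysisR.PDE.Boltzmann

namespace Crest.Agent.R68
noncomputable section

namespace PB

theorem npw_eq (x γ : ℝ) : npw x γ = (ENNReal.ofReal x ^ γ)⁻¹ := by
  rw [npw, ENNReal.rpow_neg]

theorem npw_zero (x : ℝ) : npw x 0 = 1 := by simp [npw]

theorem npw_anti {x y γ : ℝ} (hγ : 0 ≤ γ) (h : x ≤ y) : npw y γ ≤ npw x γ := by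
  rw [npw_eq, npw_eq]
  exact ENNReal.inv_le_inv.2 (ENNReal.rpow_le_rpow (ENNReal.ofReal_le_ofReal h) hγ)

theorem npw_add (x : ℝ) {a b : ℝ} (ha : 0 ≤ a) (hb : 0 ≤ b) :
    npw x (a + b) = npw x a * npw x b := by
  rw [npw_eq, npw_eq, npw_eq, ENNReal.rpow_add_of_nonneg _ _ ha hb,
    ENNReal.mul_inv (Or.inr (ENNReal.rpow_ne_top_of_nonneg hb ENNReal.ofReal_ne_top))
      (Or.inl (ENNReal.rpow_ne_top_of_nonneg ha ENNReal.ofReal_ne_top))]

theorem npw_mul {x : ℝ} (hx : 0 ≤ x) (y γ : ℝ) : npw (x * y) γ = npw x γ * npw y γ := by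
  rw [npw, npw, npw, ENNReal.ofReal_mul hx,
    ENNReal.mul_rpow_of_ne_top ENNReal.ofReal_ne_top ENNReal.ofReal_ne_top]

theorem npw_pos {x : ℝ} (hx : 0 < x) (γ : ℝ) : npw x γ = ENNReal.ofReal (x ^ (-γ)) := by
  rw [npw, ENNReal.ofReal_rpow_of_pos hx]

theorem npw_top {γ : ℝ} (hγ : 0 < γ) : npw 0 γ = ⊤ := by
  rw [npw, ENNReal.ofReal_zero, ENNReal.zero_rpow_of_neg (by linarith)]

theorem npw_le_one {x γ : ℝ} (hγ : 0 ≤ γ) (hx : 1 ≤ x) : npw x γ ≤ 1 := by
  refine (npw_anti hγ hx).trans ?_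
  simp [npw]

theorem measurable_npw (γ : ℝ) : Measurable fun x => npw x γ := by
  unfold npw; fun_prop

/-- truncated one-dimensional singularity -/
def k1 (lam δ x : ℝ) : ℝ≥0∞ := if |x| ≤ lam then npw |x| δ else 0

theorem measurable_k1 (lam δ : ℝ) : Measurable (k1 lam δ) := by
  unfold k1
  exact Measurable.ite (measurableSet_le (by fun_prop) measurable_const)
    ((measurable_npw δ).comp (by fun_prop)) measurable_const

theorem lint_k1 {lam δ : ℝ} (hl : 0 < lam) (h1 : δ ≤ 15 / 16) :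
    ∫⁻ x, k1 lam δ x ≤ ENNReal.ofReal (32 * lam ^ (1 - δ)) := by
  set g : ℝ → ℝ≥0∞ := (Ioc 0 lam).indicator fun x => ENNReal.ofReal (x ^ (-δ)) with hg
  have hgm : Measurable g := Measurable.indicator (by fun_prop) measurableSet_Ioc
  have hr : -1 < -δ := by linarith
  have hI : ∫⁻ x, g x ≤ ENNReal.ofReal (16 * lam ^ (1 - δ)) := by
    rw [hg, lintegral_indicator measurableSet_Ioc,
      ← ofReal_integral_eq_lintegral_ofReal
        ((intervalIntegrable_iff_integrableOn_Ioc_of_le hl.le).1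
          (intervalIntegral.intervalIntegrable_rpow' hr))
        ((ae_restrict_iff' measurableSet_Ioc).2 (Eventually.of_forall fun x hx =>
          Real.rpow_nonneg hx.1.le _)),
      ← intervalIntegral.integral_of_le hl.le, integral_rpow (Or.inl hr),
      Real.zero_rpow (by linarith), sub_zero]
    refine ENNReal.ofReal_le_ofReal ?_
    rw [div_le_iff₀ (by linarith), show -δ + 1 = 1 - δ by ring]
    have : 0 ≤ lam ^ (1 - δ) := by positivity
    nlinarith
  have hae : ∀ᵐ x : ℝ, k1 lam δ x ≤ g x + g (-x) := by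
    have h0 : ∀ᵐ x : ℝ, x ≠ 0 := by simp [ae_iff]
    filter_upwards [h0] with x hx
    unfold k1
    split_ifs with h
    · rcases lt_or_gt_of_ne hx with h' | h'
      · rw [abs_of_neg h'] at h ⊢
        rw [npw_pos (by linarith), hg, indicator_of_mem (show -x ∈ Ioc 0 lam from ⟨by linarith, h⟩)]
        exact le_add_self
      · rw [abs_of_pos h'] at h ⊢
        rw [npw_pos h', hg, indicator_of_mem (show x ∈ Ioc 0 lam from ⟨h', h⟩)]
        exact le_self_add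
    · exact zero_le
  refine (lintegral_mono_ae hae).trans ?_
  rw [lintegral_add_left hgm, lintegral_neg_eq_self g]
  refine (add_le_add hI hI).trans (le_of_eq ?_)
  rw [← ENNReal.ofReal_add (by positivity) (by positivity)]
  congr 1; ring

/-- one-dimensional Gaussian -/
def g1 (a x : ℝ) : ℝ≥0∞ := ENNReal.ofReal (Real.exp (-(a * x ^ 2)))

theorem measurable_g1 (a : ℝ) : Measurable (g1 a) := by unfold g1; fun_prop

theorem measurable_g1' (a x0 : ℝ) : Measurable fun x => g1 a (x0 + x) :=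
  (measurable_g1 a).comp (measurable_const_add x0)

theorem g1_le_one {a : ℝ} (ha : 0 ≤ a) (x : ℝ) : g1 a x ≤ 1 := by
  unfold g1
  exact ENNReal.ofReal_le_one.2 (Real.exp_le_one_iff.2 (neg_nonpos.2 (by positivity)))

theorem lint_g1 {a : ℝ} (ha : 1 / 128 ≤ a) (x0 : ℝ) : ∫⁻ x, g1 a (x0 + x) ≤ 23 := by
  have ha0 : 0 < a := by linarith
  rw [lintegral_add_left_eq_self (g1 a) x0]
  have e : ∀ x : ℝ, g1 a x = ENNReal.ofReal (Real.exp (-a * x ^ 2)) := fun x => by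
    rw [g1, neg_mul]
  simp_rw [e]
  rw [← ofReal_integral_eq_lintegral_ofReal (integrable_exp_neg_mul_sq ha0)
    (Eventually.of_forall fun x => (Real.exp_pos _).le), integral_gaussian]
  have h : √(Real.pi / a) ≤ 23 := by
    rw [Real.sqrt_le_iff, div_le_iff₀ ha0]
    have := Real.pi_le_four
    constructor <;> nlinarith
  exact (ENNReal.ofReal_le_ofReal h).trans (by simp)

theorem lint_g1_sing {a γ : ℝ} (ha : 1 / 128 ≤ a) (h0 : 0 ≤ γ) (h1 : γ ≤ 15 / 16) (x0 c : ℝ) :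
    ∫⁻ x, g1 a (x0 + x) * npw |c + x| γ ≤ 55 := by
  have h : ∀ x, g1 a (x0 + x) * npw |c + x| γ ≤ g1 a (x0 + x) + k1 1 γ (c + x) := by
    intro x
    unfold k1
    split_ifs with hx
    · exact (mul_le_of_le_one_left' (g1_le_one (by linarith) _)).trans le_add_self
    · exact (mul_le_of_le_one_right' (npw_le_one h0 (not_le.1 hx).le)).trans le_self_add
  refine (lintegral_mono h).trans ?_
  rw [lintegral_add_left (measurable_g1' a x0),
    lintegral_add_left_eq_self (k1 1 γ) c]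
  refine (add_le_add (lint_g1 ha x0) (lint_k1 one_pos h1)).trans ?_
  rw [Real.one_rpow, mul_one]
  norm_num

theorem slab1 {a γ s : ℝ} (ha : 1 / 128 ≤ a) (h0 : 0 ≤ γ) (h1 : γ ≤ 15 / 16) (hs : 0 ≤ s)
    (x0 b : ℝ) : ∫⁻ x, g1 a (x0 + x) * npw |b + s * x| γ ≤ 55 * npw s γ := by
  rcases h0.eq_or_lt with rfl | hγ
  · simp only [npw_zero, mul_one]
    exact (lint_g1 ha x0).trans (by norm_num)
  rcases hs.eq_or_lt with rfl | hs'
  · rw [npw_top hγ, ENNReal.mul_top (by norm_num)]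
    exact le_top
  have e : ∀ x, g1 a (x0 + x) * npw |b + s * x| γ =
      npw s γ * (g1 a (x0 + x) * npw |b / s + x| γ) := by
    intro x
    have : b + s * x = s * (b / s + x) := by field_simp
    rw [this, abs_mul, abs_of_pos hs', npw_mul hs]
    ring
  simp_rw [e]
  rw [lintegral_const_mul' _ _ (by rw [npw_pos hs']; exact ENNReal.ofReal_ne_top), mul_comm]
  exact mul_le_mul_left (lint_g1_sing ha h0 h1 x0 _) _

theorem slab2 {γ s x0 : ℝ} (h0 : 0 ≤ γ) (h1 : γ ≤ 1 / 2) (hs : 0 ≤ s) (hx0 : |x0| ≤ 3) (b : ℝ) :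
    ∫⁻ x, g1 (1 / 16) (x0 + x) * npw |b + s * x| γ ≤ 761 * npw |b| γ := by
  rcases h0.eq_or_lt with rfl | hγ
  · simp only [npw_zero, mul_one]
    exact (lint_g1 (by norm_num) x0).trans (by norm_num)
  rcases (abs_nonneg b).eq_or_lt with hb | hb
  · rw [← hb, npw_top hγ, ENNReal.mul_top (by norm_num)]
    exact le_top
  have hnb : npw |b| γ ≠ ⊤ := by rw [npw_pos hb]; exact ENNReal.ofReal_ne_top
  rcases hs.eq_or_lt with rfl | hs'
  · simp only [zero_mul, add_zero]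
    rw [lintegral_mul_const' _ _ hnb]
    exact mul_le_mul_left ((lint_g1 (by norm_num) x0).trans (by norm_num)) _
  have key : ∀ x, g1 (1 / 16) (x0 + x) * npw |b + s * x| γ ≤
      (2 * npw |b| γ) * g1 (1 / 16) (x0 + x) +
        ENNReal.ofReal (13 * |b| ^ (-γ) * s ^ γ) * (g1 (1 / 32) (x0 + x) * npw |b + s * x| γ) := by
    intro x
    by_cases hx : |s * x| ≤ |b| / 2
    · refine le_trans ?_ le_self_add
      rw [mul_comm]
      refine mul_le_mul_left ?_ _
      have h2 : 1 / 2 * |b| ≤ |b + s * x| := by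
        have := abs_sub (b + s * x) (s * x)
        rw [add_sub_cancel_right] at this
        linarith
      refine (npw_anti h0 h2).trans ?_
      rw [npw_mul (by norm_num)]
      refine mul_le_mul_left ?_ _
      rw [npw_pos (by norm_num)]
      have h3 : (1 / 2 : ℝ) ^ (-γ) ≤ (1 / 2 : ℝ) ^ (-1 : ℝ) :=
        Real.rpow_le_rpow_of_exponent_ge (by norm_num) (by norm_num) (by linarith)
      rw [Real.rpow_neg_one] at h3
      exact (ENNReal.ofReal_le_ofReal h3).trans (by norm_num)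
    · refine le_trans ?_ le_add_self
      rw [← mul_assoc]
      refine mul_le_mul_left ?_ _
      rw [g1, g1, ← ENNReal.ofReal_mul (by positivity)]
      refine ENNReal.ofReal_le_ofReal ?_
      set u := x0 + x with hu
      have e1 : Real.exp (-(1 / 16 * u ^ 2)) =
          Real.exp (-(1 / 32 * u ^ 2)) * Real.exp (-(1 / 32 * u ^ 2)) := by
        rw [← Real.exp_add]; congr 1; ring
      rw [e1]
      refine mul_le_mul_of_nonneg_right ?_ (Real.exp_pos _).le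
      have ht : |b| / s ≤ 2 * |u| + 6 := by
        rw [abs_mul, abs_of_pos hs', not_le] at hx
        have h2 : |x| ≤ |u| + 3 := by
          have := abs_sub u x0
          rw [show u - x0 = x by rw [hu]; ring] at this
          linarith
        rw [div_le_iff₀ hs']
        nlinarith
      have ht0 : 0 < |b| / s := by positivity
      have h4 : (|b| / s) ^ γ ≤ 7 + 2 * |u| := by
        have hu0 := abs_nonneg u
        rcases le_total (|b| / s) 1 with h | h
        · exact (Real.rpow_le_one ht0.le h h0).trans (by linarith)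
        · have := Real.rpow_le_rpow_of_exponent_le h (show γ ≤ 1 by linarith)
          rw [Real.rpow_one] at this
          linarith
      have h5 : 7 + 2 * |u| ≤ 13 * Real.exp (1 / 32 * u ^ 2) := by
        have := Real.add_one_le_exp (1 / 32 * u ^ 2)
        have h6 : u ^ 2 = |u| ^ 2 := (sq_abs u).symm
        nlinarith [sq_nonneg (|u| - 3)]
      have e2 : |b| ^ (-γ) * s ^ γ = ((|b| / s) ^ γ)⁻¹ := by
        rw [Real.div_rpow hb.le hs, Real.rpow_neg hb.le, inv_div]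
        ring
      rw [mul_assoc, e2, Real.exp_neg, ← div_eq_mul_inv, ← one_div,
        div_le_div_iff₀ (Real.exp_pos _) (by positivity)]
      linarith
  refine (lintegral_mono key).trans ?_
  rw [lintegral_add_left ((measurable_g1' _ x0).const_mul _),
    lintegral_const_mul' _ _ (ENNReal.mul_ne_top (by norm_num) hnb),
    lintegral_const_mul' _ _ ENNReal.ofReal_ne_top]
  have h7 := mul_le_mul_right (lint_g1 (a := 1 / 16) (by norm_num) x0) (2 * npw |b| γ)
  have h8 := mul_le_mul_right (slab1 (a := 1 / 32) (by norm_num) h0 (by linarith) hs x0 b)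
    (ENNReal.ofReal (13 * |b| ^ (-γ) * s ^ γ))
  refine (add_le_add h7 h8).trans (le_of_eq ?_)
  have e3 : ENNReal.ofReal (13 * |b| ^ (-γ) * s ^ γ) * npw s γ = 13 * npw |b| γ := by
    rw [npw_pos hs', npw_pos hb, ← ENNReal.ofReal_mul (by positivity), mul_assoc,
      ← Real.rpow_add hs', add_neg_cancel, Real.rpow_zero, mul_one,
      ENNReal.ofReal_mul (by norm_num)]
    norm_num
  calc _ = 46 * npw |b| γ + 55 * (ENNReal.ofReal (13 * |b| ^ (-γ) * s ^ γ) * npw s γ) := by ring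
    _ = _ := by rw [e3]; ring

theorem Ga_eq (a : ℝ) (w : R3) : Ga a w = g1 a (w 0) * g1 a (w 1) * g1 a (w 2) := by
  rw [Ga, g1, g1, g1, ← ENNReal.ofReal_mul (Real.exp_pos _).le,
    ← ENNReal.ofReal_mul (by positivity), ← Real.exp_add, ← Real.exp_add,
    EuclideanSpace.real_norm_sq_eq, Fin.sum_univ_three]
  congr 2; ring

theorem Ga_iso (a : ℝ) (R : R3 ≃ₗᵢ[ℝ] R3) (w : R3) : Ga a (R w) = Ga a w := by
  rw [Ga, Ga, R.norm_map]

theorem iso_zero {n : R3} {R : R3 ≃ₗᵢ[ℝ] R3} (hR : R n = EuclideanSpace.single 0 1) (w : R3) :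
    R w 0 = inner ℝ w n := by
  rw [← R.inner_map_map, hR, EuclideanSpace.inner_single_right]
  simp

theorem abs_le_norm (w : R3) (i : Fin 3) : |w i| ≤ ‖w‖ := by
  simpa using PiLp.norm_apply_le w i

/-- the slab integral in coordinates -/
theorem Pl_slab_eq {n ν : R3} (hn : ‖n‖ = 1) (hν : ‖ν‖ = 1) {a : ℝ} (ha : 1 / 128 ≤ a) (γ : ℝ)
    (η : R3) (b : ℝ) : ∃ x0 : ℝ, |x0| ≤ ‖η‖ ∧
      Pl ν (fun q => Ga a (η + q) * npw |b + inner ℝ n q| γ) ≤
        g1 a (inner ℝ η ν) * 23 * ∫⁻ x, g1 a (x0 + x) * npw |b + sn n ν * x| γ := by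
  obtain ⟨R, hR, hx⟩ := exists_iso_sn n ν hn hν
  refine ⟨R η 1, (abs_le_norm _ _).trans (R.norm_map η).le, ?_⟩
  rw [Pl_eq_coord ν R hR (fun q => Ga a (η + q) * npw |b + inner ℝ n q| γ)
    (by unfold Ga npw; fun_prop),
    ← lintegral_const_mul' (g1 a (inner ℝ η ν) * 23) _
      (ENNReal.mul_ne_top ENNReal.ofReal_ne_top (by norm_num))]
  refine lintegral_mono fun x => ?_
  have e : ∀ y : ℝ, Ga a (η + R.symm (WithLp.toLp 2 ![0, x, y])) *
      npw |b + inner ℝ n (R.symm (WithLp.toLp 2 ![0, x, y]))| γ =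
      (g1 a (inner ℝ η ν) * (g1 a (R η 1 + x) * npw |b + sn n ν * x| γ)) * g1 a (R η 2 + y) := by
    intro y
    rw [hx, ← Ga_iso a R, map_add, R.apply_symm_apply, Ga_eq, ← iso_zero hR]
    simp only [PiLp.add_apply, Matrix.cons_val_zero, add_zero, Matrix.cons_val_one,
      Matrix.cons_val]
    ring
  simp only [e]
  rw [lintegral_const_mul _ (measurable_g1' a _)]
  refine (mul_le_mul_right (lint_g1 ha _) _).trans (le_of_eq ?_)
  ring

theorem lint3 {f0 f1 f2 : ℝ → ℝ≥0∞} (h0 : Measurable f0) (h1 : Measurable f1)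
    (h2 : Measurable f2) :
    ∫⁻ w : R3, f0 (w 0) * f1 (w 1) * f2 (w 2) = (∫⁻ x, f0 x) * (∫⁻ x, f1 x) * ∫⁻ x, f2 x := by
  have hn : ‖(EuclideanSpace.single 0 1 : R3)‖ = 1 := by simp
  have h := lint_split _ hn (fun p => f0 p.1 * (f1 (p.2 1) * f2 (p.2 2))) (by fun_prop)
  have e : ∀ a : ℝ, Pl (EuclideanSpace.single 0 1) (fun q => f0 a * (f1 (q 1) * f2 (q 2))) =
      f0 a * ((∫⁻ x, f1 x) * ∫⁻ x, f2 x) := by
    intro a
    rw [Pl_const_mul _ _ (by fun_prop),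
      Pl_eq_coord (EuclideanSpace.single 0 1) (LinearIsometryEquiv.refl ℝ R3) rfl
        (fun q => f1 (q 1) * f2 (q 2)) (by fun_prop)]
    congr 1
    rw [← lintegral_mul_const _ h1]
    refine lintegral_congr fun x => ?_
    rw [← lintegral_const_mul _ h2]
    rfl
  simp only [e] at h
  rw [lintegral_mul_const _ h0, ← mul_assoc] at h
  rw [← h]
  refine lintegral_congr fun w => ?_
  simp [EuclideanSpace.inner_single_right, mul_assoc]

theorem lint_k3 {lam a b c : ℝ} (hl : 0 < lam) (ha : a ≤ 15 / 16) (hb : b ≤ 15 / 16)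
    (hc : c ≤ 15 / 16) :
    ∫⁻ w : R3, k1 lam a (w 0) * k1 lam b (w 1) * k1 lam c (w 2) ≤
      32768 * ENNReal.ofReal (lam ^ (3 - (a + b + c))) := by
  rw [lint3 (measurable_k1 _ _) (measurable_k1 _ _) (measurable_k1 _ _)]
  refine (mul_le_mul' (mul_le_mul' (lint_k1 hl ha) (lint_k1 hl hb)) (lint_k1 hl hc)).trans
    (le_of_eq ?_)
  rw [← ENNReal.ofReal_mul (by positivity), ← ENNReal.ofReal_mul (by positivity),
    show 3 - (a + b + c) = (1 - a) + (1 - b) + (1 - c) by ring, Real.rpow_add hl, Real.rpow_add hl,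
    show (32768 : ℝ≥0∞) = ENNReal.ofReal 32768 by norm_num, ← ENNReal.ofReal_mul (by norm_num)]
  congr 1; ring

theorem pow_mul_exp_le (k : ℕ) {r : ℝ} (hr : 0 ≤ r) :
    (1 + r) ^ k * Real.exp (-(1 / 128 * r ^ 2)) ≤ Real.exp (32 * k ^ 2) := by
  have h1 : (1 + r) ^ k ≤ Real.exp r ^ k := by
    have := Real.add_one_le_exp r
    gcongr
    linarith
  rw [← Real.exp_nat_mul] at h1
  refine (mul_le_mul_of_nonneg_right h1 (Real.exp_pos _).le).trans ?_
  rw [← Real.exp_add]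
  refine Real.exp_le_exp.2 ?_
  nlinarith [sq_nonneg (r - 64 * k)]

end PB

open PB

/-- coordinates of `exists_iso_sn`: `∫ e^{-a(x-x₀)²} |b + s x|^{-γ} dx ≤ s^{-γ} (4 + √(π/a))`. -/
theorem Pl_slab_sin : ∃ C : ℝ≥0∞, C ≠ ⊤ ∧ ∀ n ν : R3, ‖n‖ = 1 → ‖ν‖ = 1 →
    ∀ a ∈ Icc (1 / 16 : ℝ) 1, ∀ γ ∈ Icc (0 : ℝ) (1 / 2), ∀ (η : R3) (b : ℝ),
      Pl ν (fun q => Ga a (η + q) * npw |b + inner ℝ n q| γ) ≤
        C * ENNReal.ofReal (Real.exp (-(a * (inner ℝ η ν : ℝ) ^ 2))) * npw (sn n ν) γ := by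
  refine ⟨23 * 55, by norm_num, fun n ν hn hν a ha γ hγ η b => ?_⟩
  have ha' : 1 / 128 ≤ a := by linarith [ha.1]
  obtain ⟨x0, -, h⟩ := Pl_slab_eq hn hν ha' γ η b
  refine h.trans ((mul_le_mul_right
    (slab1 ha' hγ.1 (by linarith [hγ.2]) (norm_nonneg _) x0 b) _).trans (le_of_eq ?_))
  rw [g1, sn]
  ring

/-- with `s = sn n ν ≤ 1`, `|x₀| ≤ 3`: on `|s x| ≤ |b|/2` use `|b + s x| ≥ |b|/2`; on `|x| ≥ |b|/(2s)`
the Gaussian is at most `C exp(-c (|b|/s)²) e^{-(x-x₀)²/32}` and `s^{-γ} = |b|^{-γ} (|b|/s)^γ`. -/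
theorem Pl_slab_b : ∃ C : ℝ≥0∞, C ≠ ⊤ ∧ ∀ n ν : R3, ‖n‖ = 1 → ‖ν‖ = 1 →
    ∀ γ ∈ Icc (0 : ℝ) (1 / 2), ∀ (η : R3) (b : ℝ), ‖η‖ ≤ 3 →
      Pl ν (fun q => Ga (1 / 16) (η + q) * npw |b + inner ℝ n q| γ) ≤ C * (1 + npw |b| γ) := by
  refine ⟨23 * 761, by norm_num, fun n ν hn hν γ hγ η b hη => ?_⟩
  obtain ⟨x0, hx0, h⟩ := Pl_slab_eq hn hν (a := 1 / 16) (by norm_num) γ η b
  refine h.trans ((mul_le_mul' (mul_le_mul_left (g1_le_one (by norm_num) _) _)
    (slab2 hγ.1 hγ.2 (norm_nonneg _) (hx0.trans hη) b)).trans ?_)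
  rw [one_mul, ← mul_assoc]
  exact mul_le_mul_right le_add_self _

/-- small disc (`Pl_ball`) and Gaussian tail (`Ga (1/16) ≤ Ga (1/32) · sup`, `Pl_gauss`). -/
theorem Pl_tail : ∃ C : ℝ≥0∞, C ≠ ⊤ ∧ ∀ ν : R3, ‖ν‖ = 1 → ∀ η : R3, ‖η‖ ≤ 3 →
    ∀ u ∈ Ioc (0 : ℝ) 1,
      Pl ν (fun q => if ‖q‖ < u ∨ u ^ (-(1 / 4 : ℝ)) < ‖q‖ then Ga (1 / 16) (η + q) else 0) ≤
        C * ENNReal.ofReal u := by
  set K : ℝ := 81 * Real.exp (32 * (4 : ℕ) ^ 2) with hK
  have hK0 : 0 < K := by positivity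
  refine ⟨ENNReal.ofReal (4 + K * 128), ENNReal.ofReal_ne_top, fun ν hν η hη u hu => ?_⟩
  obtain ⟨hu0, hu1⟩ := hu
  have key : ∀ q : R3, (if ‖q‖ < u ∨ u ^ (-(1 / 4 : ℝ)) < ‖q‖ then Ga (1 / 16) (η + q) else 0) ≤
      (if ‖q - 0‖ ≤ u then 1 else 0) + ENNReal.ofReal (K * u) * Ga (1 / 32) (η + q) := by
    intro q
    by_cases h1 : ‖q‖ < u
    · rw [if_pos (Or.inl h1), if_pos (by simpa using h1.le)]
      refine le_trans ?_ le_self_add
      exact ENNReal.ofReal_le_one.2 (Real.exp_le_one_iff.2 (neg_nonpos.2 (by positivity)))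
    by_cases h2 : u ^ (-(1 / 4 : ℝ)) < ‖q‖
    · rw [if_pos (Or.inr h2)]
      refine le_trans ?_ le_add_self
      rw [Ga, Ga, ← ENNReal.ofReal_mul (by positivity)]
      refine ENNReal.ofReal_le_ofReal ?_
      set r := ‖η + q‖ with hr
      have hr0 : 0 ≤ r := norm_nonneg _
      have h3 : ‖q‖ ≤ 3 * (1 + r) := by
        have := norm_sub_le (η + q) η
        rw [add_sub_cancel_left] at this
        linarith
      have h4 : u⁻¹ ≤ 81 * (1 + r) ^ 4 := by
        have h5 : (u ^ (-(1 / 4 : ℝ))) ^ 4 ≤ (3 * (1 + r)) ^ 4 :=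
          pow_le_pow_left₀ (by positivity) (h2.le.trans h3) 4
        rw [← Real.rpow_natCast, ← Real.rpow_mul hu0.le,
          show -(1 / 4 : ℝ) * (4 : ℕ) = -1 by norm_num, Real.rpow_neg_one] at h5
        linarith [show (3 * (1 + r)) ^ 4 = 81 * (1 + r) ^ 4 by ring]
      have h6 := pow_mul_exp_le 4 hr0
      have h7 : Real.exp (-(1 / 16 * r ^ 2)) ≤
          Real.exp (-(1 / 128 * r ^ 2)) * Real.exp (-(1 / 32 * r ^ 2)) := by
        rw [← Real.exp_add]
        exact Real.exp_le_exp.2 (by nlinarith [sq_nonneg r])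
      refine h7.trans (mul_le_mul_of_nonneg_right ?_ (Real.exp_pos _).le)
      rw [← div_le_iff₀ hu0, div_eq_mul_inv]
      calc _ ≤ Real.exp (-(1 / 128 * r ^ 2)) * (81 * (1 + r) ^ 4) := by gcongr
        _ = 81 * ((1 + r) ^ 4 * Real.exp (-(1 / 128 * r ^ 2))) := by ring
        _ ≤ K := by rw [hK]; gcongr
    · rw [if_neg (not_or.2 ⟨h1, h2⟩)]
      exact zero_le
  refine (Pl_mono ν (fun q _ => key q) hν).trans ?_
  rw [Pl_add ν (Measurable.ite (measurableSet_le (by fun_prop) measurable_const)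
      measurable_const measurable_const),
    Pl_const_mul ν _ (φ := fun q => Ga (1 / 32) (η + q)) (by unfold Ga; fun_prop)]
  refine (add_le_add (Pl_ball ν hν 0 u hu0.le)
    (mul_le_mul_right (Pl_gauss ν hν _ (by norm_num) η) _)).trans ?_
  rw [← ENNReal.ofReal_mul (by positivity), ← ENNReal.ofReal_mul (by positivity),
    ← ENNReal.ofReal_add (by positivity) (by positivity)]
  refine ENNReal.ofReal_le_ofReal ?_
  have h8 : Real.pi / (1 / 32) * Real.exp (-(1 / 32 * (inner ℝ η ν : ℝ) ^ 2)) ≤ 128 := by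
    have h9 : Real.exp (-(1 / 32 * (inner ℝ η ν : ℝ) ^ 2)) ≤ 1 :=
      Real.exp_le_one_iff.2 (neg_nonpos.2 (by positivity))
    have := Real.pi_le_four
    calc _ ≤ Real.pi / (1 / 32) * 1 := by gcongr
      _ ≤ 128 := by linarith [show Real.pi / (1 / 32) * 1 = 32 * Real.pi by ring]
  have h10 := mul_le_mul_of_nonneg_left h8 (show 0 ≤ K * u by positivity)
  nlinarith

/-- local integrals in `ℝ³` -/
theorem lint_loc_sing : ∃ C : ℝ≥0∞, C ≠ ⊤ ∧ ∀ c : R3, ∀ γ ∈ Icc (0 : ℝ) (11 / 4), ∀ lam ∈ Ioc (0 : ℝ) 10,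
    ∫⁻ η in {η : R3 | ‖η - c‖ ≤ lam}, npw ‖η - c‖ γ ≤ C * ENNReal.ofReal (lam ^ (3 - γ)) := by
  refine ⟨32768, by norm_num, fun c γ hγ lam hl => ?_⟩
  obtain ⟨h0, h1⟩ := hγ
  have h := lint_k3 (a := γ / 3) (b := γ / 3) (c := γ / 3) hl.1 (by linarith) (by linarith)
    (by linarith)
  rw [add_thirds, ← lintegral_sub_right_eq_self _ c] at h
  refine le_trans ?_ h
  rw [← lintegral_indicator (measurableSet_le (by fun_prop) measurable_const)]
  refine lintegral_mono fun η => ?_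
  by_cases hη : ‖η - c‖ ≤ lam
  · rw [indicator_of_mem (by exact hη)]
    simp only [k1, if_pos ((abs_le_norm _ _).trans hη)]
    have h3 : 0 ≤ γ / 3 := by linarith
    conv_lhs => rw [← add_thirds γ, npw_add _ (by linarith) h3, npw_add _ h3 h3]
    exact mul_le_mul' (mul_le_mul' (npw_anti h3 (abs_le_norm _ _)) (npw_anti h3 (abs_le_norm _ _)))
      (npw_anti h3 (abs_le_norm _ _))
  · rw [indicator_of_notMem (by exact hη)]
    exact zero_le

/-- line singularity: `‖z - ⟪n,z⟫ n‖^{-γ}`, `γ ≤ 15/8` (use `lint_split` and `Pl_sing`-type scaling). -/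
theorem lint_loc_line : ∃ C : ℝ≥0∞, C ≠ ⊤ ∧ ∀ n : R3, ‖n‖ = 1 → ∀ c : R3,
    ∀ γ ∈ Icc (0 : ℝ) (15 / 8), ∀ lam ∈ Ioc (0 : ℝ) 10,
    ∫⁻ η in {η : R3 | ‖η - c‖ ≤ lam}, npw ‖(η - c) - (inner ℝ n (η - c) : ℝ) • n‖ γ ≤
      C * ENNReal.ofReal (lam ^ (3 - γ)) := by
  refine ⟨32768, by norm_num, fun n hn c γ hγ lam hl => ?_⟩
  obtain ⟨h0, h1⟩ := hγ
  obtain ⟨R, hR⟩ := exists_iso_e0 n hn
  have h := lint_k3 (a := 0) (b := γ / 2) (c := γ / 2) hl.1 (by linarith) (by linarith)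
    (by linarith)
  rw [zero_add, add_halves, ← R.measurePreserving.lintegral_comp
    (by have := measurable_k1 lam 0; have := measurable_k1 lam (γ / 2); fun_prop),
    ← lintegral_sub_right_eq_self _ c] at h
  refine le_trans ?_ h
  rw [← lintegral_indicator (measurableSet_le (by fun_prop) measurable_const)]
  refine lintegral_mono fun η => ?_
  by_cases hη : ‖η - c‖ ≤ lam
  · rw [indicator_of_mem (by exact hη)]
    have hη' : ‖R (η - c)‖ ≤ lam := (R.norm_map _).le.trans hη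
    simp only [k1, if_pos ((abs_le_norm _ _).trans hη'), npw_zero, one_mul]
    have h3 : 0 ≤ γ / 2 := by linarith
    conv_lhs => rw [← add_halves γ, npw_add _ h3 h3, ← R.norm_map, map_sub, map_smul, hR]
    refine mul_le_mul' (npw_anti h3 (le_trans (le_of_eq ?_) (abs_le_norm _ 1)))
      (npw_anti h3 (le_trans (le_of_eq ?_) (abs_le_norm _ 2))) <;> simp
  · rw [indicator_of_notMem (by exact hη)]
    exact zero_le

/-- Gaussian moments with a plane singularity -/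
theorem lint_Ga_slab (k : ℕ) : ∃ C : ℝ≥0∞, C ≠ ⊤ ∧ ∀ n : R3, ‖n‖ = 1 → ∀ a : ℝ, 1 / 64 ≤ a →
    ∀ γ ∈ Icc (0 : ℝ) (7 / 8),
    ∫⁻ η, ENNReal.ofReal (jb η ^ k) * Ga a η * (1 + npw |inner ℝ n η| γ) ≤ C := by
  refine ⟨ENNReal.ofReal (Real.exp (32 * k ^ 2)) * (78 * 23 * 23),
    ENNReal.mul_ne_top ENNReal.ofReal_ne_top (by norm_num), fun n hn a ha γ hγ => ?_⟩
  obtain ⟨h0, h1⟩ := hγ
  obtain ⟨R, hR⟩ := exists_iso_e0 n hn
  have hm : Measurable fun x : ℝ => g1 (1 / 128) x * (1 + npw |x| γ) :=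
    (measurable_g1 _).mul (((measurable_npw γ).comp (by fun_prop)).const_add _)
  have hg := lint_g1 (a := 1 / 128) le_rfl 0
  have hs := lint_g1_sing (a := 1 / 128) le_rfl h0 (by linarith) 0 0
  simp only [zero_add] at hg hs
  have h2 : ∫⁻ x, g1 (1 / 128) x * (1 + npw |x| γ) ≤ 78 := by
    simp only [mul_add, mul_one]
    rw [lintegral_add_left (measurable_g1 _)]
    exact (add_le_add hg hs).trans (by norm_num)
  have h := (lint3 hm (measurable_g1 (1 / 128)) (measurable_g1 (1 / 128))).trans_le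
    (mul_le_mul' (mul_le_mul' h2 hg) hg)
  rw [← R.measurePreserving.lintegral_comp
    (by unfold g1 npw; fun_prop)] at h
  refine le_trans ?_ (mul_le_mul_right h _)
  rw [← lintegral_const_mul' _ _ ENNReal.ofReal_ne_top]
  refine lintegral_mono fun η => ?_
  have h3 : ENNReal.ofReal (jb η ^ k) * Ga a η ≤
      ENNReal.ofReal (Real.exp (32 * k ^ 2)) * Ga (1 / 128) η := by
    rw [Ga, Ga, jb, ← ENNReal.ofReal_mul (by positivity), ← ENNReal.ofReal_mul (by positivity)]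
    refine ENNReal.ofReal_le_ofReal ?_
    have h4 : Real.exp (-(a * ‖η‖ ^ 2)) ≤
        Real.exp (-(1 / 128 * ‖η‖ ^ 2)) * Real.exp (-(1 / 128 * ‖η‖ ^ 2)) := by
      rw [← Real.exp_add]
      exact Real.exp_le_exp.2 (by nlinarith [sq_nonneg ‖η‖])
    calc _ ≤ (1 + ‖η‖) ^ k *
          (Real.exp (-(1 / 128 * ‖η‖ ^ 2)) * Real.exp (-(1 / 128 * ‖η‖ ^ 2))) := by gcongr
      _ ≤ _ := by
        rw [← mul_assoc]
        exact mul_le_mul_of_nonneg_right (pow_mul_exp_le k (norm_nonneg _)) (Real.exp_pos _).le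
  refine (mul_le_mul_left h3 _).trans (le_of_eq ?_)
  rw [← Ga_iso _ R, Ga_eq, real_inner_comm, ← iso_zero hR]
  ring

theorem sn_dir (n z : R3) (hn : ‖n‖ = 1) (hz : z ≠ 0) :
    sn n (dir z) = ‖z - (inner ℝ n z : ℝ) • n‖ / ‖z‖ := by
  have hz' : 0 < ‖z‖ := norm_pos_iff.2 hz
  rw [sn, ← sq_eq_sq₀ (norm_nonneg _) (by positivity), div_pow, norm_sub_sq_real, norm_sub_sq_real]
  simp only [dir, real_inner_smul_right, norm_smul, hn, mul_pow, Real.norm_eq_abs, sq_abs,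
    real_inner_comm n z, abs_inv, abs_norm]
  field_simp

end
end Crest.Agent.R68
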