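import Crest.Agent.R68.Symm
import Crest.Agent.R68.PlaneB

/-! # Row 68: the ball lemma, part A (proofs) -/

set_option autoImplicit false
open MeasureTheory Set Filter Topology
open scoped ENNReal NNReal
open Crest.AnalysisR.VecCalc3 Crest.AnalysisR.PDE.Boltzmann

namespace Crest.Agent.R68.BallA
noncomputable section

theorem npw_anti {x y γ : ℝ} (hγ : 0 ≤ γ) (h : x ≤ y) : npw y γ ≤ npw x γ := by
  unfold npw
  rw [ENNReal.rpow_neg, ENNReal.rpow_neg]
  exact ENNReal.inv_le_inv.2 (ENNReal.rpow_le_rpow (ENNReal.ofReal_le_ofReal h) hγ)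

theorem npw_mul {a : ℝ} (ha : 0 ≤ a) (b γ : ℝ) : npw (a * b) γ = npw a γ * npw b γ := by
  unfold npw
  rw [ENNReal.ofReal_mul ha, ENNReal.mul_rpow_of_ne_top ENNReal.ofReal_ne_top ENNReal.ofReal_ne_top]

theorem npw_mono_exp {x γ γ' : ℝ} (hx : x ≤ 1) (h : γ ≤ γ') : npw x γ ≤ npw x γ' :=
  ENNReal.rpow_le_rpow_of_exponent_ge (ENNReal.ofReal_le_one.2 hx) (neg_le_neg h)

theorem npw_half {γ : ℝ} (hγ : γ ≤ 1) : npw (1 / 2) γ ≤ 2 := by
  refine (npw_mono_exp (by norm_num) hγ).trans_eq ?_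
  unfold npw
  rw [ENNReal.rpow_neg_one, one_div, ENNReal.ofReal_inv_of_pos two_pos, inv_inv]
  simp

theorem npw_add {r : ℝ} (hr : 0 < r) (a b : ℝ) : npw r (a + b) = npw r a * npw r b := by
  unfold npw
  rw [neg_add, ENNReal.rpow_add _ _ (by simpa using hr) ENNReal.ofReal_ne_top]

theorem npw_le_two_mul {x r γ : ℝ} (h0 : 0 ≤ γ) (h1 : γ ≤ 1) (h : r / 2 ≤ x) :
    npw x γ ≤ 2 * npw r γ := by
  refine (npw_anti h0 h).trans ?_
  rw [show r / 2 = 1 / 2 * r by ring, npw_mul (by norm_num)]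
  exact mul_le_mul_left (npw_half h1) _

theorem measurable_npw {α : Type*} [MeasurableSpace α] {φ : α → ℝ} (hφ : Measurable φ) (γ : ℝ) :
    Measurable fun a => npw (φ a) γ := by
  unfold npw
  exact hφ.ennreal_ofReal.pow_const _

theorem measurable_Ga' (a : ℝ) : Measurable (Ga a) := by
  unfold Ga
  fun_prop

theorem measurable_sing (c : R3) : Measurable (sing c) := by
  unfold sing
  exact Measurable.ite (measurableSet_le (by fun_prop) measurable_const)
    (measurable_npw (by fun_prop) _) measurable_const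

theorem measurable_SgA' (n : R3) (S : Finset R3) : Measurable (SgA n S) := by
  unfold SgA
  exact (measurable_const.add (measurable_npw (by fun_prop) _)).add
    (Finset.measurable_sum _ fun c _ => measurable_sing c)

theorem norm_dir {p : R3} (hp : p ≠ 0) : ‖dir p‖ = 1 := by
  rw [dir, norm_smul, norm_inv, norm_norm, inv_mul_cancel₀ (norm_ne_zero_iff.2 hp)]

/-- Carleman form of `Qp` -/
theorem Qp_eq {f g : R3 → ℝ≥0∞} (hf : Measurable f) (hg : Measurable g) (v : R3) :
    Qp f g v = 2 * ∫⁻ p, npw ‖p‖ 1 * (f (v + p) * Pl (dir p) fun q => g (v + q)) := by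
  have h1 : Measurable fun q : R3 × R3 => f q.1 * g q.2 := by fun_prop
  have h2 : Measurable fun q : R3 => g (v + q) := by fun_prop
  rw [Qp, QH_eq_p _ h1]
  congr 1
  refine lintegral_congr fun p => ?_
  rw [← Pl_const_mul _ _ h2]

theorem ae_ne_zero : ∀ᵐ p : R3, p ≠ 0 := by
  simp [ae_iff]

theorem Qp_conc_kernel' (u v : R3) (lam : ℝ) (hl : 0 ≤ lam) (H ρ : ℝ≥0∞) (f g : R3 → ℝ≥0∞)
    (hf : Conc f u lam H ρ) (hg : Measurable g) :
    Qp f g v ≤ 8 * H * ENNReal.ofReal (lam ^ 2) * ∫⁻ ζ, npw ‖ζ - v‖ 1 * g ζ := by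
  rw [Qp_comm hf.meas hg, Qp_eq hg hf.meas]
  have h1 : ∀ᵐ p : R3, npw ‖p‖ 1 * (g (v + p) * Pl (dir p) fun q => f (v + q)) ≤
      (H * ENNReal.ofReal (4 * lam ^ 2)) * (npw ‖v + p - v‖ 1 * g (v + p)) := by
    filter_upwards [ae_ne_zero] with p hp
    have h2 : (Pl (dir p) fun q => f (v + q)) ≤ H * ENNReal.ofReal (4 * lam ^ 2) := by
      refine (Pl_mono (dir p) (ψ := fun q => H * if ‖q - (u - v)‖ ≤ lam then 1 else 0)
        (fun q _ => ?_) (norm_dir hp)).trans ?_
      · by_cases h0 : f (v + q) = 0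
        · simp [h0]
        · have h3 := hf.supp _ h0
          rw [show v + q - u = q - (u - v) by abel] at h3
          simpa [h3] using hf.le (v + q)
      · rw [Pl_const_mul _ _ (Measurable.ite (measurableSet_le (by fun_prop) measurable_const)
          measurable_const measurable_const)]
        exact mul_le_mul_right (Pl_ball _ (norm_dir hp) _ _ hl) _
    rw [add_sub_cancel_left]
    calc _ ≤ npw ‖p‖ 1 * (g (v + p) * (H * ENNReal.ofReal (4 * lam ^ 2))) := by gcongr
      _ = _ := by ring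
  have hm : Measurable fun ζ : R3 => npw ‖ζ - v‖ 1 * g ζ :=
    (measurable_npw (by fun_prop) _).mul hg
  refine (mul_le_mul_right (lintegral_mono_ae h1) _).trans_eq ?_
  have hm' : Measurable fun p : R3 => npw ‖v + p - v‖ 1 * g (v + p) :=
    hm.comp (measurable_const_add v)
  rw [lintegral_const_mul _ hm',
    lintegral_add_left_eq_self (fun ζ : R3 => npw ‖ζ - v‖ 1 * g ζ) v,
    ENNReal.ofReal_mul (by norm_num)]
  simp only [ENNReal.ofReal_ofNat]
  ring

theorem LL_conc' (u v : R3) (lam : ℝ) (H ρ : ℝ≥0∞) (f : R3 → ℝ≥0∞)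
    (hf : Conc f u lam H ρ) : LL f v ≤ 13 * ρ * ENNReal.ofReal (‖v - u‖ + lam) := by
  rw [LL_eq f hf.meas]
  have h1 : ∀ η, ENNReal.ofReal ‖v - η‖ * f η ≤ ENNReal.ofReal (‖v - u‖ + lam) * f η := by
    intro η
    by_cases h0 : f η = 0
    · simp [h0]
    · refine mul_le_mul_left (ENNReal.ofReal_le_ofReal ?_) _
      have h2 := hf.supp _ h0
      have h3 := norm_sub_le_norm_sub_add_norm_sub v u η
      rw [norm_sub_rev u η] at h3
      linarith
  calc _ ≤ 13 * ∫⁻ η, ENNReal.ofReal (‖v - u‖ + lam) * f η :=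
        mul_le_mul' cz_le (lintegral_mono h1)
    _ ≤ 13 * (ENNReal.ofReal (‖v - u‖ + lam) * ρ) := by
        rw [lintegral_const_mul _ hf.meas]
        gcongr
        exact hf.mass
    _ = _ := by ring

theorem norm_perp_sq {n : R3} (hn : ‖n‖ = 1) (p : R3) :
    ‖p - (inner ℝ n p : ℝ) • n‖ ^ 2 = ‖p‖ ^ 2 - (inner ℝ n p : ℝ) ^ 2 := by
  rw [norm_sub_sq_real, inner_smul_right, norm_smul, hn, real_inner_comm n p, Real.norm_eq_abs,
    mul_one, sq_abs]
  ring

theorem norm_perp_le {n : R3} (hn : ‖n‖ = 1) (p : R3) : ‖p - (inner ℝ n p : ℝ) • n‖ ≤ ‖p‖ := by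
  refine le_of_sq_le_sq ?_ (norm_nonneg _)
  rw [norm_perp_sq hn]
  nlinarith [sq_nonneg (inner ℝ n p : ℝ)]

theorem ball_lemma' : ∃ C : ℝ≥0∞, C ≠ ⊤ ∧ ∀ (n u v : R3) (lam : ℝ) (H ρ B : ℝ≥0∞)
    (f g : R3 → ℝ≥0∞), ‖n‖ = 1 → inner ℝ n u = (0 : ℝ) → 0 < lam → lam ≤ 1 →
    Conc f u lam H ρ → Measurable g →
    (∀ η, ‖η - u‖ ≤ lam → η ≠ v →
      Pl (dir (η - v)) (fun q => g (v + q)) ≤ B * (1 + npw |inner ℝ n v| (1 / 3))) →
    (∀ η, ‖η - u‖ ≤ lam → η ≠ v →
      Pl (dir (η - v)) (fun q => g (v + q)) ≤ B * (1 + npw (sn n (dir (η - v))) (1 / 3))) →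
    Qp f g v ≤ C * B * ballB u lam H ρ v := by
  obtain ⟨C, hC, hline⟩ := lint_loc_line
  refine ⟨12 + 4 * 81 * C, by finiteness, fun n u v lam H ρ B f g hn hnu hl hl1 hf hg h1 h2 => ?_⟩
  rw [Qp_eq hf.meas hg, ballB]
  have hfv : Measurable fun p => f (v + p) := hf.meas.comp (measurable_const_add v)
  split_ifs with hc
  · set r := ‖v - u‖ with hr
    have hr0 : 0 < r := by linarith
    have h3 : ∀ p : R3, npw ‖p‖ 1 * (f (v + p) * Pl (dir p) fun q => g (v + q)) ≤
        (6 * B * (npw r 1 + npw r (4 / 3))) * f (v + p) := by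
      intro p
      by_cases h0 : f (v + p) = 0
      · simp [h0]
      have h4 := hf.supp _ h0
      have h5 : r - lam ≤ ‖p‖ := by
        have := norm_sub_le (v + p - u) p
        rw [show v + p - u - p = v - u by abel] at this
        linarith
      have hp0 : 0 < ‖p‖ := by linarith
      have hp : p ≠ 0 := norm_pos_iff.1 hp0
      have hne : v + p ≠ v := by simpa using hp
      have h6 : npw ‖p‖ 1 ≤ 2 * npw r 1 := npw_le_two_mul zero_le_one le_rfl (by linarith)
      have h7 : npw ‖p‖ 1 * (Pl (dir p) fun q => g (v + q)) ≤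
          6 * B * (npw r 1 + npw r (4 / 3)) := by
        rcases le_or_gt (r / 2) |inner ℝ n v| with h8 | h8
        · have h9 := h1 _ h4 hne
          rw [add_sub_cancel_left] at h9
          have h10 : npw |inner ℝ n v| (1 / 3) ≤ 2 * npw r (1 / 3) :=
            npw_le_two_mul (by norm_num) (by norm_num) h8
          rw [show (4 / 3 : ℝ) = 1 + 1 / 3 by norm_num, npw_add hr0]
          calc _ ≤ 2 * npw r 1 * (B * (1 + 2 * npw r (1 / 3))) :=
                mul_le_mul' h6 (h9.trans (by gcongr))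
            _ = B * (2 * npw r 1 + 4 * (npw r 1 * npw r (1 / 3))) := by ring
            _ ≤ B * (6 * npw r 1 + 6 * (npw r 1 * npw r (1 / 3))) := by gcongr <;> norm_num
            _ = _ := by ring
        · have h9 := h2 _ h4 hne
          rw [add_sub_cancel_left] at h9
          have h10 : |inner ℝ n p| ≤ lam + r / 2 := by
            have e : (inner ℝ n p : ℝ) = inner ℝ n (v + p - u) - inner ℝ n v := by
              rw [inner_sub_right, inner_add_right, hnu]; ring
            have h11 := abs_real_inner_le_norm n (v + p - u)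
            rw [hn, one_mul] at h11
            rw [e]
            exact (abs_sub _ _).trans (by linarith)
          have h11 : 1 / 2 ≤ sn n (dir p) := by
            rw [sn_dir n p hn hp, le_div_iff₀ hp0]
            refine le_of_sq_le_sq ?_ (norm_nonneg _)
            rw [norm_perp_sq hn, ← sq_abs (inner ℝ n p : ℝ)]
            have h12 : |inner ℝ n p| ≤ 5 / 7 * ‖p‖ := by linarith
            have h13 := pow_le_pow_left₀ (abs_nonneg _) h12 2
            nlinarith
          have h12 : npw (sn n (dir p)) (1 / 3) ≤ 2 :=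
            (npw_anti (by norm_num) h11).trans (npw_half (by norm_num))
          calc _ ≤ 2 * npw r 1 * (B * (1 + 2)) := mul_le_mul' h6 (h9.trans (by gcongr))
            _ = 6 * B * npw r 1 := by ring
            _ ≤ _ := by gcongr; exact le_self_add
      calc _ = npw ‖p‖ 1 * (Pl (dir p) fun q => g (v + q)) * f (v + p) := by ring
        _ ≤ _ := by gcongr
    calc _ ≤ 2 * ∫⁻ p, (6 * B * (npw r 1 + npw r (4 / 3))) * f (v + p) :=
          mul_le_mul_right (lintegral_mono h3) _
      _ ≤ 2 * ((6 * B * (npw r 1 + npw r (4 / 3))) * ρ) := by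
          rw [lintegral_const_mul _ hfv, lintegral_add_left_eq_self f v]
          gcongr
          exact hf.mass
      _ = 12 * B * (ρ * (npw r 1 + npw r (4 / 3))) := by ring
      _ ≤ _ := by gcongr; exact le_self_add
  · have hS : MeasurableSet {η : R3 | ‖η - 0‖ ≤ 9 * lam} :=
      measurableSet_le (by fun_prop) measurable_const
    have h3 : ∀ᵐ p : R3, npw ‖p‖ 1 * (f (v + p) * Pl (dir p) fun q => g (v + q)) ≤
        {η : R3 | ‖η - 0‖ ≤ 9 * lam}.indicator
          (fun η => (2 * H * B) * npw ‖(η - 0) - (inner ℝ n (η - 0) : ℝ) • n‖ 1) p := by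
      filter_upwards [ae_ne_zero] with p hp
      by_cases h0 : f (v + p) = 0
      · simp [h0]
      have h4 := hf.supp _ h0
      have h5 : ‖p‖ ≤ 9 * lam := by
        have := norm_sub_le (v + p - u) (v - u)
        rw [show v + p - u - (v - u) = p by abel] at this
        linarith
      have hp0 : 0 < ‖p‖ := norm_pos_iff.2 hp
      have hne : v + p ≠ v := by simpa using hp
      have h9 := h2 _ h4 hne
      rw [add_sub_cancel_left] at h9
      rw [indicator_of_mem (by simpa using h5), sub_zero]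
      have h6 := norm_perp_le hn p
      have h7 : npw ‖p‖ 1 ≤ npw ‖p - (inner ℝ n p : ℝ) • n‖ 1 := npw_anti zero_le_one h6
      have h8 : npw ‖p‖ 1 * npw (sn n (dir p)) (1 / 3) ≤ npw ‖p - (inner ℝ n p : ℝ) • n‖ 1 := by
        rw [sn_dir n p hn hp]
        refine (mul_le_mul_right (npw_mono_exp (γ' := 1) ((div_le_one hp0).2 h6)
          (by norm_num)) _).trans_eq ?_
        rw [← npw_mul hp0.le, mul_div_cancel₀ _ hp0.ne']
      calc _ ≤ npw ‖p‖ 1 * (H * (B * (1 + npw (sn n (dir p)) (1 / 3)))) := by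
            gcongr; exact hf.le _
        _ = H * B * (npw ‖p‖ 1 + npw ‖p‖ 1 * npw (sn n (dir p)) (1 / 3)) := by ring
        _ ≤ H * B * (npw ‖p - (inner ℝ n p : ℝ) • n‖ 1 + npw ‖p - (inner ℝ n p : ℝ) • n‖ 1) := by
            gcongr
        _ = _ := by ring
    have h4 := hline n hn 0 1 ⟨by norm_num, by norm_num⟩ (9 * lam) ⟨by linarith, by linarith⟩
    rw [show (3 - 1 : ℝ) = 2 by norm_num, Real.rpow_two, mul_pow,
      ENNReal.ofReal_mul (by norm_num), show ((9 : ℝ) ^ 2) = 81 by norm_num] at h4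
    simp only [ENNReal.ofReal_ofNat] at h4
    refine (mul_le_mul_right (lintegral_mono_ae h3) _).trans ?_
    rw [lintegral_indicator hS, lintegral_const_mul _ (measurable_npw (by fun_prop) _)]
    calc _ ≤ 2 * (2 * H * B * (C * (81 * ENNReal.ofReal (lam ^ 2)))) := by gcongr
      _ = 4 * 81 * C * B * (H * ENNReal.ofReal (lam ^ 2)) := by ring
      _ ≤ _ := by gcongr; exact le_add_self

end
end Crest.Agent.R68.BallA
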