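import Crest.Agent.R68.Symm
import Crest.Agent.R68.PlaneB

/-! # Row 68: plane bounds for the singular weight -/

set_option autoImplicit false
open MeasureTheory Set Filter Topology
open scoped ENNReal NNReal
open Crest.AnalysisR.VecCalc3 Crest.AnalysisR.PDE.Boltzmann

namespace Crest.Agent.R68.BallB
noncomputable section

theorem meas_npw {α : Type*} [MeasurableSpace α] {f : α → ℝ} (hf : Measurable f) (γ : ℝ) :
    Measurable fun x => npw (f x) γ :=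
  (ENNReal.measurable_ofReal.comp hf).pow_const _

theorem meas_Ga (a : ℝ) (η : R3) : Measurable fun q : R3 => Ga a (η + q) := by
  unfold Ga
  exact ENNReal.measurable_ofReal.comp (by fun_prop)

theorem meas_sing (v c : R3) (δ : ℝ) :
    Measurable fun q : R3 => if ‖v + q - c‖ ≤ 1 then npw ‖v + q - c‖ δ else 0 :=
  Measurable.ite (measurableSet_le (by fun_prop) measurable_const) (meas_npw (by fun_prop) δ)
    measurable_const

theorem meas_slab (n v : R3) (γ : ℝ) : Measurable fun q : R3 => npw |inner ℝ n (v + q)| γ :=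
  meas_npw (by fun_prop) γ

theorem meas_E (ϑ : ℝ) : MeasurableSet {q : R3 | ‖q‖ < ϑ ∨ ϑ ^ (-(1 / 4 : ℝ)) < ‖q‖} :=
  (measurableSet_lt measurable_norm measurable_const).union
    (measurableSet_lt measurable_const measurable_norm)

theorem Ga_le_one {a : ℝ} (ha : 0 ≤ a) (v : R3) : Ga a v ≤ 1 := by
  unfold Ga
  rw [ENNReal.ofReal_le_one, Real.exp_le_one_iff]
  have : 0 ≤ a * ‖v‖ ^ 2 := by positivity
  linarith

theorem Ga_anti {a b : ℝ} (h : a ≤ b) (v : R3) : Ga b v ≤ Ga a v := by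
  unfold Ga
  refine ENNReal.ofReal_le_ofReal (Real.exp_le_exp.2 ?_)
  nlinarith [sq_nonneg ‖v‖]

theorem npw_le {γ : ℝ} (h0 : 0 ≤ γ) (h1 : γ ≤ 1 / 3) (x : ℝ) : npw x γ ≤ 1 + npw x (1 / 3) := by
  unfold npw
  rcases le_total (ENNReal.ofReal x) 1 with h | h
  · exact le_add_left (ENNReal.rpow_le_rpow_of_exponent_ge h (by linarith))
  · refine le_add_right ?_
    simpa using ENNReal.rpow_le_rpow_of_exponent_le h (show -γ ≤ 0 by linarith)

theorem norm_dir {z : R3} (hz : z ≠ 0) : ‖dir z‖ = 1 := by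
  rw [dir, norm_smul, norm_inv, norm_norm, inv_mul_cancel₀ (norm_ne_zero_iff.2 hz)]

theorem Ga_le {a : ℝ} (ha : a ∈ Icc (1 / 16 : ℝ) (1 / 4)) {v η q : R3} (hη : ‖η‖ ≤ 3)
    (hne : η ≠ v) (hq : inner ℝ q (dir (η - v)) = (0 : ℝ)) :
    Ga a (v + q) ≤ ENNReal.ofReal (Real.exp (9 / 4)) * Ga a v * Ga (1 / 16) (η + q) := by
  have h0 : inner ℝ q (η - v) = (0 : ℝ) := by
    rw [dir, inner_smul_right] at hq
    exact (mul_eq_zero.1 hq).resolve_left
      (inv_ne_zero (norm_ne_zero_iff.2 (sub_ne_zero.2 hne)))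
  have h1 : 1 ≤ ENNReal.ofReal (Real.exp (9 / 4)) * Ga a η := by
    rw [Ga, ← ENNReal.ofReal_mul (Real.exp_pos _).le, ← Real.exp_add, ENNReal.one_le_ofReal,
      Real.one_le_exp_iff]
    have h2 : ‖η‖ ^ 2 ≤ 9 := by nlinarith [norm_nonneg η]
    nlinarith [ha.1, ha.2, sq_nonneg ‖η‖]
  calc Ga a (v + q) = 1 * Ga a (v + q) := (one_mul _).symm
    _ ≤ ENNReal.ofReal (Real.exp (9 / 4)) * Ga a η * Ga a (v + q) := by gcongr
    _ = ENNReal.ofReal (Real.exp (9 / 4)) * Ga a v * Ga a (η + q) := by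
      rw [mul_assoc, Ga_plane a v η q h0, mul_assoc]
    _ ≤ _ := by gcongr; exact Ga_anti ha.1 _

theorem Pl_sum_le {ν : R3} (hν : ‖ν‖ = 1) (S : Finset R3) {φ : R3 → R3 → ℝ≥0∞}
    (hφ : ∀ c, Measurable (φ c)) {C : ℝ≥0∞} (h : ∀ c, Pl ν (φ c) ≤ C) :
    Pl ν (fun q => ∑ c ∈ S, φ c q) ≤ S.card * C := by
  classical
  have _ := hν
  induction S using Finset.induction_on with
  | empty => simp [Pl]
  | insert c S hc ih =>
    simp only [Finset.sum_insert hc]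
    rw [Pl_add ν (hφ c), Finset.card_insert_of_notMem hc]
    push_cast
    rw [add_mul, one_mul, add_comm]
    exact add_le_add ih (h c)

/-- the plane integral of the Gaussian times a weight with general exponents -/
theorem Pl_W : ∃ C : ℝ≥0∞, C ≠ ⊤ ∧ ∀ (n ν η v : R3) (S : Finset R3) (γ δ : ℝ) (X : ℝ≥0∞),
    ‖n‖ = 1 → ‖ν‖ = 1 → ‖η‖ ≤ 3 → 0 ≤ γ → γ ≤ 1 / 3 → δ ∈ Icc (0 : ℝ) (7 / 4) →
    (X = npw |inner ℝ n v| (1 / 3) ∨ X = npw (sn n ν) (1 / 3)) →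
    Pl ν (fun q => Ga (1 / 16) (η + q) * (1 + npw |inner ℝ n (v + q)| γ +
      ∑ c ∈ S, if ‖v + q - c‖ ≤ 1 then npw ‖v + q - c‖ δ else 0)) ≤
      C * (1 + S.card) * (1 + X) := by
  obtain ⟨C₁, hC₁, H₁⟩ := Pl_slab_sin
  obtain ⟨C₂, hC₂, H₂⟩ := Pl_slab_b
  obtain ⟨C₃, hC₃, H₃⟩ := Pl_sing
  refine ⟨ENNReal.ofReal (Real.pi / (1 / 16)) + (C₁ + C₂ * 2) + C₃, by finiteness, ?_⟩
  intro n ν η v S γ δ X hn hν hη h0 h1 hδ hX
  have hγ : γ ∈ Icc (0 : ℝ) (1 / 2) := ⟨h0, by linarith⟩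
  have e1 : Pl ν (fun q => Ga (1 / 16) (η + q)) ≤ ENNReal.ofReal (Real.pi / (1 / 16)) := by
    refine (Pl_gauss ν hν _ (by norm_num) η).trans (ENNReal.ofReal_le_ofReal ?_)
    refine mul_le_of_le_one_right (by positivity) (Real.exp_le_one_iff.2 ?_)
    have : 0 ≤ 1 / 16 * (inner ℝ η ν : ℝ) ^ 2 := by positivity
    linarith
  have e2 : Pl ν (fun q => Ga (1 / 16) (η + q) * npw |inner ℝ n (v + q)| γ) ≤
      (C₁ + C₂ * 2) * (1 + X) := by
    simp only [inner_add_right]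
    rcases hX with rfl | rfl
    · refine (H₂ n ν hn hν γ hγ η _ hη).trans ?_
      calc C₂ * (1 + npw |inner ℝ n v| γ) ≤ C₂ * ((1 + npw |inner ℝ n v| (1 / 3)) +
            (1 + npw |inner ℝ n v| (1 / 3))) := by
            gcongr
            · exact le_self_add
            · exact npw_le h0 h1 _
        _ = C₂ * 2 * (1 + npw |inner ℝ n v| (1 / 3)) := by ring
        _ ≤ _ := by gcongr; exact le_add_self
    · refine (H₁ n ν hn hν _ ⟨le_rfl, by norm_num⟩ γ hγ η _).trans ?_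
      have h2 : ENNReal.ofReal (Real.exp (-(1 / 16 * (inner ℝ η ν : ℝ) ^ 2))) ≤ 1 := by
        rw [ENNReal.ofReal_le_one, Real.exp_le_one_iff]
        have : 0 ≤ 1 / 16 * (inner ℝ η ν : ℝ) ^ 2 := by positivity
        linarith
      calc _ ≤ C₁ * 1 * (1 + npw (sn n ν) (1 / 3)) := by gcongr; exact npw_le h0 h1 _
        _ ≤ _ := by rw [mul_one]; gcongr; exact le_self_add
  have e3 : Pl ν (fun q => ∑ c ∈ S, if ‖v + q - c‖ ≤ 1 then npw ‖v + q - c‖ δ else 0) ≤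
      S.card * C₃ := by
    refine Pl_sum_le hν S (fun c => meas_sing v c δ) fun c => ?_
    have := H₃ ν hν (c - v) δ hδ
    simpa only [show ∀ q : R3, q - (c - v) = v + q - c from fun q => by abel] using this
  calc _ ≤ Pl ν (fun q => Ga (1 / 16) (η + q) + (Ga (1 / 16) (η + q) * npw |inner ℝ n (v + q)| γ +
        ∑ c ∈ S, if ‖v + q - c‖ ≤ 1 then npw ‖v + q - c‖ δ else 0)) := by
        refine Pl_mono ν (fun q _ => ?_) hν
        rw [mul_add, mul_add, mul_one, add_assoc]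
        gcongr
        exact mul_le_of_le_one_left' (Ga_le_one (by norm_num) _)
    _ ≤ ENNReal.ofReal (Real.pi / (1 / 16)) + ((C₁ + C₂ * 2) * (1 + X) + S.card * C₃) := by
        rw [Pl_add ν (meas_Ga _ η), Pl_add ν ((meas_Ga _ η).fun_mul (meas_slab n v γ))]
        gcongr
    _ ≤ _ := by
        have a1 : (1 : ℝ≥0∞) ≤ 1 + S.card := le_self_add
        have a2 : (1 : ℝ≥0∞) ≤ 1 + X := le_self_add
        have a3 : (S.card : ℝ≥0∞) ≤ 1 + S.card := le_add_self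
        calc _ = ENNReal.ofReal (Real.pi / (1 / 16)) * 1 * 1 +
              ((C₁ + C₂ * 2) * 1 * (1 + X) + C₃ * S.card * 1) := by ring
          _ ≤ ENNReal.ofReal (Real.pi / (1 / 16)) * (1 + S.card) * (1 + X) +
              ((C₁ + C₂ * 2) * (1 + S.card) * (1 + X) + C₃ * (1 + S.card) * (1 + X)) := by gcongr
          _ = _ := by ring

theorem plane : ∃ C : ℝ≥0∞, C ≠ ⊤ ∧ ∀ (n η v : R3) (S : Finset R3) (X : ℝ≥0∞),
    ‖n‖ = 1 → ‖η‖ ≤ 3 → η ≠ v → ∀ a ∈ Icc (1 / 16 : ℝ) (1 / 4),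
    (X = npw |inner ℝ n v| (1 / 3) ∨ X = npw (sn n (dir (η - v))) (1 / 3)) →
    Pl (dir (η - v)) (fun q => Ga a (v + q) * SgA n S (v + q)) ≤
      C * (1 + S.card) * Ga a v * (1 + X) := by
  obtain ⟨C, hC, H⟩ := Pl_W
  refine ⟨ENNReal.ofReal (Real.exp (9 / 4)) * C, by finiteness, ?_⟩
  intro n η v S X hn hη hne a ha hX
  have hν := norm_dir (sub_ne_zero.2 hne)
  have h := H n _ η v S (1 / 4) (3 / 2) X hn hν hη (by norm_num) (by norm_num)
    ⟨by norm_num, by norm_num⟩ hX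
  calc _ ≤ Pl (dir (η - v)) (fun q => ENNReal.ofReal (Real.exp (9 / 4)) * Ga a v *
        (Ga (1 / 16) (η + q) * (1 + npw |inner ℝ n (v + q)| (1 / 4) +
          ∑ c ∈ S, if ‖v + q - c‖ ≤ 1 then npw ‖v + q - c‖ (3 / 2) else 0))) := by
        refine Pl_mono _ (fun q hq => ?_) hν
        rw [← mul_assoc]
        exact mul_le_mul' (Ga_le ha hη hne hq) le_rfl
    _ ≤ ENNReal.ofReal (Real.exp (9 / 4)) * Ga a v * (C * (1 + S.card) * (1 + X)) := by
        rw [Pl_const_mul _ _ ((meas_Ga _ η).fun_mul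
          ((measurable_const.fun_add (meas_slab n v _)).fun_add
          (Finset.measurable_sum _ fun c _ => meas_sing v c _)))]
        gcongr
    _ = _ := by ring

theorem young (t : ℝ≥0∞) {θ : ℝ≥0∞} (h0 : θ ≠ 0) (h1 : θ ≠ ⊤) :
    t ≤ θ * t ^ (9 / 8 : ℝ) + θ ^ (-8 : ℝ) := by
  rcases le_total t (θ ^ (-8 : ℝ)) with h | h
  · exact le_add_left h
  · refine le_add_right ?_
    have h2 := ENNReal.rpow_le_rpow h (show (0 : ℝ) ≤ 1 / 8 by norm_num)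
    rw [← ENNReal.rpow_mul, show (-8 : ℝ) * (1 / 8) = -1 by norm_num, ENNReal.rpow_neg_one] at h2
    rw [show (9 / 8 : ℝ) = 1 / 8 + 1 by norm_num,
      ENNReal.rpow_add_of_nonneg _ _ (by norm_num) (by norm_num), ENNReal.rpow_one]
    calc t = θ * (θ⁻¹ * t) := by rw [← mul_assoc, ENNReal.mul_inv_cancel h0 h1, one_mul]
      _ ≤ _ := by gcongr

theorem SgA_young (n : R3) (S : Finset R3) (ζ : R3) {θ : ℝ≥0∞} (h0 : θ ≠ 0) (h1 : θ ≠ ⊤) :
    SgA n S ζ ≤ θ * (1 + npw |inner ℝ n ζ| (9 / 32) +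
      ∑ c ∈ S, if ‖ζ - c‖ ≤ 1 then npw ‖ζ - c‖ (27 / 16) else 0) +
        2 * (1 + S.card) * θ ^ (-8 : ℝ) := by
  have e1 := young 1 h0 h1
  rw [ENNReal.one_rpow] at e1
  have e2 := young (npw |inner ℝ n ζ| (1 / 4)) h0 h1
  have e2' : npw |inner ℝ n ζ| (1 / 4) ^ (9 / 8 : ℝ) = npw |inner ℝ n ζ| (9 / 32) := by
    rw [npw, npw, ← ENNReal.rpow_mul]; norm_num
  rw [e2'] at e2
  have e3 : ∀ c ∈ S, sing c ζ ≤
      θ * (if ‖ζ - c‖ ≤ 1 then npw ‖ζ - c‖ (27 / 16) else 0) + θ ^ (-8 : ℝ) := by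
    intro c _
    unfold sing
    split_ifs
    · have e := young (npw ‖ζ - c‖ (3 / 2)) h0 h1
      have e' : npw ‖ζ - c‖ (3 / 2) ^ (9 / 8 : ℝ) = npw ‖ζ - c‖ (27 / 16) := by
        rw [npw, npw, ← ENNReal.rpow_mul]; norm_num
      rwa [e'] at e
    · exact zero_le
  have e4 := Finset.sum_le_sum e3
  rw [Finset.sum_add_distrib, ← Finset.mul_sum, Finset.sum_const, nsmul_eq_mul] at e4
  unfold SgA
  refine (add_le_add (add_le_add e1 e2) e4).trans ?_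
  refine le_trans (le_add_right (c := S.card * θ ^ (-8 : ℝ)) le_rfl) (le_of_eq ?_)
  ring

theorem plane_trunc : ∃ C : ℝ≥0∞, C ≠ ⊤ ∧ ∀ (n η v : R3) (S : Finset R3) (X : ℝ≥0∞),
    ‖n‖ = 1 → ‖η‖ ≤ 3 → η ≠ v → ∀ a ∈ Icc (1 / 16 : ℝ) (1 / 4), ∀ ϑ ∈ Ioc (0 : ℝ) 1,
    (X = npw |inner ℝ n v| (1 / 3) ∨ X = npw (sn n (dir (η - v))) (1 / 3)) →
    Pl (dir (η - v)) (fun q => if ‖v + q - v‖ < ϑ ∨ ϑ ^ (-(1 / 4 : ℝ)) < ‖v + q - v‖ then
        Ga a (v + q) * SgA n S (v + q) else 0) ≤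
      C * (1 + S.card) ^ 2 * ENNReal.ofReal (ϑ ^ (1 / 9 : ℝ)) * Ga a v * (1 + X) := by
  obtain ⟨C, hC, H⟩ := Pl_W
  obtain ⟨C', hC', H'⟩ := Pl_tail
  refine ⟨ENNReal.ofReal (Real.exp (9 / 4)) * (C + 2 * C'), by finiteness, ?_⟩
  intro n η v S X hn hη hne a ha ϑ hϑ hX
  have hν := norm_dir (sub_ne_zero.2 hne)
  have h := H n _ η v S (9 / 32) (27 / 16) X hn hν hη (by norm_num) (by norm_num)
    ⟨by norm_num, by norm_num⟩ hX
  have h' := H' _ hν η hη ϑ hϑ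
  obtain ⟨θ, hθ⟩ : ∃ θ : ℝ≥0∞, θ = ENNReal.ofReal (ϑ ^ (1 / 9 : ℝ)) := ⟨_, rfl⟩
  have hϑ0 := hϑ.1
  have h0 : θ ≠ 0 := by
    rw [hθ]; exact (ENNReal.ofReal_pos.2 (by positivity)).ne'
  have h1 : θ ≠ ⊤ := by rw [hθ]; exact ENNReal.ofReal_ne_top
  have h2 : θ ^ (-8 : ℝ) * ENNReal.ofReal ϑ = θ := by
    rw [hθ, ENNReal.ofReal_rpow_of_pos (by positivity), ← ENNReal.ofReal_mul (by positivity),
      ← Real.rpow_mul hϑ0.le, ← Real.rpow_add_one hϑ0.ne']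
    norm_num
  rw [← hθ]
  have m1 : Measurable fun q : R3 => Ga (1 / 16) (η + q) * (1 + npw |inner ℝ n (v + q)| (9 / 32) +
      ∑ c ∈ S, if ‖v + q - c‖ ≤ 1 then npw ‖v + q - c‖ (27 / 16) else 0) :=
    (meas_Ga _ η).mul ((measurable_const.add (meas_slab n v _)).add
      (Finset.measurable_sum _ fun c _ => meas_sing v c _))
  have m2 : Measurable fun q : R3 =>
      if ‖q‖ < ϑ ∨ ϑ ^ (-(1 / 4 : ℝ)) < ‖q‖ then Ga (1 / 16) (η + q) else 0 :=
    Measurable.ite (meas_E ϑ) (meas_Ga _ η) measurable_const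
  calc _ ≤ Pl (dir (η - v)) (fun q => ENNReal.ofReal (Real.exp (9 / 4)) * Ga a v *
        (θ * (Ga (1 / 16) (η + q) * (1 + npw |inner ℝ n (v + q)| (9 / 32) +
          ∑ c ∈ S, if ‖v + q - c‖ ≤ 1 then npw ‖v + q - c‖ (27 / 16) else 0)) +
          2 * (1 + S.card) * θ ^ (-8 : ℝ) *
            if ‖q‖ < ϑ ∨ ϑ ^ (-(1 / 4 : ℝ)) < ‖q‖ then Ga (1 / 16) (η + q) else 0)) := by
        refine Pl_mono _ (fun q hq => ?_) hν
        rw [add_sub_cancel_left]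
        split_ifs
        · refine (mul_le_mul' (Ga_le ha hη hne hq) (SgA_young n S (v + q) h0 h1)).trans
            (le_of_eq ?_)
          ring
        · exact zero_le
    _ ≤ ENNReal.ofReal (Real.exp (9 / 4)) * Ga a v * (θ * (C * (1 + S.card) * (1 + X)) +
          2 * (1 + S.card) * θ ^ (-8 : ℝ) * (C' * ENNReal.ofReal ϑ)) := by
        rw [Pl_const_mul _ _ ((m1.const_mul _).fun_add (m2.const_mul _)), Pl_add _ (m1.const_mul _),
          Pl_const_mul _ _ m1, Pl_const_mul _ _ m2]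
        gcongr
    _ = ENNReal.ofReal (Real.exp (9 / 4)) * Ga a v * (θ * (C * (1 + S.card) * (1 + X)) +
          2 * (1 + S.card) * C' * (θ ^ (-8 : ℝ) * ENNReal.ofReal ϑ)) := by ring
    _ = ENNReal.ofReal (Real.exp (9 / 4)) * Ga a v * θ * (1 + S.card) *
          (C * 1 * (1 + X) + 2 * C' * 1 * 1) := by rw [h2]; ring
    _ ≤ ENNReal.ofReal (Real.exp (9 / 4)) * Ga a v * θ * (1 + S.card) *
          (C * (1 + S.card) * (1 + X) + 2 * C' * (1 + S.card) * (1 + X)) := by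
        gcongr <;> exact le_self_add
    _ = _ := by ring

end
end Crest.Agent.R68.BallB
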