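import Crest.Agent.R68.Symm
import Crest.Agent.R68.PlaneB
import Crest.Agent.R68.BallB
import Crest.Agent.R68.BallA

/-! # Row 68: the ball lemma -/

set_option autoImplicit false
open MeasureTheory Set Filter Topology
open scoped ENNReal NNReal
open Crest.AnalysisR.VecCalc3 Crest.AnalysisR.PDE.Boltzmann

namespace Crest.Agent.R68
noncomputable section

/-- Ball lemma.  `Qp f g v = 2 ∫ f(v+p) ‖p‖⁻¹ Pl (dir p) (g (v + ·))` (`QH_eq_p`).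
If `8 lam ≤ ‖w‖` (`w = v - u`): `‖η - v‖ ≥ 7‖w‖/8`; either `|⟪n,v⟫| ≥ ‖w‖/2` (use `h1`), or
`|⟪n,η - v⟫| ≤ (1/2 + 1/8)‖w‖ ≤ (5/7)‖η - v‖`, so `sn ≥ 1/2` (use `h2`).
Otherwise `f ≤ H` on `B(v, 9 lam)`, use `h2`, `sn_dir`,
`‖p‖⁻¹ sn^{-1/3} = ‖p‖^{-2/3} ‖p_⊥‖^{-1/3} ≤ ‖p_⊥‖⁻¹`, `lint_loc_sing`, `lint_loc_line`. -/
theorem ball_lemma : ∃ C : ℝ≥0∞, C ≠ ⊤ ∧ ∀ (n u v : R3) (lam : ℝ) (H ρ B : ℝ≥0∞)
    (f g : R3 → ℝ≥0∞), ‖n‖ = 1 → inner ℝ n u = (0 : ℝ) → 0 < lam → lam ≤ 1 →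
    Conc f u lam H ρ → Measurable g →
    (∀ η, ‖η - u‖ ≤ lam → η ≠ v →
      Pl (dir (η - v)) (fun q => g (v + q)) ≤ B * (1 + npw |inner ℝ n v| (1 / 3))) →
    (∀ η, ‖η - u‖ ≤ lam → η ≠ v →
      Pl (dir (η - v)) (fun q => g (v + q)) ≤ B * (1 + npw (sn n (dir (η - v))) (1 / 3))) →
    Qp f g v ≤ C * B * ballB u lam H ρ v :=
  BallA.ball_lemma'

theorem measurable_SgA (n : R3) (S : Finset R3) : Measurable (SgA n S) :=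
  BallA.measurable_SgA' n S

theorem measurable_Ga (a : ℝ) : Measurable (Ga a) :=
  BallA.measurable_Ga' a

/-- (B1) `‖η‖ ≤ 3`; by `Ga_plane`, `Ga a (v+q) ≤ e^{9/4} Ga a v * Ga (1/16) (η+q)` on the plane;
then `Pl_gauss`, `Pl_slab_sin`, `Pl_slab_b` (`x^{-1/4} ≤ 1 + x^{-1/3}`), `Pl_sing`, `ball_lemma`. -/
theorem ball_SgA : ∃ C : ℝ≥0∞, C ≠ ⊤ ∧ ∀ (n u v : R3) (lam : ℝ) (H ρ : ℝ≥0∞)
    (f : R3 → ℝ≥0∞) (S : Finset R3), ‖n‖ = 1 → inner ℝ n u = (0 : ℝ) → ‖u‖ ≤ 2 → 0 < lam → lam ≤ 1 →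
    Conc f u lam H ρ → ∀ a ∈ Icc (1 / 16 : ℝ) (1 / 4),
    Qp f (fun ζ => Ga a ζ * SgA n S ζ) v ≤ C * (1 + S.card) * Ga a v * ballB u lam H ρ v := by
  obtain ⟨C, hC, hb⟩ := ball_lemma
  obtain ⟨C', hC', hp⟩ := BallB.plane
  refine ⟨C * C', ENNReal.mul_ne_top hC hC', ?_⟩
  intro n u v lam H ρ f S hn hnu hu hl hl1 hf a ha
  have h3 : ∀ η : R3, ‖η - u‖ ≤ lam → ‖η‖ ≤ 3 := fun η hη => by
    linarith [norm_sub_norm_le η u]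
  refine (hb n u v lam H ρ (C' * (1 + S.card) * Ga a v) f _ hn hnu hl hl1 hf
    ((measurable_Ga a).fun_mul (measurable_SgA n S))
    (fun η hη hne => hp n η v S _ hn (h3 η hη) hne a ha (Or.inl rfl))
    (fun η hη hne => hp n η v S _ hn (h3 η hη) hne a ha (Or.inr rfl))).trans (le_of_eq ?_)
  ring

/-- (B1') truncation error.  Young: `S 1_E ≤ θ S^{9/8} + θ^{-8} 1_E` with `θ = ϑ^{1/9}`;
`SgA^{9/8} ≤ (2 + #S)^{1/8} (1 + |ζ₁|^{-9/32} + Σ sing^{9/8})`; `Pl_tail` for the indicator. -/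
theorem ball_SgA_trunc : ∃ C : ℝ≥0∞, C ≠ ⊤ ∧ ∀ (n u v : R3) (lam : ℝ) (H ρ : ℝ≥0∞)
    (f : R3 → ℝ≥0∞) (S : Finset R3), ‖n‖ = 1 → inner ℝ n u = (0 : ℝ) → ‖u‖ ≤ 2 → 0 < lam → lam ≤ 1 →
    Conc f u lam H ρ → ∀ a ∈ Icc (1 / 16 : ℝ) (1 / 4), ∀ ϑ ∈ Ioc (0 : ℝ) 1,
    Qp f (fun ζ => if ‖ζ - v‖ < ϑ ∨ ϑ ^ (-(1 / 4 : ℝ)) < ‖ζ - v‖ then Ga a ζ * SgA n S ζ else 0) v ≤
      C * (1 + S.card) ^ 2 * ENNReal.ofReal (ϑ ^ (1 / 9 : ℝ)) * Ga a v * ballB u lam H ρ v := by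
  obtain ⟨C, hC, hb⟩ := ball_lemma
  obtain ⟨C', hC', hp⟩ := BallB.plane_trunc
  refine ⟨C * C', ENNReal.mul_ne_top hC hC', ?_⟩
  intro n u v lam H ρ f S hn hnu hu hl hl1 hf a ha ϑ hϑ
  have h3 : ∀ η : R3, ‖η - u‖ ≤ lam → ‖η‖ ≤ 3 := fun η hη => by
    linarith [norm_sub_norm_le η u]
  have hm : Measurable fun ζ : R3 =>
      if ‖ζ - v‖ < ϑ ∨ ϑ ^ (-(1 / 4 : ℝ)) < ‖ζ - v‖ then Ga a ζ * SgA n S ζ else 0 :=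
    Measurable.ite ((measurable_sub_const v) (BallB.meas_E ϑ))
      ((measurable_Ga a).fun_mul (measurable_SgA n S)) measurable_const
  refine (hb n u v lam H ρ
    (C' * (1 + S.card) ^ 2 * ENNReal.ofReal (ϑ ^ (1 / 9 : ℝ)) * Ga a v) f _ hn hnu hl hl1 hf hm
    (fun η hη hne => hp n η v S _ hn (h3 η hη) hne a ha ϑ hϑ (Or.inl rfl))
    (fun η hη hne => hp n η v S _ hn (h3 η hη) hne a ha ϑ hϑ (Or.inr rfl))).trans (le_of_eq ?_)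
  ring

/-- bounded kernel: `Qp f g = Qp g f`, Carleman, `Pl_ball`. -/
theorem Qp_conc_kernel (u v : R3) (lam : ℝ) (hl : 0 ≤ lam) (H ρ : ℝ≥0∞) (f g : R3 → ℝ≥0∞)
    (hf : Conc f u lam H ρ) (hg : Measurable g) :
    Qp f g v ≤ 8 * H * ENNReal.ofReal (lam ^ 2) * ∫⁻ ζ, npw ‖ζ - v‖ 1 * g ζ :=
  BallA.Qp_conc_kernel' u v lam hl H ρ f g hf hg

theorem LL_conc (u v : R3) (lam : ℝ) (hl : 0 ≤ lam) (H ρ : ℝ≥0∞) (f : R3 → ℝ≥0∞)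
    (hf : Conc f u lam H ρ) : LL f v ≤ 13 * ρ * ENNReal.ofReal (‖v - u‖ + lam) :=
  have _ := hl
  BallA.LL_conc' u v lam H ρ f hf

end
end Crest.Agent.R68
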