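import Crest.Agent.R68.PosOps

/-! # Row 68: abstract fixed point lemmas -/

set_option autoImplicit false
open MeasureTheory Set Filter Topology
open scoped ENNReal NNReal
open Crest.AnalysisR.VecCalc3 Crest.AnalysisR.PDE.Boltzmann

namespace Crest.Agent.R68
noncomputable section

namespace FP

/-- only the values on `{G ≠ ⊤}` matter -/
theorem bound {M : PF → PF} (hM : PosOp M) (hK : KillsNull M) {G : PF} (hG : Measurable G)
    (hGf : FinSec G) {d : PF} (hd : Measurable d) {c : ℝ≥0∞}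
    (h : ∀ q, G q ≠ ⊤ → d q ≤ c * G q) (p : Ph) : M d p ≤ c * M G p := by
  classical
  have hN : Measurable fun q => if G q = ⊤ then d q else 0 :=
    Measurable.ite (hG (measurableSet_singleton ⊤)) hd measurable_const
  have hcG : Measurable fun q => c * G q := hG.const_mul c
  have h1 : d ≤ (fun q => c * G q) + fun q => if G q = ⊤ then d q else 0 := by
    intro q
    simp only [Pi.add_apply]
    split_ifs with hq
    · exact le_add_self
    · rw [add_zero]; exact h q hq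
  have h2 := hM.mono _ _ hd (hcG.add hN) h1 p
  rw [hM.add _ _ hcG hN, Pi.add_apply, hM.smul c G hG,
    hK _ hN (fun s z => (hGf s z).mono fun η hη => if_neg hη) p, add_zero] at h2
  exact h2

theorem tendsto_half {c : ℝ≥0∞} (hc : c ≠ ⊤) :
    Tendsto (fun k : ℕ => c * (2⁻¹ : ℝ≥0∞) ^ k) atTop (𝓝 0) := by
  have := ENNReal.Tendsto.const_mul (a := c)
    (ENNReal.tendsto_pow_atTop_nhds_zero_of_lt_one (r := 2⁻¹) (by simp)) (Or.inr hc)
  rwa [mul_zero] at this

theorem le_of_half {a b c : ℝ≥0∞} (hc : c ≠ ⊤) (h : ∀ k : ℕ, a ≤ b + c * (2⁻¹ : ℝ≥0∞) ^ k) :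
    a ≤ b := by
  have := (tendsto_half hc).const_add b
  rw [add_zero] at this
  exact ge_of_tendsto' this h

theorem two_half : (2 : ℝ≥0∞) * 2⁻¹ = 1 := ENNReal.mul_inv_cancel two_ne_zero ENNReal.ofNat_ne_top

theorem dd_liminf {u : ℕ → ℝ≥0∞} {a c : ℝ≥0∞} {N : ℕ} (h : ∀ j, dd (u (N + j)) a ≤ c) :
    dd (liminf u atTop) a ≤ c := by
  have h1 : ∀ᶠ m in atTop, dd (u m) a ≤ c := eventually_atTop.2 ⟨N, fun m hm => by
    obtain ⟨j, rfl⟩ := Nat.exists_eq_add_of_le hm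
    exact h j⟩
  refine dd_le_iff.2 ⟨liminf_le_of_frequently_le' (h1.mono fun m hm => (dd_le_iff.1 hm).1).frequently,
    tsub_le_iff_right.1 (le_liminf_of_le (by isBoundedDefault)
      (h1.mono fun m hm => tsub_le_iff_right.2 (dd_le_iff.1 hm).2))⟩

theorem measurable_ddF {f g : PF} (hf : Measurable f) (hg : Measurable g) : Measurable (ddF f g) :=
  measurable_dd hf hg

theorem cancel {a b x y u v e s e' s' : ℝ≥0∞} (hx : x ≠ ⊤) (hy : y ≠ ⊤) (hv : v ≠ ⊤)
    (h1 : a + y ≤ b + x + e + s) (h2 : x + v ≤ y + u + e' + s') :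
    a ≤ b + (dd u v + (e + e') + (s + s')) := by
  have h3 : u ≤ v + dd u v := (dd_le_iff.1 le_rfl).1
  refine ENNReal.le_of_add_le_add_right (a := x + y + v) (by simp [hx, hy, hv]) ?_
  calc a + (x + y + v) = (a + y) + (x + v) := by ring
    _ ≤ (b + x + e + s) + (y + u + e' + s') := add_le_add h1 h2
    _ ≤ (b + x + e + s) + (y + (v + dd u v) + e' + s') := by gcongr
    _ = _ := by ring

end FP

/-- `A ≤ B G + M A`, `A ≤ C G`, `M G ≤ G/2` give `A ≤ 2 B G` (iterate: `A ≤ (2B + C 2^{-k}) G`; where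
`G = ⊤` and `B = 0` use that `A` has null sections, so `M A = 0`). -/
theorem le_of_contr {M : PF → PF} (hM : PosOp M) (hK : KillsNull M) {G : PF} (hG : Measurable G)
    (hGf : FinSec G) (hc : ∀ p, M G p ≤ 2⁻¹ * G p) {A : PF} (hA : Measurable A) {B C : ℝ≥0∞}
    (hC : C ≠ ⊤) (hAC : ∀ p, A p ≤ C * G p) (h : ∀ p, A p ≤ B * G p + M A p) :
    ∀ p, A p ≤ 2 * B * G p := by
  have h1 : ∀ (k : ℕ) (q : Ph), A q ≤ (2 * B + C * 2⁻¹ ^ k) * G q := by
    intro k
    induction k with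
    | zero => exact fun q => (hAC q).trans (by gcongr; simp)
    | succ k ih =>
      intro q
      calc A q ≤ B * G q + M A q := h q
        _ ≤ B * G q + (2 * B + C * 2⁻¹ ^ k) * (2⁻¹ * G q) :=
            add_le_add_right ((FP.bound hM hK hG hGf hA (fun r _ => ih r) q).trans
              (mul_le_mul_right (hc q) _)) _
        _ = (B + (2 * 2⁻¹) * B + C * 2⁻¹ ^ (k + 1)) * G q := by ring
        _ = _ := by rw [FP.two_half]; ring
  have h2 : ∀ q, G q ≠ ⊤ → A q ≤ 2 * B * G q := fun q hq =>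
    FP.le_of_half (ENNReal.mul_ne_top hC hq) fun k => (h1 k q).trans_eq (by ring)
  intro p
  calc A p ≤ B * G p + M A p := h p
    _ ≤ B * G p + 2 * B * (2⁻¹ * G p) :=
        add_le_add_right ((FP.bound hM hK hG hGf hA h2 p).trans (mul_le_mul_right (hc p) _)) _
    _ = (B + (2 * 2⁻¹) * B) * G p := by ring
    _ = _ := by rw [FP.two_half]; ring

/-- existence of a fixed point.  Picard iterates `f k = Φ^[k] f₀`; `ddF (f (k+1)) (f k) ≤ C 2^{-k} G`; put
`F⁎ p = liminf f k p` (measurable, periodic); where `G p ≠ ⊤`, `dd (f k p) (F⁎ p) ≤ 2 C 2^{-k} G p`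
(treat `f₀ p = ⊤` separately: then all `f k p = ⊤`).  `F = Φ F⁎` satisfies
`dd (F p) (f (k+1) p) ≤ M (ddF F⁎ (f k)) p ≤ C 2^{-k} G p` (split `ddF` into the part on `G ≠ ⊤` and a
part with null sections), so `ddF F F⁎` has null sections and `Φ F = Φ F⁎ = F`. -/
theorem fixed_point (Φ : PF → PF) (hΦm : ∀ f, Measurable f → Measurable (Φ f))
    (hΦp : ∀ f, Per f → Per (Φ f)) {M : PF → PF} (hM : PosOp M) (hK : KillsNull M)
    (hst : ∀ f g, Measurable f → Measurable g → ∀ p, dd (Φ f p) (Φ g p) ≤ M (ddF f g) p)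
    {G : PF} (hG : Measurable G) (hGf : FinSec G) (hc : ∀ p, M G p ≤ 2⁻¹ * G p)
    {f₀ : PF} (h0m : Measurable f₀) (h0p : Per f₀) {C : ℝ≥0∞} (hC : C ≠ ⊤)
    (h0 : ∀ p, dd (Φ f₀ p) (f₀ p) ≤ C * G p) :
    ∃ F : PF, Measurable F ∧ Per F ∧ Φ F = F := by
  obtain ⟨f, hf0, hfs⟩ : ∃ f : ℕ → PF, f 0 = f₀ ∧ ∀ k, f (k + 1) = Φ (f k) :=
    ⟨fun k => Φ^[k] f₀, rfl, fun k => Function.iterate_succ_apply' _ _ _⟩
  have hfm : ∀ k, Measurable (f k) := fun k => by
    induction k with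
    | zero => rwa [hf0]
    | succ k ih => rw [hfs]; exact hΦm _ ih
  have hfp : ∀ k, Per (f k) := fun k => by
    induction k with
    | zero => rwa [hf0]
    | succ k ih => rw [hfs]; exact hΦp _ ih
  have hstep : ∀ {u v : PF} {c : ℝ≥0∞}, Measurable u → Measurable v →
      (∀ q, dd (u q) (v q) ≤ c * G q) → ∀ p, dd (Φ u p) (Φ v p) ≤ c * 2⁻¹ * G p := by
    intro u v c hu hv h p
    refine (hst u v hu hv p).trans ((FP.bound hM hK hG hGf (FP.measurable_ddF hu hv)
      (fun q _ => h q) p).trans ?_)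
    rw [mul_assoc]
    exact mul_le_mul_right (hc p) _
  have h1 : ∀ (k : ℕ) (p : Ph), dd (f (k + 1) p) (f k p) ≤ C * 2⁻¹ ^ k * G p := by
    intro k
    induction k with
    | zero => intro p; rw [hfs, hf0, pow_zero, mul_one]; exact h0 p
    | succ k ih =>
      intro p
      have := hstep (hfm _) (hfm _) ih p
      rwa [← hfs, ← hfs, mul_assoc C, ← pow_succ] at this
  have h2 : ∀ (k j : ℕ) (p : Ph), dd (f (k + j) p) (f k p) + 2 * (C * 2⁻¹ ^ (k + j) * G p) ≤
      2 * (C * 2⁻¹ ^ k * G p) := by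
    intro k j p
    induction j with
    | zero => rw [add_zero, dd_self, zero_add]
    | succ j ih =>
      refine le_trans ?_ ih
      rw [← add_assoc k j 1]
      calc _ ≤ C * 2⁻¹ ^ (k + j) * G p + dd (f (k + j) p) (f k p) +
            2 * (C * 2⁻¹ ^ (k + j + 1) * G p) :=
            add_le_add_left ((dd_triangle _ _ _).trans (add_le_add_left (h1 _ p) _)) _
        _ = dd (f (k + j) p) (f k p) + (1 + 2 * 2⁻¹) * (C * 2⁻¹ ^ (k + j) * G p) := by ring
        _ = _ := by rw [FP.two_half, one_add_one_eq_two]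
  set L : PF := fun p => liminf (fun k => f k p) atTop with hL
  have hLm : Measurable L := Measurable.liminf hfm
  have hLp : Per L := fun t x v m => by simp only [hL, hfp _ t x v m]
  have h3 : ∀ (k : ℕ) (p : Ph), dd (L p) (f k p) ≤ 2 * (C * 2⁻¹ ^ k) * G p := fun k p =>
    FP.dd_liminf (u := fun k => f k p) (N := k) fun j =>
      (le_self_add.trans (h2 k j p)).trans_eq (mul_assoc _ _ _).symm
  have h4 : ∀ q, G q ≠ ⊤ → ddF (Φ L) L q ≤ 0 * G q := by
    intro q hq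
    rw [zero_mul]
    refine FP.le_of_half (c := 2 * 2⁻¹ * (2 * (C * G q)))
      (by rw [FP.two_half, one_mul]
          exact ENNReal.mul_ne_top ENNReal.ofNat_ne_top (ENNReal.mul_ne_top hC hq)) fun k => ?_
    have h5 := hstep hLm (hfm k) (h3 k) q
    have h6 := h3 (k + 1) q
    rw [dd_comm, hfs] at h6
    refine ((dd_triangle _ _ _).trans (add_le_add h5 h6)).trans_eq ?_
    ring
  refine ⟨Φ L, hΦm _ hLm, hΦp _ hLp, funext fun p => eq_of_dd_eq_zero (le_antisymm ?_ zero_le)⟩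
  have := (hst _ _ (hΦm _ hLm) hLm p).trans
    (FP.bound hM hK hG hGf (FP.measurable_ddF (hΦm _ hLm) hLm) h4 p)
  rwa [zero_mul] at this

/-- Abstract strong compactness.  `hineq` says `f n - f m ≤ T (f n) - T (f m) + E |f n - f m| + σ n`.
Apply `T` to it and add (cancel finite terms where `G p ≠ ⊤`):
`dd (f n p) (f m p) ≤ dd (T (T (f n)) p) (T (T (f m)) p) + (I + T) (E (ddF ..) + σ n + σ m) p`.
With `A N = ⨆_{n,m ≥ N} ddF (f n) (f m)` and `A = ⨅ A N`, `PosOp.iInf` gives `A ≤ (I + T) E A` where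
`G ≠ ⊤`; conclude with `le_of_contr` (applied to `A · 1{G ≠ ⊤}` or directly), so `f n p` is Cauchy. -/
theorem cauchy_of_weak {T E : PF → PF} (hT : PosOp T) (hE : PosOp E) (hEK : KillsNull E)
    {G env : PF} (hG : Measurable G) (hGf : FinSec G) (henv : Measurable env)
    (hc : ∀ p, E G p + T (E G) p ≤ 2⁻¹ * G p)
    (hfin : ∀ p, G p ≠ ⊤ → env p ≠ ⊤ ∧ T env p ≠ ⊤ ∧ T (T env) p ≠ ⊤)
    (f σ : ℕ → PF) (hf : ∀ n, Measurable (f n)) (hσ : ∀ n, Measurable (σ n))
    (hfe : ∀ n, f n ≤ env) {C : ℝ≥0∞} (hC : C ≠ ⊤) (hfG : ∀ n m p, dd (f n p) (f m p) ≤ C * G p)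
    (hσ0 : ∀ p, G p ≠ ⊤ → Tendsto (fun n => σ n p + T (σ n) p) atTop (𝓝 0))
    (hineq : ∀ n m p, f n p + T (f m) p ≤ f m p + T (f n) p + E (ddF (f n) (f m)) p + σ n p)
    (hweak : ∀ p, G p ≠ ⊤ → ∃ l : ℝ≥0∞, Tendsto (fun n => T (T (f n)) p) atTop (𝓝 l)) :
    ∀ p, G p ≠ ⊤ → Tendsto (fun n => dd (f n p) (liminf (fun k => f k p) atTop)) atTop (𝓝 0) := by
  have hM : PosOp fun g p => E g p + T (E g) p := hE.plus (hT.comp hE)
  have hK : KillsNull fun g p => E g p + T (E g) p := hEK.plus (hEK.comp hT)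
  have hd : ∀ n m, Measurable (ddF (f n) (f m)) := fun n m => FP.measurable_ddF (hf n) (hf m)
  have hTf : ∀ n, Measurable (T (f n)) := fun n => hT.meas _ (hf n)
  have hT1 : ∀ n p, G p ≠ ⊤ → T (f n) p ≠ ⊤ := fun n p hp =>
    ne_top_of_le_ne_top (hfin p hp).2.1 (hT.mono _ _ (hf n) henv (hfe n) p)
  have hT2 : ∀ n p, T (T (f n)) p ≤ T (T env) p := fun n p =>
    hT.mono _ _ (hTf n) (hT.meas _ henv) (hT.mono _ _ (hf n) henv (hfe n)) p
  have h1 : ∀ n m p, G p ≠ ⊤ → f n p ≤ f m p + (dd (T (T (f n)) p) (T (T (f m)) p) +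
      (E (ddF (f n) (f m)) p + T (E (ddF (f n) (f m))) p) + (σ n p + T (σ n) p)) := by
    intro n m p hp
    have hE' := hE.meas _ (hd n m)
    have h2 := hT.mono (f n + T (f m)) (f m + T (f n) + E (ddF (f n) (f m)) + σ n)
      ((hf n).add (hTf m)) ((((hf m).add (hTf n)).add hE').add (hσ n)) (hineq n m) p
    rw [hT.add _ _ (hf n) (hTf m), hT.add _ _ (((hf m).add (hTf n)).add hE') (hσ n),
      hT.add _ _ ((hf m).add (hTf n)) hE', hT.add _ _ (hf m) (hTf n)] at h2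
    exact FP.cancel (hT1 n p hp) (hT1 m p hp) (ne_top_of_le_ne_top (hfin p hp).2.2 (hT2 m p))
      (hineq n m p) h2
  set A : ℕ → PF := fun N q => ⨆ n, ⨆ m, dd (f (N + n) q) (f (N + m) q) with hA
  have hAm : ∀ N, Measurable (A N) := fun N =>
    Measurable.iSup fun n => Measurable.iSup fun m => hd _ _
  have hAle : ∀ N n m q, dd (f (N + n) q) (f (N + m) q) ≤ A N q := fun N n m q =>
    le_iSup₂ (f := fun n m => dd (f (N + n) q) (f (N + m) q)) n m
  have hanti : Antitone A := antitone_nat_of_succ_le fun N q => iSup₂_le fun n m => by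
    have := hAle N (1 + n) (1 + m) q
    rwa [← add_assoc, ← add_assoc] at this
  have hAC : ∀ N q, A N q ≤ C * G q := fun N q => iSup₂_le fun n m => hfG _ _ q
  have hIm : Measurable fun q => ⨅ N, A N q := Measurable.iInf hAm
  have h3 : ∀ p, G p ≠ ⊤ → ⨅ N, A N p ≤
      E (fun q => ⨅ N, A N q) p + T (E fun q => ⨅ N, A N q) p := by
    intro p hp
    have h4 := hM.iInf A hAm hanti p (ne_top_of_le_ne_top
      (ENNReal.mul_ne_top hC (ENNReal.mul_ne_top (by simp) hp))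
      ((FP.bound hM hK hG hGf (hAm 0) (fun q _ => hAC 0 q) p).trans (mul_le_mul_right (hc p) _)))
    rw [h4]
    obtain ⟨l, hl⟩ := hweak p hp
    have hl' : l ≠ ⊤ := ne_top_of_le_ne_top (hfin p hp).2.2 (le_of_tendsto' hl fun n => hT2 n p)
    refine FP.le_of_half (c := 3) (by simp) fun k => ?_
    have hε : (0 : ℝ≥0∞) < 2⁻¹ ^ k := ENNReal.pow_pos (by simp) k
    obtain ⟨N₀, hN₀⟩ := eventually_atTop.1 (((ENNReal.tendsto_nhds hl').1 hl _ hε).and
      ((ENNReal.tendsto_nhds_zero.1 (hσ0 p hp)) _ hε))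
    rw [ENNReal.iInf_add]
    refine le_iInf fun N => (iInf_le _ (N₀ + N)).trans (iSup₂_le fun n m => ?_)
    have h5 : ∀ n m, f (N₀ + N + n) p ≤ f (N₀ + N + m) p +
        (E (A N) p + T (E (A N)) p + 3 * 2⁻¹ ^ k) := by
      intro n m
      obtain ⟨a1, a2⟩ := hN₀ (N₀ + N + n) (by omega)
      obtain ⟨a3, -⟩ := hN₀ (N₀ + N + m) (by omega)
      have b1 : dd (T (T (f (N₀ + N + n))) p) l ≤ 2⁻¹ ^ k :=
        dd_le_iff.2 ⟨a1.2, tsub_le_iff_right.1 a1.1⟩
      have b2 : dd l (T (T (f (N₀ + N + m))) p) ≤ 2⁻¹ ^ k :=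
        dd_le_iff.2 ⟨tsub_le_iff_right.1 a3.1, a3.2⟩
      have b3 := hM.mono _ _ (hd (N₀ + N + n) (N₀ + N + m)) (hAm N)
        (fun q => (hAle (N₀ + N) n m q).trans (hanti (Nat.le_add_left N N₀) q)) p
      refine (h1 _ _ p hp).trans (add_le_add_right ?_ _)
      refine (add_le_add (add_le_add ((dd_triangle _ l _).trans (add_le_add b1 b2)) b3) a2).trans_eq
        ?_
      ring
    exact dd_le_iff.2 ⟨h5 n m, h5 m n⟩
  intro p hp
  have h6 : ⨅ N, A N p ≤ 0 := by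
    refine FP.le_of_half (c := 2 * G p) (ENNReal.mul_ne_top ENNReal.ofNat_ne_top hp) fun k => ?_
    refine (le_of_contr hM hK hG hGf hc hIm (B := 2⁻¹ ^ k) hC
      (fun q => (iInf_le _ 0).trans (hAC 0 q)) (fun q => ?_) p).trans_eq (by ring)
    by_cases hq : G q = ⊤
    · rw [hq, ENNReal.mul_top (ENNReal.pow_pos (by simp) k).ne', top_add]
      exact le_top
    · exact (h3 q hq).trans le_add_self
  have h7 := tendsto_atTop_iInf (f := fun N => A N p) fun a b hab => hanti hab p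
  rw [le_antisymm h6 zero_le] at h7
  refine tendsto_of_tendsto_of_tendsto_of_le_of_le tendsto_const_nhds h7 (fun _ => zero_le)
    fun n => ?_
  rw [dd_comm]
  exact FP.dd_liminf (u := fun k => f k p) (N := n) fun j => hAle n j 0 p

end
end Crest.Agent.R68
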