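import Crest.Agent.R68.OpsB
import Crest.Agent.R68.FixedPt

/-! # Row 68: the stability operator and the base solution (auxiliary file of `Base`) -/

set_option autoImplicit false
open MeasureTheory Set Filter Topology
open scoped ENNReal NNReal
open Crest.AnalysisR.VecCalc3 Crest.AnalysisR.PDE.Boltzmann

namespace Crest.Agent.R68
noncomputable section
namespace BaseB

theorem Maj_F0 (P : Par) (E β : PF) (q : Ph) :
    Maj 0 E (F0 P) β q = c0 P q + Maj 0 E (g0 P) β q := by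
  unfold Maj F0
  rw [c0_fl, add_assoc]

theorem npw_jb (v : R3) : npw (jb v) (1 / 2) ≤ 1 :=
  ENNReal.rpow_le_one_of_one_le_of_neg
    (ENNReal.one_le_ofReal.2 (by unfold jb; linarith [norm_nonneg v])) (by norm_num)

theorem wY_zero (P : Par) : wY P (omF P 0) = fun q => 2 * wY P (wbF P) q := by
  funext q
  unfold wY omF
  rw [zero_mul, add_zero, mul_assoc]

theorem core (η : ℝ≥0∞) (hη : 0 < η) : ∀ᶠ P in parF, ∀ b : ℝ≥0∞, b ≤ 1 → ∀ p : Ph,
    p.1 ∈ Icc 0 P.t0 →
    Ia 0 (fun q => 2 * QF (env P b) (Gh P b) q + Maj 0 (env P b) (F0 P) 0 q * LF (Gh P b) q) p ≤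
      TT P (wY P (omF P b)) p + 2 * η * Gh P b p := by
  obtain ⟨K, hK, h2⟩ := Maj_g0_two
  filter_upwards [ev_basic, h2, loss_small K hK η hη, Rest_small η hη, Lam_cold η hη]
    with P hP h2 h3 h4 h5 b hb p hp
  have m1 : Measurable fun s => 2 * QF (c0 P) (wY P (omF P b)) (fl p s) :=
    (((posOp_QF (measurable_c0 P)).meas _ (measurable_wY P (measurable_omF P b))).comp
      (PosA.measurable_fl' p)).const_mul _
  have m2 : Measurable fun s => Rest P b (fl p s) :=
    (measurable_Rest P b).comp (PosA.measurable_fl' p)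
  have m3 : Measurable fun s => LF (env P b) (fl p s) :=
    (posOp_LF.meas _ (measurable_env P b)).comp (PosA.measurable_fl' p)
  have h6 : c0 P p * Lam (env P b) p 0 ≤ η * (ENNReal.ofReal √p.1 * c0 P p) := by
    by_cases hc : c0 P p = 0
    · simp [hc]
    · exact (mul_le_mul_right (h5 b hb p hp hc) _).trans_eq (by ring)
  calc _ ≤ ∫⁻ s in Ioo 0 p.1, 2 * QF (c0 P) (wY P (omF P b)) (fl p s) + (Rest P b (fl p s) +
        (c0 P p * LF (env P b) (fl p s) +
          (ZZ P p + K * (omF P b (lst (fl p s)) * Ga (aT P.k3 s) p.2.2) * Sg p) *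
            LF (Gh P b) (fl p s))) := by
        refine setLIntegral_mono' measurableSet_Ioo fun s hs => ?_
        beta_reduce
        rw [QF_env_Gh, Maj_F0, c0_fl, add_mul, add_assoc]
        have h7 : LF (Gh P b) (fl p s) ≤ LF (env P b) (fl p s) :=
          lintegral_mono fun vs => lintegral_mono fun w => mul_le_mul_right
            (Gh_le_env hP b (p := (s, (fl p s).2.1, vs)) ⟨hs.1.le, hs.2.le.trans hp.2⟩) _
        have h8 := h2 b hb p hp s ⟨hs.1.le, hs.2.le⟩
        gcongr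
    _ = TT P (wY P (omF P b)) p + (Ia 0 (Rest P b) p + (c0 P p * Lam (env P b) p 0 +
        ∫⁻ s in Ioo 0 p.1, (ZZ P p + K * (omF P b (lst (fl p s)) * Ga (aT P.k3 s) p.2.2) * Sg p) *
            LF (Gh P b) (fl p s))) := by
        rw [lintegral_add_left m1, lintegral_add_left m2, lintegral_add_left (m3.const_mul _),
          lintegral_const_mul _ m3]
        rfl
    _ ≤ TT P (wY P (omF P b)) p + (η * Gh P b p + η * Gh P b p) := by
        refine add_le_add_right (add_le_add ((h4 b hb p hp).trans (mul_le_mul_right ?_ _))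
          ((add_le_add h6 (h3 b hb p hp)).trans_eq ?_)) _
        · unfold Gh
          rw [add_assoc]
          exact le_add_self
        · unfold Gh
          ring
    _ = _ := by ring

theorem bound : ∃ K : ℝ≥0∞, K ≠ ⊤ ∧ ∀ᶠ P in parF, ∀ b : ℝ≥0∞, b ≤ 1 → ∀ p : Ph,
    p.1 ∈ Icc 0 P.t0 →
    Ia 0 (fun q => 2 * QF (env P b) (Gh P b) q + Maj 0 (env P b) (F0 P) 0 q * LF (Gh P b) q) p ≤
      K * Gh P b p := by
  obtain ⟨K, hK, h⟩ := TT_om
  refine ⟨K * 1 + 2 * 1, by finiteness, ?_⟩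
  filter_upwards [h, core 1 one_pos] with P h1 h2 b hb p hp
  rw [add_mul]
  exact (h2 b hb p hp).trans (add_le_add_left ((h1 b p hp).trans
    (mul_le_mul' (mul_le_mul_right (npw_jb _) _) le_add_self)) _)

theorem contr : ∀ᶠ P in parF, ∀ p : Ph, p.1 ∈ Icc 0 P.t0 →
    Ia 0 (fun q => 2 * QF (env P 0) (Gh P 0) q + Maj 0 (env P 0) (F0 P) 0 q * LF (Gh P 0) q) p ≤
      2⁻¹ * Gh P 0 p := by
  have hη : (0 : ℝ≥0∞) < 2⁻¹ * 3⁻¹ := ENNReal.mul_pos (by simp) (by simp)
  filter_upwards [TT_wb _ hη, core _ hη] with P h1 h2 p hp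
  refine (h2 0 zero_le p hp).trans ?_
  have h3 : TT P (wY P (omF P 0)) p ≤ 2⁻¹ * 3⁻¹ * Gh P 0 p := by
    rw [wY_zero, (posOp_TT P).smul 2 _ (measurable_wY P (measurable_wbF P))]
    calc 2 * TT P (wY P (wbF P)) p ≤ 2 * (2⁻¹ * 3⁻¹ * 1 * wY P (wbF P) p) :=
          mul_le_mul_right ((h1 p hp).trans (mul_le_mul_left (mul_le_mul_right (npw_jb _) _) _)) _
      _ = 2⁻¹ * 3⁻¹ * wY P (omF P 0) p := by rw [wY_zero]; ring
      _ ≤ _ := mul_le_mul_right le_add_self _
  calc _ ≤ 2⁻¹ * 3⁻¹ * Gh P 0 p + 2 * (2⁻¹ * 3⁻¹) * Gh P 0 p := add_le_add_left h3 _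
    _ = 2⁻¹ * (3 * 3⁻¹) * Gh P 0 p := by ring
    _ = _ := by rw [ENNReal.mul_inv_cancel (by norm_num) (by simp), mul_one]

theorem cut_le (P : Par) (f : PF) : cut P f ≤ f := fun p => by
  unfold cut
  split_ifs
  exacts [le_rfl, zero_le]

theorem base (h0 : ∃ K : ℝ≥0∞, K ≠ ⊤ ∧ ∀ᶠ P in parF, ∀ b : ℝ≥0∞, b ≤ 1 → ∀ f β : PF,
    Measurable β → f ≤ env P b → ∀ p : Ph, p.1 ∈ Icc 0 P.t0 →
    dd (Duh 0 f (F0 P) β p) (c0 P p) ≤ K * Gh P b p + Ia 0 β p) :
    ∀ᶠ P in parF, ∃ F : PF, ESol P 0 0 F := by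
  obtain ⟨K, hK, h0⟩ := h0
  obtain ⟨K', -, h1⟩ := Maj_g0
  filter_upwards [h0, h1, contr] with P h0 h1 h2
  have hE := measurable_env P 0
  have hz : Measurable (0 : PF) := measurable_zero
  have hMaj := measurable_Maj hE (measurable_F0 P) hz 0
  have hT : PosOp fun d : PF =>
      Ia 0 fun q => 2 * QF (env P 0) d q + Maj 0 (env P 0) (F0 P) 0 q * LF d q :=
    (posOp_Ia 0).comp (((posOp_QF hE).mul (w := fun _ => 2) measurable_const).plus
      (posOp_LF.mul hMaj))
  have hTK : KillsNull fun d : PF =>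
      Ia 0 fun q => 2 * QF (env P 0) d q + Maj 0 (env P 0) (F0 P) 0 q * LF d q :=
    KillsNull.comp (posOp_Ia 0) (((killsNull_QF hE).mul fun _ => 2).plus (killsNull_LF.mul _))
  have hw : Measurable (cut P fun _ => 1) := measurable_cut P measurable_const
  have hin : ∀ (f : PF) {p : Ph}, p.1 ∈ Icc 0 P.t0 → cut P f p = f p := fun _ _ hp => if_pos hp
  have hout : ∀ (f : PF) {p : Ph}, p.1 ∉ Icc 0 P.t0 → cut P f p = 0 := fun _ _ hp => if_neg hp
  obtain ⟨F, hFm, hFp, hF⟩ := fixed_point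
    (fun f => cut P (Duh 0 (fun q => min (f q) (env P 0 q)) (F0 P) 0))
    (fun f hf => measurable_cut P (measurable_Duh (hf.min hE) (measurable_F0 P) hz 0))
    (fun f hf => per_cut P (Per.Duh (fun t x v m => by
      simp only [hf t x v m, per_env P 0 t x v m]) (per_F0 P) (fun _ _ _ _ => rfl) 0))
    (hT.mul hw) (hTK.mul _) (fun f g hf hg p => by
      by_cases hp : p.1 ∈ Icc 0 P.t0
      · rw [hin _ hp, hin _ hp, hin _ hp, one_mul]
        refine (dd_Duh_le (hf.min hE) (hg.min hE) hE (measurable_F0 P) hz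
          (fun q => min_le_right _ _) (fun q => min_le_right _ _) p).trans ?_
        exact hT.mono _ _ (FP.measurable_ddF (hf.min hE) (hg.min hE)) (FP.measurable_ddF hf hg)
          (fun q => (dd_min_le _ _ _).trans (min_le_left _ _)) p
      · rw [hout _ hp, hout _ hp, dd_self]
        exact zero_le)
    (G := cut P (Gh P 0)) (measurable_cut P (measurable_Gh P 0))
    (fun s z => (finSec_Gh P ENNReal.zero_ne_top s z).mono fun η hη =>
      ne_top_of_le_ne_top hη (cut_le P _ _))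
    (fun p => by
      by_cases hp : p.1 ∈ Icc 0 P.t0
      · rw [hin _ hp, hin _ hp, one_mul]
        exact (hT.mono _ _ (measurable_cut P (measurable_Gh P 0)) (measurable_Gh P 0)
          (cut_le P _) p).trans (h2 p hp)
      · rw [hout _ hp, zero_mul]
        exact zero_le)
    (f₀ := cut P (c0 P)) (measurable_cut P (measurable_c0 P)) (per_cut P (per_c0 P)) hK
    (fun p => by
      by_cases hp : p.1 ∈ Icc 0 P.t0
      · rw [hin _ hp, hin _ hp, hin _ hp]
        refine (h0 0 zero_le _ 0 hz (fun q => min_le_right _ _) p hp).trans_eq ?_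
        simp [Ia]
      · rw [hout _ hp, hout _ hp, dd_self]
        exact zero_le)
  have hF' : ∀ p, F p = cut P (Duh 0 (fun q => min (F q) (env P 0 q)) (F0 P) 0) p :=
    fun p => (congrFun hF p).symm
  have n1 : (1 / 4 : ℝ≥0∞) ≤ 3 / 4 := ENNReal.div_le_div_right (by norm_num) _
  have n2 : (6 / 5 : ℝ≥0∞) ≤ 3 / 2 :=
    (ENNReal.toReal_le_toReal (by finiteness) (by finiteness)).1 (by simp; norm_num)
  have n3 : (3 / 4 : ℝ≥0∞) ≤ 1 := ENNReal.div_le_of_le_mul (by norm_num)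
  have n4 : (3 / 2 : ℝ≥0∞) ≤ 2 := ENNReal.div_le_of_le_mul (by norm_num)
  have hM : ∀ p : Ph, p.1 ∈ Icc 0 P.t0 →
      Maj 0 (env P 0) (g0 P) 0 p ≤ 3 / 4 * ZZ P p + 3 / 2 * wY P (wbF P) p := fun p hp => by
    refine (h1 0 zero_le p hp).trans ?_
    rw [mul_zero, zero_mul, add_zero]
    gcongr
  have hle : F ≤ env P 0 := fun p => by
    rw [hF']
    by_cases hp : p.1 ∈ Icc 0 P.t0
    · rw [hin _ hp]
      refine (Duh_le_Maj (fun q => min_le_right _ _) p).trans ?_
      rw [Maj_F0, env, wY_zero, add_assoc]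
      exact add_le_add_right ((hM p hp).trans
        (add_le_add (mul_le_of_le_one_left' n3) (mul_le_mul_left n4 _))) _
    · rw [hout _ hp]
      exact zero_le
  have hmin : (fun q => min (F q) (env P 0 q)) = F := funext fun q => min_eq_left (hle q)
  rw [hmin] at hF'
  exact ⟨F, hFm, hFp, fun p hp => by rw [hF', hout _ hp], fun p hp => (hF' p).trans (hin _ hp),
    fun p hp => ((Duh_le_Maj hle p).trans (hM p hp)).trans le_self_add⟩

end BaseB
end
end Crest.Agent.R68
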