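import Crest.Agent.R68.OpsB
import Crest.Agent.R68.FixedPt
import Crest.Agent.R68.BaseB

/-! # Row 68: the base solution -/

set_option autoImplicit false
open MeasureTheory Set Filter Topology
open scoped ENNReal NNReal
open Crest.AnalysisR.VecCalc3 Crest.AnalysisR.PDE.Boltzmann

namespace Crest.Agent.R68
noncomputable section

section
variable {P : Par} {b : ℝ≥0∞} {β F : PF}

/-- `Duh_add_datum`, `c0_fl` -/
theorem ESol.split (h : ESol P b β F) {p : Ph} (hp : p.1 ∈ Icc 0 P.t0) :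
    F p = c0 P p * ex (Lam F p 0) + gp P β F p := by
  have e := Duh_add_datum (a := 0) F (c0 P) (g0 P) β p
  rw [c0_fl] at e
  exact (h.eq p hp).trans e

theorem ESol.gp_le (h : ESol P b β F) {p : Ph} (hp : p.1 ∈ Icc 0 P.t0) :
    gp P β F p ≤ ZZ P p + wY P (omF P b) p := by
  refine (h.bd p hp).trans ?_
  have h1 : (3 / 4 : ℝ≥0∞) ≤ 1 := ENNReal.div_le_of_le_mul (by norm_num)
  have h2 : (3 / 2 : ℝ≥0∞) ≤ 2 := ENNReal.div_le_of_le_mul (by norm_num)
  have h3 : b / 4 ≤ b := ENNReal.div_le_of_le_mul (le_mul_of_one_le_right' (by norm_num))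
  calc _ ≤ 1 * ZZ P p + 2 * wY P (wbF P) p + b * wY P (wnF P) p := by gcongr
    _ = _ := by
      unfold wY omF
      ring

theorem ESol.le_env (h : ESol P b β F) : F ≤ env P b := by
  intro p
  by_cases hp : p.1 ∈ Icc 0 P.t0
  · rw [h.split hp]
    exact (add_le_add (mul_le_of_le_one_right' (ex_le_one _)) (h.gp_le hp)).trans_eq
      (add_assoc _ _ _).symm
  · rw [h.zero p hp]
    exact zero_le

theorem ESol.le_cut_env (h : ESol P b β F) : F ≤ cut P (env P b) := by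
  intro p
  by_cases hp : p.1 ∈ Icc 0 P.t0
  · exact (h.le_env p).trans_eq (if_pos hp).symm
  · rw [h.zero p hp]
    exact zero_le

theorem ESol.at_zero (h : ESol P b β F) (h0 : 0 ≤ P.t0) (x v : R3) : F (0, x, v) = F0 P (0, x, v) := by
  rw [h.eq (0, x, v) ⟨le_rfl, h0⟩]
  simp [Duh, Lam, F0_fl, ex_zero]

theorem ESol.mild (h : ESol P b β F) (h0 : 0 ≤ P.t0) : Mild F β 0 P.t0 := by
  intro p hp
  refine (h.eq p hp).trans (Duh_congr p (fun _ _ => rfl) (fun q hq => ?_) fun _ _ => rfl)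
  obtain ⟨t, x, v⟩ := q
  obtain rfl : t = 0 := hq
  exact (h.at_zero h0 x v).symm

theorem ESol.mono (h : ESol P b β F) {b' : ℝ≥0∞} (hb : b ≤ b') : ESol P b' β F := by
  refine ⟨h.meas, h.per, h.zero, h.eq, fun p hp => (h.bd p hp).trans ?_⟩
  gcongr

theorem ESol.measurable_gp (h : ESol P b β F) (hβ : Measurable β) : Measurable (gp P β F) := by
  exact measurable_Duh h.meas (measurable_g0 P) hβ 0

theorem ESol.per_gp (h : ESol P b β F) (hβ : Per β) : Per (gp P β F) := by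
  exact Per.Duh h.per (per_g0 P) hβ 0

theorem env_mono (P : Par) {b b' : ℝ≥0∞} (hb : b ≤ b') : env P b ≤ env P b' := by
  intro p
  unfold env wY omF
  gcongr

end

theorem base_c0_le {P : Par} {b : ℝ≥0∞} {f : PF} {p : Ph}
    (h1 : ∀ b : ℝ≥0∞, b ≤ 1 → ∀ p : Ph, p.1 ∈ Icc 0 P.t0 → c0 P p ≠ 0 →
      Lam (env P b) p 0 ≤ 1 * ENNReal.ofReal √p.1)
    (hb : b ≤ 1) (hf : f ≤ env P b) (hp : p.1 ∈ Icc 0 P.t0) :
    c0 P p ≤ c0 P p * ex (Lam f p 0) + ENNReal.ofReal √p.1 * c0 P p := by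
  by_cases hc : c0 P p = 0
  · simp [hc]
  have h2 : Lam f p 0 ≤ ENNReal.ofReal √p.1 :=
    (lintegral_mono fun τ => LF_mono hf (fl p τ)).trans ((h1 b hb p hp hc).trans_eq (one_mul _))
  calc c0 P p ≤ c0 P p * (ex (Lam f p 0) + Lam f p 0) := le_mul_of_one_le_right' (one_le_ex_add _)
    _ ≤ _ := by
      rw [mul_add, mul_comm (ENNReal.ofReal _)]
      exact add_le_add le_rfl (mul_le_mul_right h2 _)

/-- `c0 ≤ c0 ex Λ + c0 Λ` (`one_le_ex_add`), `Lam_cold` -/
theorem ev_dd_c0 : ∀ᶠ P in parF, ∀ b : ℝ≥0∞, b ≤ 1 → ∀ β F : PF, ESol P b β F →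
    ddF F (cut P (c0 P)) ≤ cut P (Gh P b) := by
  filter_upwards [Lam_cold 1 one_pos] with P h1 b hb β F h p
  by_cases hp : p.1 ∈ Icc 0 P.t0
  · simp only [ddF, cut, if_pos hp]
    refine dd_le_iff.2 ⟨(h.le_env p).trans ?_, ?_⟩
    · unfold env Gh
      rw [add_assoc, add_assoc]
      exact add_le_add le_rfl le_add_self
    · refine (base_c0_le h1 hb h.le_env hp).trans (add_le_add ?_ ?_)
      · rw [h.split hp]
        exact le_self_add
      · unfold Gh
        rw [add_assoc]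
        exact le_self_add
  · simp [ddF, cut, hp, h.zero p hp, dd_self]

/-- the same for the Duhamel map of any partner below the envelope -/
theorem ev_dd_Duh_c0 : ∃ K : ℝ≥0∞, K ≠ ⊤ ∧ ∀ᶠ P in parF, ∀ b : ℝ≥0∞, b ≤ 1 → ∀ f β : PF,
    Measurable β → f ≤ env P b → ∀ p : Ph, p.1 ∈ Icc 0 P.t0 →
    dd (Duh 0 f (F0 P) β p) (c0 P p) ≤ K * Gh P b p + Ia 0 β p := by
  obtain ⟨K, hK, hM⟩ := Maj_g0
  refine ⟨2 + K, by finiteness, ?_⟩
  filter_upwards [Lam_cold 1 one_pos, hM] with P h1 hM b hb f β hβ hf p hp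
  have e : Duh 0 f (F0 P) β p = c0 P p * ex (Lam f p 0) + Duh 0 f (g0 P) β p := by
    have e := Duh_add_datum (a := 0) f (c0 P) (g0 P) β p
    rw [c0_fl] at e
    exact e
  have e2 : Maj 0 (env P b) (g0 P) β p = Maj 0 (env P b) (g0 P) 0 p + Ia 0 β p := by
    unfold Maj Ia
    rw [lintegral_add_right (g := fun s => β (fl p s)) _ (hβ.comp (PosA.measurable_fl' p)),
      add_assoc]
    simp
  have h2 : (1 / 4 : ℝ≥0∞) ≤ 2 + K :=
    le_add_right (ENNReal.div_le_of_le_mul (by norm_num))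
  have h3 : (6 / 5 : ℝ≥0∞) ≤ (2 + K) * 2 :=
    (ENNReal.div_le_of_le_mul (by norm_num) : (6 / 5 : ℝ≥0∞) ≤ 2 * 2).trans
      (mul_le_mul_left le_self_add _)
  have h4 : Duh 0 f (g0 P) β p ≤ (2 + K) * Gh P b p + Ia 0 β p := by
    refine (Duh_le_Maj hf p).trans (e2.trans_le (add_le_add ((hM b hb p hp).trans ?_) le_rfl))
    calc _ ≤ (2 + K) * ZZ P p + (2 + K) * 2 * wY P (wbF P) p + (2 + K) * b * wY P (wnF P) p := by
          gcongr
          exact le_add_self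
      _ = (2 + K) * (ZZ P p + wY P (omF P b) p) := by
          unfold wY omF
          ring
      _ ≤ _ := by
          unfold Gh
          rw [add_assoc (ENNReal.ofReal _ * _)]
          exact mul_le_mul_right le_add_self _
  rw [e]
  refine dd_le_iff.2 ⟨add_le_add (mul_le_of_le_one_right' (ex_le_one _)) h4, ?_⟩
  refine (base_c0_le h1 hb hf hp).trans (add_le_add le_self_add (le_add_right ?_))
  refine le_trans ?_ (le_mul_of_one_le_left' (le_add_right one_le_two))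
  unfold Gh
  rw [add_assoc]
  exact le_self_add

/-- the stability operator `d ↦ ∫ 2 QF env d + Maj · LF d` is bounded on `Gh`; for `b = 0` it
contracts (`QF_env_Gh`, `Rest_small`, `TT_wb`/`TT_om`, `Maj = c0 + Maj g0`, `Lam_cold`, `Maj_g0_two`,
`loss_small`). -/
theorem stab_bound : ∃ K : ℝ≥0∞, K ≠ ⊤ ∧ ∀ᶠ P in parF, ∀ b : ℝ≥0∞, b ≤ 1 → ∀ p : Ph,
    p.1 ∈ Icc 0 P.t0 →
    Ia 0 (fun q => 2 * QF (env P b) (Gh P b) q + Maj 0 (env P b) (F0 P) 0 q * LF (Gh P b) q) p ≤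
      K * Gh P b p := by
  exact BaseB.bound

theorem stab_contr : ∀ᶠ P in parF, ∀ p : Ph, p.1 ∈ Icc 0 P.t0 →
    Ia 0 (fun q => 2 * QF (env P 0) (Gh P 0) q + Maj 0 (env P 0) (F0 P) 0 q * LF (Gh P 0) q) p ≤
      2⁻¹ * Gh P 0 p := by
  exact BaseB.contr

/-- `fixed_point` with `Φ f = cut (Duh 0 (f ⊓ env 0) F0 0)`,
`M d = cut (Ia 0 (2 QF env d + Maj · LF d))`, `G = cut (Gh 0)`, `f₀ = cut c0` (`dd_Duh_le`, `dd_min_le`,
`ev_dd_Duh_c0`, `stab_contr`).  The fixed point satisfies `F ≤ c0 + Maj g0 ≤ env 0` (`Maj_g0`), so the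
clamp is inactive (`Duh_congr`). -/
theorem ev_base : ∀ᶠ P in parF, ∃ F : PF, ESol P 0 0 F := by
  exact BaseB.base ev_dd_Duh_c0

theorem moment_env : ∃ K : ℝ≥0∞, K ≠ ⊤ ∧ ∀ᶠ P in parF, ∀ b : ℝ≥0∞, b ≤ 1 → ∀ q : Ph,
    q.1 ∈ Ioc 0 P.t0 →
    ∫⁻ η, ENNReal.ofReal (jb η) * sec (env P b) q η ≤ K * npw (ell q) 1 := by
  obtain ⟨K, hK, h⟩ := moment_GS 1
  refine ⟨3 * ENNReal.ofReal cK2 + (3 * (1 * 8) + 3 * (K * 8)) * ENNReal.ofReal 9,
    by finiteness, ?_⟩
  filter_upwards [ev_basic, ev_omF_le, mass_ZZ 1 one_pos] with P hP h1 h2 b hb q hq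
  have h3 : q.1 ≤ 1 := by linarith [hq.2, hP.t0_le]
  have h4 := ob1_cube hq.1.le h3
  have h5 : 0 < ell q := add_pos_of_pos_of_nonneg (by linarith [hq.1]) (tn_nonneg _)
  have h6 : ell q ≤ 9 := by
    unfold ell
    linarith [tn_le_one q.2.1]
  have h7 := SrcA.one_le_npw (by norm_num) h6
  have h8 := h1 b hb _ ⟨lst_nonneg hq.1.le, lst_le_two ⟨hq.1.le, h3⟩⟩
  have m1 := measurable_sec (measurable_c0 P) q
  have m2 := measurable_sec (measurable_ZZ P) q
  calc _ ≤ ∫⁻ η, 3 * sec (c0 P) q η + (3 * sec (ZZ P) q η +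
        3 * (ENNReal.ofReal (jb η ^ 1) * sec (GS (aT P.k3 q.1)) q η)) := by
        refine lintegral_mono fun η => ?_
        have e : sec (env P b) q η = sec (c0 P) q η + (sec (ZZ P) q η +
            omF P b (lst q) * sec (GS (aT P.k3 q.1)) q η) := add_assoc _ _ _
        rw [e, mul_add, mul_add, pow_one, mul_left_comm]
        refine add_le_add ?_ (add_le_add ?_ (mul_le_mul_left h8 _))
        · by_cases hc : sec (c0 P) q η = 0
          · simp [hc]
          · exact mul_le_mul_left (ob1_jb (supp_c0 hP (p := (q.1, q.2.1, η)) hc).1) _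
        · by_cases hc : sec (ZZ P) q η = 0
          · simp [hc]
          · exact mul_le_mul_left (ob1_jb (supp_ZZ hP (p := (q.1, q.2.1, η)) hq.1.le hc).1) _
    _ ≤ 3 * ENNReal.ofReal (cK2 / ell q) + (3 * (1 * 8) + 3 * (K * 8)) := by
        rw [lintegral_add_left (m1.const_mul _), lintegral_add_left (m2.const_mul _),
          lintegral_const_mul _ m1, lintegral_const_mul _ m2,
          lintegral_const_mul' _ _ (by norm_num)]
        refine add_le_add (mul_le_mul_right (mass_c0 hP q ⟨hq.1, ?_⟩) _) (add_le_add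
          (mul_le_mul_right ((h2 q hq.1.le).trans (mul_le_mul_right h4 _)) _)
          (mul_le_mul_right ((h q hq.1.le _ ?_).trans (mul_le_mul_right h4 _)) _))
        · linarith [hq.2, hP.t0_le]
        · linarith [(aT_mem hP ⟨hq.1.le, hq.2⟩).1]
    _ ≤ _ := by
        rw [add_mul, mul_assoc _ (ENNReal.ofReal 9), mul_assoc 3, SrcA.npw_one_eq h5,
          ← ENNReal.ofReal_mul (by unfold cK2; positivity), ← div_eq_mul_inv,
          ← SrcA.npw_one_eq h5]
        exact add_le_add le_rfl (le_mul_of_one_le_right' h7)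

end
end Crest.Agent.R68
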