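import Crest.Agent.R68.Ball

/-! # Row 68: auxiliary lemmas for the bilinear estimates (part 1) -/

set_option autoImplicit false
open MeasureTheory Set Filter Topology
open scoped ENNReal NNReal
open Crest.AnalysisR.VecCalc3 Crest.AnalysisR.PDE.Boltzmann

namespace Crest.Agent.R68.BilA
noncomputable section

theorem npw_def (x γ : ℝ) : npw x γ = ENNReal.ofReal x ^ (-γ) := rfl

theorem measurable_npw {α : Type*} [MeasurableSpace α] {g : α → ℝ} (hg : Measurable g) (γ : ℝ) :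
    Measurable fun a => npw (g a) γ :=
  (ENNReal.measurable_ofReal.comp hg).pow_const _

theorem npw_anti {x y γ : ℝ} (hγ : 0 ≤ γ) (h : x ≤ y) : npw y γ ≤ npw x γ := by
  rw [npw_def, npw_def, ENNReal.rpow_neg, ENNReal.rpow_neg]
  exact ENNReal.inv_le_inv.2 (ENNReal.rpow_le_rpow (ENNReal.ofReal_le_ofReal h) hγ)

theorem npw_one (γ : ℝ) : npw 1 γ = 1 := by
  rw [npw_def, ENNReal.ofReal_one, ENNReal.one_rpow]

theorem npw_rpow (x γ θ : ℝ) : npw x γ ^ θ = npw x (γ * θ) := by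
  rw [npw_def, npw_def, ← ENNReal.rpow_mul, neg_mul]

theorem npw_le_ite (x : ℝ) {γ : ℝ} (hγ : 0 ≤ γ) :
    npw x γ ≤ 1 + if x ≤ 1 then npw x γ else 0 := by
  split_ifs with h
  · exact le_add_self
  · rw [add_zero, ← npw_one γ]; exact npw_anti hγ (not_le.1 h).le

theorem young3 (X Y Z : ℝ≥0∞) {α β γ : ℝ} (hα : 0 ≤ α) (hβ : 0 ≤ β) (hγ : 0 ≤ γ)
    (h : α + β + γ = 1) : X ^ α * Y ^ β * Z ^ γ ≤ X + Y + Z := by
  calc X ^ α * Y ^ β * Z ^ γ ≤ (X + Y + Z) ^ α * (X + Y + Z) ^ β * (X + Y + Z) ^ γ := by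
        refine mul_le_mul' (mul_le_mul' ?_ ?_) ?_
        · exact ENNReal.rpow_le_rpow (le_self_add.trans le_self_add) hα
        · exact ENNReal.rpow_le_rpow (le_add_self.trans le_self_add) hβ
        · exact ENNReal.rpow_le_rpow le_add_self hγ
    _ = X + Y + Z := by
        rw [← ENNReal.rpow_add_of_nonneg _ _ hα hβ,
          ← ENNReal.rpow_add_of_nonneg _ _ (add_nonneg hα hβ) hγ, h, ENNReal.rpow_one]

theorem young2 (X Y : ℝ≥0∞) {α β : ℝ} (hα : 0 ≤ α) (hβ : 0 ≤ β) (h : α + β = 1) :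
    X ^ α * Y ^ β ≤ X + Y := by
  have := young3 X Y 0 hα hβ le_rfl (by rw [add_zero, h])
  rwa [ENNReal.rpow_zero, mul_one, add_zero] at this

/-- the distance of `z` to the line spanned by `n` -/
def rho (n z : R3) : ℝ := ‖z - (inner ℝ n z : ℝ) • n‖

theorem rho_def (n z : R3) : rho n z = ‖z - (inner ℝ n z : ℝ) • n‖ := rfl

theorem rho_le {n : R3} (hn : ‖n‖ = 1) (z : R3) : rho n z ≤ ‖z‖ := by
  rw [rho_def]
  refine (sq_le_sq₀ (norm_nonneg _) (norm_nonneg _)).1 ?_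
  rw [norm_sub_sq_real, inner_smul_right, norm_smul, hn, mul_one, Real.norm_eq_abs, sq_abs,
    real_inner_comm n z]
  nlinarith [sq_nonneg (inner ℝ n z : ℝ)]

theorem measurable_rho (n v : R3) : Measurable fun η : R3 => rho n (η - v) := by
  refine Continuous.measurable ?_
  show Continuous fun η : R3 => ‖(η - v) - (inner ℝ n (η - v) : ℝ) • n‖
  fun_prop

/-- the kernel of the potentials -/
theorem ker_le {n : R3} (hn : ‖n‖ = 1) {z : R3} (hz : z ≠ 0) :
    npw ‖z‖ 1 * (1 + npw (sn n (dir z)) (1 / 4)) ≤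
      2 * (npw (rho n z) (1 / 4) * npw ‖z‖ (3 / 4)) := by
  have hr : 0 < ‖z‖ := norm_pos_iff.2 hz
  have h0 : ENNReal.ofReal ‖z‖ ≠ 0 := by simpa using hz
  have h1 : sn n (dir z) = rho n z / ‖z‖ := sn_dir n z hn hz
  have h2 : 1 ≤ npw (sn n (dir z)) (1 / 4) := by
    rw [← npw_one (1 / 4)]
    refine npw_anti (by norm_num) ?_
    rw [h1, div_le_one hr]
    exact rho_le hn z
  have h3 : npw ‖z‖ 1 * npw (sn n (dir z)) (1 / 4) = npw (rho n z) (1 / 4) * npw ‖z‖ (3 / 4) := by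
    rw [h1, npw_def, npw_def, npw_def, npw_def, ENNReal.ofReal_div_of_pos hr, div_eq_mul_inv,
      ENNReal.mul_rpow_of_ne_top ENNReal.ofReal_ne_top (ENNReal.inv_ne_top.2 h0),
      ENNReal.inv_rpow, ← ENNReal.rpow_neg, mul_left_comm,
      ← ENNReal.rpow_add _ _ h0 ENNReal.ofReal_ne_top]
    norm_num
  calc npw ‖z‖ 1 * (1 + npw (sn n (dir z)) (1 / 4)) ≤
        npw ‖z‖ 1 * (npw (sn n (dir z)) (1 / 4) + npw (sn n (dir z)) (1 / 4)) := by gcongr
    _ = _ := by rw [← two_mul, mul_left_comm, h3]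

theorem ker_le' {n : R3} (hn : ‖n‖ = 1) {z : R3} (hz : z ≠ 0) :
    npw ‖z‖ 1 * (1 + npw (sn n (dir z)) (1 / 4)) ≤ 2 * npw (rho n z) 1 := by
  refine (ker_le hn hz).trans ?_
  gcongr
  calc npw (rho n z) (1 / 4) * npw ‖z‖ (3 / 4) ≤ npw (rho n z) (1 / 4) * npw (rho n z) (3 / 4) := by
        gcongr
        exact npw_anti (by norm_num) (rho_le hn z)
    _ = npw (rho n z) 1 ^ (1 / 4 : ℝ) * npw (rho n z) 1 ^ (3 / 4 : ℝ) := by
        rw [npw_rpow, npw_rpow, one_mul, one_mul]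
    _ = npw (rho n z) 1 := by
        rw [← ENNReal.rpow_add_of_nonneg _ _ (by norm_num) (by norm_num)]; norm_num

theorem Ga_le_one {a : ℝ} (ha : 0 ≤ a) (v : R3) : Ga a v ≤ 1 := by
  refine ENNReal.ofReal_le_one.2 (Real.exp_le_one_iff.2 ?_)
  exact neg_nonpos.2 (by positivity)

theorem Ga_add (a b : ℝ) (v : R3) : Ga (a + b) v = Ga a v * Ga b v := by
  show ENNReal.ofReal _ = ENNReal.ofReal _ * ENNReal.ofReal _
  rw [← ENNReal.ofReal_mul (Real.exp_pos _).le, ← Real.exp_add]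
  congr 2
  ring

theorem norm_dir {p : R3} (hp : p ≠ 0) : ‖dir p‖ = 1 := by
  show ‖‖p‖⁻¹ • p‖ = 1
  rw [norm_smul, norm_inv, norm_norm, inv_mul_cancel₀ (norm_ne_zero_iff.2 hp)]

theorem inner_of_dir {p q : R3} (hp : p ≠ 0) (h : inner ℝ q (dir p) = (0 : ℝ)) :
    inner ℝ q p = (0 : ℝ) := by
  have h' : inner ℝ q (‖p‖⁻¹ • p) = (0 : ℝ) := h
  rw [inner_smul_right] at h'
  exact (mul_eq_zero.1 h').resolve_left (inv_ne_zero (norm_ne_zero_iff.2 hp))

/-- Carleman bound from a bound of the plane integrals -/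
theorem Qp_gen (v : R3) {f g : R3 → ℝ≥0∞} (hf : Measurable f) (hg : Measurable g) (a : ℝ)
    {C : ℝ≥0∞} (hC : C ≠ ⊤) (B : R3 → ℝ≥0∞)
    (hB : ∀ η, η ≠ v → Pl (dir (η - v)) (fun q => Ga a (η + q) * g (v + q)) ≤ C * B η) :
    Qp (fun η => Ga a η * f η) (fun ζ => Ga a ζ * g ζ) v ≤
      2 * C * Ga a v * ∫⁻ η, f η * npw ‖η - v‖ 1 * B η := by
  have hm : Measurable fun q : R3 × R3 => Ga a q.1 * f q.1 * (Ga a q.2 * g q.2) :=
    (((measurable_Ga a).mul hf).comp measurable_fst).mul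
      (((measurable_Ga a).mul hg).comp measurable_snd)
  have hG : Ga a v ≠ ⊤ := ENNReal.ofReal_ne_top
  refine (QH_eq_p _ hm v).le.trans ?_
  rw [mul_assoc, mul_assoc, ← mul_assoc C,
    ← lintegral_const_mul' _ _ (ENNReal.mul_ne_top hC hG),
    ← lintegral_add_left_eq_self (fun η => C * Ga a v * (f η * npw ‖η - v‖ 1 * B η)) v]
  refine mul_le_mul_right (lintegral_mono_ae ?_) _
  filter_upwards [Measure.ae_ne volume (0 : R3)] with p hp
  have hne : v + p ≠ v := by simpa using hp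
  have h1 := hB (v + p) hne
  rw [add_sub_cancel_left] at h1 ⊢
  have hm2 : Measurable fun q : R3 => Ga a (v + p + q) * g (v + q) :=
    ((measurable_Ga a).comp (measurable_const_add _)).mul (hg.comp (measurable_const_add _))
  have h2 : Pl (dir p) (fun q => Ga a (v + p) * f (v + p) * (Ga a (v + q) * g (v + q))) ≤
      Ga a v * f (v + p) * Pl (dir p) (fun q => Ga a (v + p + q) * g (v + q)) := by
    rw [← Pl_const_mul _ _ hm2]
    refine Pl_mono _ (fun q hq => le_of_eq ?_) (norm_dir hp)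
    have := Ga_plane a v (v + p) q (by rw [add_sub_cancel_left]; exact inner_of_dir hp hq)
    calc Ga a (v + p) * f (v + p) * (Ga a (v + q) * g (v + q)) =
          Ga a (v + p) * Ga a (v + q) * (f (v + p) * g (v + q)) := by ring
      _ = _ := by rw [this]; ring
  calc npw ‖p‖ 1 * Pl (dir p) (fun q => Ga a (v + p) * f (v + p) * (Ga a (v + q) * g (v + q))) ≤
        npw ‖p‖ 1 * (Ga a v * f (v + p) * (C * B (v + p))) :=
        mul_le_mul_right (h2.trans (mul_le_mul_right h1 _)) _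
    _ = _ := by ring

theorem measurable_sing (c : R3) : Measurable (sing c) := by
  refine Measurable.ite ?_ (measurable_npw (by fun_prop) _) measurable_const
  exact measurableSet_le (by fun_prop) measurable_const

theorem Pl_sum (ν : R3) (S : Finset R3) {φ : R3 → R3 → ℝ≥0∞} (hφ : ∀ c, Measurable (φ c))
    {C : ℝ≥0∞} (h : ∀ c, Pl ν (φ c) ≤ C) : Pl ν (fun q => ∑ c ∈ S, φ c q) ≤ S.card * C := by
  classical
  induction S using Finset.induction_on with
  | empty =>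
    have : Pl ν (fun _ => 0) = 0 := by
      have := Pl_const_mul ν 0 (φ := fun _ => 0) measurable_const
      simpa using this
    simp [this]
  | insert c S hc ih =>
    simp only [Finset.sum_insert hc, Finset.card_insert_of_notMem hc]
    rw [Pl_add ν (hφ c)]
    push_cast
    rw [add_mul, one_mul, add_comm]
    exact add_le_add ih (h c)

theorem Pl_gauss' {ν : R3} (hν : ‖ν‖ = 1) {a : ℝ} (ha : 0 < a) (η : R3) :
    Pl ν (fun q => Ga a (η + q)) ≤ ENNReal.ofReal (Real.pi / a) := by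
  refine (Pl_gauss ν hν a ha η).trans (ENNReal.ofReal_le_ofReal ?_)
  refine mul_le_of_le_one_right (by positivity) (Real.exp_le_one_iff.2 ?_)
  exact neg_nonpos.2 (by positivity)

theorem Pl_SgA : ∃ C : ℝ≥0∞, C ≠ ⊤ ∧ ∀ (n ν v η : R3) (S : Finset R3), ‖n‖ = 1 → ‖ν‖ = 1 →
    ∀ a ∈ Icc (1 / 16 : ℝ) 1, Pl ν (fun q => Ga a (η + q) * SgA n S (v + q)) ≤
      C * (1 + S.card) * (1 + npw (sn n ν) (1 / 4)) := by
  obtain ⟨C₁, hC₁, h₁⟩ := Pl_slab_sin
  obtain ⟨C₂, hC₂, h₂⟩ := Pl_sing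
  refine ⟨ENNReal.ofReal (16 * Real.pi) + C₁ + C₂, by finiteness, fun n ν v η S hn hν a ha => ?_⟩
  have ha0 : 0 < a := lt_of_lt_of_le (by norm_num) ha.1
  have hG : Measurable fun q : R3 => Ga a (η + q) := (measurable_Ga a).comp (measurable_const_add _)
  have e : (fun q => Ga a (η + q) * SgA n S (v + q)) = fun q => Ga a (η + q) +
      (Ga a (η + q) * npw |inner ℝ n v + inner ℝ n q| (1 / 4) +
        ∑ c ∈ S, Ga a (η + q) * sing c (v + q)) := by
    funext q
    show Ga a (η + q) * (1 + npw |inner ℝ n (v + q)| (1 / 4) + ∑ c ∈ S, sing c (v + q)) = _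
    rw [inner_add_right, mul_add, mul_add, mul_one, Finset.mul_sum, add_assoc]
  have a1 : Pl ν (fun q => Ga a (η + q)) ≤ ENNReal.ofReal (16 * Real.pi) := by
    refine (Pl_gauss' hν ha0 η).trans (ENNReal.ofReal_le_ofReal ?_)
    rw [div_le_iff₀ ha0]
    nlinarith [Real.pi_pos, ha.1]
  have a2 : Pl ν (fun q => Ga a (η + q) * npw |inner ℝ n v + inner ℝ n q| (1 / 4)) ≤
      C₁ * npw (sn n ν) (1 / 4) := by
    refine (h₁ n ν hn hν a ha (1 / 4) ⟨by norm_num, by norm_num⟩ η _).trans ?_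
    refine mul_le_mul_left (mul_le_of_le_one_right' ?_) _
    exact ENNReal.ofReal_le_one.2 (Real.exp_le_one_iff.2 (neg_nonpos.2 (by positivity)))
  have a3 : Pl ν (fun q => ∑ c ∈ S, Ga a (η + q) * sing c (v + q)) ≤ S.card * C₂ := by
    refine Pl_sum ν S (φ := fun c q => Ga a (η + q) * sing c (v + q))
      (fun c => hG.mul ((measurable_sing c).comp (measurable_const_add _))) fun c => ?_
    refine le_trans (Pl_mono ν (fun q _ => ?_) hν)
      (h₂ ν hν (c - v) (3 / 2) ⟨by norm_num, by norm_num⟩)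
    refine (mul_le_of_le_one_left' (Ga_le_one ha0.le _)).trans (le_of_eq ?_)
    show (if ‖v + q - c‖ ≤ 1 then npw ‖v + q - c‖ (3 / 2) else 0) = _
    rw [show v + q - c = q - (c - v) by abel]
  have hG2 : Measurable fun q : R3 =>
      Ga a (η + q) * npw |inner ℝ n v + inner ℝ n q| (1 / 4) :=
    hG.mul (measurable_npw (by fun_prop) _)
  rw [e, Pl_add ν hG, Pl_add ν hG2]
  refine (add_le_add a1 (add_le_add a2 a3)).trans ?_
  set x := npw (sn n ν) (1 / 4)
  set k : ℝ≥0∞ := (S.card : ℝ≥0∞)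
  set C₀ := ENNReal.ofReal (16 * Real.pi)
  calc C₀ + (C₁ * x + k * C₂) = C₀ * 1 * 1 + C₁ * 1 * x + C₂ * k * 1 := by ring
    _ ≤ C₀ * (1 + k) * (1 + x) + C₁ * (1 + k) * (1 + x) + C₂ * (1 + k) * (1 + x) := by
        gcongr <;> first | exact le_self_add | exact le_add_self
    _ = _ := by ring

theorem meas_ball (c : R3) (lam : ℝ) : MeasurableSet {η : R3 | ‖η - c‖ ≤ lam} :=
  measurableSet_le (by fun_prop) measurable_const

theorem lint_le_add {s t : Set R3} (hs : MeasurableSet s) (ht : MeasurableSet t)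
    (F : R3 → ℝ≥0∞) (h : ∀ η ∈ s, F η ≤ 1 ∨ η ∈ t) :
    ∫⁻ η in s, F η ≤ volume s + ∫⁻ η in t, F η := by
  calc ∫⁻ η in s, F η ≤ ∫⁻ η in s, (1 + t.indicator F η) := by
        refine setLIntegral_mono' hs fun η hη => ?_
        rcases h η hη with h1 | h1
        · exact h1.trans le_self_add
        · rw [indicator_of_mem h1]; exact le_add_self
    _ = volume s + ∫⁻ η in s, t.indicator F η := by
        rw [lintegral_add_left measurable_const, setLIntegral_one]
    _ ≤ volume s + ∫⁻ η, t.indicator F η := by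
        gcongr; exact Measure.restrict_le_self
    _ = _ := by rw [lintegral_indicator ht]

theorem loc_pt : ∃ C : ℝ≥0∞, C ≠ ⊤ ∧ ∀ c v : R3,
    ∫⁻ η in {η : R3 | ‖η - c‖ ≤ 1}, npw ‖η - v‖ (21 / 8) ≤ C := by
  obtain ⟨C, hC, h⟩ := lint_loc_sing
  refine ⟨ENNReal.ofReal (5 * 1 ^ 3) + C * ENNReal.ofReal ((1 : ℝ) ^ (3 - 21 / 8 : ℝ)),
    by finiteness, fun c v => ?_⟩
  refine (lint_le_add (meas_ball c 1) (meas_ball v 1) _ fun η _ => ?_).trans
    (add_le_add (vol_ball_le c 1 zero_le_one)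
      (h v (21 / 8) ⟨by norm_num, by norm_num⟩ 1 ⟨by norm_num, by norm_num⟩))
  rcases le_total ‖η - v‖ 1 with h1 | h1
  · exact Or.inr h1
  · exact Or.inl ((npw_anti (by norm_num) h1).trans (npw_one _).le)

theorem loc_line : ∃ C : ℝ≥0∞, C ≠ ⊤ ∧ ∀ n c v : R3, ‖n‖ = 1 →
    ∫⁻ η in {η : R3 | ‖η - c‖ ≤ 1}, npw (rho n (η - v)) (7 / 4) ≤ C := by
  obtain ⟨C, hC, h⟩ := lint_loc_line
  refine ⟨ENNReal.ofReal (5 * 1 ^ 3) + C * ENNReal.ofReal ((2 : ℝ) ^ (3 - 7 / 4 : ℝ)),
    by finiteness, fun n c v hn => ?_⟩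
  set c' : R3 := v + (inner ℝ n (c - v) : ℝ) • n with hc'
  have hnn : inner ℝ n n = (1 : ℝ) := by rw [real_inner_self_eq_norm_sq, hn, one_pow]
  have hin : ∀ η : R3, inner ℝ n (η - c') = (inner ℝ n (η - c) : ℝ) := fun η => by
    rw [hc']
    simp only [inner_sub_right, inner_add_right, inner_smul_right, hnn]
    ring
  have hrho : ∀ η : R3, rho n (η - v) = rho n (η - c') := fun η => by
    rw [rho_def, rho_def, hin, hc']
    congr 1
    simp only [inner_sub_right, sub_smul]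
    abel
  simp only [hrho]
  refine (lint_le_add (meas_ball c 1) (meas_ball c' 2) _ fun η hη => ?_).trans
    (add_le_add (vol_ball_le c 1 zero_le_one)
      (h n hn c' (7 / 4) ⟨by norm_num, by norm_num⟩ 2 ⟨by norm_num, by norm_num⟩))
  rcases le_total (rho n (η - c')) 1 with h1 | h1
  · refine Or.inr ?_
    have h2 : ‖(inner ℝ n (η - c') : ℝ) • n‖ ≤ 1 := by
      rw [norm_smul, hn, mul_one, hin, Real.norm_eq_abs]
      refine (abs_real_inner_le_norm _ _).trans ?_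
      rw [hn, one_mul]
      exact hη
    have h3 := norm_add_le (η - c' - (inner ℝ n (η - c') : ℝ) • n) ((inner ℝ n (η - c') : ℝ) • n)
    rw [sub_add_cancel] at h3
    rw [rho_def] at h1
    show ‖η - c'‖ ≤ 2
    linarith
  · exact Or.inl ((npw_anti (by norm_num) h1).trans (npw_one _).le)

theorem pot_sing' : ∃ C : ℝ≥0∞, C ≠ ⊤ ∧ ∀ (n v c : R3), ‖n‖ = 1 →
    ∫⁻ η, sing c η * (npw ‖η - v‖ 1 * (1 + npw (sn n (dir (η - v))) (1 / 4))) ≤ C := by
  obtain ⟨C₁, hC₁, h₁⟩ := loc_pt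
  obtain ⟨C₂, hC₂, h₂⟩ := loc_line
  refine ⟨2 * (C₂ + C₁ + C₁), by finiteness, fun n v c hn => ?_⟩
  calc ∫⁻ η, sing c η * (npw ‖η - v‖ 1 * (1 + npw (sn n (dir (η - v))) (1 / 4))) ≤
        ∫⁻ η, {η : R3 | ‖η - c‖ ≤ 1}.indicator (fun η => 2 * (npw (rho n (η - v)) (7 / 4) +
          npw ‖η - v‖ (21 / 8) + npw ‖η - c‖ (21 / 8))) η := by
        refine lintegral_mono_ae ?_
        filter_upwards [Measure.ae_ne volume v] with η hη
        show (if ‖η - c‖ ≤ 1 then npw ‖η - c‖ (3 / 2) else 0) * _ ≤ _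
        split_ifs with h1
        · rw [indicator_of_mem (show η ∈ {η : R3 | ‖η - c‖ ≤ 1} from h1)]
          refine (mul_le_mul_right (ker_le hn (sub_ne_zero.2 hη)) _).trans ?_
          rw [mul_left_comm, mul_comm (npw ‖η - c‖ (3 / 2))]
          refine mul_le_mul_right (le_trans (le_of_eq ?_) (young3 _ _ _ (α := 1 / 7) (β := 2 / 7)
            (γ := 4 / 7) (by norm_num) (by norm_num) (by norm_num) (by norm_num))) _
          rw [npw_rpow, npw_rpow, npw_rpow]
          norm_num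
        · rw [zero_mul]; exact zero_le
    _ = 2 * ((∫⁻ η in {η : R3 | ‖η - c‖ ≤ 1}, npw (rho n (η - v)) (7 / 4)) +
          (∫⁻ η in {η : R3 | ‖η - c‖ ≤ 1}, npw ‖η - v‖ (21 / 8)) +
          ∫⁻ η in {η : R3 | ‖η - c‖ ≤ 1}, npw ‖η - c‖ (21 / 8)) := by
        rw [lintegral_indicator (meas_ball c 1), lintegral_const_mul' _ _ (by norm_num),
          lintegral_add_right _ (measurable_npw (by fun_prop) _),
          lintegral_add_left (measurable_npw (measurable_rho n v) _)]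
    _ ≤ _ := by
        gcongr
        · exact h₂ n c v hn
        · exact h₁ c v
        · exact h₁ c c

theorem Ga_line : ∃ C : ℝ≥0∞, C ≠ ⊤ ∧ ∀ n v : R3, ‖n‖ = 1 → ∀ b : ℝ, 1 / 64 ≤ b →
    ∫⁻ η, Ga b η * (if rho n (η - v) ≤ 1 then npw (rho n (η - v)) (3 / 2) else 0) ≤ C := by
  obtain ⟨C, hC, h⟩ := Pl_sing
  have hI : ∫⁻ a : ℝ, ENNReal.ofReal (Real.exp (-(1 / 64) * a ^ 2)) ≠ ⊤ :=
    (integrable_exp_neg_mul_sq (by norm_num : (0 : ℝ) < 1 / 64)).lintegral_lt_top.ne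
  refine ⟨(∫⁻ a : ℝ, ENNReal.ofReal (Real.exp (-(1 / 64) * a ^ 2))) * C, by finiteness,
    fun n v hn b hb => ?_⟩
  set c : R3 := v - (inner ℝ n v : ℝ) • n with hc
  have hm : Measurable fun x : ℝ × R3 =>
      ENNReal.ofReal (Real.exp (-(1 / 64) * x.1 ^ 2)) * sing c x.2 :=
    (ENNReal.measurable_ofReal.comp (by fun_prop)).mul ((measurable_sing c).comp measurable_snd)
  calc ∫⁻ η, Ga b η * (if rho n (η - v) ≤ 1 then npw (rho n (η - v)) (3 / 2) else 0) ≤
        ∫⁻ z : R3, ENNReal.ofReal (Real.exp (-(1 / 64) * (inner ℝ z n : ℝ) ^ 2)) *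
          sing c (z - (inner ℝ z n : ℝ) • n) := by
        refine lintegral_mono fun z => mul_le_mul' ?_ (le_of_eq ?_)
        · refine ENNReal.ofReal_le_ofReal (Real.exp_le_exp.2 ?_)
          have h1 : |(inner ℝ z n : ℝ)| ≤ ‖z‖ := by
            simpa [hn] using abs_real_inner_le_norm z n
          have h2 : (inner ℝ z n : ℝ) ^ 2 ≤ ‖z‖ ^ 2 := by
            rw [← sq_abs]; exact pow_le_pow_left₀ (abs_nonneg _) h1 2
          nlinarith [sq_nonneg ‖z‖]
        · have e : rho n (z - v) = ‖z - (inner ℝ z n : ℝ) • n - c‖ := by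
            rw [rho_def, hc, real_inner_comm n z, inner_sub_right, sub_smul]
            congr 1
            abel
          rw [e]
          rfl
    _ = ∫⁻ a : ℝ, Pl n (fun q => ENNReal.ofReal (Real.exp (-(1 / 64) * a ^ 2)) * sing c q) :=
        lint_split n hn _ hm
    _ ≤ ∫⁻ a : ℝ, ENNReal.ofReal (Real.exp (-(1 / 64) * a ^ 2)) * C := by
        refine lintegral_mono fun a => ?_
        rw [Pl_const_mul _ _ (measurable_sing c)]
        exact mul_le_mul_right (h n hn c (3 / 2) ⟨by norm_num, by norm_num⟩) _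
    _ = _ := lintegral_mul_const' _ _ hC

theorem pot_main : ∃ C : ℝ≥0∞, C ≠ ⊤ ∧ ∀ n v : R3, ‖n‖ = 1 → ∀ b : ℝ, 1 / 64 ≤ b →
    ∫⁻ η, Ga b η * (1 + npw |inner ℝ n η| (1 / 4)) *
      (npw ‖η - v‖ 1 * (1 + npw (sn n (dir (η - v))) (1 / 4))) ≤ C := by
  obtain ⟨C₁, hC₁, h₁⟩ := lint_Ga_slab 0
  obtain ⟨C₂, hC₂, h₂⟩ := Ga_line
  refine ⟨6 * (C₁ + C₂), by finiteness, fun n v hn b hb => ?_⟩
  have hm : Measurable fun η : R3 =>
      ENNReal.ofReal (jb η ^ 0) * Ga b η * (1 + npw |inner ℝ n η| (3 / 4)) := by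
    simp only [pow_zero]
    exact (measurable_const.mul (measurable_Ga b)).mul
      (measurable_const.add (measurable_npw (by fun_prop) _))
  calc ∫⁻ η, Ga b η * (1 + npw |inner ℝ n η| (1 / 4)) *
          (npw ‖η - v‖ 1 * (1 + npw (sn n (dir (η - v))) (1 / 4))) ≤
        ∫⁻ η, 6 * (ENNReal.ofReal (jb η ^ 0) * Ga b η * (1 + npw |inner ℝ n η| (3 / 4)) +
          Ga b η * (if rho n (η - v) ≤ 1 then npw (rho n (η - v)) (3 / 2) else 0)) := by
        refine lintegral_mono_ae ?_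
        filter_upwards [Measure.ae_ne volume v] with η hη
        refine (mul_le_mul_right (ker_le' hn (sub_ne_zero.2 hη)) _).trans ?_
        have a1 := npw_le_ite (rho n (η - v)) (γ := 3 / 2) (by norm_num)
        have a2 : npw |inner ℝ n η| (1 / 4) * npw (rho n (η - v)) 1 ≤
            npw |inner ℝ n η| (3 / 4) + npw (rho n (η - v)) (3 / 2) := by
          refine le_trans (le_of_eq ?_) (young2 _ _ (α := 1 / 3) (β := 2 / 3) (by norm_num)
            (by norm_num) (by norm_num))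
          rw [npw_rpow, npw_rpow]
          norm_num
        have a3 : npw (rho n (η - v)) 1 ≤ 1 + npw (rho n (η - v)) (3 / 2) := by
          refine le_trans (le_of_eq ?_) (young2 _ _ (α := 1 / 3) (β := 2 / 3) (by norm_num)
            (by norm_num) (by norm_num))
          rw [npw_rpow, ENNReal.one_rpow, one_mul]
          norm_num
        rw [pow_zero, ENNReal.ofReal_one, one_mul]
        set J := if rho n (η - v) ≤ 1 then npw (rho n (η - v)) (3 / 2) else 0
        set w := npw |inner ℝ n η| (3 / 4)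
        calc Ga b η * (1 + npw |inner ℝ n η| (1 / 4)) * (2 * npw (rho n (η - v)) 1) =
              2 * Ga b η * (npw (rho n (η - v)) 1 +
                npw |inner ℝ n η| (1 / 4) * npw (rho n (η - v)) 1) := by ring
          _ ≤ 2 * Ga b η * ((1 + (1 + J)) + (w + (1 + J))) := by
              gcongr
              · exact a3.trans (by gcongr)
              · exact a2.trans (by gcongr)
          _ ≤ 2 * Ga b η * ((1 + (1 + J)) + (w + (1 + J)) + (2 * w + J)) :=
              mul_le_mul_right le_self_add _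
          _ = _ := by ring
    _ = 6 * ((∫⁻ η, ENNReal.ofReal (jb η ^ 0) * Ga b η * (1 + npw |inner ℝ n η| (3 / 4))) +
          ∫⁻ η, Ga b η * (if rho n (η - v) ≤ 1 then npw (rho n (η - v)) (3 / 2) else 0)) := by
        rw [lintegral_const_mul' _ _ (by norm_num), lintegral_add_left hm]
    _ ≤ _ := by
        gcongr
        · exact h₁ n hn b hb (3 / 4) ⟨by norm_num, by norm_num⟩
        · exact h₂ n v hn b hb

end
end Crest.Agent.R68.BilA
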