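import Crest.Agent.R68.PlaneA

/-! # Row 68: pre/post collisional change of variables -/

set_option autoImplicit false
open MeasureTheory Set Filter Topology
open scoped ENNReal NNReal
open Crest.AnalysisR.VecCalc3 Crest.AnalysisR.PDE.Boltzmann

namespace Crest.Agent.R68
noncomputable section

theorem postVel_swap (v vs w : R3) : postVel vs v w = postVelStar v vs w := by
  unfold postVel postVelStar
  rw [← neg_sub v vs, inner_neg_left, neg_smul, sub_neg_eq_add]

theorem ab_swap (v vs w : R3) : ab vs v w = ab v vs w := by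
  unfold ab
  rw [← neg_sub v vs, inner_neg_left, abs_neg]

theorem post_add (v vs w : R3) : postVel v vs w + postVelStar v vs w = v + vs := by
  unfold postVel postVelStar
  abel

/-- energy conservation relative to any reference velocity `u` -/
theorem post_energy (v vs w u : R3) (hw : ‖w‖ = 1) :
    ‖postVel v vs w - u‖ ^ 2 + ‖postVelStar v vs w - u‖ ^ 2 = ‖v - u‖ ^ 2 + ‖vs - u‖ ^ 2 := by
  have h1 : postVel v vs w - u = (v - u) - (inner ℝ (v - vs) w : ℝ) • w := by
    unfold postVel; abel
  have h2 : postVelStar v vs w - u = (vs - u) + (inner ℝ (v - vs) w : ℝ) • w := by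
    unfold postVelStar; abel
  have h3 : (inner ℝ (v - vs) w : ℝ) = inner ℝ (v - u) w - inner ℝ (vs - u) w := by
    rw [← inner_sub_left]; congr 1; abel
  rw [h1, h2, norm_sub_sq_real (v - u), norm_add_sq_real (vs - u), real_inner_smul_right,
    real_inner_smul_right, norm_smul, hw, mul_one, Real.norm_eq_abs, sq_abs, h3]
  ring

theorem prepost_sub (v vs w : R3) :
    postVel v vs w - postVelStar v vs w = (v - vs) - (2 * inner ℝ (v - vs) w : ℝ) • w := by
  unfold postVel postVelStar
  rw [two_mul, add_smul]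
  abel

theorem prepost_inner (v vs w : R3) (hw : ‖w‖ = 1) :
    (inner ℝ (postVel v vs w - postVelStar v vs w) w : ℝ) = -inner ℝ (v - vs) w := by
  rw [prepost_sub, inner_sub_left (v - vs), real_inner_smul_left, real_inner_self_eq_norm_sq, hw]
  ring

theorem post_rel (v vs w : R3) (hw : ‖w‖ = 1) :
    ‖postVel v vs w - postVelStar v vs w‖ = ‖v - vs‖ := by
  rw [← sq_eq_sq₀ (norm_nonneg _) (norm_nonneg _), prepost_sub, norm_sub_sq_real (v - vs),
    real_inner_smul_right, norm_smul, hw, mul_one, Real.norm_eq_abs, sq_abs]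
  ring

theorem post_post (v vs w : R3) (hw : ‖w‖ = 1) :
    postVel (postVel v vs w) (postVelStar v vs w) w = v ∧
      postVelStar (postVel v vs w) (postVelStar v vs w) w = vs := by
  have h := prepost_inner v vs w hw
  constructor
  · rw [postVel, h, postVel, neg_smul]; abel
  · rw [postVelStar, h, postVelStar, neg_smul]; abel

theorem ab_post (v vs w : R3) (hw : ‖w‖ = 1) :
    ab (postVel v vs w) (postVelStar v vs w) w = ab v vs w := by
  rw [ab, prepost_inner v vs w hw, abs_neg, ab]

theorem ab_le (v vs w : R3) (hw : ‖w‖ = 1) : ab v vs w ≤ ENNReal.ofReal ‖v - vs‖ := by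
  refine ENNReal.ofReal_le_ofReal ?_
  simpa [hw] using abs_real_inner_le_norm (v - vs) w

/-- the collision map as a linear map -/
def prepostL (w : R3) : (R3 × R3) →ₗ[ℝ] (R3 × R3) where
  toFun q := (postVel q.1 q.2 w, postVelStar q.1 q.2 w)
  map_add' q r := by
    have h : q.1 + r.1 - (q.2 + r.2) = (q.1 - q.2) + (r.1 - r.2) := by abel
    refine Prod.ext ?_ ?_
    · simp only [postVel, Prod.fst_add, Prod.snd_add, h, inner_add_left, add_smul]; abel
    · simp only [postVelStar, Prod.fst_add, Prod.snd_add, h, inner_add_left, add_smul]; abel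
  map_smul' c q := by
    have h : c • q.1 - c • q.2 = c • (q.1 - q.2) := (smul_sub _ _ _).symm
    refine Prod.ext ?_ ?_
    · simp only [postVel, Prod.smul_fst, Prod.smul_snd, h, real_inner_smul_left, RingHom.id_apply,
        mul_smul]
      rw [smul_sub c q.1]
    · simp only [postVelStar, Prod.smul_fst, Prod.smul_snd, h, real_inner_smul_left,
        RingHom.id_apply, mul_smul, smul_add]

/-- for a unit `w` the collision map is a linear involution of `R3 × R3`, hence has determinant `±1`
(`LinearMap.det` of an involution; `Measure.map_linearMap_addHaar_eq_smul_addHaar`), so it preserves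
`volume`. -/
theorem measurePreserving_post (w : R3) (hw : ‖w‖ = 1) :
    MeasurePreserving (fun q : R3 × R3 => (postVel q.1 q.2 w, postVelStar q.1 q.2 w))
      volume volume := by
  have hinv : prepostL w ∘ₗ prepostL w = LinearMap.id :=
    LinearMap.ext fun q => Prod.ext (post_post q.1 q.2 w hw).1 (post_post q.1 q.2 w hw).2
  have hdet : LinearMap.det (prepostL w) * LinearMap.det (prepostL w) = 1 := by
    rw [← LinearMap.det_comp, hinv, LinearMap.det_id]
  have h0 : LinearMap.det (prepostL w) ≠ 0 := left_ne_zero_of_mul_eq_one hdet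
  have h1 : |(LinearMap.det (prepostL w))⁻¹| = 1 := by
    rcases mul_self_eq_one_iff.1 hdet with h | h <;> simp [h]
  have : Measure.IsAddHaarMeasure (volume : Measure (R3 × R3)) :=
    inferInstanceAs (Measure.IsAddHaarMeasure ((volume : Measure R3).prod (volume : Measure R3)))
  have h2 := Measure.map_linearMap_addHaar_eq_smul_addHaar (volume : Measure (R3 × R3)) h0
  rw [h1, ENNReal.ofReal_one, one_smul] at h2
  exact ⟨(prepostL w).continuous_of_finiteDimensional.measurable, h2⟩

theorem prepost_fubini (Ψ : R3 × R3 × R3 → ℝ≥0∞) (hΨ : Measurable Ψ) :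
    ∫⁻ v, ∫⁻ vs, ∫⁻ w, Ψ (v, vs, w) ∂sphereMeasure =
      ∫⁻ w, (∫⁻ q : R3 × R3, Ψ (q.1, q.2, w)) ∂sphereMeasure := by
  have h1 : Measurable fun x : (R3 × R3) × R3 => Ψ (x.1.1, x.1.2, x.2) := hΨ.comp (by fun_prop)
  rw [← lintegral_lintegral_swap (f := fun (q : R3 × R3) (w : R3) => Ψ (q.1, q.2, w))
    h1.aemeasurable, Measure.volume_eq_prod R3 R3,
    lintegral_prod _ (h1.lintegral_prod_right' (ν := sphereMeasure)).aemeasurable]

theorem lint_prepost (Ψ : R3 × R3 × R3 → ℝ≥0∞) (hΨ : Measurable Ψ) :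
    ∫⁻ v, ∫⁻ vs, ∫⁻ w, Ψ (postVel v vs w, postVelStar v vs w, w) ∂sphereMeasure =
      ∫⁻ v, ∫⁻ vs, ∫⁻ w, Ψ (v, vs, w) ∂sphereMeasure := by
  have h1 : Measurable fun x : R3 × R3 × R3 =>
      Ψ (postVel x.1 x.2.1 x.2.2, postVelStar x.1 x.2.1 x.2.2, x.2.2) :=
    hΨ.comp (measurable_postVel.prodMk (measurable_postVelStar.prodMk measurable_snd.snd))
  rw [prepost_fubini Ψ hΨ, prepost_fubini _ h1]
  refine lintegral_congr_ae (ae_norm_one.mono fun w hw => ?_)
  exact (measurePreserving_post w hw).lintegral_comp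
    (f := fun q : R3 × R3 => Ψ (q.1, q.2, w)) (hΨ.comp (by fun_prop))

theorem prepost_sec {α β : Type} [MeasurableSpace α] [MeasurableSpace β] {f : α × β → ℝ≥0∞}
    (hf : Measurable f) (a : α) : Measurable fun b => f (a, b) :=
  hf.comp measurable_prodMk_left

/-- weak form of the gain operator -/
theorem lint_QH_mul (H : R3 × R3 → ℝ≥0∞) (hH : Measurable H) (φ : R3 → ℝ≥0∞) (hφ : Measurable φ) :
    ∫⁻ v, φ v * QH H v =
      ∫⁻ η, ∫⁻ ζ, H (η, ζ) * ∫⁻ w, ab η ζ w * φ (postVel η ζ w) ∂sphereMeasure := by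
  have hk : Measurable fun x : R3 × R3 × R3 => ab x.1 x.2.1 x.2.2 * φ (postVel x.1 x.2.1 x.2.2) :=
    measurable_ab.mul (hφ.comp measurable_postVel)
  have hΨ : Measurable fun x : R3 × R3 × R3 =>
      H (x.1, x.2.1) * (ab x.1 x.2.1 x.2.2 * φ (postVel x.1 x.2.1 x.2.2)) :=
    (hH.comp (by fun_prop)).mul hk
  have hg : Measurable fun x : R3 × R3 × R3 =>
      ab x.1 x.2.1 x.2.2 * H (postVel x.1 x.2.1 x.2.2, postVelStar x.1 x.2.1 x.2.2) :=
    measurable_ab.mul (hH.comp (measurable_postVel.prodMk measurable_postVelStar))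
  have h := lint_prepost _ hΨ
  simp only at h
  calc ∫⁻ v, φ v * QH H v
      = ∫⁻ v, ∫⁻ vs, ∫⁻ w, H (postVel v vs w, postVelStar v vs w) *
          (ab (postVel v vs w) (postVelStar v vs w) w *
            φ (postVel (postVel v vs w) (postVelStar v vs w) w)) ∂sphereMeasure := by
        refine lintegral_congr fun v => ?_
        have h1 : Measurable fun y : R3 × R3 =>
            ab v y.1 y.2 * H (postVel v y.1 y.2, postVelStar v y.1 y.2) :=
          prepost_sec hg v
        have h2 : Measurable fun vs : R3 =>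
            ∫⁻ w, ab v vs w * H (postVel v vs w, postVelStar v vs w) ∂sphereMeasure :=
          h1.lintegral_prod_right' (ν := sphereMeasure)
        rw [QH, ← lintegral_const_mul _ h2]
        refine lintegral_congr fun vs => ?_
        have h3 : Measurable fun w : R3 => ab v vs w * H (postVel v vs w, postVelStar v vs w) :=
          prepost_sec h1 vs
        rw [← lintegral_const_mul _ h3]
        refine lintegral_congr_ae (ae_norm_one.mono fun w hw => ?_)
        simp only
        rw [ab_post v vs w hw, (post_post v vs w hw).1]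
        ring
    _ = _ := h
    _ = _ := by
        refine lintegral_congr fun η => lintegral_congr fun ζ => ?_
        have h1 : Measurable fun w : R3 => ab η ζ w * φ (postVel η ζ w) :=
          prepost_sec (prepost_sec hk η) ζ
        exact lintegral_const_mul _ h1

/-- total gain: `∫ Q⁺ = c₀ ∫∫ H ‖η - ζ‖` -/
theorem lint_QH (H : R3 × R3 → ℝ≥0∞) (hH : Measurable H) :
    ∫⁻ v, QH H v = cz * ∫⁻ η, ∫⁻ ζ, H (η, ζ) * ENNReal.ofReal ‖η - ζ‖ := by
  have h := lint_QH_mul H hH (fun _ => 1) measurable_const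
  simp only [one_mul, mul_one] at h
  have hm : Measurable fun q : R3 × R3 => H q * ENNReal.ofReal ‖q.1 - q.2‖ :=
    hH.mul (by fun_prop)
  have h2 : Measurable fun η : R3 => ∫⁻ ζ, H (η, ζ) * ENNReal.ofReal ‖η - ζ‖ :=
    hm.lintegral_prod_right' (ν := volume)
  rw [h, ← lintegral_const_mul _ h2]
  refine lintegral_congr fun η => ?_
  have h3 : Measurable fun ζ : R3 => H (η, ζ) * ENNReal.ofReal ‖η - ζ‖ := prepost_sec hm η
  rw [← lintegral_const_mul _ h3]
  refine lintegral_congr fun ζ => ?_
  simp only [ab]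
  rw [lint_abs_inner]
  ring

theorem Ga_post (a : ℝ) (v vs w : R3) (hw : ‖w‖ = 1) :
    Ga a (postVel v vs w) * Ga a (postVelStar v vs w) = Ga a v * Ga a vs := by
  have h := post_energy v vs w 0 hw
  simp only [sub_zero] at h
  unfold Ga
  rw [← ENNReal.ofReal_mul (Real.exp_pos _).le, ← ENNReal.ofReal_mul (Real.exp_pos _).le,
    ← Real.exp_add, ← Real.exp_add]
  congr 2
  linear_combination (-a) * h

theorem prepost_mu (v : R3) :
    mu v = ENNReal.ofReal ((2 * Real.pi) ^ (-(3 / 2 : ℝ))) * Ga (1 / 2) v := by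
  unfold mu Ga maxwellian
  rw [ENNReal.ofReal_mul (by positivity)]
  congr 3
  ring

theorem Qp_mu_mu (v : R3) : Qp mu mu v = mu v * LL mu v := by
  have hv : mu v ≠ ⊤ := ENNReal.ofReal_ne_top
  rw [Qp, QH, LL, ← lintegral_const_mul' _ _ hv]
  refine lintegral_congr fun vs => ?_
  rw [← lintegral_const_mul' _ _ hv]
  refine lintegral_congr_ae (ae_norm_one.mono fun w hw => ?_)
  have h : mu (postVel v vs w) * mu (postVelStar v vs w) = mu v * mu vs := by
    simp only [prepost_mu]
    rw [mul_mul_mul_comm, Ga_post _ v vs w hw, mul_mul_mul_comm]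
  simp only [h]
  ring

/-- crude bound: both incoming velocities in `B(u, lam)` -/
theorem QH_crude (H : R3 × R3 → ℝ≥0∞) (u : R3) (lam : ℝ) (hl : 0 ≤ lam) (B : ℝ≥0∞)
    (hB : ∀ q, H q ≤ B) (hs : ∀ q, H q ≠ 0 → ‖q.1 - u‖ ≤ lam ∧ ‖q.2 - u‖ ≤ lam) (v : R3) :
    QH H v ≤ (if ‖v - u‖ ≤ 3 / 2 * lam then 2000 * B * ENNReal.ofReal (lam ^ 4) else 0) := by
  have key : ∀ vs w : R3, ‖w‖ = 1 → H (postVel v vs w, postVelStar v vs w) ≠ 0 →
      ‖v - u‖ ≤ 3 / 2 * lam ∧ ‖vs - u‖ ≤ 3 / 2 * lam ∧ ‖v - vs‖ ≤ 2 * lam := by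
    intro vs w hw h
    obtain ⟨h1, h2⟩ := hs _ h
    simp only at h1 h2
    have h3 := post_energy v vs w u hw
    have h4 := pow_le_pow_left₀ (norm_nonneg _) h1 2
    have h5 := pow_le_pow_left₀ (norm_nonneg _) h2 2
    have h6 : 0 ≤ 3 / 2 * lam := by positivity
    refine ⟨le_of_pow_le_pow_left₀ two_ne_zero h6 ?_, le_of_pow_le_pow_left₀ two_ne_zero h6 ?_, ?_⟩
    · nlinarith [sq_nonneg ‖vs - u‖, sq_nonneg lam]
    · nlinarith [sq_nonneg ‖v - u‖, sq_nonneg lam]
    · rw [← post_rel v vs w hw, ← sub_sub_sub_cancel_right _ _ u]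
      linarith [norm_sub_le (postVel v vs w - u) (postVelStar v vs w - u)]
  split_ifs with hv
  · have hS : MeasurableSet {η : R3 | ‖η - u‖ ≤ 3 / 2 * lam} :=
      measurableSet_le (by fun_prop) measurable_const
    calc QH H v ≤ ∫⁻ vs, {η : R3 | ‖η - u‖ ≤ 3 / 2 * lam}.indicator
          (fun _ => ENNReal.ofReal (2 * lam) * B * 13) vs := by
          refine lintegral_mono fun vs => ?_
          by_cases hvs : vs ∈ {η : R3 | ‖η - u‖ ≤ 3 / 2 * lam}
          · rw [indicator_of_mem hvs]
            calc _ ≤ ∫⁻ _, ENNReal.ofReal (2 * lam) * B ∂sphereMeasure := by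
                  refine lintegral_mono_ae (ae_norm_one.mono fun w hw => ?_)
                  by_cases h0 : H (postVel v vs w, postVelStar v vs w) = 0
                  · simp [h0]
                  · exact mul_le_mul' ((ab_le v vs w hw).trans
                      (ENNReal.ofReal_le_ofReal (key vs w hw h0).2.2)) (hB _)
              _ ≤ _ := by
                  rw [lintegral_const]
                  exact mul_le_mul_right sphere_univ_le _
          · rw [indicator_of_notMem hvs]
            refine le_of_eq ((lintegral_congr_ae (ae_norm_one.mono fun w hw => ?_)).trans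
              lintegral_zero)
            by_cases h0 : H (postVel v vs w, postVelStar v vs w) = 0
            · simp [h0]
            · exact absurd (key vs w hw h0).2.1 hvs
      _ = ENNReal.ofReal (2 * lam) * B * 13 * volume {η : R3 | ‖η - u‖ ≤ 3 / 2 * lam} :=
          lintegral_indicator_const hS _
      _ ≤ ENNReal.ofReal (2 * lam) * B * 13 * ENNReal.ofReal (5 * (3 / 2 * lam) ^ 3) :=
          mul_le_mul_right (vol_ball_le u _ (by positivity)) _
      _ = B * ENNReal.ofReal (2 * lam * 13 * (5 * (3 / 2 * lam) ^ 3)) := by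
          rw [ENNReal.ofReal_mul (p := 2 * lam * 13) (by positivity),
            ENNReal.ofReal_mul (p := 2 * lam) (by positivity), ENNReal.ofReal_ofNat 13]
          ring
      _ ≤ B * ENNReal.ofReal (2000 * lam ^ 4) := by
          refine mul_le_mul_right (ENNReal.ofReal_le_ofReal ?_) _
          nlinarith [pow_nonneg hl 4]
      _ = _ := by
          rw [ENNReal.ofReal_mul (by norm_num), ENNReal.ofReal_ofNat]
          ring
  · refine le_of_eq ((lintegral_congr fun vs => ?_).trans lintegral_zero)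
    refine (lintegral_congr_ae (ae_norm_one.mono fun w hw => ?_)).trans lintegral_zero
    by_cases h0 : H (postVel v vs w, postVelStar v vs w) = 0
    · simp [h0]
    · exact absurd (key vs w hw h0).1 hv

end
end Crest.Agent.R68
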