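import Crest.Agent.R68.BilB
import Crest.Agent.R68.Ball
import Crest.Agent.R68.PrePost
import Crest.Agent.R68.BilA

/-! # Row 68: bilinear estimates for Gaussian weights -/

set_option autoImplicit false
open MeasureTheory Set Filter Topology
open scoped ENNReal NNReal
open Crest.AnalysisR.VecCalc3 Crest.AnalysisR.PDE.Boltzmann

namespace Crest.Agent.R68
noncomputable section

/-- (B4) general Carleman bound (`Ga_plane`, `Pl_gauss`, `Pl_slab_sin`, `Pl_sing`). -/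
theorem Qp_SgA_gen : ∃ C : ℝ≥0∞, C ≠ ⊤ ∧ ∀ (n v : R3) (S : Finset R3) (f : R3 → ℝ≥0∞),
    ‖n‖ = 1 → Measurable f → ∀ a ∈ Icc (1 / 16 : ℝ) 1,
    Qp (fun η => Ga a η * f η) (fun ζ => Ga a ζ * SgA n S ζ) v ≤
      C * (1 + S.card) * Ga a v *
        ∫⁻ η, f η * npw ‖η - v‖ 1 * (1 + npw (sn n (dir (η - v))) (1 / 4)) := by
  obtain ⟨C, hC, h⟩ := BilA.Pl_SgA
  refine ⟨2 * C, by finiteness, fun n v S f hn hf a ha => ?_⟩
  rw [mul_assoc 2]
  exact BilA.Qp_gen v hf (measurable_SgA n S) a (by finiteness) _ fun η hη =>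
    h n _ v η S hn (BilA.norm_dir (sub_ne_zero.2 hη)) a ha

/-- the same without the angular factor when the second weight is a pure Gaussian -/
theorem Qp_Ga_gen (v : R3) (f : R3 → ℝ≥0∞) (hf : Measurable f) (a : ℝ) (ha : 0 < a) :
    Qp (fun η => Ga a η * f η) (Ga a) v ≤
      ENNReal.ofReal (2 * Real.pi / a) * Ga a v * ∫⁻ η, f η * npw ‖η - v‖ 1 := by
  have h := BilA.Qp_gen v hf (g := fun _ => 1) measurable_const a
    (C := ENNReal.ofReal (Real.pi / a)) ENNReal.ofReal_ne_top (fun _ => 1) fun η hη => by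
      simpa only [mul_one] using BilA.Pl_gauss' (BilA.norm_dir (sub_ne_zero.2 hη)) ha η
  simp only [mul_one] at h
  rw [mul_div_assoc, ENNReal.ofReal_mul zero_le_two, ENNReal.ofReal_ofNat]
  exact h

/-- potential of the singular weight against an extra Gaussian; Young's inequality
`x y z ≤ x^7 + y^{7/2} + z^{7/4}` for `‖p_⊥‖^{-1/4} ‖p‖^{-3/4} · (singularity)` near `η = v`. -/
theorem pot_SgA : ∃ C : ℝ≥0∞, C ≠ ⊤ ∧ ∀ (n v : R3) (S : Finset R3), ‖n‖ = 1 → ∀ b : ℝ, 1 / 64 ≤ b →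
    ∫⁻ η, Ga b η * SgA n S η * npw ‖η - v‖ 1 * (1 + npw (sn n (dir (η - v))) (1 / 4)) ≤
      C * (1 + S.card) := by
  obtain ⟨C₁, hC₁, h₁⟩ := BilA.pot_main
  obtain ⟨C₂, hC₂, h₂⟩ := BilA.pot_sing'
  refine ⟨C₁ + C₂, by finiteness, fun n v S hn b hb => ?_⟩
  have hK : Measurable fun η : R3 =>
      npw ‖η - v‖ 1 * (1 + npw (sn n (dir (η - v))) (1 / 4)) := by
    refine (BilA.measurable_npw (by fun_prop) _).mul
      (measurable_const.add (BilA.measurable_npw ?_ _))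
    show Measurable fun η : R3 =>
      ‖n - (inner ℝ n (‖η - v‖⁻¹ • (η - v)) : ℝ) • (‖η - v‖⁻¹ • (η - v))‖
    fun_prop
  calc ∫⁻ η, Ga b η * SgA n S η * npw ‖η - v‖ 1 * (1 + npw (sn n (dir (η - v))) (1 / 4)) ≤
        ∫⁻ η, ((∑ c ∈ S, sing c η * (npw ‖η - v‖ 1 * (1 + npw (sn n (dir (η - v))) (1 / 4)))) +
          Ga b η * (1 + npw |inner ℝ n η| (1 / 4)) *
            (npw ‖η - v‖ 1 * (1 + npw (sn n (dir (η - v))) (1 / 4)))) := by
        refine lintegral_mono fun η => ?_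
        show Ga b η * (1 + npw |inner ℝ n η| (1 / 4) + ∑ c ∈ S, sing c η) * _ * _ ≤ _
        rw [← Finset.sum_mul, ← add_mul, mul_assoc, mul_add (Ga b η), add_comm]
        exact mul_le_mul_left (add_le_add_left
          (mul_le_of_le_one_left' (BilA.Ga_le_one (by linarith) η)) _) _
    _ = (∑ c ∈ S, ∫⁻ η, sing c η * (npw ‖η - v‖ 1 * (1 + npw (sn n (dir (η - v))) (1 / 4)))) +
          ∫⁻ η, Ga b η * (1 + npw |inner ℝ n η| (1 / 4)) *
            (npw ‖η - v‖ 1 * (1 + npw (sn n (dir (η - v))) (1 / 4))) := by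
        have hc : ∀ c ∈ S, Measurable fun η : R3 =>
            sing c η * (npw ‖η - v‖ 1 * (1 + npw (sn n (dir (η - v))) (1 / 4))) :=
          fun c _ => (BilA.measurable_sing c).mul hK
        rw [lintegral_add_left (Finset.measurable_sum S hc), lintegral_finsetSum S hc]
    _ ≤ S.card * C₂ + C₁ := by
        refine add_le_add ?_ (h₁ n v hn b hb)
        rw [← nsmul_eq_mul]
        exact Finset.sum_le_card_nsmul _ _ _ fun c _ => h₂ n v c hn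
    _ ≤ S.card * C₂ + C₁ + (C₂ + C₁ * S.card) := le_self_add
    _ = _ := by ring

theorem pot_sing : ∃ C : ℝ≥0∞, C ≠ ⊤ ∧ ∀ (n v c : R3), ‖n‖ = 1 →
    ∫⁻ η, sing c η * npw ‖η - v‖ 1 * (1 + npw (sn n (dir (η - v))) (1 / 4)) ≤ C := by
  simpa only [mul_assoc] using BilA.pot_sing'

/-- (B2') gap version: `Qp_SgA_gen` + `pot_SgA`. -/
theorem Qp_SgA_gap : ∃ C : ℝ≥0∞, C ≠ ⊤ ∧ ∀ (n v : R3) (S S' : Finset R3), ‖n‖ = 1 →
    ∀ a ∈ Icc (1 / 16 : ℝ) 1, ∀ a' : ℝ, a + 1 / 64 ≤ a' →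
    Qp (fun η => Ga a' η * SgA n S η) (fun ζ => Ga a ζ * SgA n S' ζ) v ≤
      C * (1 + S.card) * (1 + S'.card) * Ga a v := by
  obtain ⟨C₁, hC₁, h₁⟩ := Qp_SgA_gen
  obtain ⟨C₂, hC₂, h₂⟩ := pot_SgA
  refine ⟨C₁ * C₂, by finiteness, fun n v S S' hn a ha a' ha' => ?_⟩
  have e : (fun η => Ga a' η * SgA n S η) = fun η => Ga a η * (Ga (a' - a) η * SgA n S η) := by
    funext η
    rw [← mul_assoc, ← BilA.Ga_add, add_sub_cancel]
  rw [e]
  refine (h₁ n v S' _ hn ((measurable_Ga _).mul (measurable_SgA n S)) a ha).trans ?_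
  refine (mul_le_mul_right (h₂ n v S hn (a' - a) (by linarith)) _).trans (le_of_eq ?_)
  ring

/-- (B2) same Gaussian.  Write `SgA = S₁ + D`, `S₁ = 1 + |ζ₁|^{-1/4}`.  Terms containing `D`:
`Qp_SgA_gen`, `pot_sing`, `Qp_comm`.  `S₁(η) S₁(ζ) ≤ (1 + |η₁|^{-1/2}) + (1 + |ζ₁|^{-1/2})`; by `Qp_comm`
it suffices to bound `Qp (Ga a) (Ga a (1 + |ζ₁|^{-1/2}))`: `QH_eq_omega`, `Ga_plane`, `Pl_slab_sin`,
`∫ |s| e^{-a(⟪v,w⟫+s)²} ds ≤ C ⟨v⟩`, `sphere_sin`. -/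
theorem Qp_SgA_same : ∃ C : ℝ≥0∞, C ≠ ⊤ ∧ ∀ (n v : R3) (S S' : Finset R3), ‖n‖ = 1 →
    ∀ a ∈ Icc (1 / 16 : ℝ) 1,
    Qp (fun η => Ga a η * SgA n S η) (fun ζ => Ga a ζ * SgA n S' ζ) v ≤
      C * (1 + S.card) * (1 + S'.card) * ENNReal.ofReal (jb v) * Ga a v := by
  obtain ⟨C1, hC1, h1⟩ := Qp_SgA_gen
  obtain ⟨C2, hC2, h2⟩ := pot_sing
  obtain ⟨C3, hC3, h3⟩ := BilB.Qp_Ga_T
  refine ⟨2 * C3 + 2 * (C1 * C2), ENNReal.add_ne_top.2 ⟨ENNReal.mul_ne_top (by norm_num) hC3,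
    ENNReal.mul_ne_top (by norm_num) (ENNReal.mul_ne_top hC1 hC2)⟩, fun n v S S' hn a ha => ?_⟩
  have hj : (1 : ℝ≥0∞) ≤ ENNReal.ofReal (jb v) := ENNReal.one_le_ofReal.2 (BilB.one_le_jb v)
  have hD : ∀ T T' : Finset R3,
      Qp (fun η => Ga a η * BilB.DS T η) (fun ζ => Ga a ζ * SgA n T' ζ) v ≤
        C1 * C2 * ((1 + T.card) * (1 + T'.card)) * ENNReal.ofReal (jb v) * Ga a v := by
    intro T T'
    calc _ ≤ _ := h1 n v T' (BilB.DS T) hn (BilB.measurable_DS T) a ha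
      _ ≤ C1 * (1 + T'.card) * Ga a v * (C2 * (1 + T.card)) :=
          mul_le_mul_right (BilB.pot_DS C2 n v T fun c => h2 n v c hn) _
      _ = C1 * C2 * ((1 + T.card) * (1 + T'.card)) * 1 * Ga a v := by ring
      _ ≤ _ := by gcongr
  have hP : (1 : ℝ≥0∞) ≤ (1 + S.card) * (1 + S'.card) :=
    one_le_mul_of_one_le_of_one_le le_self_add le_self_add
  have hT : Qp (Ga a) (fun ζ => Ga a ζ * (1 + npw |inner ℝ n ζ| (1 / 2))) v ≤
      C3 * ((1 + S.card) * (1 + S'.card)) * ENNReal.ofReal (jb v) * Ga a v := by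
    calc _ ≤ _ := h3 n v hn a ha
      _ = C3 * 1 * ENNReal.ofReal (jb v) * Ga a v := by rw [mul_one]
      _ ≤ _ := by gcongr
  calc _ ≤ _ := BilB.Qp_split n v S S' a
    _ ≤ 2 * (C3 * ((1 + S.card) * (1 + S'.card)) * ENNReal.ofReal (jb v) * Ga a v) +
        C1 * C2 * ((1 + S.card) * (1 + S'.card)) * ENNReal.ofReal (jb v) * Ga a v +
        C1 * C2 * ((1 + S'.card) * (1 + S.card)) * ENNReal.ofReal (jb v) * Ga a v :=
        add_le_add (add_le_add (mul_le_mul_right hT _) (hD S S')) (hD S' S)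
    _ = _ := by ring

/-- (B3) moments -/
theorem lint_SgA (k : ℕ) : ∃ C : ℝ≥0∞, C ≠ ⊤ ∧ ∀ (n : R3) (S : Finset R3), ‖n‖ = 1 →
    ∀ a : ℝ, 1 / 64 ≤ a →
    ∫⁻ η, ENNReal.ofReal (jb η ^ k) * (Ga a η * SgA n S η) ≤ C * (1 + S.card) := by
  obtain ⟨C1, hC1, h1⟩ := lint_Ga_slab k
  obtain ⟨C2, hC2, h2⟩ := BilB.lint_sing
  refine ⟨C1 + ENNReal.ofReal (Real.exp (16 * (k : ℝ) ^ 2)) * C2, ENNReal.add_ne_top.2
    ⟨hC1, ENNReal.mul_ne_top ENNReal.ofReal_ne_top hC2⟩, fun n S hn a ha => ?_⟩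
  have hm : Measurable (fun η : R3 =>
      ENNReal.ofReal (jb η ^ k) * Ga a η * (1 + npw |inner ℝ n η| (1 / 4))) :=
    ((BilB.measurable_jb_pow k).fun_mul (measurable_Ga a)).fun_mul
      (measurable_const.fun_add (BilB.measurable_npw_inner n (1 / 4)))
  calc _ ≤ ∫⁻ η, (ENNReal.ofReal (jb η ^ k) * Ga a η * (1 + npw |inner ℝ n η| (1 / 4)) +
        ENNReal.ofReal (Real.exp (16 * (k : ℝ) ^ 2)) * ∑ c ∈ S, sing c η) := by
        refine lintegral_mono fun η => ?_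
        unfold SgA
        rw [← mul_assoc, mul_add]
        exact add_le_add_right (mul_le_mul_left (BilB.jb_pow_Ga_le k a ha η) _) _
    _ = (∫⁻ η, ENNReal.ofReal (jb η ^ k) * Ga a η * (1 + npw |inner ℝ n η| (1 / 4))) +
        ENNReal.ofReal (Real.exp (16 * (k : ℝ) ^ 2)) * ∑ c ∈ S, ∫⁻ η, sing c η := by
        rw [lintegral_add_left hm, lintegral_const_mul' _ _ ENNReal.ofReal_ne_top,
          lintegral_finsetSum S fun c _ => BilB.measurable_sing c]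
    _ ≤ C1 * (1 + S.card) +
        ENNReal.ofReal (Real.exp (16 * (k : ℝ) ^ 2)) * (C2 * (1 + S.card)) := by
        refine add_le_add ((h1 n hn a ha (1 / 4) ⟨by norm_num, by norm_num⟩).trans
          (le_mul_of_one_le_right' le_self_add)) (mul_le_mul_right ?_ _)
        calc _ ≤ ∑ _c ∈ S, C2 := Finset.sum_le_sum fun c _ => h2 c
          _ = C2 * S.card := by rw [Finset.sum_const, nsmul_eq_mul, mul_comm]
          _ ≤ _ := mul_le_mul_right le_add_self _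
    _ = _ := by ring

theorem LL_SgA : ∃ C : ℝ≥0∞, C ≠ ⊤ ∧ ∀ (n v : R3) (S : Finset R3), ‖n‖ = 1 →
    ∀ a : ℝ, 1 / 64 ≤ a →
    LL (fun η => Ga a η * SgA n S η) v ≤ C * (1 + S.card) * ENNReal.ofReal (jb v) := by
  obtain ⟨C, hC, h⟩ := lint_SgA 1
  refine ⟨13 * C, ENNReal.mul_ne_top (by norm_num) hC, fun n v S hn a ha => ?_⟩
  have h1 := h n S hn a ha
  simp only [pow_one] at h1
  calc _ ≤ _ := BilB.LL_le_moment' _ ((measurable_Ga a).fun_mul (measurable_SgA n S)) v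
    _ ≤ 13 * ENNReal.ofReal (jb v) * (C * (1 + S.card)) := mul_le_mul_right h1 _
    _ = _ := by ring

theorem LL_le_moment (f : R3 → ℝ≥0∞) (hf : Measurable f) (v : R3) :
    LL f v ≤ 13 * ENNReal.ofReal (jb v) * ∫⁻ η, ENNReal.ofReal (jb η) * f η := by
  exact BilB.LL_le_moment' f hf v

/-- lower bound of the Maxwellian collision frequency -/
theorem LL_mu_ge : ∃ ν : ℝ, 0 < ν ∧ ν ≤ 1 ∧ ∀ v : R3, ENNReal.ofReal (ν * jb v) ≤ LL mu v := by
  exact BilB.LL_mu_ge'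

theorem mu_le_Ga (v : R3) : mu v ≤ Ga (1 / 2) v := by
  unfold mu Ga maxwellian
  refine ENNReal.ofReal_le_ofReal ?_
  have e : -‖v‖ ^ 2 / 2 = -(1 / 2 * ‖v‖ ^ 2) := by ring
  rw [e]
  exact mul_le_of_le_one_left (Real.exp_pos _).le BilB.const_le_one

theorem measurable_mu : Measurable mu := by
  exact BilB.measurable_mu'

end
end Crest.Agent.R68
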