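import Crest.Agent.R68.Ball
import Crest.Agent.R68.PrePost

/-! # Row 68: auxiliary lemmas for `Bil.lean`, part 2 -/

set_option autoImplicit false
open MeasureTheory Set Filter Topology
open scoped ENNReal NNReal
open Crest.AnalysisR.VecCalc3 Crest.AnalysisR.PDE.Boltzmann

namespace Crest.Agent.R68
namespace BilB
noncomputable section

theorem jb_pos (v : R3) : 0 < jb v := by
  unfold jb; positivity

theorem one_le_jb (v : R3) : 1 ≤ jb v := by
  unfold jb; linarith [norm_nonneg v]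

theorem measurable_npw_inner (n : R3) (γ : ℝ) :
    Measurable (fun η : R3 => npw |inner ℝ n η| γ) := by
  unfold npw
  refine Measurable.pow_const (ENNReal.measurable_ofReal.comp ?_) _
  exact (continuous_abs.comp (continuous_const.inner continuous_id)).measurable

theorem measurable_sing (c : R3) : Measurable (sing c) := by
  unfold sing npw
  refine Measurable.ite ?_ ?_ measurable_const
  · exact measurableSet_le (by fun_prop) measurable_const
  · exact Measurable.pow_const (ENNReal.measurable_ofReal.comp (by fun_prop)) _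

theorem measurable_jb_pow (k : ℕ) : Measurable (fun η : R3 => ENNReal.ofReal (jb η ^ k)) := by
  unfold jb
  exact ENNReal.measurable_ofReal.comp (by fun_prop)

theorem npw_zero (x : ℝ) : npw x 0 = 1 := by
  unfold npw; rw [neg_zero, ENNReal.rpow_zero]

theorem npw_quarter_sq (x : ℝ) : npw x (1 / 4) * npw x (1 / 4) = npw x (1 / 2) := by
  unfold npw
  rw [← sq, ← ENNReal.rpow_natCast, ← ENNReal.rpow_mul]
  congr 1; norm_num

theorem prod_le_sq (x y : ℝ≥0∞) : (1 + x) * (1 + y) ≤ (1 + x * x) + (1 + y * y) := by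
  rcases eq_or_ne x ⊤ with rfl | hx
  · simp
  rcases eq_or_ne y ⊤ with rfl | hy
  · simp
  lift x to ℝ≥0 using hx
  lift y to ℝ≥0 using hy
  have : (1 + x) * (1 + y) ≤ (1 + x * x) + (1 + y * y) := by
    rw [← NNReal.coe_le_coe]
    push_cast
    nlinarith [sq_nonneg ((x : ℝ) - 1), sq_nonneg ((y : ℝ) - 1), sq_nonneg ((x : ℝ) - y)]
  exact_mod_cast this

/-- `⟨η⟩^k e^{-a‖η‖²} ≤ e^{16 k²}` for `a ≥ 1/64` -/
theorem jb_pow_Ga_le (k : ℕ) (a : ℝ) (ha : 1 / 64 ≤ a) (η : R3) :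
    ENNReal.ofReal (jb η ^ k) * Ga a η ≤ ENNReal.ofReal (Real.exp (16 * (k : ℝ) ^ 2)) := by
  unfold Ga
  rw [← ENNReal.ofReal_mul (pow_nonneg (jb_pos η).le k)]
  refine ENNReal.ofReal_le_ofReal ?_
  have h0 := norm_nonneg η
  have h1 : jb η ≤ Real.exp ‖η‖ := by
    unfold jb; linarith [Real.add_one_le_exp ‖η‖]
  have h2 : jb η ^ k ≤ Real.exp (k * ‖η‖) := by
    rw [Real.exp_nat_mul]; exact pow_le_pow_left₀ (jb_pos η).le h1 k
  calc jb η ^ k * Real.exp (-(a * ‖η‖ ^ 2))
      ≤ Real.exp (k * ‖η‖) * Real.exp (-(a * ‖η‖ ^ 2)) :=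
        mul_le_mul_of_nonneg_right h2 (Real.exp_pos _).le
    _ = Real.exp (k * ‖η‖ + -(a * ‖η‖ ^ 2)) := (Real.exp_add _ _).symm
    _ ≤ _ := by
        refine Real.exp_le_exp.2 ?_
        have h3 : 1 / 64 * ‖η‖ ^ 2 ≤ a * ‖η‖ ^ 2 := mul_le_mul_of_nonneg_right ha (sq_nonneg _)
        nlinarith [sq_nonneg (‖η‖ / 8 - 4 * k)]

theorem lint_sing : ∃ C : ℝ≥0∞, C ≠ ⊤ ∧ ∀ c : R3, ∫⁻ η, sing c η ≤ C := by
  obtain ⟨C, hC, h⟩ := lint_loc_sing
  refine ⟨C, hC, fun c => ?_⟩
  have h1 := h c (3 / 2) ⟨by norm_num, by norm_num⟩ 1 ⟨by norm_num, by norm_num⟩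
  rw [Real.one_rpow, ENNReal.ofReal_one, mul_one] at h1
  have hm : MeasurableSet {η : R3 | ‖η - c‖ ≤ 1} := measurableSet_le (by fun_prop) measurable_const
  rw [← lintegral_indicator hm] at h1
  refine le_trans (le_of_eq ?_) h1
  refine lintegral_congr fun η => ?_
  unfold sing
  by_cases hη : ‖η - c‖ ≤ 1
  · rw [if_pos hη, indicator_of_mem (show η ∈ {η : R3 | ‖η - c‖ ≤ 1} from hη)]
  · rw [if_neg hη, indicator_of_notMem (show η ∉ {η : R3 | ‖η - c‖ ≤ 1} from hη)]

/-- the one-dimensional integral -/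
theorem lint_abs_gauss : ∃ K : ℝ≥0∞, K ≠ ⊤ ∧ ∀ a : ℝ, 1 / 16 ≤ a → ∀ b : ℝ,
    ∫⁻ s : ℝ, ENNReal.ofReal |s| * ENNReal.ofReal (Real.exp (-(a * (b + s) ^ 2))) ≤
      K * ENNReal.ofReal (1 + |b|) := by
  have hi : Integrable (fun s : ℝ => (1 + |s|) * Real.exp (-(1 / 16) * s ^ 2)) := by
    have h1 := integrable_exp_neg_mul_sq (b := 1 / 16) (by norm_num)
    have h2 := (integrable_mul_exp_neg_mul_sq (b := 1 / 16) (by norm_num)).abs
    refine (h1.add h2).congr (Eventually.of_forall fun s => ?_)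
    simp only [Pi.add_apply]
    rw [abs_mul, abs_of_pos (Real.exp_pos _)]; ring
  refine ⟨∫⁻ s : ℝ, ENNReal.ofReal ((1 + |s|) * Real.exp (-(1 / 16) * s ^ 2)),
    (hi.lintegral_lt_top).ne, fun a ha b => ?_⟩
  rw [← lintegral_mul_const' _ _ ENNReal.ofReal_ne_top,
    ← lintegral_add_left_eq_self (μ := (volume : Measure ℝ))
      (fun s : ℝ => ENNReal.ofReal ((1 + |s|) * Real.exp (-(1 / 16) * s ^ 2)) *
        ENNReal.ofReal (1 + |b|)) b]
  refine lintegral_mono fun s => ?_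
  have hp : 0 ≤ (1 + |b + s|) * Real.exp (-(1 / 16) * (b + s) ^ 2) := by positivity
  simp only
  rw [← ENNReal.ofReal_mul (abs_nonneg s), ← ENNReal.ofReal_mul hp]
  refine ENNReal.ofReal_le_ofReal ?_
  have h1 : |s| ≤ (1 + |b + s|) * (1 + |b|) := by
    have h2 : |s| ≤ |b + s| + |b| := by
      have := abs_sub (b + s) b
      rwa [add_sub_cancel_left] at this
    nlinarith [abs_nonneg (b + s), abs_nonneg b, mul_nonneg (abs_nonneg (b + s)) (abs_nonneg b)]
  have h3 : Real.exp (-(a * (b + s) ^ 2)) ≤ Real.exp (-(1 / 16) * (b + s) ^ 2) := by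
    refine Real.exp_le_exp.2 ?_
    nlinarith [sq_nonneg (b + s)]
  calc |s| * Real.exp (-(a * (b + s) ^ 2))
      ≤ ((1 + |b + s|) * (1 + |b|)) * Real.exp (-(1 / 16) * (b + s) ^ 2) :=
        mul_le_mul h1 h3 (Real.exp_pos _).le (by positivity)
    _ = _ := by ring

/-- the plane integral -/
theorem Pl_T : ∃ C : ℝ≥0∞, C ≠ ⊤ ∧ ∀ n v w : R3, ‖n‖ = 1 → ‖w‖ = 1 →
    ∀ a ∈ Icc (1 / 16 : ℝ) 1, ∀ s : ℝ,
      Pl w (fun q => Ga a (v + s • w) * (Ga a (v + q) * (1 + npw |inner ℝ n (v + q)| (1 / 2)))) ≤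
        C * Ga a v * (1 + npw (sn n w) (1 / 2)) *
          ENNReal.ofReal (Real.exp (-(a * ((inner ℝ v w : ℝ) + s) ^ 2))) := by
  obtain ⟨C, hC, h⟩ := Pl_slab_sin
  refine ⟨C, hC, fun n v w hn hw a ha s => ?_⟩
  have h0 := h n w hn hw a ha 0 ⟨le_rfl, by norm_num⟩ (v + s • w) (inner ℝ n v)
  have h1 := h n w hn hw a ha (1 / 2) ⟨by norm_num, le_rfl⟩ (v + s • w) (inner ℝ n v)
  have hin : (inner ℝ (v + s • w) w : ℝ) = inner ℝ v w + s := by
    rw [inner_add_left, real_inner_smul_left, real_inner_self_eq_norm_sq, hw]; ring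
  rw [hin] at h0 h1
  have hm : ∀ γ : ℝ, Measurable (fun q : R3 =>
      Ga a (v + s • w + q) * npw |(inner ℝ n v : ℝ) + inner ℝ n q| γ) := by
    intro γ
    refine ((measurable_Ga a).comp (measurable_const.add measurable_id)).mul ?_
    unfold npw
    refine Measurable.pow_const (ENNReal.measurable_ofReal.comp ?_) _
    exact (continuous_abs.comp (continuous_const.add
      (continuous_const.inner continuous_id))).measurable
  have hG : Ga a v ≠ ⊤ := ENNReal.ofReal_ne_top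
  calc Pl w (fun q => Ga a (v + s • w) * (Ga a (v + q) * (1 + npw |inner ℝ n (v + q)| (1 / 2))))
      ≤ Pl w (fun q => Ga a v * (Ga a (v + s • w + q) * npw |(inner ℝ n v : ℝ) + inner ℝ n q| 0 +
          Ga a (v + s • w + q) * npw |(inner ℝ n v : ℝ) + inner ℝ n q| (1 / 2))) := by
        refine Pl_mono w (fun q hq => le_of_eq ?_) hw
        have hq' : inner ℝ q (v + s • w - v) = (0 : ℝ) := by
          rw [add_sub_cancel_left, real_inner_smul_right, hq, mul_zero]
        rw [← mul_assoc, Ga_plane a v (v + s • w) q hq', npw_zero, inner_add_right, mul_assoc,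
          mul_add]
    _ = Ga a v * (Pl w (fun q => Ga a (v + s • w + q) * npw |(inner ℝ n v : ℝ) + inner ℝ n q| 0) +
          Pl w (fun q => Ga a (v + s • w + q) * npw |(inner ℝ n v : ℝ) + inner ℝ n q| (1 / 2))) := by
        rw [Pl_const_mul w _ ((hm 0).fun_add (hm (1 / 2))), Pl_add w (hm 0)]
    _ ≤ Ga a v * (C * ENNReal.ofReal (Real.exp (-(a * ((inner ℝ v w : ℝ) + s) ^ 2))) *
            npw (sn n w) 0 +
          C * ENNReal.ofReal (Real.exp (-(a * ((inner ℝ v w : ℝ) + s) ^ 2))) *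
            npw (sn n w) (1 / 2)) := by
        gcongr
    _ = _ := by rw [npw_zero]; ring

/-- the Gaussian against the squared plane singularity -/
theorem Qp_Ga_T : ∃ C : ℝ≥0∞, C ≠ ⊤ ∧ ∀ n v : R3, ‖n‖ = 1 → ∀ a ∈ Icc (1 / 16 : ℝ) 1,
    Qp (Ga a) (fun ζ => Ga a ζ * (1 + npw |inner ℝ n ζ| (1 / 2))) v ≤
      C * ENNReal.ofReal (jb v) * Ga a v := by
  obtain ⟨C, hC, h⟩ := Pl_T
  obtain ⟨K, hK, hk⟩ := lint_abs_gauss
  obtain ⟨Cs, hCs, hs⟩ := sphere_sin
  refine ⟨C * K * (13 + Cs), ENNReal.mul_ne_top (ENNReal.mul_ne_top hC hK)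
    (ENNReal.add_ne_top.2 ⟨by norm_num, hCs⟩), fun n v hn a ha => ?_⟩
  have hG : Ga a v ≠ ⊤ := ENNReal.ofReal_ne_top
  have hH : Measurable (fun q : R3 × R3 =>
      Ga a q.1 * (Ga a q.2 * (1 + npw |inner ℝ n q.2| (1 / 2)))) :=
    ((measurable_Ga a).comp measurable_fst).mul (((measurable_Ga a).comp measurable_snd).mul
      (measurable_const.add ((measurable_npw_inner n (1 / 2)).comp measurable_snd)))
  have e1 : Qp (Ga a) (fun ζ => Ga a ζ * (1 + npw |inner ℝ n ζ| (1 / 2))) v =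
      QH (fun q : R3 × R3 => Ga a q.1 * (Ga a q.2 * (1 + npw |inner ℝ n q.2| (1 / 2)))) v := rfl
  rw [e1, QH_eq_omega _ hH]
  have hc : C * Ga a v * K * ENNReal.ofReal (jb v) ≠ ⊤ :=
    ENNReal.mul_ne_top (ENNReal.mul_ne_top (ENNReal.mul_ne_top hC hG) hK) ENNReal.ofReal_ne_top
  calc _ ≤ ∫⁻ w, C * Ga a v * K * ENNReal.ofReal (jb v) * (1 + npw (sn n w) (1 / 2))
          ∂sphereMeasure := by
        refine lintegral_mono_ae (ae_norm_one.mono fun w hw => ?_)
        have hb : ENNReal.ofReal (1 + |(inner ℝ v w : ℝ)|) ≤ ENNReal.ofReal (jb v) := by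
          refine ENNReal.ofReal_le_ofReal ?_
          have := abs_real_inner_le_norm v w
          rw [hw, mul_one] at this
          unfold jb; linarith
        have hm : Measurable (fun s : ℝ => ENNReal.ofReal |s| *
            ENNReal.ofReal (Real.exp (-(a * ((inner ℝ v w : ℝ) + s) ^ 2)))) :=
          (ENNReal.measurable_ofReal.comp (by fun_prop)).mul
            (ENNReal.measurable_ofReal.comp (by fun_prop))
        calc _ ≤ ∫⁻ s : ℝ, C * Ga a v * (1 + npw (sn n w) (1 / 2)) * (ENNReal.ofReal |s| *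
              ENNReal.ofReal (Real.exp (-(a * ((inner ℝ v w : ℝ) + s) ^ 2)))) := by
              refine lintegral_mono fun s => ?_
              calc _ ≤ ENNReal.ofReal |s| * (C * Ga a v * (1 + npw (sn n w) (1 / 2)) *
                    ENNReal.ofReal (Real.exp (-(a * ((inner ℝ v w : ℝ) + s) ^ 2)))) :=
                    mul_le_mul_right (h n v w hn hw a ha s) _
                _ = _ := by ring
          _ = C * Ga a v * (1 + npw (sn n w) (1 / 2)) * ∫⁻ s : ℝ, (ENNReal.ofReal |s| *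
              ENNReal.ofReal (Real.exp (-(a * ((inner ℝ v w : ℝ) + s) ^ 2)))) :=
              lintegral_const_mul _ hm
          _ ≤ C * Ga a v * (1 + npw (sn n w) (1 / 2)) * (K * ENNReal.ofReal (jb v)) := by
              refine mul_le_mul_right ((hk a ha.1 _).trans ?_) _
              exact mul_le_mul_right hb _
          _ = _ := by ring
    _ = C * Ga a v * K * ENNReal.ofReal (jb v) *
          (sphereMeasure univ + ∫⁻ w, npw (sn n w) (1 / 2) ∂sphereMeasure) := by
        rw [lintegral_const_mul' _ _ hc, lintegral_add_left measurable_const, lintegral_one]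
    _ ≤ C * Ga a v * K * ENNReal.ofReal (jb v) * (13 + Cs) := by
        gcongr
        · exact sphere_univ_le
        · exact hs n hn
    _ = _ := by ring

/-- the point singularities -/
def DS (S : Finset R3) (ζ : R3) : ℝ≥0∞ := ∑ c ∈ S, sing c ζ

theorem measurable_DS (S : Finset R3) : Measurable (DS S) :=
  Finset.measurable_sum S fun c _ => measurable_sing c

/-- splitting of the bilinear form -/
theorem Qp_split (n v : R3) (S S' : Finset R3) (a : ℝ) :
    Qp (fun η => Ga a η * SgA n S η) (fun ζ => Ga a ζ * SgA n S' ζ) v ≤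
      2 * Qp (Ga a) (fun ζ => Ga a ζ * (1 + npw |inner ℝ n ζ| (1 / 2))) v +
      Qp (fun η => Ga a η * DS S η) (fun ζ => Ga a ζ * SgA n S' ζ) v +
      Qp (fun η => Ga a η * DS S' η) (fun ζ => Ga a ζ * SgA n S ζ) v := by
  have hG := measurable_Ga a
  have hT : Measurable (fun ζ : R3 => Ga a ζ * (1 + npw |inner ℝ n ζ| (1 / 2))) :=
    hG.mul (measurable_const.add (measurable_npw_inner n (1 / 2)))
  have hD : ∀ S : Finset R3, Measurable (fun ζ : R3 => Ga a ζ * DS S ζ) :=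
    fun S => hG.mul (measurable_DS S)
  have hS : ∀ S : Finset R3, Measurable (fun ζ : R3 => Ga a ζ * SgA n S ζ) :=
    fun S => hG.mul (measurable_SgA n S)
  rw [two_mul, Qp_comm (hD S') (hS S)]
  nth_rewrite 1 [Qp_comm hG hT]
  unfold Qp
  have m1 : Measurable (fun q : R3 × R3 =>
      (Ga a q.1 * (1 + npw |inner ℝ n q.1| (1 / 2))) * Ga a q.2) :=
    (hT.comp measurable_fst).mul (hG.comp measurable_snd)
  have m2 : Measurable (fun q : R3 × R3 =>
      Ga a q.1 * (Ga a q.2 * (1 + npw |inner ℝ n q.2| (1 / 2)))) :=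
    (hG.comp measurable_fst).mul (hT.comp measurable_snd)
  have m3 : Measurable (fun q : R3 × R3 => (Ga a q.1 * DS S q.1) * (Ga a q.2 * SgA n S' q.2)) :=
    ((hD S).comp measurable_fst).mul ((hS S').comp measurable_snd)
  beta_reduce
  rw [← QH_add m1, ← QH_add (m1.fun_add m2), ← QH_add ((m1.fun_add m2).fun_add m3)]
  refine QH_mono (fun q => ?_) v
  have e : ∀ (S : Finset R3) (ζ : R3), SgA n S ζ = (1 + npw |inner ℝ n ζ| (1 / 4)) + DS S ζ :=
    fun _ _ => rfl
  have h1 := prod_le_sq (npw |inner ℝ n q.1| (1 / 4)) (npw |inner ℝ n q.2| (1 / 4))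
  rw [npw_quarter_sq, npw_quarter_sq] at h1
  have h2 : SgA n S q.1 * SgA n S' q.2 ≤
      (1 + npw |inner ℝ n q.1| (1 / 2)) + (1 + npw |inner ℝ n q.2| (1 / 2)) +
        DS S q.1 * SgA n S' q.2 + SgA n S q.1 * DS S' q.2 := by
    calc SgA n S q.1 * SgA n S' q.2
        = (1 + npw |inner ℝ n q.1| (1 / 4)) * (1 + npw |inner ℝ n q.2| (1 / 4)) +
          DS S q.1 * SgA n S' q.2 + (1 + npw |inner ℝ n q.1| (1 / 4)) * DS S' q.2 := by
          rw [e S q.1, e S' q.2]; ring
      _ ≤ _ := by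
          gcongr
          rw [e S q.1]; exact le_self_add
  calc Ga a q.1 * SgA n S q.1 * (Ga a q.2 * SgA n S' q.2)
      = Ga a q.1 * Ga a q.2 * (SgA n S q.1 * SgA n S' q.2) := by ring
    _ ≤ Ga a q.1 * Ga a q.2 * ((1 + npw |inner ℝ n q.1| (1 / 2)) +
          (1 + npw |inner ℝ n q.2| (1 / 2)) +
          DS S q.1 * SgA n S' q.2 + SgA n S q.1 * DS S' q.2) := mul_le_mul_right h2 _
    _ = _ := by ring

theorem measurable_npw (γ : ℝ) : Measurable (fun x : ℝ => npw x γ) := by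
  unfold npw
  exact Measurable.pow_const ENNReal.measurable_ofReal _

theorem measurable_dir : Measurable dir := by
  unfold dir
  exact measurable_norm.inv.smul measurable_id

theorem continuous_sn (n : R3) : Continuous (fun ν : R3 => sn n ν) := by
  unfold sn
  fun_prop

theorem measurable_sn_dir (n v : R3) :
    Measurable (fun η : R3 => npw ‖η - v‖ 1 * (1 + npw (sn n (dir (η - v))) (1 / 4))) := by
  have h0 : Measurable (fun η : R3 => η - v) := measurable_id.sub_const v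
  have h1 : Measurable (fun η : R3 => npw ‖η - v‖ 1) := (measurable_npw 1).comp h0.norm
  have h2 : Measurable (fun η : R3 => npw (sn n (dir (η - v))) (1 / 4)) :=
    (measurable_npw (1 / 4)).comp ((continuous_sn n).measurable.comp (measurable_dir.comp h0))
  exact h1.fun_mul (measurable_const.fun_add h2)

/-- potential of `DS` from the potential of one point singularity -/
theorem pot_DS (C : ℝ≥0∞) (n v : R3) (S : Finset R3)
    (h : ∀ c : R3, ∫⁻ η, sing c η * npw ‖η - v‖ 1 * (1 + npw (sn n (dir (η - v))) (1 / 4)) ≤ C) :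
    ∫⁻ η, DS S η * npw ‖η - v‖ 1 * (1 + npw (sn n (dir (η - v))) (1 / 4)) ≤ C * (1 + S.card) := by
  have e : ∀ η : R3, DS S η * npw ‖η - v‖ 1 * (1 + npw (sn n (dir (η - v))) (1 / 4)) =
      ∑ c ∈ S, sing c η * (npw ‖η - v‖ 1 * (1 + npw (sn n (dir (η - v))) (1 / 4))) := by
    intro η; unfold DS; rw [mul_assoc, Finset.sum_mul]
  simp_rw [e]
  rw [lintegral_finsetSum S fun c _ => (measurable_sing c).fun_mul (measurable_sn_dir n v)]
  calc _ ≤ ∑ _c ∈ S, C := Finset.sum_le_sum fun c _ => by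
        simpa only [mul_assoc] using h c
    _ = C * S.card := by rw [Finset.sum_const, nsmul_eq_mul, mul_comm]
    _ ≤ _ := mul_le_mul_right le_add_self _

theorem norm_sub_le_jb (v η : R3) : ‖v - η‖ ≤ jb v * jb η := by
  unfold jb
  nlinarith [norm_sub_le v η, norm_nonneg v, norm_nonneg η,
    mul_nonneg (norm_nonneg v) (norm_nonneg η)]

/-- a unit ball at distance `≳ ⟨v⟩` from `v` inside `B(0, 5)` -/
theorem exists_ball (v : R3) : ∃ c : R3, ∀ η : R3, ‖η - c‖ ≤ 1 → ‖η‖ ≤ 5 ∧ jb v ≤ 3 * ‖v - η‖ := by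
  by_cases hv : 2 ≤ ‖v‖
  · refine ⟨0, fun η hη => ?_⟩
    rw [sub_zero] at hη
    have := norm_sub_norm_le v η
    unfold jb
    constructor <;> linarith
  · push Not at hv
    obtain ⟨e, he⟩ : ∃ e : R3, ‖e‖ = 2 := exists_norm_eq R3 (by norm_num)
    refine ⟨v + e, fun η hη => ?_⟩
    have h1 : ‖η‖ ≤ ‖η - (v + e)‖ + ‖v + e‖ := by
      have := norm_add_le (η - (v + e)) (v + e)
      rwa [sub_add_cancel] at this
    have h2 := norm_add_le v e
    have h3 : ‖e‖ ≤ ‖η - (v + e)‖ + ‖v - η‖ := by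
      have h4 := norm_add_le (η - (v + e)) (v - η)
      have h5 : η - (v + e) + (v - η) = -e := by abel
      rwa [h5, norm_neg] at h4
    unfold jb
    constructor <;> linarith

theorem const_le_one : (2 * Real.pi) ^ (-(3 / 2 : ℝ)) ≤ 1 :=
  Real.rpow_le_one_of_one_le_of_nonpos (by linarith [Real.pi_gt_three]) (by norm_num)

theorem const_pos : 0 < (2 * Real.pi) ^ (-(3 / 2 : ℝ)) :=
  Real.rpow_pos_of_pos (by linarith [Real.pi_gt_three]) _

theorem LL_le_moment' (f : R3 → ℝ≥0∞) (hf : Measurable f) (v : R3) :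
    LL f v ≤ 13 * ENNReal.ofReal (jb v) * ∫⁻ η, ENNReal.ofReal (jb η) * f η := by
  rw [LL_eq f hf v, mul_assoc, ← lintegral_const_mul' _ _ ENNReal.ofReal_ne_top]
  refine mul_le_mul' cz_le (lintegral_mono fun η => ?_)
  rw [← mul_assoc, ← ENNReal.ofReal_mul (jb_pos v).le]
  exact mul_le_mul_left (ENNReal.ofReal_le_ofReal (norm_sub_le_jb v η)) _

theorem measurable_mu' : Measurable mu := by
  unfold mu maxwellian
  exact ENNReal.measurable_ofReal.comp (by fun_prop)

theorem LL_mu_ge' : ∃ ν : ℝ, 0 < ν ∧ ν ≤ 1 ∧ ∀ v : R3, ENNReal.ofReal (ν * jb v) ≤ LL mu v := by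
  have hc := const_pos
  have he : Real.exp (-(25 / 2)) ≤ 1 := Real.exp_le_one_iff.2 (by norm_num)
  refine ⟨(2 * Real.pi) ^ (-(3 / 2 : ℝ)) * Real.exp (-(25 / 2)), by positivity,
    mul_le_one₀ const_le_one (Real.exp_pos _).le he, fun v => ?_⟩
  obtain ⟨c, hcv⟩ := exists_ball v
  set ν : ℝ := (2 * Real.pi) ^ (-(3 / 2 : ℝ)) * Real.exp (-(25 / 2)) with hν
  have hν0 : 0 < ν := by positivity
  have hm : MeasurableSet {η : R3 | ‖η - c‖ ≤ 1} := measurableSet_le (by fun_prop) measurable_const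
  have hj := jb_pos v
  rw [LL_eq mu measurable_mu' v]
  calc ENNReal.ofReal (ν * jb v)
      ≤ ENNReal.ofReal (ν * jb v / 3) * ENNReal.ofReal (4 * (1 : ℝ) ^ 3) := by
        rw [← ENNReal.ofReal_mul (by positivity)]
        refine ENNReal.ofReal_le_ofReal ?_
        nlinarith [mul_pos hν0 hj]
    _ ≤ ENNReal.ofReal (ν * jb v / 3) * volume {η : R3 | ‖η - c‖ ≤ 1} :=
        mul_le_mul_right (vol_ball_ge c 1 zero_le_one) _
    _ = ∫⁻ η, {η : R3 | ‖η - c‖ ≤ 1}.indicator (fun _ => ENNReal.ofReal (ν * jb v / 3)) η := by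
        rw [lintegral_indicator_const hm]
    _ ≤ ∫⁻ η, ENNReal.ofReal ‖v - η‖ * mu η := by
        refine lintegral_mono fun η => ?_
        by_cases hη : ‖η - c‖ ≤ 1
        · rw [indicator_of_mem (show η ∈ {η : R3 | ‖η - c‖ ≤ 1} from hη)]
          obtain ⟨h1, h2⟩ := hcv η hη
          unfold mu maxwellian
          rw [← ENNReal.ofReal_mul (norm_nonneg _)]
          refine ENNReal.ofReal_le_ofReal ?_
          have h3 : Real.exp (-(25 / 2)) ≤ Real.exp (-‖η‖ ^ 2 / 2) := by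
            refine Real.exp_le_exp.2 ?_
            nlinarith [norm_nonneg η]
          have h4 : ν ≤ (2 * Real.pi) ^ (-(3 / 2 : ℝ)) * Real.exp (-‖η‖ ^ 2 / 2) :=
            mul_le_mul_of_nonneg_left h3 hc.le
          calc ν * jb v / 3 = jb v / 3 * ν := by ring
            _ ≤ _ := mul_le_mul (by linarith) h4 hν0.le (norm_nonneg _)
        · rw [indicator_of_notMem (show η ∉ {η : R3 | ‖η - c‖ ≤ 1} from hη)]
          exact zero_le
    _ ≤ _ := le_mul_of_one_le_left' one_le_cz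

end
end BilB
end Crest.Agent.R68
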