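import Crest.Agent.R68.Sphere

/-! # Row 68: measurability and the Carleman representation -/

set_option autoImplicit false
open MeasureTheory Set Filter Topology
open scoped ENNReal NNReal
open Crest.AnalysisR.VecCalc3 Crest.AnalysisR.PDE.Boltzmann

namespace Crest.Agent.R68
noncomputable section

theorem measurable_ab : Measurable (fun x : R3 × R3 × R3 => ab x.1 x.2.1 x.2.2) := by
  unfold ab
  refine ENNReal.measurable_ofReal.comp (Continuous.measurable ?_)
  fun_prop

theorem measurable_postVel : Measurable (fun x : R3 × R3 × R3 => postVel x.1 x.2.1 x.2.2) := by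
  unfold postVel
  refine Continuous.measurable ?_
  fun_prop

theorem measurable_postVelStar :
    Measurable (fun x : R3 × R3 × R3 => postVelStar x.1 x.2.1 x.2.2) := by
  unfold postVelStar
  refine Continuous.measurable ?_
  fun_prop

/-- joint measurability of the integrand of `QH` -/
theorem Carleman_meas_int {α : Type*} [MeasurableSpace α] (H : α → R3 × R3 → ℝ≥0∞)
    (hH : Measurable (fun x : α × (R3 × R3) => H x.1 x.2)) (v : α → R3) (hv : Measurable v) :
    Measurable (fun x : (α × R3) × R3 => ab (v x.1.1) x.1.2 x.2 *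
      H x.1.1 (postVel (v x.1.1) x.1.2 x.2, postVelStar (v x.1.1) x.1.2 x.2)) := by
  have hm : Measurable (fun x : (α × R3) × R3 => ((v x.1.1, x.1.2, x.2) : R3 × R3 × R3)) :=
    (hv.comp measurable_fst.fst).prodMk (measurable_fst.snd.prodMk measurable_snd)
  exact (measurable_ab.comp hm).mul (hH.comp (measurable_fst.fst.prodMk
    ((measurable_postVel.comp hm).prodMk (measurable_postVelStar.comp hm))))

/-- joint measurability of the integrand of `QH` in `(v⁎, w)` -/
theorem Carleman_meas_int' {H : R3 × R3 → ℝ≥0∞} (hH : Measurable H) (v : R3) :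
    Measurable (fun x : R3 × R3 => ab v x.1 x.2 * H (postVel v x.1 x.2, postVelStar v x.1 x.2)) := by
  have hm : Measurable (fun x : R3 × R3 => ((v, x.1, x.2) : R3 × R3 × R3)) :=
    measurable_const.prodMk (measurable_fst.prodMk measurable_snd)
  exact (measurable_ab.comp hm).mul (hH.comp
    ((measurable_postVel.comp hm).prodMk (measurable_postVelStar.comp hm)))

theorem Carleman_meas_int'' {H : R3 × R3 → ℝ≥0∞} (hH : Measurable H) (v vs : R3) :
    Measurable (fun w : R3 => ab v vs w * H (postVel v vs w, postVelStar v vs w)) :=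
  (Carleman_meas_int' hH v).comp (f := fun w : R3 => (vs, w)) (measurable_const.prodMk measurable_id)

theorem Carleman_meas_sh {H : R3 × R3 → ℝ≥0∞} (hH : Measurable H) (u v : R3) :
    Measurable (fun q : R3 => H (u, v + q)) :=
  hH.comp (f := fun q : R3 => (u, v + q))
    (measurable_const.prodMk (measurable_const.add measurable_id))

theorem measurable_QH_param {α : Type*} [MeasurableSpace α] (H : α → R3 × R3 → ℝ≥0∞)
    (hH : Measurable (fun x : α × (R3 × R3) => H x.1 x.2)) (v : α → R3) (hv : Measurable v) :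
    Measurable (fun a => QH (H a) (v a)) := by
  have h1 := (Carleman_meas_int H hH v hv).lintegral_prod_right' (ν := sphereMeasure)
  exact h1.lintegral_prod_right' (ν := (volume : Measure R3))

theorem measurable_LL_param {α : Type*} [MeasurableSpace α] (f : α → R3 → ℝ≥0∞)
    (hf : Measurable (fun x : α × R3 => f x.1 x.2)) (v : α → R3) (hv : Measurable v) :
    Measurable (fun a => LL (f a) (v a)) := by
  have hm : Measurable (fun x : (α × R3) × R3 => ((v x.1.1, x.1.2, x.2) : R3 × R3 × R3)) :=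
    (hv.comp measurable_fst.fst).prodMk (measurable_fst.snd.prodMk measurable_snd)
  have h0 : Measurable (fun x : (α × R3) × R3 => ab (v x.1.1) x.1.2 x.2 * f x.1.1 x.1.2) :=
    (measurable_ab.comp hm).mul (hf.comp measurable_fst)
  have h1 := h0.lintegral_prod_right' (ν := sphereMeasure)
  exact h1.lintegral_prod_right' (ν := (volume : Measure R3))

theorem Carleman_meas_ind : Measurable ((Icc (0 : ℝ) 1).indicator (1 : ℝ → ℝ≥0∞)) :=
  measurable_one.indicator measurableSet_Icc

theorem measurable_Pl_param {α : Type*} [MeasurableSpace α] (φ : α → R3 → ℝ≥0∞)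
    (hφ : Measurable (fun x : α × R3 => φ x.1 x.2)) (ν : α → R3) (hν : Measurable ν) :
    Measurable (fun a => Pl (ν a) (φ a)) := by
  have hi : Measurable (fun x : α × R3 => (inner ℝ x.2 (ν x.1) : ℝ)) :=
    measurable_snd.inner (hν.comp measurable_fst)
  have h0 : Measurable (fun x : α × R3 => φ x.1 (x.2 - (inner ℝ x.2 (ν x.1) : ℝ) • ν x.1) *
      (Icc (0 : ℝ) 1).indicator 1 (inner ℝ x.2 (ν x.1) : ℝ)) :=
    (hφ.comp (measurable_fst.prodMk (measurable_snd.sub (hi.smul (hν.comp measurable_fst))))).mul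
      (Carleman_meas_ind.comp hi)
  exact h0.lintegral_prod_right' (ν := (volume : Measure R3))

theorem measurable_sec {F : PF} (hF : Measurable F) (p : Ph) : Measurable (sec F p) :=
  hF.comp (measurable_const.prodMk (measurable_const.prodMk measurable_id))

theorem measurable_QF {F G : PF} (hF : Measurable F) (hG : Measurable G) : Measurable (QF F G) := by
  refine measurable_QH_param (fun (p : Ph) (q : R3 × R3) => sec F p q.1 * sec G p q.2) ?_
    (fun p => p.2.2) measurable_snd.snd
  exact (hF.comp (measurable_fst.fst.prodMk (measurable_fst.snd.fst.prodMk measurable_snd.fst))).mul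
    (hG.comp (measurable_fst.fst.prodMk (measurable_fst.snd.fst.prodMk measurable_snd.snd)))

theorem measurable_LF {F : PF} (hF : Measurable F) : Measurable (LF F) := by
  refine measurable_LL_param (fun (p : Ph) => sec F p) ?_ (fun p => p.2.2) measurable_snd.snd
  exact hF.comp (measurable_fst.fst.prodMk (measurable_fst.snd.fst.prodMk measurable_snd))

theorem QH_mono {H H' : R3 × R3 → ℝ≥0∞} (h : ∀ q, H q ≤ H' q) (v : R3) : QH H v ≤ QH H' v :=
  lintegral_mono fun _ => lintegral_mono fun _ => mul_le_mul_right (h _) _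

theorem QH_add {H H' : R3 × R3 → ℝ≥0∞} (hH : Measurable H) (v : R3) :
    QH (fun q => H q + H' q) v = QH H v + QH H' v := by
  have h0 := Carleman_meas_int' hH v
  unfold QH
  rw [← lintegral_add_left (h0.lintegral_prod_right' (ν := sphereMeasure))]
  refine lintegral_congr fun vs => ?_
  exact (lintegral_congr fun w => mul_add _ _ _).trans
    (lintegral_add_left (Carleman_meas_int'' hH v vs) _)

theorem QH_const_mul (c : ℝ≥0∞) {H : R3 × R3 → ℝ≥0∞} (hH : Measurable H) (v : R3) :
    QH (fun q => c * H q) v = c * QH H v := by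
  have h0 := Carleman_meas_int' hH v
  unfold QH
  rw [← lintegral_const_mul c (h0.lintegral_prod_right' (ν := sphereMeasure))]
  refine lintegral_congr fun vs => ?_
  exact (lintegral_congr fun w => mul_left_comm _ _ _).trans
    (lintegral_const_mul c (Carleman_meas_int'' hH v vs))

theorem QH_iSup {H : ℕ → R3 × R3 → ℝ≥0∞} (hH : ∀ n, Measurable (H n)) (hm : Monotone H) (v : R3) :
    QH (fun q => ⨆ n, H n q) v = ⨆ n, QH (H n) v := by
  have h0 := fun n => Carleman_meas_int' (hH n) v
  unfold QH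
  rw [← lintegral_iSup (fun n => (h0 n).lintegral_prod_right' (ν := sphereMeasure))
    fun m n hmn vs => lintegral_mono fun w => mul_le_mul_right (hm hmn _) _]
  refine lintegral_congr fun vs => ?_
  exact (lintegral_congr fun w => ENNReal.mul_iSup _ _).trans
    (lintegral_iSup (fun n => Carleman_meas_int'' (hH n) v vs)
      fun m n hmn w => mul_le_mul_right (hm hmn _) _)

theorem Carleman_ind_one (c : ℝ) : ∫⁻ s : ℝ, (Icc (0 : ℝ) 1).indicator (1 : ℝ → ℝ≥0∞) (c - s) = 1 := by
  rw [lintegral_sub_left_eq_self ((Icc (0 : ℝ) 1).indicator (1 : ℝ → ℝ≥0∞)) c,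
    lintegral_indicator_one measurableSet_Icc]
  simp

/-- Splitting `ℝ³ = ℝ ν ⊕ ν^⊥` (rotate `ν` to `e₀` with `exists_iso_e0`, then
`EuclideanSpace`/`PiLp.volume_preserving_toLp`, `volume_preserving_piFinSuccAbove`/`Fin.consEquiv`). -/
theorem lint_split (ν : R3) (hν : ‖ν‖ = 1) (Φ : ℝ × R3 → ℝ≥0∞) (hΦ : Measurable Φ) :
    ∫⁻ z : R3, Φ (inner ℝ z ν, z - (inner ℝ z ν : ℝ) • ν) = ∫⁻ a : ℝ, Pl ν (fun q => Φ (a, q)) := by
  have hνν : (inner ℝ ν ν : ℝ) = 1 := by rw [real_inner_self_eq_norm_sq, hν]; norm_num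
  have hl : Measurable fun q : R3 => (inner ℝ q ν : ℝ) := measurable_id.inner measurable_const
  have hP : Measurable fun q : R3 => q - (inner ℝ q ν : ℝ) • ν :=
    measurable_id.sub (hl.smul measurable_const)
  set χ : ℝ → ℝ≥0∞ := (Icc (0 : ℝ) 1).indicator 1 with hχ
  have hχm : Measurable χ := Carleman_meas_ind
  have m1 : Measurable fun x : ℝ × R3 =>
      Φ (x.1, x.2 - (inner ℝ x.2 ν : ℝ) • ν) * χ (inner ℝ x.2 ν : ℝ) :=
    (hΦ.comp (measurable_fst.prodMk (hP.comp measurable_snd))).mul (hχm.comp (hl.comp measurable_snd))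
  have m2 : Measurable fun x : ℝ × R3 =>
      Φ ((inner ℝ x.2 ν : ℝ) + x.1, x.2 - (inner ℝ x.2 ν : ℝ) • ν) * χ (inner ℝ x.2 ν : ℝ) :=
    (hΦ.comp (((hl.comp measurable_snd).add measurable_fst).prodMk (hP.comp measurable_snd))).mul
      (hχm.comp (hl.comp measurable_snd))
  have m3 : Measurable fun x : ℝ × R3 =>
      Φ ((inner ℝ x.2 ν : ℝ), x.2 - (inner ℝ x.2 ν : ℝ) • ν) * χ ((inner ℝ x.2 ν : ℝ) - x.1) :=
    (hΦ.comp ((hl.comp measurable_snd).prodMk (hP.comp measurable_snd))).mul
      (hχm.comp ((hl.comp measurable_snd).sub measurable_fst))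
  symm
  calc ∫⁻ a : ℝ, Pl ν (fun q => Φ (a, q))
      = ∫⁻ q : R3, ∫⁻ a : ℝ, Φ (a, q - (inner ℝ q ν : ℝ) • ν) * χ (inner ℝ q ν : ℝ) :=
        lintegral_lintegral_swap m1.aemeasurable
    _ = ∫⁻ q : R3, ∫⁻ s : ℝ,
          Φ ((inner ℝ q ν : ℝ) + s, q - (inner ℝ q ν : ℝ) • ν) * χ (inner ℝ q ν : ℝ) :=
        lintegral_congr fun q => (lintegral_add_left_eq_self
          (fun a : ℝ => Φ (a, q - (inner ℝ q ν : ℝ) • ν) * χ (inner ℝ q ν : ℝ)) _).symm
    _ = ∫⁻ s : ℝ, ∫⁻ q : R3,
          Φ ((inner ℝ q ν : ℝ) + s, q - (inner ℝ q ν : ℝ) • ν) * χ (inner ℝ q ν : ℝ) :=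
        (lintegral_lintegral_swap m2.aemeasurable).symm
    _ = ∫⁻ s : ℝ, ∫⁻ z : R3,
          Φ ((inner ℝ z ν : ℝ), z - (inner ℝ z ν : ℝ) • ν) * χ ((inner ℝ z ν : ℝ) - s) := by
        refine lintegral_congr fun s => ?_
        rw [← lintegral_sub_right_eq_self (fun q : R3 =>
          Φ ((inner ℝ q ν : ℝ) + s, q - (inner ℝ q ν : ℝ) • ν) * χ (inner ℝ q ν : ℝ)) (s • ν)]
        refine lintegral_congr fun z => ?_
        have e1 : (inner ℝ (z - s • ν) ν : ℝ) = inner ℝ z ν - s := by
          rw [inner_sub_left, real_inner_smul_left, hνν, mul_one]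
        have e2 : z - s • ν - ((inner ℝ z ν : ℝ) - s) • ν = z - (inner ℝ z ν : ℝ) • ν := by
          rw [sub_smul]; abel
        simp only [e1, e2, sub_add_cancel]
    _ = ∫⁻ z : R3, ∫⁻ s : ℝ,
          Φ ((inner ℝ z ν : ℝ), z - (inner ℝ z ν : ℝ) • ν) * χ ((inner ℝ z ν : ℝ) - s) :=
        lintegral_lintegral_swap m3.aemeasurable
    _ = _ := by
        refine lintegral_congr fun z => ?_
        have m4 : Measurable fun s : ℝ => χ ((inner ℝ z ν : ℝ) - s) :=
          hχm.comp (measurable_const.sub measurable_id)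
        rw [lintegral_const_mul _ m4, hχ, Carleman_ind_one, mul_one]

theorem Pl_neg (ν : R3) (hν : ‖ν‖ = 1) (φ : R3 → ℝ≥0∞) (hφ : Measurable φ) :
    Pl (-ν) φ = Pl ν φ := by
  have _ := hφ
  have hνν : (inner ℝ ν ν : ℝ) = 1 := by rw [real_inner_self_eq_norm_sq, hν]; norm_num
  unfold Pl
  rw [← lintegral_sub_right_eq_self (fun q : R3 => φ (q - (inner ℝ q (-ν) : ℝ) • (-ν)) *
    (Icc (0 : ℝ) 1).indicator 1 (inner ℝ q (-ν) : ℝ)) ν]
  refine lintegral_congr fun z => ?_
  have e1 : (inner ℝ (z - ν) (-ν) : ℝ) = 1 - inner ℝ z ν := by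
    rw [inner_neg_right, inner_sub_left, hνν]; ring
  have e2 : z - ν - (1 - (inner ℝ z ν : ℝ)) • (-ν) = z - (inner ℝ z ν : ℝ) • ν := by
    rw [smul_neg, sub_smul, one_smul]; abel
  rw [e1, e2]
  congr 1
  by_cases h : (inner ℝ z ν : ℝ) ∈ Icc (0 : ℝ) 1
  · have h' : 1 - (inner ℝ z ν : ℝ) ∈ Icc (0 : ℝ) 1 := ⟨by linarith [h.2], by linarith [h.1]⟩
    rw [indicator_of_mem h, indicator_of_mem h']
    rfl
  · have h' : 1 - (inner ℝ z ν : ℝ) ∉ Icc (0 : ℝ) 1 := fun h' =>
      h ⟨by linarith [h'.2], by linarith [h'.1]⟩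
    rw [indicator_of_notMem h, indicator_of_notMem h']

theorem Carleman_Pl_const_mul (ν : R3) (c : ℝ≥0∞) {φ : R3 → ℝ≥0∞} (hφ : Measurable φ) :
    Pl ν (fun q => c * φ q) = c * Pl ν φ := by
  have hl : Measurable fun q : R3 => (inner ℝ q ν : ℝ) := measurable_id.inner measurable_const
  have hP : Measurable fun q : R3 => q - (inner ℝ q ν : ℝ) • ν :=
    measurable_id.sub (hl.smul measurable_const)
  have m : Measurable fun q : R3 => φ (q - (inner ℝ q ν : ℝ) • ν) *
      (Icc (0 : ℝ) 1).indicator 1 (inner ℝ q ν : ℝ) := (hφ.comp hP).mul (Carleman_meas_ind.comp hl)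
  exact (lintegral_congr fun q => mul_assoc _ _ _).trans (lintegral_const_mul c m)

/-- Carleman, angular form: substitute `v⁎ = v + z`, Tonelli, `lint_split` for each unit `w`. -/
theorem QH_eq_omega (H : R3 × R3 → ℝ≥0∞) (hH : Measurable H) (v : R3) :
    QH H v = ∫⁻ w, (∫⁻ a : ℝ, ENNReal.ofReal |a| * Pl w (fun q => H (v + a • w, v + q)))
      ∂sphereMeasure := by
  unfold QH
  rw [lintegral_lintegral_swap (Carleman_meas_int' hH v).aemeasurable]
  refine lintegral_congr_ae ?_
  filter_upwards [ae_norm_one] with w hw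
  have hΦ : Measurable fun x : ℝ × R3 => ENNReal.ofReal |x.1| * H (v + x.1 • w, v + x.2) :=
    (ENNReal.measurable_ofReal.comp measurable_fst.abs).mul
      (hH.comp ((measurable_const.add (measurable_fst.smul measurable_const)).prodMk
        (measurable_const.add measurable_snd)))
  have h1 := lint_split w hw _ hΦ
  rw [← lintegral_add_left_eq_self
    (fun vs => ab v vs w * H (postVel v vs w, postVelStar v vs w)) v]
  have e : ∀ z : R3, ab v (v + z) w * H (postVel v (v + z) w, postVelStar v (v + z) w) =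
      ENNReal.ofReal |(inner ℝ z w : ℝ)| *
        H (v + (inner ℝ z w : ℝ) • w, v + (z - (inner ℝ z w : ℝ) • w)) := fun z => by
    have e0 : (inner ℝ (v - (v + z)) w : ℝ) = -inner ℝ z w := by
      rw [sub_add_cancel_left, inner_neg_left]
    unfold ab postVel postVelStar
    rw [e0, abs_neg, neg_smul, sub_neg_eq_add, ← sub_eq_add_neg, add_sub_assoc]
  simp only [e]
  refine h1.trans (lintegral_congr fun a => ?_)
  exact Carleman_Pl_const_mul w (ENNReal.ofReal |a|) (Carleman_meas_sh hH (v + a • w) v)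

theorem Carleman_meas_dir : Measurable dir :=
  measurable_norm.inv.smul measurable_id

/-- Carleman: `polar` applied to `p ↦ Pl (dir p) (fun q => H (v + p, v + q))`
(`dir (a • w) = ± w`, `Pl_neg`). -/
theorem QH_eq_p (H : R3 × R3 → ℝ≥0∞) (hH : Measurable H) (v : R3) :
    QH H v = 2 * ∫⁻ p, npw ‖p‖ 1 * Pl (dir p) (fun q => H (v + p, v + q)) := by
  have hφ : Measurable fun p : R3 => Pl (dir p) (fun q => H (v + p, v + q)) :=
    measurable_Pl_param (fun p q => H (v + p, v + q))
      (hH.comp ((measurable_const.add measurable_fst).prodMk (measurable_const.add measurable_snd)))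
      dir Carleman_meas_dir
  rw [← polar _ hφ, QH_eq_omega H hH v]
  refine lintegral_congr_ae ?_
  filter_upwards [ae_norm_one] with w hw
  refine lintegral_congr fun a => ?_
  rcases lt_trichotomy a 0 with h | h | h
  · have e : dir (a • w) = -w := by
      rw [dir, norm_smul, hw, mul_one, Real.norm_eq_abs, abs_of_neg h, smul_smul, inv_neg, neg_mul,
        inv_mul_cancel₀ h.ne, neg_smul, one_smul]
    rw [e, Pl_neg w hw _ (Carleman_meas_sh hH (v + a • w) v)]
  · simp [h]
  · have e : dir (a • w) = w := by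
      rw [dir, norm_smul, hw, mul_one, Real.norm_eq_abs, abs_of_pos h, smul_smul,
        inv_mul_cancel₀ h.ne', one_smul]
    rw [e]

end
end Crest.Agent.R68
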