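import Crest.Agent.R68.PosOps

/-! # Row 68: weak compactness -/

set_option autoImplicit false
open MeasureTheory Set Filter Topology
open scoped ENNReal NNReal
open Crest.AnalysisR.VecCalc3 Crest.AnalysisR.PDE.Boltzmann

namespace Crest.Agent.R68
noncomputable section

/-- sequential Banach–Alaoglu for a bounded sequence of measurable functions -/
theorem wc_subseq {X : Type*} [MeasurableSpace X] (μ : Measure X) [IsSeparable μ] (r : ℕ → X → ℝ)
    (hr : ∀ n, Measurable (r n)) (hb : ∀ n x, ‖r n x‖ ≤ 1) :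
    ∃ φ : ℕ → ℕ, StrictMono φ ∧ ∀ k : X → ℝ, Integrable k μ →
      ∃ l : ℝ, Tendsto (fun n => ∫ x, r (φ n) x * k x ∂μ) atTop (𝓝 l) := by
  have : Fact ((1 : ℝ≥0∞) ≠ ∞) := ⟨ENNReal.one_ne_top⟩
  have hi : ∀ n (k : X → ℝ), Integrable k μ → Integrable (fun x => r n x * k x) μ :=
    fun n k hk => hk.bdd_mul (hr n).aestronglyMeasurable (ae_of_all _ (hb n))
  let L : ℕ → (Lp ℝ 1 μ →ₗ[ℝ] ℝ) := fun n =>
    { toFun := fun k => ∫ x, r n x * k x ∂μ
      map_add' := fun k k' => by
        rw [← integral_add (hi n _ (L1.integrable_coeFn k)) (hi n _ (L1.integrable_coeFn k'))]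
        refine integral_congr_ae ?_
        filter_upwards [Lp.coeFn_add k k'] with x hx
        rw [hx, Pi.add_apply, mul_add]
      map_smul' := fun c k => by
        rw [RingHom.id_apply, smul_eq_mul, ← integral_const_mul]
        refine integral_congr_ae ?_
        filter_upwards [Lp.coeFn_smul c k] with x hx
        rw [hx, Pi.smul_apply, smul_eq_mul]
        ring }
  have hL : ∀ n (k : Lp ℝ 1 μ), ‖L n k‖ ≤ 1 * ‖k‖ := fun n k => by
    rw [one_mul, L1.norm_eq_integral_norm]
    refine norm_integral_le_of_norm_le (L1.integrable_coeFn k).norm (ae_of_all _ fun x => ?_)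
    rw [norm_mul]
    exact mul_le_of_le_one_left (norm_nonneg _) (hb n x)
  obtain ⟨a, -, φ, hφ, ha⟩ := WeakDual.isSeqCompact_closedBall ℝ (Lp ℝ 1 μ) 0 1
    (x := fun n => StrongDual.toWeakDual ((L n).mkContinuous 1 (hL n))) fun n => by
      simpa using LinearMap.mkContinuous_norm_le _ zero_le_one (hL n)
  refine ⟨φ, hφ, fun k hk => ⟨a (hk.toL1 k), ?_⟩⟩
  refine (((WeakDual.eval_continuous (hk.toL1 k)).tendsto a).comp ha).congr fun n => ?_
  change ∫ x, r (φ n) x * (hk.toL1 k) x ∂μ = _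
  refine integral_congr_ae ?_
  filter_upwards [hk.coeFn_toL1] with x hx
  rw [hx]

/-- Diagonal extraction: `L¹(Ph)` is separable (`MeasureTheory.Lp.SecondCountableTopology`), the real
functions `r n = (f n / env).toReal ∈ [0,1]`; choose a subsequence along which `∫ k · r n` converges for
`k` in a countable dense set (compactness of `ℕ → [-1,1]`, `IsCompact.tendsto_subseq`), hence for all
integrable `k` (Cauchy).  For `p` with `S env p ≠ ⊤`: `PosOp.exists_measure` gives `ν`; the finite measure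
`ν.withDensity env` is `≪ volume` by `hac`, so it is `volume.withDensity k` (`Measure.rnDeriv`), and
`S (f n) p = ∫⁻ (f n / env) * env dν` (as `env ≠ ⊤` `ν`-a.e. and `f n ≤ env`). -/
theorem weak_subseq {S : PF → PF} (hS : PosOp S)
    (hac : ∀ f : PF, Measurable f → (∀ᵐ q : Ph, f q = 0) → ∀ p, S f p = 0)
    {env : PF} (henv : Measurable env) (f : ℕ → PF) (hf : ∀ n, Measurable (f n))
    (hfe : ∀ n, f n ≤ env) :
    ∃ φ : ℕ → ℕ, StrictMono φ ∧ ∀ p, S env p ≠ ⊤ →
      ∃ l : ℝ≥0∞, Tendsto (fun n => S (f (φ n)) p) atTop (𝓝 l) := by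
  have hρ : ∀ n, Measurable fun q => f n q / env q := fun n => (hf n).div henv
  have hρ1 : ∀ n q, f n q / env q ≤ 1 := fun n q =>
    ENNReal.div_le_of_le_mul (by rw [one_mul]; exact hfe n q)
  have : MeasureTheory.IsSeparable (volume : Measure Ph) := isSeparable_of_sigmaFinite _
  obtain ⟨φ, hφ, H⟩ := wc_subseq (volume : Measure Ph) (fun n q => (f n q / env q).toReal)
    (fun n => (hρ n).ennreal_toReal) fun n q => by
      rw [Real.norm_of_nonneg ENNReal.toReal_nonneg]
      exact ENNReal.toReal_le_of_le_ofReal zero_le_one (by simpa using hρ1 n q)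
  refine ⟨φ, hφ, fun p hp => ?_⟩
  obtain ⟨ν, hν⟩ := hS.exists_measure p
  rw [hν env henv] at hp
  have : IsFiniteMeasure (ν.withDensity env) := isFiniteMeasure_withDensity hp
  have hm : ν.withDensity env ≪ volume := Measure.AbsolutelyContinuous.mk fun A hA h0 => by
    rw [withDensity_apply _ hA, ← lintegral_indicator hA, ← hν _ (henv.indicator hA)]
    refine hac _ (henv.indicator hA) ?_ p
    filter_upwards [measure_eq_zero_iff_ae_notMem.1 h0] with q hq
    exact indicator_of_notMem hq _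
  obtain ⟨l, hl⟩ := H _ (Measure.integrable_toReal_rnDeriv (μ := ν.withDensity env) (ν := volume))
  refine ⟨ENNReal.ofReal l, ((ENNReal.continuous_ofReal.tendsto l).comp hl).congr fun n => ?_⟩
  have e1 : S (f (φ n)) p = ∫⁻ q, f (φ n) q / env q ∂(ν.withDensity env) := by
    rw [hν _ (hf _), lintegral_withDensity_eq_lintegral_mul _ henv (hρ _)]
    refine lintegral_congr_ae ?_
    filter_upwards [ae_lt_top henv hp] with q hq
    by_cases h0 : env q = 0
    · have := hfe (φ n) q
      rw [h0, nonpos_iff_eq_zero] at this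
      simp [this]
    · exact (ENNReal.mul_div_cancel h0 hq.ne).symm
  have e2 : ∫⁻ q, f (φ n) q / env q ∂(ν.withDensity env) ≠ ⊤ :=
    ne_top_of_le_ne_top (by simpa using hp) (lintegral_mono (hρ1 (φ n)))
  rw [e1, Function.comp_apply, ← ENNReal.ofReal_toReal e2, ← integral_toReal (hρ _).aemeasurable
    (ae_of_all _ fun q => (hρ1 _ q).trans_lt ENNReal.one_lt_top), ← integral_rnDeriv_smul hm]
  simp only [smul_eq_mul, mul_comm]

/-- The square of `T f p = ∫ k p s * QF E f (fl p s) ds` kills null functions: for fixed `(s, z)` and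
`s' < s` the map `ζ ↦ z - (s - s') ζ` preserves null sets (`lint_affine`), so by Tonelli
`∫⁻ ζ, ∫⁻ s' in Ioo a s, ∫⁻ ζ₂, f (s', z - (s - s') ζ, ζ₂) = 0`; then `Qp_mono_ae` twice. -/
theorem sq_kills_null (a : ℝ) (k : Ph → ℝ → ℝ≥0∞) (hk : Measurable (fun x : Ph × ℝ => k x.1 x.2))
    {E : PF} (hE : Measurable E) (f : PF) (hf : Measurable f) (h0 : ∀ᵐ q : Ph, f q = 0) (p : Ph) :
    (fun g : PF => fun p : Ph => ∫⁻ s in Ioo a p.1, k p s * QF E g (fl p s))
      ((fun g : PF => fun p : Ph => ∫⁻ s in Ioo a p.1, k p s * QF E g (fl p s)) f) p = 0 := by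
  have hT := (posOp_Iw a k hk).comp (posOp_QF hE)
  refine KillsNull.comp (posOp_Iw a k hk) (killsNull_QF hE) _ (hT.meas f hf) (fun s z => ?_) p
  have hG : Measurable fun y : ℝ × R3 => ∫⁻ η, f (y.1, y.2, η) :=
    Measurable.lintegral_prod_right' (f := fun x : (ℝ × R3) × R3 => f (x.1.1, x.1.2, x.2))
      (hf.comp (by fun_prop))
  have h1 : ∀ᵐ s' : ℝ, ∫⁻ x, ∫⁻ η, f (s', x, η) = 0 := by
    filter_upwards [Measure.ae_ae_of_ae_prod h0] with s' hs'
    refine (lintegral_congr_ae ?_).trans lintegral_zero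
    filter_upwards [Measure.ae_ae_of_ae_prod hs'] with x hx
    exact (lintegral_congr_ae hx).trans lintegral_zero
  have hm : Measurable fun y : ℝ × R3 => ∫⁻ η, f (y.1, z - (s - y.1) • y.2, η) :=
    hG.comp (f := fun y : ℝ × R3 => (y.1, z - (s - y.1) • y.2)) (by fun_prop)
  have h2 : ∫⁻ ζ : R3, ∫⁻ s' in Ioo a s, ∫⁻ η, f (s', z - (s - s') • ζ, η) = 0 := by
    rw [← lintegral_lintegral_swap (f := fun (s' : ℝ) (ζ : R3) =>
      ∫⁻ η, f (s', z - (s - s') • ζ, η)) hm.aemeasurable]
    refine (lintegral_congr_ae ?_).trans lintegral_zero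
    filter_upwards [ae_restrict_of_ae h1, ae_restrict_mem measurableSet_Ioo] with s' hs' hs
    rw [lint_affine (fun x => ∫⁻ η, f (s', x, η)) (hG.comp measurable_prodMk_left) z _
      (sub_pos.2 hs.2), hs', mul_zero]
  filter_upwards [(lintegral_eq_zero_iff (hm.lintegral_prod_left')).1 h2] with ζ hζ
  refine (lintegral_congr_ae ?_).trans lintegral_zero
  filter_upwards [(lintegral_eq_zero_iff (hm.comp measurable_prodMk_right)).1 hζ] with s' hs'
  have h3 : ∀ᵐ η, sec f (fl (s, z, ζ) s') η ≤ 0 := by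
    filter_upwards [(lintegral_eq_zero_iff (measurable_sec hf (fl (s, z, ζ) s'))).1 hs'] with η hη
    exact hη.le
  have h4 := Qp_mono_ae (measurable_sec hE (fl (s, z, ζ) s')) (measurable_sec hE _)
    (measurable_sec hf _) measurable_const (ae_of_all _ fun _ => le_rfl) h3 ζ
  have h5 : QF E f (fl (s, z, ζ) s') = 0 := le_antisymm (h4.trans (by simp [Qp, QH])) zero_le
  rw [h5, mul_zero]

end
end Crest.Agent.R68
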