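import Crest.Agent.R68.Base
import Crest.Agent.R68.WeakCpt

/-! # Row 68: auxiliary lemmas for `Compact` (part 1) -/

set_option autoImplicit false
open MeasureTheory Set Filter Topology
open scoped ENNReal NNReal
open Crest.AnalysisR.VecCalc3 Crest.AnalysisR.PDE.Boltzmann

namespace Crest.Agent.R68
noncomputable section
namespace CptA

theorem cut_of_mem (P : Par) (f : PF) {p : Ph} (hp : p.1 ∈ Icc 0 P.t0) : cut P f p = f p :=
  if_pos hp

theorem cut_of_not_mem (P : Par) (f : PF) {p : Ph} (hp : p.1 ∉ Icc 0 P.t0) : cut P f p = 0 :=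
  if_neg hp

theorem cut_le (P : Par) (f : PF) : cut P f ≤ f := fun p => by
  by_cases hp : p.1 ∈ Icc 0 P.t0
  · rw [cut_of_mem P f hp]
  · rw [cut_of_not_mem P f hp]; exact zero_le

theorem cut_le_of (P : Par) {f g : PF} (h : ∀ p : Ph, p.1 ∈ Icc 0 P.t0 → f p ≤ g p) :
    cut P f ≤ g := fun p => by
  by_cases hp : p.1 ∈ Icc 0 P.t0
  · rw [cut_of_mem P f hp]; exact h p hp
  · rw [cut_of_not_mem P f hp]; exact zero_le

theorem cut_eq_mul (P : Par) (f : PF) : cut P f = fun p => cut P (fun _ => 1) p * f p := by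
  funext p
  by_cases hp : p.1 ∈ Icc 0 P.t0
  · rw [cut_of_mem P _ hp, cut_of_mem P _ hp, one_mul]
  · rw [cut_of_not_mem P _ hp, cut_of_not_mem P _ hp, zero_mul]

theorem posOp_cut (P : Par) {T : PF → PF} (hT : PosOp T) : PosOp (fun f => cut P (T f)) := by
  have h := hT.mul (measurable_cut P (f := fun _ => 1) measurable_const)
  have e : (fun f => cut P (T f)) = fun f p => cut P (fun _ => 1) p * T f p :=
    funext fun f => cut_eq_mul P (T f)
  rw [e]
  exact h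

theorem killsNull_cut (P : Par) {T : PF → PF} (hT : KillsNull T) :
    KillsNull (fun f => cut P (T f)) := fun f hf hn p =>
  le_antisymm ((cut_le P _ p).trans (hT f hf hn p).le) zero_le

/-- the kernel of `T0` -/
def kT (P : Par) (p : Ph) (s : ℝ) : ℝ≥0∞ := 2 * ex (Lam (cut P (c0 P)) p s)

theorem measurable_kT (P : Par) : Measurable fun x : Ph × ℝ => kT P x.1 x.2 :=
  (measurable_ex.comp (measurable_Lam (measurable_cut P (measurable_c0 P)))).const_mul 2

/-- `T0` before cutting -/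
def U0 (P : Par) (f : PF) : PF := fun p =>
  ∫⁻ s in Ioo 0 p.1, kT P p s * QF (cut P (c0 P)) f (fl p s)

theorem posOp_U0 (P : Par) : PosOp (U0 P) :=
  (posOp_Iw 0 (kT P) (measurable_kT P)).comp (posOp_QF (measurable_cut P (measurable_c0 P)))

theorem killsNull_U0 (P : Par) : KillsNull (U0 P) := by
  have h := KillsNull.comp (posOp_Iw 0 (kT P) (measurable_kT P))
    (killsNull_QF (measurable_cut P (measurable_c0 P)))
  exact h

theorem U0_le_TT (P : Par) (f : PF) : U0 P f ≤ TT P f := fun p =>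
  lintegral_mono fun s => by
    refine mul_le_mul' ?_ (QF_mono (cut_le P _) le_rfl _)
    exact mul_le_of_le_one_right' (ex_le_one _)

theorem U0_cut (P : Par) (f : PF) {p : Ph} (hp : p.1 ∈ Icc 0 P.t0) :
    U0 P (cut P f) p = U0 P f p := by
  refine setLIntegral_congr_fun measurableSet_Ioo fun s hs => ?_
  have e : sec (cut P f) (fl p s) = sec f (fl p s) :=
    funext fun η => cut_of_mem P f (p := (s, (fl p s).2.1, η)) ⟨hs.1.le, hs.2.le.trans hp.2⟩
  simp only [QF, e]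

theorem cut_U0_cut (P : Par) (f : PF) : cut P (U0 P (cut P f)) = cut P (U0 P f) := by
  funext p
  by_cases hp : p.1 ∈ Icc 0 P.t0
  · rw [cut_of_mem P _ hp, cut_of_mem P _ hp, U0_cut P f hp]
  · rw [cut_of_not_mem P _ hp, cut_of_not_mem P _ hp]

/-- `E0` before cutting -/
def V0 (P : Par) (d : PF) : PF := fun p =>
  Ia 0 (fun q => 2 * QF (cut P (Gh P 1)) d q + Maj 0 (env P 1) (F0 P) 0 q * LF d q) p +
    min 1 (Lam (cut P (Gh P 1)) p 0) * Ia 0 (fun q => 2 * QF (cut P (c0 P)) d q) p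

theorem posOp_V0 (P : Par) : PosOp (V0 P) := by
  have hG := measurable_cut P (measurable_Gh P 1)
  have h1 := ((posOp_QF hG).mul (w := fun _ => 2) measurable_const).plus
    (posOp_LF.mul (measurable_Maj (measurable_env P 1) (measurable_F0 P) measurable_zero 0))
  have h2 := (posOp_QF (measurable_cut P (measurable_c0 P))).mul (w := fun _ => 2) measurable_const
  have h3 : Measurable fun p : Ph => min 1 (Lam (cut P (Gh P 1)) p 0) :=
    measurable_const.min ((measurable_Lam hG).comp (f := fun p => (p, (0 : ℝ)))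
      measurable_prodMk_right)
  exact ((posOp_Ia 0).comp h1).plus (((posOp_Ia 0).comp h2).mul h3)

theorem killsNull_V0 (P : Par) : KillsNull (V0 P) := by
  have hG := measurable_cut P (measurable_Gh P 1)
  have h1 := ((killsNull_QF hG).mul (fun _ => 2)).plus
    (killsNull_LF.mul (Maj 0 (env P 1) (F0 P) 0))
  have h2 := (killsNull_QF (measurable_cut P (measurable_c0 P))).mul (fun _ => 2)
  exact (KillsNull.comp (posOp_Ia 0) h1).plus
    ((KillsNull.comp (posOp_Ia 0) h2).mul fun p => min 1 (Lam (cut P (Gh P 1)) p 0))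

theorem TT_mono (P : Par) {f g : PF} (h : f ≤ g) : TT P f ≤ TT P g := fun _ =>
  lintegral_mono fun _ => mul_le_mul_right (QF_mono le_rfl h _) _

theorem min_one_le_sqrt (x : ℝ≥0∞) : min 1 x ≤ x ^ (1 / 2 : ℝ) := by
  rcases le_total 1 x with h | h
  · rw [min_eq_left h]
    exact ENNReal.one_le_rpow h (by norm_num)
  · rw [min_eq_right h]
    exact (ENNReal.rpow_one x).symm.trans_le (ENNReal.rpow_le_rpow_of_exponent_ge h (by norm_num))

theorem sqrt_mul_npw {K : ℝ≥0∞} {j t : ℝ} (hj : 0 < j) :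
    (K * ENNReal.ofReal (j * √t)) ^ (1 / 2 : ℝ) * npw j (1 / 2) =
      K ^ (1 / 2 : ℝ) * ENNReal.ofReal √(√t) := by
  have h1 : ENNReal.ofReal j ^ (1 / 2 : ℝ) * npw j (1 / 2) = 1 := by
    unfold npw
    rw [← ENNReal.rpow_add _ _ (ENNReal.ofReal_pos.2 hj).ne' ENNReal.ofReal_ne_top, add_neg_cancel,
      ENNReal.rpow_zero]
  rw [ENNReal.ofReal_mul hj.le, ENNReal.mul_rpow_of_nonneg _ _ (by norm_num),
    ENNReal.mul_rpow_of_nonneg _ _ (by norm_num),
    ENNReal.ofReal_rpow_of_nonneg (Real.sqrt_nonneg t) (by norm_num), ← Real.sqrt_eq_rpow]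
  calc _ = K ^ (1 / 2 : ℝ) * ENNReal.ofReal √(√t) *
        (ENNReal.ofReal j ^ (1 / 2 : ℝ) * npw j (1 / 2)) := by ring
    _ = _ := by rw [h1, mul_one]

theorem wb_le_om (P : Par) (b : ℝ≥0∞) (p : Ph) : wY P (wbF P) p ≤ wY P (omF P b) p :=
  mul_le_mul_left (le_trans (le_mul_of_one_le_left' one_le_two) le_self_add) _

theorem W_le_Gh (P : Par) (b : ℝ≥0∞) (p : Ph) : ZZ P p + wY P (omF P b) p ≤ Gh P b p := by
  unfold Gh
  rw [add_assoc]
  exact le_add_self

theorem W_le_env (P : Par) (b : ℝ≥0∞) (p : Ph) : ZZ P p + wY P (omF P b) p ≤ env P b p := by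
  unfold env
  rw [add_assoc]
  exact le_add_self

/-- the loss term -/
theorem loss_term (η : ℝ≥0∞) (hη : 0 < η) : ∀ᶠ P in parF, ∀ p : Ph, p.1 ∈ Icc 0 P.t0 →
    Ia 0 (fun q => Maj 0 (env P 1) (F0 P) 0 q * LF (cut P (Gh P 1)) q) p ≤ η * Gh P 1 p := by
  obtain ⟨K, hK, h⟩ := Maj_g0_two
  filter_upwards [ev_basic, h, Lam_cold η hη, loss_small K hK η hη] with P hP h1 h2 h3 p hp
  have hle : cut P (Gh P 1) ≤ env P 1 := cut_le_of P fun q hq => Gh_le_env hP 1 hq
  have hm := StabA.meas_fl (measurable_LF (measurable_env P 1)) p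
  have b1 : ∀ s ∈ Ioo 0 p.1, Maj 0 (env P 1) (F0 P) 0 (fl p s) * LF (cut P (Gh P 1)) (fl p s) ≤
      c0 P p * LF (env P 1) (fl p s) +
        (ZZ P p + K * (omF P 1 (lst (fl p s)) * Ga (aT P.k3 s) p.2.2) * Sg p) *
          LF (Gh P 1) (fl p s) := by
    intro s hs
    have e : Maj 0 (env P 1) (F0 P) 0 (fl p s) = c0 P p + Maj 0 (env P 1) (g0 P) 0 (fl p s) := by
      simp only [Maj, F0, fl_fl, c0_fl, add_assoc]
    rw [e, add_mul]
    exact add_le_add (mul_le_mul_right (LF_mono hle _) _)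
      (mul_le_mul' (h1 1 le_rfl p hp s ⟨hs.1.le, hs.2.le⟩) (LF_mono (cut_le P _) _))
  refine (setLIntegral_mono' measurableSet_Ioo b1).trans ?_
  rw [lintegral_add_left (hm.const_mul _), lintegral_const_mul _ hm]
  have b2 : c0 P p * ∫⁻ s in Ioo 0 p.1, LF (env P 1) (fl p s) ≤
      η * (ENNReal.ofReal √p.1 * c0 P p) := by
    by_cases hc : c0 P p = 0
    · rw [hc, zero_mul]; exact zero_le
    · calc _ ≤ c0 P p * (η * ENNReal.ofReal √p.1) := mul_le_mul_right (h2 1 le_rfl p hp hc) _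
        _ = _ := by ring
  refine (add_le_add b2 (h3 1 le_rfl p hp)).trans_eq ?_
  unfold Gh
  ring

/-- the damping-error term -/
theorem damp_term (η : ℝ≥0∞) (hη : 0 < η) : ∀ᶠ P in parF, ∀ p : Ph, p.1 ∈ Icc 0 P.t0 →
    min 1 (Lam (cut P (Gh P 1)) p 0) * Ia 0 (fun q => 2 * QF (cut P (c0 P)) (cut P (Gh P 1)) q) p ≤
      2 * η * Gh P 1 p := by
  obtain ⟨K₁, hK₁, h₁⟩ := Lam_Gh
  obtain ⟨K₂, hK₂, h₂⟩ := TT_om
  filter_upwards [ev_basic, h₁, h₂, TT_cZ η hη,
    ob1_small (K := K₁ ^ (1 / 2 : ℝ) * K₂)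
      (ENNReal.mul_ne_top (ENNReal.rpow_ne_top_of_nonneg (by norm_num) hK₁) hK₂) hη
      (f := fun t => √(√t)) (Real.continuous_sqrt.comp Real.continuous_sqrt) (by simp)]
    with P hP h1 h2 h3 h4 p hp
  have hle : cut P (Gh P 1) ≤ cZ P + wY P (omF P 1) :=
    cut_le_of P fun q hq => Gh_le_env hP 1 hq
  have b1 : Ia 0 (fun q => 2 * QF (cut P (c0 P)) (cut P (Gh P 1)) q) p ≤
      TT P (cZ P) p + TT P (wY P (omF P 1)) p := by
    have e := congrFun ((posOp_TT P).add _ _ (measurable_cZ P)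
      (measurable_wY P (measurable_omF P 1))) p
    rw [Pi.add_apply] at e
    rw [← e]
    exact lintegral_mono fun s => mul_le_mul_right (QF_mono (cut_le P _) hle _) _
  have b2 : min 1 (Lam (cut P (Gh P 1)) p 0) ≤
      (K₁ * ENNReal.ofReal (jb p.2.2 * √p.1)) ^ (1 / 2 : ℝ) := by
    refine (min_one_le_sqrt _).trans (ENNReal.rpow_le_rpow ?_ (by norm_num))
    exact le_trans (lintegral_mono fun s => LF_mono (cut_le P _) _) (h1 1 le_rfl p hp)
  have hj : 0 < jb p.2.2 := by unfold jb; positivity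
  have b3 : min 1 (Lam (cut P (Gh P 1)) p 0) * TT P (wY P (omF P 1)) p ≤
      η * wY P (omF P 1) p := by
    refine (mul_le_mul' b2 (h2 1 p hp)).trans ?_
    calc _ = (K₁ * ENNReal.ofReal (jb p.2.2 * √p.1)) ^ (1 / 2 : ℝ) * npw (jb p.2.2) (1 / 2) * K₂ *
          wY P (omF P 1) p := by ring
      _ = K₁ ^ (1 / 2 : ℝ) * K₂ * ENNReal.ofReal √(√p.1) * wY P (omF P 1) p := by
          rw [sqrt_mul_npw hj]; ring
      _ ≤ _ := mul_le_mul_left (le_trans (mul_le_mul_right (ENNReal.ofReal_le_ofReal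
          (Real.sqrt_le_sqrt (Real.sqrt_le_sqrt hp.2))) _) h4) _
  have b4 : min 1 (Lam (cut P (Gh P 1)) p 0) * TT P (cZ P) p ≤ η * Gh P 1 p :=
    (mul_le_of_le_one_left' (min_le_left _ _)).trans ((h3 p hp).trans (mul_le_mul_right
      ((add_le_add_right (wb_le_om P 1 p) _).trans (W_le_Gh P 1 p)) _))
  refine (mul_le_mul_right b1 _).trans ?_
  rw [mul_add, two_mul, add_mul]
  exact add_le_add b4 (b3.trans (mul_le_mul_right (le_add_self.trans (W_le_Gh P 1 p)) _))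

theorem V0_small (η : ℝ≥0∞) (hη : 0 < η) : ∀ᶠ P in parF, ∀ p : Ph, p.1 ∈ Icc 0 P.t0 →
    V0 P (cut P (Gh P 1)) p ≤ 5 * η * Gh P 1 p := by
  filter_upwards [loss_term η hη, damp_term η hη, QF_Gh_small η hη] with P h1 h2 h3 p hp
  have hG := measurable_cut P (measurable_Gh P 1)
  have hm := StabA.meas_fl (measurable_QF hG hG) p
  have b1 : Ia 0 (fun q => 2 * QF (cut P (Gh P 1)) (cut P (Gh P 1)) q +
      Maj 0 (env P 1) (F0 P) 0 q * LF (cut P (Gh P 1)) q) p ≤ 2 * (η * Gh P 1 p) + η * Gh P 1 p := by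
    unfold Ia
    rw [lintegral_add_left (hm.const_mul _), lintegral_const_mul _ hm]
    refine add_le_add (mul_le_mul_right ?_ _) (h1 p hp)
    exact le_trans (lintegral_mono fun s => QF_mono (cut_le P _) (cut_le P _) _)
      ((h3 1 le_rfl p hp).trans (mul_le_mul_right (W_le_Gh P 1 p) _))
  refine (add_le_add b1 (h2 p hp)).trans_eq ?_
  ring

theorem contr : ∀ᶠ P in parF,
    (∀ p, cut P (V0 P (cut P (Gh P 1))) p + cut P (U0 P (cut P (V0 P (cut P (Gh P 1))))) p ≤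
      2⁻¹ * cut P (Gh P 1) p) ∧
    (∀ p, cut P (Gh P 1) p ≠ ⊤ → cut P (env P 1) p ≠ ⊤ ∧ cut P (U0 P (cut P (env P 1))) p ≠ ⊤ ∧
      cut P (U0 P (cut P (U0 P (cut P (env P 1))))) p ≠ ⊤) := by
  obtain ⟨K, hK, h⟩ := TT_env
  have hK' : 10 * (1 + K) ≠ ⊤ := by finiteness
  have hK0 : 10 * (1 + K) ≠ 0 := by simp
  filter_upwards [ev_basic, h, V0_small (10 * (1 + K))⁻¹ (ENNReal.inv_pos.2 hK')] with P hP h1 h2
  have hG := measurable_cut P (measurable_Gh P 1)
  have hE := measurable_cut P (measurable_env P 1)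
  have hU := posOp_U0 P
  have b0 : ∀ p : Ph, p.1 ∈ Icc 0 P.t0 →
      U0 P (cut P (env P 1)) p ≤ K * (ZZ P p + wY P (omF P 1) p) := fun p hp =>
    (U0_le_TT P _ p).trans ((TT_mono P (cut_le P _) p).trans (h1 1 p hp))
  have b1 : ∀ {f : PF} {c : ℝ≥0∞}, Measurable f → (∀ q : Ph, q.1 ∈ Icc 0 P.t0 →
      f q ≤ c * env P 1 q) → ∀ p : Ph, p.1 ∈ Icc 0 P.t0 →
      U0 P (cut P f) p ≤ c * (K * (ZZ P p + wY P (omF P 1) p)) := by
    intro f c hf hle p hp
    have h3 : cut P f ≤ fun q => c * cut P (env P 1) q :=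
      cut_le_of P fun q hq => by rw [cut_of_mem P _ hq]; exact hle q hq
    refine (hU.mono _ _ (measurable_cut P hf) (hE.const_mul c) h3 p).trans ?_
    rw [hU.smul c _ hE]
    exact mul_le_mul_right (b0 p hp) _
  refine ⟨fun p => ?_, fun p hfin => ?_⟩
  · by_cases hp : p.1 ∈ Icc 0 P.t0
    · rw [cut_of_mem P _ hp, cut_of_mem P _ hp, cut_of_mem P _ hp]
      have b2 := b1 ((posOp_V0 P).meas _ hG)
        (fun q hq => (h2 q hq).trans (mul_le_mul_right (Gh_le_env hP 1 hq) _)) p hp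
      refine (add_le_add (h2 p hp) (b2.trans (mul_le_mul_right (mul_le_mul_right
        (W_le_Gh P 1 p) _) _))).trans_eq ?_
      have e : (2⁻¹ : ℝ≥0∞) = 5 * (10 * (1 + K))⁻¹ * (1 + K) := by
        have e1 := ENNReal.inv_mul_cancel hK0 hK'
        calc (2⁻¹ : ℝ≥0∞) = 2⁻¹ * ((10 * (1 + K))⁻¹ * (10 * (1 + K))) := by rw [e1, mul_one]
          _ = 2 * 2⁻¹ * (5 * (10 * (1 + K))⁻¹ * (1 + K)) := by ring
          _ = _ := by rw [FP.two_half, one_mul]
      rw [e]
      ring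
    · rw [cut_of_not_mem P _ hp, cut_of_not_mem P _ hp, add_zero]
      exact zero_le
  · by_cases hp : p.1 ∈ Icc 0 P.t0
    · rw [cut_of_mem P _ hp] at hfin
      have hW : ZZ P p + wY P (omF P 1) p ≠ ⊤ := ne_top_of_le_ne_top hfin (W_le_Gh P 1 p)
      rw [cut_of_mem P _ hp, cut_of_mem P _ hp, cut_of_mem P _ hp]
      refine ⟨?_, ne_top_of_le_ne_top (ENNReal.mul_ne_top hK hW) (b0 p hp),
        ne_top_of_le_ne_top (ENNReal.mul_ne_top hK (ENNReal.mul_ne_top hK hW))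
          (b1 (hU.meas _ hE) (fun q hq => (b0 q hq).trans (mul_le_mul_right (W_le_env P 1 q) _))
            p hp)⟩
      unfold env
      rw [add_assoc]
      exact ENNReal.add_ne_top.2 ⟨c0_ne_top P p, hW⟩
    · rw [cut_of_not_mem P _ hp, cut_of_not_mem P _ hp, cut_of_not_mem P _ hp]
      exact ⟨ENNReal.zero_ne_top, ENNReal.zero_ne_top, ENNReal.zero_ne_top⟩

theorem sq_null (P : Par) (f : PF) (hf : Measurable f) (h0 : ∀ᵐ q : Ph, f q = 0) (p : Ph) :
    cut P (U0 P (cut P (U0 P f))) p = 0 := by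
  rw [cut_U0_cut]
  exact le_antisymm ((cut_le P _ p).trans (sq_kills_null 0 (kT P) (measurable_kT P)
    (measurable_cut P (measurable_c0 P)) f hf h0 p).le) zero_le

end CptA
end
end Crest.Agent.R68
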