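import Crest.Agent.R68.Base

/-! # Row 68: continuity of the window functional (auxiliary to `Compact.lean`) -/

set_option autoImplicit false
open MeasureTheory Set Filter Topology
open scoped ENNReal NNReal
open Crest.AnalysisR.VecCalc3 Crest.AnalysisR.PDE.Boltzmann

namespace Crest.Agent.R68
noncomputable section
namespace CptJ

/-- integration against a measure is a positive operator -/
theorem posOp_int (μ : Measure Ph) : PosOp (fun f _ => ∫⁻ q, f q ∂μ) where
  meas _ _ := measurable_const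
  mono _ _ _ _ h _ := lintegral_mono h
  add _ _ hf _ := funext fun _ => lintegral_add_left hf _
  smul c _ hf := funext fun _ => lintegral_const_mul c hf
  iSup _ hf hm := funext fun _ => lintegral_iSup hf hm

/-- total gain against the first moment -/
theorem lint_Qp_le {f : R3 → ℝ≥0∞} (hf : Measurable f) :
    ∫⁻ v, Qp f f v ≤ cz * ((∫⁻ η, ENNReal.ofReal (jb η) * f η) *
      ∫⁻ η, ENNReal.ofReal (jb η) * f η) := by
  have hj : Measurable fun η : R3 => ENNReal.ofReal (jb η) * f η := by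
    unfold jb
    exact (ENNReal.measurable_ofReal.comp (by fun_prop)).mul hf
  unfold Qp
  rw [lint_QH _ (StabB.meas_pair hf hf), ← lintegral_mul_const _ hj]
  refine mul_le_mul_right (lintegral_mono fun η => ?_) _
  rw [← lintegral_const_mul _ hj]
  refine lintegral_mono fun ζ => ?_
  have h : ENNReal.ofReal ‖η - ζ‖ ≤ ENNReal.ofReal (jb η) * ENNReal.ofReal (jb ζ) := by
    unfold jb
    rw [← ENNReal.ofReal_mul (by positivity)]
    refine ENNReal.ofReal_le_ofReal ((norm_sub_le _ _).trans ?_)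
    nlinarith [norm_nonneg η, norm_nonneg ζ, mul_nonneg (norm_nonneg η) (norm_nonneg ζ)]
  calc f η * f ζ * ENNReal.ofReal ‖η - ζ‖
      ≤ f η * f ζ * (ENNReal.ofReal (jb η) * ENNReal.ofReal (jb ζ)) := mul_le_mul_right h _
    _ = _ := by ring

theorem Xi_le {s : ℝ} (hs : 0 < s) {p : Ph} (h : s < elN p) :
    Xi p ≤ if 0 < p.1 then ENNReal.ofReal ((s ^ 3600)⁻¹) else 0 := by
  have h1 : XiA p ≤ if 0 < p.1 then ENNReal.ofReal ((s ^ 3600)⁻¹) else 0 := by
    unfold XiA
    split_ifs
    · exact ENNReal.ofReal_le_ofReal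
        (inv_anti₀ (pow_pos hs _) (pow_le_pow_left₀ hs.le h.le _))
    · exact le_rfl
  refine le_trans ?_ h1
  unfold Xi
  split_ifs
  · exact le_rfl
  · exact zero_le

/-- the window functional is finite on the envelope -/
theorem window_ne_top {P : Par} (hP : P.Basic) {E : PF} (hE : Measurable E) {K : ℝ≥0∞} (hK : K ≠ ⊤)
    (hm : ∀ q : Ph, q.1 ∈ Ioc 0 P.t0 →
      ∫⁻ η, ENNReal.ofReal (jb η) * sec E q η ≤ K * npw (ell q) 1) :
    ∫⁻ p in {p : Ph | P.top < elN p ∧ elN p ≤ 2 * P.top}, Xi p * QF E E p ≠ ⊤ := by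
  have r0 := hP.r0_pos
  have r1 := hP.r0_t0
  have r2 := hP.t0_le
  have ht : P.top = P.r0 / 10 := rfl
  have hs : 0 < P.top := by rw [ht]; positivity
  set c : ℝ≥0∞ := ENNReal.ofReal ((P.top ^ 3600)⁻¹) with hc
  set B : ℝ≥0∞ := c * (cz * (K * npw P.top 1 * (K * npw P.top 1))) with hB
  have hn : K * npw P.top 1 ≠ ⊤ := ENNReal.mul_ne_top hK (MB.npw_ne_top hs 1)
  have hBt : B ≠ ⊤ := ENNReal.mul_ne_top ENNReal.ofReal_ne_top
    (ENNReal.mul_ne_top (ne_top_of_le_ne_top (by norm_num) cz_le) (ENNReal.mul_ne_top hn hn))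
  have hW : MeasurableSet {p : Ph | P.top < elN p ∧ elN p ≤ 2 * P.top} :=
    (measurableSet_lt measurable_const measurable_elN).inter
      (measurableSet_le measurable_elN measurable_const)
  have key : ∀ (t : ℝ) (x : R3),
      ∫⁻ v, {p : Ph | P.top < elN p ∧ elN p ≤ 2 * P.top}.indicator
        (fun p => Xi p * QF E E p) (t, x, v) ≤
      (Icc (0 : ℝ) 1).indicator (fun _ => B) t * (Metric.closedBall (0 : R3) 1).indicator 1 x := by
    intro t x
    by_cases h : 0 < t ∧ P.top < 8 * t + ‖x‖ ∧ 8 * t + ‖x‖ ≤ 2 * P.top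
    · obtain ⟨h1, h2, h3⟩ := h
      have hx := norm_nonneg x
      rw [indicator_of_mem (show t ∈ Icc (0 : ℝ) 1 from ⟨h1.le, by linarith⟩),
        indicator_of_mem (mem_closedBall_zero_iff.2 (by linarith)), Pi.one_apply, mul_one]
      have h4 := hm (t, x, 0) ⟨h1, by change t ≤ _; linarith⟩
      rw [ell_eq_elN h1.le (by change 8 * t + ‖x‖ < _; linarith)] at h4
      have h5 : npw (elN (t, x, (0 : R3))) 1 ≤ npw P.top 1 :=
        MB.npw_anti zero_le_one h2.le
      have h6 := h4.trans (mul_le_mul_right h5 K)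
      calc _ ≤ ∫⁻ v, c * Qp (sec E (t, x, 0)) (sec E (t, x, 0)) v := by
            refine lintegral_mono fun v => (indicator_le_self _ _ _).trans ?_
            have h7 := Xi_le hs (p := (t, x, v)) h2
            rw [if_pos h1] at h7
            exact mul_le_mul_left h7 _
        _ ≤ B := by
            rw [lintegral_const_mul' _ _ ENNReal.ofReal_ne_top]
            exact mul_le_mul_right ((lint_Qp_le (measurable_sec hE _)).trans
              (mul_le_mul_right (mul_le_mul' h6 h6) _)) _
    · refine le_trans (le_of_eq ?_) zero_le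
      refine (lintegral_congr fun v => ?_).trans lintegral_zero
      by_cases hp : (t, x, v) ∈ {p : Ph | P.top < elN p ∧ elN p ≤ 2 * P.top}
      · have h1 := Xi_le hs hp.1
        rw [if_neg fun h0 => h ⟨h0, hp.1, hp.2⟩] at h1
        rw [indicator_of_mem hp, le_zero_iff.1 h1, zero_mul]
      · exact indicator_of_notMem hp _
  rw [← lintegral_indicator hW]
  refine ne_top_of_le_ne_top ?_ ((lintegral_prod_le _).trans (lintegral_mono fun t =>
    (lintegral_prod_le _).trans (lintegral_mono fun x => key t x)))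
  have e : ∀ t : ℝ, ∫⁻ x : R3, (Icc (0 : ℝ) 1).indicator (fun _ => B) t *
      (Metric.closedBall (0 : R3) 1).indicator 1 x =
      (Icc (0 : ℝ) 1).indicator (fun _ => B * volume (Metric.closedBall (0 : R3) 1)) t := by
    intro t
    rw [lintegral_const_mul _ (measurable_one.indicator measurableSet_closedBall),
      lintegral_indicator_one measurableSet_closedBall]
    exact (indicator_mul_const _ _ _ _).symm
  simp only [e]
  rw [lintegral_indicator_const measurableSet_Icc]
  exact ENNReal.mul_ne_top (ENNReal.mul_ne_top hBt measure_closedBall_lt_top.ne)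
    measure_Icc_lt_top.ne

theorem cut_le (P : Par) (f : PF) : cut P f ≤ f := fun p => by
  unfold cut
  split_ifs
  · exact le_rfl
  · exact zero_le

theorem Gh_ne_top {P : Par} {p : Ph} (h : cut P (env P 1) p ≠ ⊤) : cut P (Gh P 1) p ≠ ⊤ := by
  unfold cut at h ⊢
  split_ifs at h ⊢
  · unfold env at h
    unfold Gh
    exact ENNReal.add_ne_top.2 ⟨ENNReal.add_ne_top.2 ⟨ENNReal.mul_ne_top ENNReal.ofReal_ne_top
      (c0_ne_top P p), ZZ_ne_top P p⟩, (ENNReal.add_ne_top.1 h).2⟩
  · exact h

theorem main : ∀ᶠ P in parF, ∀ (β : ℕ → PF) (F : ℕ → PF) (F2 : PF),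
    (∀ n, ESol P 1 (β n) (F n)) → ESol P 1 0 F2 →
    (∀ p, cut P (Gh P 1) p ≠ ⊤ → Tendsto (fun n => dd (F n p) (F2 p)) atTop (𝓝 0)) →
    Tendsto (fun n => Jw (QF (F n) (F n)) P.top) atTop (𝓝 (Jw (QF F2 F2) P.top)) := by
  obtain ⟨K, hK, hm⟩ := moment_env
  filter_upwards [ev_basic, hm] with P hP hm β F F2 hF hF2 hlim
  have hE : Measurable (cut P (env P 1)) := measurable_cut P (measurable_env P 1)
  set μ : Measure Ph := volume.restrict {p : Ph | P.top < elN p ∧ elN p ≤ 2 * P.top} with hμ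
  have hfin : ∫⁻ p, Xi p * QF (cut P (env P 1)) (cut P (env P 1)) p ∂μ ≠ ⊤ :=
    window_ne_top hP hE hK fun q hq =>
      (lintegral_mono fun η => mul_le_mul_right (cut_le P _ _) _).trans (hm 1 le_rfl q hq)
  have h1 := ((posOp_int μ).comp ((posOp_QF hE).mul measurable_Xi)).tendsto_zero
    (KillsNull.comp (posOp_int μ) ((killsNull_QF hE).mul Xi)) (fun n => ddF (F n) F2)
    (fun n => measurable_dd (hF n).meas hF2.meas) _ hE
    (fun s z => (finSec_env P ENNReal.one_ne_top s z).mono fun η h =>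
      ne_top_of_le_ne_top h (cut_le P _ _))
    (fun n p => (dd_le_max _ _).trans (max_le ((hF n).le_cut_env p) (hF2.le_cut_env p)))
    (fun q hq => hlim q (Gh_ne_top hq)) (0, 0, 0) hfin
  have h2 := ENNReal.Tendsto.const_mul (a := 2) h1 (Or.inr ENNReal.ofNat_ne_top)
  rw [mul_zero] at h2
  refine tendsto_of_dd (tendsto_of_tendsto_of_tendsto_of_le_of_le tendsto_const_nhds h2
    (fun _ => zero_le) fun n => ?_)
  refine (dd_lintegral_le μ _ _ ((measurable_QF (hF n).meas (hF n).meas).mul measurable_Xi)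
    ((measurable_QF hF2.meas hF2.meas).mul measurable_Xi)).trans ?_
  change _ ≤ 2 * ∫⁻ q, _ ∂μ
  rw [← lintegral_const_mul' _ _ ENNReal.ofNat_ne_top]
  refine lintegral_mono fun p => (dd_mul_le _ _ _ _).trans ?_
  rw [dd_self, mul_zero, zero_add, mul_left_comm, mul_comm]
  exact mul_le_mul_right
    (dd_QF_le (hF n).meas hF2.meas hE (hF n).le_cut_env hF2.le_cut_env p) _

end CptJ
end
end Crest.Agent.R68
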