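import Crest.Agent.R68.CompactAuxL
import Crest.Agent.R68.Base
import Crest.Agent.R68.CompactAuxJ
import Crest.Agent.R68.WeakCpt
import Crest.Agent.R68.CompactA

/-! # Row 68: compactness of the approximate solutions -/

set_option autoImplicit false
open MeasureTheory Set Filter Topology
open scoped ENNReal NNReal
open Crest.AnalysisR.VecCalc3 Crest.AnalysisR.PDE.Boltzmann

namespace Crest.Agent.R68
noncomputable section

/-- damped multiplication operator -/
def T0 (P : Par) (f : PF) : PF := cut P (fun p =>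
  ∫⁻ s in Ioo 0 p.1, 2 * ex (Lam (cut P (c0 P)) p s) * QF (cut P (c0 P)) f (fl p s))

/-- higher order terms -/
def E0 (P : Par) (d : PF) : PF := cut P (fun p =>
  Ia 0 (fun q => 2 * QF (cut P (Gh P 1)) d q + Maj 0 (env P 1) (F0 P) 0 q * LF d q) p +
    min 1 (Lam (cut P (Gh P 1)) p 0) * Ia 0 (fun q => 2 * QF (cut P (c0 P)) d q) p)

theorem posOp_T0 (P : Par) : PosOp (T0 P) :=
  CptA.posOp_cut P (CptA.posOp_U0 P)

theorem killsNull_T0 (P : Par) : KillsNull (T0 P) :=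
  CptA.killsNull_cut P (CptA.killsNull_U0 P)

theorem posOp_E0 (P : Par) : PosOp (E0 P) :=
  CptA.posOp_cut P (CptA.posOp_V0 P)

theorem killsNull_E0 (P : Par) : KillsNull (E0 P) :=
  CptA.killsNull_cut P (CptA.killsNull_V0 P)

theorem T0_le_TT (P : Par) (f : PF) : T0 P f ≤ cut P (TT P f) :=
  CptA.cut_le_of P fun p hp => (CptA.U0_le_TT P f p).trans_eq (CptA.cut_of_mem P _ hp).symm

theorem T0_cut (P : Par) (f : PF) : T0 P (cut P f) = T0 P f :=
  CptA.cut_U0_cut P f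

/-- `sq_kills_null` -/
theorem T0_sq_null (P : Par) (f : PF) (hf : Measurable f) (h0 : ∀ᵐ q : Ph, f q = 0) (p : Ph) :
    T0 P (T0 P f) p = 0 :=
  CptA.sq_null P f hf h0 p

/-- (C1) `E0 G ≤ η G` (`QF_Gh_small`, `Lam_cold`, `Maj_g0_two`, `loss_small`;
`min 1 Λ ≤ Λ^{1/2} ≤ (K ⟨v⟩ √t)^{1/2}` with `Lam_Gh` against the factor `⟨v⟩^{-1/2}` of `TT_om`, and
`min 1 Λ ≤ 1` with `TT_cZ`), then `T0 G ≤ K G` (`TT_env`). -/
theorem cpt_contr : ∀ᶠ P in parF,
    (∀ p, E0 P (cut P (Gh P 1)) p + T0 P (E0 P (cut P (Gh P 1))) p ≤ 2⁻¹ * cut P (Gh P 1) p) ∧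
    (∀ p, cut P (Gh P 1) p ≠ ⊤ → cut P (env P 1) p ≠ ⊤ ∧ T0 P (cut P (env P 1)) p ≠ ⊤ ∧
      T0 P (T0 P (cut P (env P 1))) p ≠ ⊤) :=
  CptA.contr

/-- (C2) `weak_subseq` for `T0 ∘ T0`, `cauchy_of_weak` with `σ n = cut (Ia 0 (seed ..))`,
`Duh_lin_le` (with `c = cut c0`, `G = cut (Gh 1)`, `E = env 1`, `ev_dd_c0`), `Ia_seed_le`, `Ia_seed_le'`,
`PosOp.tendsto_zero`. -/
theorem cpt_subseq (Ka : ℝ) (hKa : 0 ≤ Ka) : ∀ᶠ P in parF, ∀ (τ α : ℕ → ℝ) (F : ℕ → PF),
    (∀ n, 0 < τ n) → Tendsto τ atTop (𝓝 0) → (∀ n, α n ∈ Icc 0 (Ka * P.s1 ^ P.k2 * τ n ^ 1800)) →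
    (∀ n, ESol P 1 (seed (τ n) (α n)) (F n)) → ∃ φ : ℕ → ℕ, StrictMono φ ∧
      ∀ p, cut P (Gh P 1) p ≠ ⊤ →
        Tendsto (fun n => dd (F (φ n) p) (liminf (fun k => F (φ k) p) atTop)) atTop (𝓝 0) := by
  filter_upwards [ev_basic, cpt_contr, ev_dd_c0] with P hP hcc hdd τ α F hτ hτ0 hα hF
  obtain ⟨hc, hfin⟩ := hcc
  have fcut : ∀ f : PF, FinSec f → FinSec (cut P f) := fun f hf s z =>
    (hf s z).mono fun η h => by
      unfold cut
      split_ifs
      · exact h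
      · exact ENNReal.zero_ne_top
  have hG : Measurable (cut P (Gh P 1)) := measurable_cut P (measurable_Gh P 1)
  have hEn : Measurable (cut P (env P 1)) := measurable_cut P (measurable_env P 1)
  have hc0 : Measurable (cut P (c0 P)) := measurable_cut P (measurable_c0 P)
  have hσ : ∀ n, Measurable (cut P (Ia 0 (seed (τ n) (α n)))) := fun n =>
    measurable_cut P ((posOp_Ia 0).meas _ (measurable_seed _ _))
  obtain ⟨φ, hφ, hw⟩ := weak_subseq ((posOp_T0 P).comp (posOp_T0 P)) (T0_sq_null P) hEn F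
    (fun n => (hF n).meas) (fun n => (hF n).le_cut_env)
  -- the sources tend to zero
  have hα0 : Tendsto (fun n => ENNReal.ofReal (α n)) atTop (𝓝 0) := by
    have h1 : Tendsto (fun n => Ka * P.s1 ^ P.k2 * τ n ^ 1800) atTop (𝓝 0) := by
      simpa using (hτ0.pow 1800).const_mul (Ka * P.s1 ^ P.k2)
    simpa using ENNReal.tendsto_ofReal
      (squeeze_zero (fun n => (hα n).1) (fun n => (hα n).2) h1)
  have hσ1 : ∀ p, Tendsto (fun n => cut P (Ia 0 (seed (τ n) (α n))) p) atTop (𝓝 0) := fun p =>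
    tendsto_of_tendsto_of_tendsto_of_le_of_le tendsto_const_nhds hα0 (fun _ => zero_le)
      fun n => by
        unfold cut
        dsimp only
        split_ifs
        · exact Ia_seed_le' (hτ n) p
        · exact zero_le
  have hσ2 : ∀ n, cut P (Ia 0 (seed (τ n) (α n))) ≤
      fun q => ENNReal.ofReal (3 * Ka) * cut P (env P 1) q := fun n q => by
    unfold cut
    dsimp only
    split_ifs with h
    · refine (Ia_seed_le hP (hτ n) hKa (hα n).2 q h).trans (mul_le_mul_right ?_ _)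
      refine le_trans ?_ (le_add_self : wY P (omF P 1) q ≤ _)
      unfold wY YY omF
      rw [one_mul]
      exact mul_le_mul' le_add_self (le_mul_of_one_le_right' (one_le_Sg q))
    · exact zero_le
  have hσ0 : ∀ p, cut P (Gh P 1) p ≠ ⊤ → Tendsto (fun n => cut P (Ia 0 (seed (τ n) (α n))) p +
      T0 P (cut P (Ia 0 (seed (τ n) (α n)))) p) atTop (𝓝 0) := fun p hp => by
    have h2 := (posOp_T0 P).tendsto_zero (killsNull_T0 P) _ hσ _ (hEn.const_mul _)
      (fun s z => (fcut _ (finSec_env P ENNReal.one_ne_top) s z).mono fun η h =>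
        ENNReal.mul_ne_top ENNReal.ofReal_ne_top h) hσ2 (fun q _ => hσ1 q) p (by
        rw [(posOp_T0 P).smul _ _ hEn]
        exact ENNReal.mul_ne_top ENNReal.ofReal_ne_top (hfin p hp).2.1)
    simpa using (hσ1 p).add h2
  refine ⟨φ, hφ, cauchy_of_weak (posOp_T0 P) (posOp_E0 P) (killsNull_E0 P) hG
    (fcut _ (finSec_Gh P ENNReal.one_ne_top)) hEn hc hfin (fun n => F (φ n))
    (fun n => cut P (Ia 0 (seed (τ (φ n)) (α (φ n))))) (fun n => (hF _).meas) (fun n => hσ _)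
    (fun n => (hF _).le_cut_env) (C := 2) ENNReal.ofNat_ne_top (fun n m p => ?_)
    (fun p hp => (hσ0 p hp).comp hφ.tendsto_atTop) (fun n m p => ?_)
    fun p hp => hw p (hfin p hp).2.2⟩
  · refine (dd_triangle _ (cut P (c0 P) p) _).trans ?_
    rw [two_mul, dd_comm (cut P (c0 P) p)]
    exact add_le_add (hdd 1 le_rfl _ _ (hF _) p) (hdd 1 le_rfl _ _ (hF _) p)
  · by_cases hp : p.1 ∈ Icc 0 P.t0
    · have h3 : cut P (c0 P) ≤ env P 1 := fun q => by
        unfold cut env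
        split_ifs
        · exact le_self_add.trans le_self_add
        · exact zero_le
      have key := Duh_lin_le (a := 0) (hF (φ n)).meas (hF (φ m)).meas hc0 (measurable_env P 1) hG
        (measurable_F0 P) (measurable_seed (τ (φ n)) (α (φ n)))
        (finSec_env P ENNReal.one_ne_top) (hF _).le_env (hF _).le_env h3
        (hdd 1 le_rfl _ _ (hF _)) (hdd 1 le_rfl _ _ (hF _)) p
      rw [← (hF (φ n)).eq p hp] at key
      have h4 : Duh 0 (F (φ m)) (F0 P) 0 p ≤ F (φ m) p := by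
        refine le_trans ?_ ((hF (φ m)).eq p hp).ge
        unfold Duh
        refine add_le_add le_rfl (lintegral_mono fun s => mul_le_mul_right ?_ _)
        exact add_le_add le_rfl zero_le
      have e : ∀ f : PF, cut P f p = f p := fun f => if_pos hp
      unfold T0 E0
      rw [e, e, e, e]
      exact key.trans (by gcongr)
    · rw [(hF (φ n)).zero p hp]
      unfold T0
      have e : ∀ f : PF, cut P f p = 0 := fun f => if_neg hp
      rw [e, add_zero]
      exact zero_le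

/-- (C3) With `F⁎ = liminf F n ≤ env`, put `F₂ = cut (Duh 0 F⁎ F0 0)`.  `dd_Duh_le`, `dd_Duh_src_le`,
`stab_bound` and `PosOp.tendsto_zero` (`ddF (F n) F⁎ ≤ 2 cut Gh`) give `F n p → F₂ p` where `Gh p ≠ ⊤`, so
`ddF F₂ F⁎` has null sections and `Duh 0 F₂ = Duh 0 F⁎`.  The bound on `gp` passes to the limit where
`Gh p ≠ ⊤` (same argument with datum `g0`, whose `Maj` is smaller); where `Gh p = ⊤` it is trivial. -/
theorem cpt_limit : ∀ᶠ P in parF, ∀ (τ α : ℕ → ℝ) (F : ℕ → PF),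
    (∀ n, 0 < τ n) → Tendsto α atTop (𝓝 0) → (∀ n, ESol P 1 (seed (τ n) (α n)) (F n)) →
    (∀ p, cut P (Gh P 1) p ≠ ⊤ →
      Tendsto (fun n => dd (F n p) (liminf (fun k => F k p) atTop)) atTop (𝓝 0)) →
    ∃ F2 : PF, ESol P 1 0 F2 ∧
      ∀ p, cut P (Gh P 1) p ≠ ⊤ → Tendsto (fun n => dd (F n p) (F2 p)) atTop (𝓝 0) :=
  CptL.main

/-- (C4) `dd (Jw ..) (Jw ..) ≤ ∫_{window} 2 QF env (ddF ..) Xi` (`dd_QF_le`), a positive functional that
kills null sections and is finite on `cut env` (`lint_QH`, `moment_env`, `ell = elN > top`). -/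
theorem cpt_Jw : ∀ᶠ P in parF, ∀ (β : ℕ → PF) (F : ℕ → PF) (F2 : PF),
    (∀ n, ESol P 1 (β n) (F n)) → ESol P 1 0 F2 →
    (∀ p, cut P (Gh P 1) p ≠ ⊤ → Tendsto (fun n => dd (F n p) (F2 p)) atTop (𝓝 0)) →
    Tendsto (fun n => Jw (QF (F n) (F n)) P.top) atTop (𝓝 (Jw (QF F2 F2) P.top)) :=
  CptJ.main

end
end Crest.Agent.R68
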