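import Crest.Agent.R68.Base

/-! # Row 68: passing to the limit in the early equation (for `cpt_limit`) -/

set_option autoImplicit false
open MeasureTheory Set Filter Topology
open scoped ENNReal NNReal
open Crest.AnalysisR.VecCalc3 Crest.AnalysisR.PDE.Boltzmann

namespace Crest.Agent.R68
noncomputable section
namespace CptL

/-- the stability operator -/
def St (E D : PF) (d : PF) : PF := Ia 0 (fun q => 2 * QF E d q + Maj 0 E D 0 q * LF d q)

theorem posOp_St {E D : PF} (hE : Measurable E) (hD : Measurable D) : PosOp (St E D) :=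
  (posOp_Ia 0).comp (((posOp_QF hE).mul (w := fun _ => 2) measurable_const).plus
    (posOp_LF.mul (measurable_Maj hE hD measurable_zero 0)))

theorem killsNull_St (D : PF) {E : PF} (hE : Measurable E) : KillsNull (St E D) :=
  KillsNull.comp (S := Ia 0) (T := fun d q => 2 * QF E d q + Maj 0 E D 0 q * LF d q) (posOp_Ia 0)
    (((killsNull_QF hE).mul fun _ => 2).plus (killsNull_LF.mul (Maj 0 E D 0)))

theorem St_mono {E D D' d : PF} (h : D ≤ D') (p : Ph) : St E D d p ≤ St E D' d p :=
  lintegral_mono fun _ => add_le_add le_rfl (mul_le_mul_left (add_le_add (h _) le_rfl) _)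

theorem cut_le (P : Par) (f : PF) : cut P f ≤ f := by
  intro p
  unfold cut
  split_ifs
  · exact le_rfl
  · exact zero_le

theorem Duh_eq_of_null {f g D : PF} (hf : Measurable f) (hg : Measurable g) (hD : Measurable D)
    (h : NullSec (ddF f g)) (p : Ph) : Duh 0 f D 0 p = Duh 0 g D 0 p := by
  have hE : Measurable fun q => f q + g q := hf.add hg
  refine eq_of_dd_eq_zero (le_antisymm ?_ zero_le)
  exact (dd_Duh_le hf hg hE hD measurable_zero (fun _ => le_self_add) (fun _ => le_add_self)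
    p).trans_eq (killsNull_St D hE _ (measurable_dd hf hg) h p)

theorem bd_top {P : Par} {p : Ph} (h : Gh P 1 p = ⊤) :
    3 / 4 * ZZ P p + 3 / 2 * wY P (wbF P) p + 1 / 4 * wY P (wnF P) p = ⊤ := by
  have e : wY P (omF P 1) p = 2 * wY P (wbF P) p + wY P (wnF P) p := by
    unfold wY omF
    ring
  by_contra hne
  obtain ⟨h1, h2⟩ := ENNReal.add_ne_top.1 hne
  have h3 := (ENNReal.add_ne_top.1 h1).2
  have h4 : wY P (wbF P) p ≠ ⊤ := fun h' => h3 (by rw [h', ENNReal.mul_top (by norm_num)])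
  have h5 : wY P (wnF P) p ≠ ⊤ := fun h' => h2 (by rw [h', ENNReal.mul_top (by norm_num)])
  refine absurd h ?_
  unfold Gh
  rw [e]
  exact ENNReal.add_ne_top.2 ⟨ENNReal.add_ne_top.2 ⟨ENNReal.mul_ne_top ENNReal.ofReal_ne_top
    (c0_ne_top P p), ZZ_ne_top P p⟩,
    ENNReal.add_ne_top.2 ⟨ENNReal.mul_ne_top ENNReal.ofNat_ne_top h4, h5⟩⟩

theorem main : ∀ᶠ P in parF, ∀ (τ α : ℕ → ℝ) (F : ℕ → PF),
    (∀ n, 0 < τ n) → Tendsto α atTop (𝓝 0) → (∀ n, ESol P 1 (seed (τ n) (α n)) (F n)) →
    (∀ p, cut P (Gh P 1) p ≠ ⊤ →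
      Tendsto (fun n => dd (F n p) (liminf (fun k => F k p) atTop)) atTop (𝓝 0)) →
    ∃ F2 : PF, ESol P 1 0 F2 ∧
      ∀ p, cut P (Gh P 1) p ≠ ⊤ → Tendsto (fun n => dd (F n p) (F2 p)) atTop (𝓝 0) := by
  obtain ⟨K, hK, hst⟩ := stab_bound
  filter_upwards [hst, ev_dd_c0] with P hst hc0 τ α F hτ hα hF hlim
  set Fs : PF := fun p => liminf (fun k => F k p) atTop with hFs
  have mFs : Measurable Fs := Measurable.liminf fun n => (hF n).meas
  have pFs : Per Fs := fun t x v m => by
    simp only [hFs, (hF _).per t x v m]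
  have lFs : Fs ≤ env P 1 := fun p =>
    liminf_le_of_frequently_le' (Frequently.of_forall fun n => (hF n).le_env p)
  have mE := measurable_env P 1
  have mG := measurable_cut P (measurable_Gh P 1)
  have fG : FinSec (cut P (Gh P 1)) := fun s z =>
    (finSec_Gh P ENNReal.one_ne_top s z).mono fun _ h => ne_top_of_le_ne_top h (cut_le P _ _)
  have fG2 : FinSec fun q => 2 * cut P (Gh P 1) q := fun s z =>
    (fG s z).mono fun _ h => ENNReal.mul_ne_top ENNReal.ofNat_ne_top h
  have hd : ∀ n, ddF (F n) Fs ≤ fun q => 2 * cut P (Gh P 1) q := fun n q => by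
    refine (dd_triangle _ (cut P (c0 P) q) _).trans ?_
    beta_reduce
    rw [two_mul, dd_comm (cut P (c0 P) q)]
    exact add_le_add (hc0 1 le_rfl _ _ (hF n) q)
      (FP.dd_liminf (N := 0) fun j => hc0 1 le_rfl _ _ (hF _) q)
  have key : ∀ D : PF, Measurable D → D ≤ F0 P → ∀ p : Ph, p.1 ∈ Icc 0 P.t0 → Gh P 1 p ≠ ⊤ →
      Tendsto (fun n => dd (Duh 0 (F n) D (seed (τ n) (α n)) p) (Duh 0 Fs D 0 p)) atTop (𝓝 0) := by
    intro D hD hDF p hp hG
    have hS := posOp_St mE hD
    have h1 : St (env P 1) D (fun q => 2 * cut P (Gh P 1) q) p ≠ ⊤ := by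
      rw [hS.smul 2 _ mG]
      refine ENNReal.mul_ne_top ENNReal.ofNat_ne_top (ne_top_of_le_ne_top
        (ENNReal.mul_ne_top hK hG) ?_)
      exact (hS.mono _ _ mG (measurable_Gh P 1) (cut_le P _) p).trans
        ((St_mono hDF p).trans (hst 1 le_rfl p hp))
    have h2 := hS.tendsto_zero (killsNull_St D mE) (fun n => ddF (F n) Fs)
      (fun n => measurable_dd (hF n).meas mFs) _ (mG.const_mul 2) fG2 hd
      (fun q hq => hlim q fun h => hq (by rw [h, ENNReal.mul_top two_ne_zero])) p h1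
    have h3 := (ENNReal.tendsto_ofReal hα).add h2
    rw [ENNReal.ofReal_zero, add_zero] at h3
    refine tendsto_of_tendsto_of_tendsto_of_le_of_le tendsto_const_nhds h3 (fun _ => zero_le)
      fun n => (dd_triangle _ (Duh 0 (F n) D 0 p) _).trans (add_le_add ?_ ?_)
    · refine (dd_Duh_src_le (hF n).meas (measurable_seed _ _) measurable_zero p).trans
        (le_trans (lintegral_mono fun s => ?_) (Ia_seed_le' (hτ n) p))
      exact (dd_le_max _ _).trans (max_le le_rfl zero_le)
    · exact dd_Duh_le (hF n).meas mFs mE hD measurable_zero (hF n).le_env lFs p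
  set F2 : PF := cut P (Duh 0 Fs (F0 P) 0) with hF2
  have mF2 : Measurable F2 :=
    measurable_cut P (measurable_Duh mFs (measurable_F0 P) measurable_zero 0)
  have hconv : ∀ p, cut P (Gh P 1) p ≠ ⊤ →
      Tendsto (fun n => dd (F n p) (F2 p)) atTop (𝓝 0) := by
    intro p hG
    by_cases hp : p.1 ∈ Icc 0 P.t0
    · simp only [cut, if_pos hp] at hG
      refine (key _ (measurable_F0 P) le_rfl p hp hG).congr fun n => ?_
      rw [← (hF n).eq p hp, hF2]
      simp only [cut, if_pos hp]
    · simp only [hF2, cut, if_neg hp, (hF _).zero p hp, dd_self]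
      exact tendsto_const_nhds
  have hnull : NullSec (ddF F2 Fs) := fun s z => (fG s z).mono fun η h => by
    have h1 := (hconv _ h).add (hlim _ h)
    rw [add_zero] at h1
    refine le_antisymm (ge_of_tendsto' h1 fun n => ?_) zero_le
    rw [dd_comm (F n _) (F2 _)]
    exact dd_triangle _ _ _
  refine ⟨F2, ⟨mF2, per_cut P (pFs.Duh (per_F0 P) (fun _ _ _ _ => rfl) 0),
    fun p hp => if_neg hp, fun p hp => ?_, fun p hp => ?_⟩, hconv⟩
  · rw [Duh_eq_of_null mF2 mFs (measurable_F0 P) hnull p]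
    exact if_pos hp
  · by_cases hG : Gh P 1 p = ⊤
    · rw [bd_top hG]
      exact le_top
    · unfold gp
      rw [Duh_eq_of_null mF2 mFs (measurable_g0 P) hnull p]
      exact le_of_tendsto' (tendsto_of_dd (key _ (measurable_g0 P) (fun _ => le_add_self) p hp hG))
        fun n => (hF n).bd p hp

end CptL
end
end Crest.Agent.R68
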