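import Crest.Agent.R68.Carleman

/-! # Row 68: plane integrals, part A -/

set_option autoImplicit false
open MeasureTheory Set Filter Topology
open scoped ENNReal NNReal
open Crest.AnalysisR.VecCalc3 Crest.AnalysisR.PDE.Boltzmann

namespace Crest.Agent.R68
noncomputable section

theorem PA_preserving : MeasurePreserving
    (fun p : ℝ × ℝ × ℝ => (WithLp.toLp 2 ![p.1, p.2.1, p.2.2] : R3)) volume volume := by
  have h1 := (volume_preserving_piFinSuccAbove (fun _ : Fin 3 => ℝ) 0).symm _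
  have h2 := (MeasurePreserving.id (volume : Measure ℝ)).prod
    ((volume_preserving_finTwoArrow ℝ).symm _)
  have h3 := (PiLp.volume_preserving_toLp (Fin 3)).comp (h1.comp h2)
  have e : (fun p : ℝ × ℝ × ℝ => (WithLp.toLp 2 ![p.1, p.2.1, p.2.2] : R3)) =
      WithLp.toLp 2 ∘ (MeasurableEquiv.piFinSuccAbove (fun _ : Fin 3 => ℝ) 0).symm ∘
        Prod.map id MeasurableEquiv.finTwoArrow.symm := by
    funext p
    ext i
    fin_cases i <;> rfl
  rw [e]
  exact h3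

theorem PA_lint (Ψ : R3 → ℝ≥0∞) (hΨ : Measurable Ψ) :
    ∫⁻ z, Ψ z = ∫⁻ a : ℝ, ∫⁻ x : ℝ, ∫⁻ y : ℝ, Ψ (WithLp.toLp 2 ![a, x, y]) := by
  have hm := hΨ.comp PA_preserving.measurable
  rw [← PA_preserving.lintegral_comp hΨ]
  refine (lintegral_prod _ hm.aemeasurable).trans (lintegral_congr fun a => ?_)
  exact lintegral_prod _ (hm.comp measurable_prodMk_left).aemeasurable

theorem PA_meas (ν : R3) {φ : R3 → ℝ≥0∞} (hφ : Measurable φ) :
    Measurable fun q : R3 => φ (q - (inner ℝ q ν : ℝ) • ν) *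
      (Icc (0 : ℝ) 1).indicator (1 : ℝ → ℝ≥0∞) (inner ℝ q ν : ℝ) :=
  (hφ.comp (by fun_prop)).mul
    ((measurable_one.indicator measurableSet_Icc).comp (by fun_prop))

theorem PA_inner {ν : R3} {R : R3 ≃ₗᵢ[ℝ] R3} (hR : R ν = EuclideanSpace.single 0 1) (q : R3) :
    inner ℝ q ν = R q 0 := by
  rw [← R.inner_map_map, hR, EuclideanSpace.inner_single_right]
  simp

theorem PA_norm_sub (R : R3 ≃ₗᵢ[ℝ] R3) (z c : R3) : ‖R.symm z - c‖ = ‖z - R c‖ := by
  rw [← R.norm_map, map_sub, R.apply_symm_apply]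

theorem PA_coord_le (R : R3 ≃ₗᵢ[ℝ] R3) (x y : ℝ) (c : R3) :
    |x - R c 1| ≤ ‖R.symm (WithLp.toLp 2 ![0, x, y]) - c‖ ∧
      |y - R c 2| ≤ ‖R.symm (WithLp.toLp 2 ![0, x, y]) - c‖ := by
  rw [PA_norm_sub]
  exact ⟨PiLp.norm_apply_le (WithLp.toLp 2 ![0, x, y] - R c : R3) 1,
    PiLp.norm_apply_le (WithLp.toLp 2 ![0, x, y] - R c : R3) 2⟩

/-- plane integrals in coordinates: if `R ν = e₀` then `Pl ν φ = ∫⁻ (x,y), φ (R.symm (0,x,y))`. -/
theorem Pl_eq_coord (ν : R3) (R : R3 ≃ₗᵢ[ℝ] R3) (hR : R ν = EuclideanSpace.single 0 1)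
    (φ : R3 → ℝ≥0∞) (hφ : Measurable φ) :
    Pl ν φ = ∫⁻ x : ℝ, ∫⁻ y : ℝ, φ (R.symm (WithLp.toLp 2 ![0, x, y])) := by
  have hm := PA_meas ν hφ
  rw [Pl, ← R.symm.measurePreserving.lintegral_comp hm]
  refine (PA_lint _ (hm.comp R.symm.continuous.measurable)).trans ?_
  have hν : ν = R.symm (EuclideanSpace.single 0 1) := by rw [← hR, R.symm_apply_apply]
  have e : ∀ a x y : ℝ, R.symm (WithLp.toLp 2 ![a, x, y]) - a • ν =
      R.symm (WithLp.toLp 2 ![0, x, y]) := fun a x y => by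
    rw [hν, ← map_smul, ← map_sub]
    congr 1
    ext i
    fin_cases i <;> simp
  have e2 : ∀ a x y : ℝ, inner ℝ (R.symm (WithLp.toLp 2 ![a, x, y])) ν = a := fun a x y => by
    rw [PA_inner hR, R.apply_symm_apply]
    rfl
  have hne : ∀ a : ℝ, (Icc (0 : ℝ) 1).indicator (1 : ℝ → ℝ≥0∞) a ≠ ⊤ := fun a => by
    by_cases h : a ∈ Icc (0 : ℝ) 1 <;> simp [h]
  simp only [Function.comp, e2, e, lintegral_mul_const' _ _ (hne _)]
  rw [lintegral_const_mul _ (measurable_one.indicator measurableSet_Icc),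
    lintegral_indicator_one measurableSet_Icc]
  simp

/-- same, with the second axis along the component of `n` orthogonal to `ν`. -/
theorem exists_iso_sn (n ν : R3) (hn : ‖n‖ = 1) (hν : ‖ν‖ = 1) :
    ∃ R : R3 ≃ₗᵢ[ℝ] R3, R ν = EuclideanSpace.single 0 1 ∧
      ∀ x y : ℝ, inner ℝ n (R.symm (WithLp.toLp 2 ![0, x, y])) = sn n ν * x := by
  obtain ⟨R₀, hR₀⟩ := exists_iso_e0 ν hν
  set v : R3 := R₀ (n - (inner ℝ n ν : ℝ) • ν) with hv
  set w : R3 := EuclideanSpace.single 1 (sn n ν) with hw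
  have hvw : ‖v‖ = ‖w‖ := by
    rw [hv, hw, R₀.norm_map, PiLp.norm_single, sn, norm_norm]
  have hv0 : v 0 = 0 := by
    rw [hv, ← PA_inner hR₀, inner_sub_left, real_inner_smul_left, real_inner_self_eq_norm_sq, hν]
    ring
  have h1 := Submodule.reflection_sub hvw
  have h2 : (ℝ ∙ (v - w))ᗮ.reflection (EuclideanSpace.single 0 1) = EuclideanSpace.single 0 1 := by
    refine Submodule.reflection_mem_subspace_eq_self ?_
    rw [Submodule.mem_orthogonal_singleton_iff_inner_right, EuclideanSpace.inner_single_right]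
    simp [hv0, hw]
  refine ⟨R₀.trans (ℝ ∙ (v - w))ᗮ.reflection, by rw [LinearIsometryEquiv.trans_apply, hR₀, h2],
    fun x y => ?_⟩
  have h3 : R₀ n = v + (inner ℝ n ν : ℝ) • EuclideanSpace.single 0 1 := by
    rw [hv, map_sub, map_smul, hR₀, sub_add_cancel]
  rw [← (R₀.trans (ℝ ∙ (v - w))ᗮ.reflection).inner_map_map, LinearIsometryEquiv.apply_symm_apply,
    LinearIsometryEquiv.trans_apply, h3, map_add, map_smul, h1, h2, inner_add_left,
    real_inner_smul_left, hw, EuclideanSpace.inner_single_left, EuclideanSpace.inner_single_left]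
  simp

theorem Pl_mono (ν : R3) {φ ψ : R3 → ℝ≥0∞} (h : ∀ q, inner ℝ q ν = (0 : ℝ) → φ q ≤ ψ q)
    (hν : ‖ν‖ = 1) : Pl ν φ ≤ Pl ν ψ := by
  refine lintegral_mono fun q => mul_le_mul_left (h _ ?_) _
  rw [inner_sub_left, real_inner_smul_left, real_inner_self_eq_norm_sq, hν]
  ring

theorem Pl_add (ν : R3) {φ ψ : R3 → ℝ≥0∞} (hφ : Measurable φ) :
    Pl ν (fun q => φ q + ψ q) = Pl ν φ + Pl ν ψ := by
  simp only [Pl, add_mul]
  exact lintegral_add_left (PA_meas ν hφ) _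

theorem Pl_const_mul (ν : R3) (c : ℝ≥0∞) {φ : R3 → ℝ≥0∞} (hφ : Measurable φ) :
    Pl ν (fun q => c * φ q) = c * Pl ν φ := by
  simp only [Pl, mul_assoc]
  exact lintegral_const_mul c (PA_meas ν hφ)

theorem PA_gauss1 {a : ℝ} (ha : 0 < a) (c : ℝ) :
    ∫⁻ x : ℝ, ENNReal.ofReal (Real.exp (-a * (c + x) ^ 2)) = ENNReal.ofReal (√(Real.pi / a)) := by
  rw [lintegral_add_left_eq_self (fun x : ℝ => ENNReal.ofReal (Real.exp (-a * x ^ 2))) c,
    ← ofReal_integral_eq_lintegral_ofReal (integrable_exp_neg_mul_sq ha)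
      (Eventually.of_forall fun x => (Real.exp_pos _).le), integral_gaussian]

theorem Pl_gauss (ν : R3) (hν : ‖ν‖ = 1) (a : ℝ) (ha : 0 < a) (η : R3) :
    Pl ν (fun q => Ga a (η + q)) ≤
      ENNReal.ofReal (Real.pi / a * Real.exp (-(a * (inner ℝ η ν : ℝ) ^ 2))) := by
  obtain ⟨R, hR⟩ := exists_iso_e0 ν hν
  rw [Pl_eq_coord ν R hR _ (by unfold Ga; fun_prop), PA_inner hR]
  have e : ∀ x y : ℝ, Ga a (η + R.symm (WithLp.toLp 2 ![0, x, y])) =
      (ENNReal.ofReal (Real.exp (-(a * R η 0 ^ 2))) *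
        ENNReal.ofReal (Real.exp (-a * (R η 1 + x) ^ 2))) *
        ENNReal.ofReal (Real.exp (-a * (R η 2 + y) ^ 2)) := fun x y => by
    rw [← ENNReal.ofReal_mul (Real.exp_pos _).le, ← ENNReal.ofReal_mul (by positivity),
      ← Real.exp_add, ← Real.exp_add, Ga, ← R.norm_map, map_add, R.apply_symm_apply,
      EuclideanSpace.real_norm_sq_eq, Fin.sum_univ_three]
    congr 2
    simp
    ring
  simp only [e]
  rw [lintegral_lintegral_mul (by fun_prop) (by fun_prop), lintegral_const_mul _ (by fun_prop),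
    PA_gauss1 ha, PA_gauss1 ha, mul_assoc, ← ENNReal.ofReal_mul (Real.sqrt_nonneg _),
    Real.mul_self_sqrt (by positivity), ← ENNReal.ofReal_mul (Real.exp_pos _).le, mul_comm]

/-- a bound by a product of two one-dimensional integrals -/
theorem PA_le_sq (ν : R3) (hν : ‖ν‖ = 1) (c : R3) {φ : R3 → ℝ≥0∞} (hφ : Measurable φ)
    {g : ℝ → ℝ≥0∞} (hg : Measurable g)
    (h : ∀ q s t, |s| ≤ ‖q - c‖ → |t| ≤ ‖q - c‖ → φ q ≤ g s * g t) :
    Pl ν φ ≤ (∫⁻ s, g s) * ∫⁻ s, g s := by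
  obtain ⟨R, hR⟩ := exists_iso_e0 ν hν
  rw [Pl_eq_coord ν R hR _ hφ]
  refine (lintegral_mono fun x => lintegral_mono fun y =>
    h _ _ _ (PA_coord_le R x y c).1 (PA_coord_le R x y c).2).trans ?_
  rw [lintegral_lintegral_mul (f := fun x => g (x - R c 1)) (g := fun y => g (y - R c 2))
    (by fun_prop) (by fun_prop), lintegral_sub_right_eq_self, lintegral_sub_right_eq_self]

theorem Pl_ball (ν : R3) (hν : ‖ν‖ = 1) (c : R3) (lam : ℝ) (hl : 0 ≤ lam) :
    Pl ν (fun q => if ‖q - c‖ ≤ lam then 1 else 0) ≤ ENNReal.ofReal (4 * lam ^ 2) := by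
  refine (PA_le_sq ν hν c (g := (Icc (-lam) lam).indicator 1)
    (Measurable.ite (measurableSet_le (by fun_prop) measurable_const) measurable_const
      measurable_const) (measurable_one.indicator measurableSet_Icc) fun q s t hs ht => ?_).trans ?_
  · split_ifs with h
    · rw [indicator_of_mem (mem_Icc.2 (abs_le.1 (hs.trans h))),
        indicator_of_mem (mem_Icc.2 (abs_le.1 (ht.trans h)))]
      simp
    · exact zero_le
  · rw [lintegral_indicator_one measurableSet_Icc, Real.volume_Icc,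
      ← ENNReal.ofReal_mul (by linarith)]
    exact le_of_eq (by congr 1; ring)

theorem PA_sing1 :
    ∫⁻ s : ℝ, (Metric.ball (0 : ℝ) 2).indicator (fun s => npw |s| (7 / 8)) s ≠ ⊤ := by
  have h := integrableOn_ball_of_norm_le_rpow (E := ℝ) (μ := volume) (by simp)
    (f := fun s : ℝ => |s| ^ (-(7 / 8) : ℝ)) (C := 1) (α := 7 / 8) (r := 2) (by simp; norm_num)
    (Eventually.of_forall fun s => by
      rw [one_mul, Real.norm_eq_abs, Real.norm_eq_abs, abs_of_nonneg (by positivity)])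
    (Measurable.aestronglyMeasurable (by fun_prop))
  rw [lintegral_indicator Metric.isOpen_ball.measurableSet]
  refine ne_of_eq_of_ne (lintegral_congr_ae ?_) h.lintegral_lt_top.ne
  refine ae_restrict_of_ae ?_
  filter_upwards [compl_mem_ae_iff.2 (Real.volume_singleton (a := 0))] with s hs
  rw [npw, ENNReal.ofReal_rpow_of_pos (abs_pos.2 hs)]

/-- `∫_{disc} ϱ^{-γ} ≤ 2π/(2-γ)`; e.g. `‖(x,y)‖^{-γ} ≤ |x|^{-γ/2} |y|^{-γ/2}`. -/
theorem Pl_sing : ∃ C : ℝ≥0∞, C ≠ ⊤ ∧ ∀ ν : R3, ‖ν‖ = 1 → ∀ c : R3, ∀ γ ∈ Icc (0 : ℝ) (7 / 4),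
    Pl ν (fun q => if ‖q - c‖ ≤ 1 then npw ‖q - c‖ γ else 0) ≤ C := by
  refine ⟨_, ENNReal.mul_ne_top PA_sing1 PA_sing1, fun ν hν c γ hγ => PA_le_sq ν hν c
    (Measurable.ite (measurableSet_le (by fun_prop) measurable_const) (by unfold npw; fun_prop)
      measurable_const)
    (Measurable.indicator (by unfold npw; fun_prop) Metric.isOpen_ball.measurableSet)
    fun q s t hs ht => ?_⟩
  split_ifs with h
  · have hb : ∀ u : ℝ, |u| ≤ ‖q - c‖ → u ∈ Metric.ball (0 : ℝ) 2 := fun u hu => by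
      rw [mem_ball_zero_iff, Real.norm_eq_abs]
      linarith
    have hp : ∀ u : ℝ, |u| ≤ ‖q - c‖ → (ENNReal.ofReal ‖q - c‖)⁻¹ ^ (7 / 8 : ℝ) ≤ npw |u| (7 / 8) :=
      fun u hu => by
        rw [npw, ENNReal.rpow_neg, ← ENNReal.inv_rpow]
        exact ENNReal.rpow_le_rpow (ENNReal.inv_le_inv.2 (ENNReal.ofReal_le_ofReal hu)) (by norm_num)
    rw [indicator_of_mem (hb s hs), indicator_of_mem (hb t ht)]
    refine le_trans ?_ (mul_le_mul' (hp s hs) (hp t ht))
    rw [← ENNReal.rpow_add_of_nonneg _ _ (by norm_num) (by norm_num), npw, ENNReal.rpow_neg,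
      ← ENNReal.inv_rpow]
    exact ENNReal.rpow_le_rpow_of_exponent_le
      (ENNReal.one_le_inv.2 (ENNReal.ofReal_le_one.2 h)) (by linarith [hγ.2])
  · exact zero_le

/-- energy identity on the Carleman plane -/
theorem Ga_plane (a : ℝ) (v η q : R3) (h : inner ℝ q (η - v) = (0 : ℝ)) :
    Ga a η * Ga a (v + q) = Ga a v * Ga a (η + q) := by
  rw [inner_sub_right, sub_eq_zero, real_inner_comm η q, real_inner_comm v q] at h
  simp only [Ga]
  rw [← ENNReal.ofReal_mul (Real.exp_pos _).le, ← ENNReal.ofReal_mul (Real.exp_pos _).le,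
    ← Real.exp_add, ← Real.exp_add, norm_add_sq_real, norm_add_sq_real, h]
  congr 2
  ring

/-- volume of a ball cut by a slab -/
theorem vol_ball_slab (τ : R3) (hτ : ‖τ‖ = 1) (c : R3) (lam b : ℝ) (hl : 0 ≤ lam) (hb : 0 ≤ b) :
    volume {η : R3 | ‖η - c‖ ≤ lam ∧ |inner ℝ τ (η - c)| ≤ b} ≤ ENNReal.ofReal (8 * lam ^ 2 * b) := by
  obtain ⟨R, hR⟩ := exists_iso_e0 τ hτ
  have hp := (PiLp.volume_preserving_ofLp (Fin 3)).comp
    (R.measurePreserving.comp (measurePreserving_sub_right (volume : Measure R3) c))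
  have h1 := hp.measure_preimage (s := Icc ![-b, -lam, -lam] ![b, lam, lam])
    measurableSet_Icc.nullMeasurableSet
  refine (measure_mono ?_).trans (h1.trans ?_).le
  · rintro η ⟨h2, h3⟩
    rw [real_inner_comm, PA_inner hR] at h3
    rw [← R.norm_map] at h2
    have h4 := abs_le.1 ((PiLp.norm_apply_le (R (η - c)) 1).trans h2)
    have h5 := abs_le.1 ((PiLp.norm_apply_le (R (η - c)) 2).trans h2)
    have h6 := abs_le.1 h3
    constructor <;> intro i <;> fin_cases i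
    exacts [h6.1, h4.1, h5.1, h6.2, h4.2, h5.2]
  · rw [Real.volume_Icc_pi, Fin.prod_univ_three]
    simp only [Matrix.cons_val_zero, Matrix.cons_val_one, Matrix.cons_val]
    rw [← ENNReal.ofReal_mul (by linarith), ← ENNReal.ofReal_mul (by nlinarith)]
    congr 1
    ring

theorem PA_vol_ball (c : R3) (lam : ℝ) (hl : 0 ≤ lam) :
    volume {η : R3 | ‖η - c‖ ≤ lam} = ENNReal.ofReal (Real.pi * 4 / 3 * lam ^ 3) := by
  have : {η : R3 | ‖η - c‖ ≤ lam} = Metric.closedBall c lam := by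
    ext η
    simp [dist_eq_norm]
  rw [this, EuclideanSpace.volume_closedBall_fin_three, ← ENNReal.ofReal_pow hl,
    ← ENNReal.ofReal_mul (pow_nonneg hl _), mul_comm]

theorem vol_ball_le (c : R3) (lam : ℝ) (hl : 0 ≤ lam) :
    volume {η : R3 | ‖η - c‖ ≤ lam} ≤ ENNReal.ofReal (5 * lam ^ 3) := by
  rw [PA_vol_ball c lam hl]
  exact ENNReal.ofReal_le_ofReal (mul_le_mul_of_nonneg_right (by linarith [Real.pi_lt_d2])
    (pow_nonneg hl _))

theorem vol_ball_ge (c : R3) (lam : ℝ) (hl : 0 ≤ lam) :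
    ENNReal.ofReal (4 * lam ^ 3) ≤ volume {η : R3 | ‖η - c‖ ≤ lam} := by
  rw [PA_vol_ball c lam hl]
  exact ENNReal.ofReal_le_ofReal (mul_le_mul_of_nonneg_right (by linarith [Real.pi_gt_three])
    (pow_nonneg hl _))

end
end Crest.Agent.R68
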