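import Crest.Agent.R68.MedBasic
import Crest.Agent.R68.PlaneA

/-! # Row 68: level sets and concentration of the medium in velocity -/

set_option autoImplicit false
open MeasureTheory Set Filter Topology
open scoped ENNReal NNReal
open Crest.AnalysisR.VecCalc3 Crest.AnalysisR.PDE.Boltzmann

namespace Crest.Agent.R68
noncomputable section

/-- the lifted position `x` is occupied by stream `b` at time `t` -/
def Occ (P : Par) (b : Bool) (t : ℝ) (x : R3) : Prop :=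
  x1 x ≠ 0 ∧ |x1 x| ≤ 3 * P.r0 ∧ ‖x - t • uu b t x‖ ≤ 1 / 20 ∧ ‖x‖ ≤ 1 + 2 * t

section
variable {P : Par} (hP : P.Basic) {b : Bool} {j : ℕ} {t : ℝ} {y v : R3}
include hP

/-- `(1+t) 4·8^N r³ ≤ 4·8^N cs³ ≤ cH/1000` -/
theorem Lev.tiny (h : Lev P b j t y v) (hj : j ≤ P.N) (ht : 0 ≤ t) :
    (1 + t) * (4 * 8 ^ j) * x1 y ^ 4 ≤ cH / 1000 * |x1 y| := by
  have h1 : (1 + t) ^ 2 * |x1 y| ≤ P.cs := by
    have := h.2.1
    rwa [Par.rstar, le_div_iff₀' (by positivity)] at this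
  have h0 := abs_nonneg (x1 y)
  have h2 : (1 + t) * |x1 y| ^ 3 ≤ P.cs ^ 3 := by
    refine le_trans ?_ (pow_le_pow_left₀ (by positivity) h1 3)
    rw [mul_pow, ← pow_mul]
    exact mul_le_mul_of_nonneg_right (le_self_pow₀ (by linarith) (by norm_num)) (by positivity)
  have h3 : (4 * 8 ^ j : ℝ) ≤ 8 ^ (P.N + 2) := by
    have : (8 : ℝ) ^ j ≤ 8 ^ P.N := pow_le_pow_right₀ (by norm_num) hj
    rw [pow_add]
    have h8 : (0 : ℝ) < 8 ^ j := by positivity
    linarith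
  have h4 : (4 * 8 ^ j : ℝ) * ((1 + t) * |x1 y| ^ 3) ≤ cH / 1000 := by
    refine (mul_le_mul h3 h2 (by positivity) (by positivity)).trans (hP.cs_small.trans ?_)
    have := lanes_cH_pos
    linarith
  have h5 : x1 y ^ 4 = |x1 y| ^ 3 * |x1 y| := by
    rw [← pow_succ, Even.pow_abs (by decide : Even 4)]
  rw [h5]
  calc _ = (4 * 8 ^ j : ℝ) * ((1 + t) * |x1 y| ^ 3) * |x1 y| := by ring
    _ ≤ _ := mul_le_mul_of_nonneg_right h4 h0

theorem Lev.near (h : Lev P b j t y v) (hj : j ≤ P.N) (ht : 0 ≤ t) :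
    ∃ y' ∈ SS P.r0 b, ‖y - y'‖ ≤ cH / 500 * |x1 y| := by
  have h1 := h.2.2.1.trans (h.tiny hP hj ht)
  have h2 : 0 < cH / 1000 * |x1 y| := mul_pos (div_pos lanes_cH_pos (by norm_num)) (abs_pos.2 h.1)
  obtain ⟨y', hy', h3⟩ := (Metric.infDist_lt_iff (SS_nonempty hP.r0_pos b)).1
    (h1.trans_lt (show cH / 1000 * |x1 y| < cH / 500 * |x1 y| by linarith))
  exact ⟨y', hy', by rw [← dist_eq_norm]; exact h3.le⟩

theorem Lev.small (h : Lev P b j t y v) (hj : j ≤ P.N) (ht : 0 ≤ t) :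
    |x1 y| ≤ 2 * P.r0 ∧ ‖y‖ ≤ 1 / 100 ∧ ‖v‖ ≤ 2 ∧ |x1 v| ≤ cθ / 2 := by
  obtain ⟨y', hy', h1⟩ := h.near hP hj ht
  have h0 := abs_nonneg (x1 y)
  have hH : cH = 1 / 10 ^ 47 := rfl
  have hθ : cθ = 1 / 10 ^ 37 := rfl
  have hK : (0 : ℝ) ≤ 2 * cK := by unfold cK; norm_num
  have h2 : |x1 y| ≤ |x1 y'| + ‖y - y'‖ := by
    have h3 := abs_x1_le (y - y')
    rw [x1_sub] at h3
    linarith [abs_sub_abs_le_abs_sub (x1 y) (x1 y')]
  have h3 := hy'.2.1
  have h4 : |x1 y| ≤ 2 * P.r0 := by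
    rw [hH] at h1
    linarith
  have h5 := (norm_le_of_mem_SS hy').trans (mul_le_mul_of_nonneg_left h3 hK)
  have h6 := hP.r0_K
  have h7 := hP.r0_cs
  have h8 := hP.cs_le
  have h9 : ‖ww b t y v‖ ≤ cH / 1000 * |x1 y| := by
    refine h.2.2.2.trans (le_trans ?_ (h.tiny hP hj ht))
    rw [mul_assoc (1 + t)]
    exact le_mul_of_one_le_left (by positivity) (by linarith)
  rw [hH] at h1 h9
  refine ⟨h4, ?_, ?_, ?_⟩
  · linarith [norm_sub_norm_le y y']
  · linarith [norm_le_ww b t y v]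
  · rw [hθ]
    linarith [abs_x1_le_ww b t y v]

theorem Lev.x1_close (h : Lev P b j t y v) (hj : j ≤ P.N) (ht : 0 ≤ t) :
    |x1 (y + t • v) - x1 y| ≤ cH / 1000 * |x1 y| := by
  rw [x1_add, x1_smul, add_sub_cancel_left, abs_mul, abs_of_nonneg ht]
  refine le_trans ?_ (h.tiny hP hj ht)
  rw [mul_assoc (1 + t)]
  exact mul_le_mul (by linarith) ((abs_x1_le_ww b t y v).trans h.2.2.2) (abs_nonneg _) (by linarith)

theorem Lev.occ (h : Lev P b j t y v) (hj : j ≤ P.N) (ht : 0 ≤ t) : Occ P b t (y + t • v) := by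
  have h1 := h.x1_close hP hj ht
  obtain ⟨h2, h3, h4, -⟩ := h.small hP hj ht
  have h0 := abs_pos.2 h.1
  have hH : cH = 1 / 10 ^ 47 := rfl
  have h5 := abs_sub_abs_le_abs_sub (x1 (y + t • v)) (x1 y)
  have h6 := abs_sub_abs_le_abs_sub (x1 y) (x1 (y + t • v))
  rw [abs_sub_comm] at h6
  have h7 : t * ‖ww b t y v‖ ≤ cH / 1000 * |x1 y| := by
    refine le_trans ?_ (h.tiny hP hj ht)
    rw [mul_assoc (1 + t)]
    exact mul_le_mul (by linarith) h.2.2.2 (norm_nonneg _) (by linarith)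
  have h8 := hP.r0_cs
  have h9 := hP.cs_le
  rw [hH] at h1 h7
  refine ⟨abs_pos.1 (by linarith), by linarith, ?_, ?_⟩
  · have e : y + t • v - t • uu b t (y + t • v) = y + t • ww b t y v := by
      rw [ww, smul_sub, add_sub_assoc]
    have h10 := norm_add_le y (t • ww b t y v)
    rw [norm_smul, Real.norm_of_nonneg ht] at h10
    rw [e]
    linarith
  · have h10 := norm_add_le y (t • v)
    rw [norm_smul, Real.norm_of_nonneg ht] at h10
    linarith [mul_le_mul_of_nonneg_left h4 ht]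

theorem cold0_small (h : cold0 P b y v ≠ 0) :
    x1 y ≠ 0 ∧ |x1 y| ≤ P.r0 ∧ ‖y‖ ≤ 1 / 100 ∧ ‖v‖ ≤ 2 ∧ |x1 v| ≤ cθ / 2 ∧
      cold0 P b y v ≤ ENNReal.ofReal (cC / |x1 y| ^ 13) := by
  have h1 : y ∈ SS P.r0 b ∧ ‖v - uu b 0 y‖ ≤ x1 y ^ 4 := by
    by_contra hc
    exact h (if_neg hc)
  have h0 : 0 < |x1 y| := abs_pos.2 h1.1.1.1
  have h2 := h1.1.2.1
  have hK : cK = 10 ^ 47 := rfl
  have hθ : cθ = 1 / 10 ^ 37 := rfl
  have h3 := norm_le_of_mem_SS h1.1
  have h4 := hP.r0_K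
  rw [hK] at h3 h4
  have h5 : ‖ww b 0 y v‖ ≤ |x1 y| := by
    rw [ww_zero]
    refine h1.2.trans ?_
    rw [← Even.pow_abs (by decide : Even 4)]
    exact pow_le_of_le_one h0.le (by linarith) (by norm_num)
  refine ⟨h1.1.1.1, h2, by linarith, by linarith [norm_le_ww b 0 y v], ?_, ?_⟩
  · rw [hθ]
    linarith [abs_x1_le_ww b 0 y v]
  · rw [cold0, if_pos h1]
    refine ENNReal.ofReal_le_ofReal (div_le_div_of_nonneg_left (by unfold cC; norm_num)
      (pow_pos h0 _) ?_)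
    have h6 := flow_x1_le b 0 y
    rw [mul_zero, add_zero] at h6
    rw [← Even.pow_abs (by decide : Even 12), pow_succ']
    exact mul_le_mul_of_nonneg_right h6 (pow_pos h0 _).le

theorem lev_of_cold0 (h : cold0 P b y v ≠ 0) (ht : 0 ≤ t) (hr : |x1 y| ≤ P.rstar t) :
    Lev P b 0 t y v := by
  have h1 : y ∈ SS P.r0 b ∧ ‖v - uu b 0 y‖ ≤ x1 y ^ 4 := by
    by_contra hc
    exact h (if_neg hc)
  have h0 : 0 ≤ x1 y ^ 4 := by positivity
  refine ⟨(cold0_small hP h).1, hr, ?_, ?_⟩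
  · rw [Metric.infDist_zero_of_mem h1.1]
    positivity
  · have h2 := ww_flight b le_rfl ht y v
    rw [ww_zero] at h2
    rw [pow_zero]
    linarith [h1.2]

theorem csm_eq_c0 {p : Ph} (ht : p.1 ∈ Icc (0 : ℝ) 1) : csm P p = c0 P p := by
  unfold csm
  split_ifs with h
  · rfl
  · refine (Finset.sum_eq_zero fun b _ => ?_).symm
    by_contra hc
    refine h ((cold0_small hP hc).2.1.trans ?_)
    have h1 : (1 + p.1) ^ 2 ≤ 4 := by nlinarith [ht.1, ht.2]
    have h2 : 0 < 1 + p.1 := by linarith [ht.1]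
    rw [Par.rstar, le_div_iff₀ (pow_pos h2 _)]
    linarith [mul_le_mul_of_nonneg_left h1 hP.r0_pos.le, hP.r0_cs, hP.r0_pos]

theorem Big_eq_zero {p : Ph} (ht : p.1 ∈ Icc (0 : ℝ) 1) : Big P p = 0 := by
  refine if_neg fun h => absurd h.1 (not_lt.2 ?_)
  have h1 : (1 + p.1) ^ 2 ≤ 4 := by nlinarith [ht.1, ht.2]
  have h2 : 0 < 1 + p.1 := by linarith [ht.1]
  rw [Par.rstar, le_div_iff₀ (pow_pos h2 _)]
  linarith [mul_le_mul_of_nonneg_left h1 hP.r0_pos.le, hP.r0_cs, hP.r0_pos]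

theorem c0_le_csm_add_Big {p : Ph} (ht : 0 ≤ p.1) : c0 P p ≤ csm P p + Big P p := by
  by_cases h : |x1 (lbl p)| ≤ P.rstar p.1
  · rw [csm, if_pos h]
    exact le_self_add
  by_cases h0 : c0 P p = 0
  · rw [h0]
    exact zero_le
  obtain ⟨b, -, hb⟩ := Finset.exists_ne_zero_of_sum_ne_zero h0
  obtain ⟨-, h1, -, h2, -⟩ := cold0_small hP hb
  have hr : 0 < P.rstar p.1 := div_pos hP.cs_pos (by positivity)
  have hC : 0 ≤ cC := by unfold cC; norm_num
  have hq : 0 ≤ cC / P.rstar p.1 ^ 13 := div_nonneg hC (pow_pos hr _).le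
  have h3 : ∀ b' : Bool, cold0 P b' (lbl p) p.2.2 ≤ ENNReal.ofReal (cC / P.rstar p.1 ^ 13) := by
    intro b'
    by_cases hb' : cold0 P b' (lbl p) p.2.2 = 0
    · rw [hb']
      exact zero_le
    · exact (cold0_small hP hb').2.2.2.2.2.trans (ENNReal.ofReal_le_ofReal
        (div_le_div_of_nonneg_left hC (pow_pos hr _) (pow_le_pow_left₀ hr.le (not_le.1 h).le _)))
  refine le_trans ?_ le_add_self
  rw [Big, if_pos ⟨by linarith [not_le.1 h, hP.r0_pos], by linarith⟩, c0, Fintype.sum_bool]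
  refine (add_le_add (h3 _) (h3 _)).trans ?_
  rw [← ENNReal.ofReal_add hq hq, mul_div_assoc]
  refine ENNReal.ofReal_le_ofReal ?_
  have hN : (0 : ℝ) ≤ P.N := Nat.cast_nonneg _
  linarith [mul_nonneg hN hq]

theorem supp_c0 {p : Ph} (h : c0 P p ≠ 0) : ‖p.2.2‖ ≤ 2 ∧ |x1 p.2.2| ≤ cθ / 2 := by
  obtain ⟨b, -, hb⟩ := Finset.exists_ne_zero_of_sum_ne_zero h
  obtain ⟨-, -, -, h1, h2, -⟩ := cold0_small hP hb
  exact ⟨h1, h2⟩

theorem supp_ZZ {p : Ph} (ht : 0 ≤ p.1) (h : ZZ P p ≠ 0) : ‖p.2.2‖ ≤ 2 ∧ |x1 p.2.2| ≤ cθ / 2 := by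
  obtain ⟨b, -, hb⟩ := Finset.exists_ne_zero_of_sum_ne_zero h
  obtain ⟨j, hj, hL⟩ := Finset.exists_ne_zero_of_sum_ne_zero hb
  have hL' : Lev P b j p.1 (lbl p) p.2.2 := by
    by_contra hc
    exact hL (if_neg hc)
  exact (hL'.small hP (Finset.mem_Icc.1 hj).2 ht).2.2

theorem csm_le_sum (ht : 0 ≤ t) (z η : R3) :
    csm P (t, z, η) ≤ ∑ m ∈ img (1 + 2 * t) z, ∑ b : Bool, csec P b t (z - lat m) η := by
  obtain ⟨m, hm⟩ := exists_red_eq (z - t • η)
  have e : lbl (t, z, η) = z - lat m - t • η := by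
    rw [sub_right_comm]
    exact hm
  by_cases h0 : c0 P (t, z, η) = 0
  · exact (csm_le_c0 P _).trans (h0.trans_le zero_le)
  obtain ⟨b, -, hb⟩ := Finset.exists_ne_zero_of_sum_ne_zero h0
  obtain ⟨-, -, h1, h2, -⟩ := cold0_small hP hb
  rw [e] at h1
  have h3 : m ∈ img (1 + 2 * t) z := by
    refine mem_img ?_
    have h4 := norm_add_le (z - lat m - t • η) (t • η)
    rw [sub_add_cancel, norm_smul, Real.norm_of_nonneg ht] at h4
    linarith [mul_le_mul_of_nonneg_left (show ‖η‖ ≤ 2 from h2) ht]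
  refine le_trans (le_of_eq ?_) (Finset.single_le_sum
    (f := fun m => ∑ b : Bool, csec P b t (z - lat m) η) (fun _ _ => zero_le) h3)
  simp only [csm, c0, csec, e]
  split_ifs
  · rfl
  · exact Finset.sum_const_zero.symm

theorem ZZ_le_sum (ht : 0 ≤ t) (z η : R3) :
    ZZ P (t, z, η) ≤
      ∑ m ∈ img (1 + 2 * t) z, ∑ b : Bool, zed0 P b t ((z - lat m) - t • η) η := by
  obtain ⟨m, hm⟩ := exists_red_eq (z - t • η)
  have e : lbl (t, z, η) = z - lat m - t • η := by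
    rw [sub_right_comm]
    exact hm
  by_cases h0 : ZZ P (t, z, η) = 0
  · exact h0.trans_le zero_le
  obtain ⟨b, -, hb⟩ := Finset.exists_ne_zero_of_sum_ne_zero h0
  obtain ⟨j, hj, hL⟩ := Finset.exists_ne_zero_of_sum_ne_zero hb
  have hL' : Lev P b j t (lbl (t, z, η)) η := by
    by_contra hc
    exact hL (if_neg hc)
  obtain ⟨-, h1, h2, -⟩ := hL'.small hP (Finset.mem_Icc.1 hj).2 ht
  rw [e] at h1
  have h3 : m ∈ img (1 + 2 * t) z := by
    refine mem_img ?_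
    have h4 := norm_add_le (z - lat m - t • η) (t • η)
    rw [sub_add_cancel, norm_smul, Real.norm_of_nonneg ht] at h4
    linarith [mul_le_mul_of_nonneg_left h2 ht]
  refine le_trans (le_of_eq ?_) (Finset.single_le_sum
    (f := fun m => ∑ b : Bool, zed0 P b t ((z - lat m) - t • η) η) (fun _ _ => zero_le) h3)
  simp only [ZZ, e]

/-- pointwise facts on the support of `csec` -/
theorem csec_facts (ht : 0 ≤ t) {x η τ : R3} (h1 : ‖τ‖ = 1) (h2 : x1 τ = 0)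
    (h3 : inner ℝ τ (XX b t x) = (0 : ℝ)) (h : csec P b t x η ≠ 0) :
    Occ P b t x ∧ ‖η - uu b t x‖ ≤ 4 * x1 x ^ 4 ∧
      csec P b t x η ≤ ENNReal.ofReal (2 * cC / |x1 x| ^ 13) ∧
      |inner ℝ τ (η - uu b t x)| ≤ 2 * x1 x ^ 4 * (MM b t x - ca * t) / MM b t x ∧
      csec P b t x η ≤ ENNReal.ofReal (2 * cC / ((MM b t x - ca * t) * x1 x ^ 12)) := by
  have hr : |x1 (x - t • η)| ≤ P.rstar t := by
    by_contra hc
    exact h (if_neg hc)
  have e : csec P b t x η = cold0 P b (x - t • η) η := if_pos hr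
  rw [e] at h ⊢
  set y := x - t • η with hy
  have hx : y + t • η = x := sub_add_cancel _ _
  have hL := lev_of_cold0 hP h ht hr
  have hS : y ∈ SS P.r0 b ∧ ‖η - uu b 0 y‖ ≤ x1 y ^ 4 := by
    by_contra hc
    exact h (if_neg hc)
  have hc := hL.x1_close hP (Nat.zero_le _) ht
  have hti := hL.tiny hP (Nat.zero_le _) ht
  have ho := hL.occ hP (Nat.zero_le _) ht
  rw [hx] at hc ho
  have hH : cH = 1 / 10 ^ 47 := rfl
  have hC : 0 < cC := by unfold cC; norm_num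
  have hs : 0 < |x1 y| := abs_pos.2 hL.1
  have hr0 : 0 < |x1 x| := abs_pos.2 ho.1
  rw [hH] at hc hti
  have h5 := abs_sub_abs_le_abs_sub (x1 x) (x1 y)
  have h6 := abs_sub_abs_le_abs_sub (x1 y) (x1 x)
  rw [abs_sub_comm] at h6
  have h7 : |x1 y| ≤ 101 / 100 * |x1 x| := by linarith
  have h8 : |x1 x| ≤ 101 / 100 * |x1 y| := by linarith
  have h9 : x1 y ^ 4 ≤ 21 / 20 * x1 x ^ 4 := by
    rw [← Even.pow_abs (by decide : Even 4), ← Even.pow_abs (by decide : Even 4) (x1 x)]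
    refine (pow_le_pow_left₀ hs.le h7 4).trans ?_
    rw [mul_pow]
    exact mul_le_mul_of_nonneg_right (by norm_num) (by positivity)
  have h10 : x1 x ^ 12 ≤ 3 / 2 * x1 y ^ 12 := by
    rw [← Even.pow_abs (by decide : Even 12), ← Even.pow_abs (by decide : Even 12) (x1 y)]
    refine (pow_le_pow_left₀ hr0.le h8 12).trans ?_
    rw [mul_pow]
    exact mul_le_mul_of_nonneg_right (by norm_num) (by positivity)
  have h11 : |x1 x| ^ 13 ≤ 2 * |x1 y| ^ 13 := by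
    refine (pow_le_pow_left₀ hr0.le h8 13).trans ?_
    rw [mul_pow]
    exact mul_le_mul_of_nonneg_right (by norm_num) (by positivity)
  have hx4 : 0 < x1 x ^ 4 := Even.pow_pos (by decide) ho.1
  have hy4 : 0 < x1 y ^ 4 := Even.pow_pos (by decide) hL.1
  have hx12 : 0 < x1 x ^ 12 := Even.pow_pos (by decide) ho.1
  have hy12 : 0 < x1 y ^ 12 := Even.pow_pos (by decide) hL.1
  -- comparison of the expansion radii
  have hM := flow_x1_le b t x
  have hct := mul_nonneg flow_ca_pos.le ht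
  have hm : |MM b t x - (MM b 0 y + ca * t)| ≤ |x1 x| / 100 := by
    have e1 := MM_flow b le_rfl ht y
    rw [sub_zero] at e1
    rw [← e1]
    refine (MM_lip b t _ _).trans ?_
    have e2 : x - (y + t • uu b 0 y) = t • (η - uu b 0 y) := by
      rw [← hx, smul_sub]
      abel
    rw [e2, norm_smul, Real.norm_of_nonneg ht]
    have := mul_le_mul_of_nonneg_left hS.2 ht
    rw [pow_zero] at hti
    nlinarith
  obtain ⟨hm1, hm2⟩ := abs_le.1 hm
  have hm0 : 0 < MM b 0 y := by linarith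
  refine ⟨ho, ?_, ?_, ?_, ?_⟩
  · have h12 := ww_flight b le_rfl ht y η
    rw [ww_zero, ww, hx] at h12
    linarith [hS.2]
  · refine (cold0_small hP h).2.2.2.2.2.trans (ENNReal.ofReal_le_ofReal ?_)
    rw [div_le_div_iff₀ (pow_pos hs _) (pow_pos hr0 _)]
    nlinarith
  · have h12 := tangent_squeeze b ht x η τ h2 h3 hL.1
    rw [← hy] at h12
    have h13 : |inner ℝ τ (η - uu b 0 y)| ≤ x1 y ^ 4 := by
      refine (abs_real_inner_le_norm _ _).trans ?_
      rw [h1, one_mul]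
      exact hS.2
    have h14 : |inner ℝ τ (η - uu b t x)| * (MM b 0 y + ca * t) ≤ x1 y ^ 4 * MM b 0 y := by
      have := congrArg abs h12
      rw [abs_mul, abs_mul, abs_of_pos hm0, abs_of_pos (by linarith : 0 < MM b 0 y + ca * t)] at this
      rw [this]
      exact mul_le_mul_of_nonneg_right h13 hm0.le
    rw [le_div_iff₀ (by linarith)]
    have h15 := abs_nonneg (inner ℝ τ (η - uu b t x) : ℝ)
    have h16 : |inner ℝ τ (η - uu b t x)| * (99 / 100 * MM b t x) ≤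
        |inner ℝ τ (η - uu b t x)| * (MM b 0 y + ca * t) :=
      mul_le_mul_of_nonneg_left (by linarith) h15
    have h17 : x1 y ^ 4 * MM b 0 y ≤ 21 / 20 * x1 x ^ 4 * (101 / 100 * (MM b t x - ca * t)) :=
      mul_le_mul h9 (by linarith) hm0.le (by positivity)
    have h18 : 0 ≤ x1 x ^ 4 * (MM b t x - ca * t) := mul_nonneg hx4.le (by linarith)
    linarith
  · rw [cold0, if_pos hS]
    refine ENNReal.ofReal_le_ofReal ?_
    rw [div_le_div_iff₀ (mul_pos hm0 hy12) (mul_pos (by linarith) hx12)]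
    have h12 : (MM b t x - ca * t) * x1 x ^ 12 ≤ (100 / 99 * MM b 0 y) * (3 / 2 * x1 y ^ 12) :=
      mul_le_mul (by linarith) h10 hx12.le (by positivity)
    have h13 := mul_pos hm0 hy12
    nlinarith

/-- Upper density.  On the support `y = x - tη` is in level `0`, so `|x1 y|` and `r = |x1 x|` agree up to
`1 ± 10⁻⁴⁹`, `‖η - u‖ ≤ 3 (x1 y)⁴`.  With `M = MM b t x`, `m̂ = M - ca t ≥ r`, `m = MM b 0 y`:
`|m + ca t - M| ≤ t (x1 y)⁴ ≤ r/100` (`MM_flow`, `MM_lip`).  For `τ` from `exists_tangent (XX b t x)`,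
`tangent_squeeze` gives `|⟪τ, η - u⟫| ≤ (x1 y)⁴ m/(m + ca t) ≤ 1.1 r⁴ m̂/M`; `vol_ball_slab` gives mass
`≤ 200 cC/M`, and `ell_le_MM`. -/
theorem conc_csec (b : Bool) (ht : 0 ≤ t) (x : R3) :
    (∀ η, csec P b t x η = 0) ∨ (Occ P b t x ∧
      Conc (csec P b t x) (uu b t x) (4 * x1 x ^ 4) (ENNReal.ofReal (2 * cC / |x1 x| ^ 13))
        (ENNReal.ofReal (10 ^ 26 / (8 * t + ‖x‖)))) := by
  by_cases h0 : ∀ η, csec P b t x η = 0
  · exact Or.inl h0
  obtain ⟨η0, hη0⟩ := not_forall.1 h0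
  obtain ⟨τ, h1, h2, h3⟩ := exists_tangent (XX b t x)
  have ho := (csec_facts hP ht h1 h2 h3 hη0).1
  have hmeas : Measurable (csec P b t x) := by
    have h : Measurable fun η : R3 => x - t • η := by fun_prop
    unfold csec
    exact Measurable.ite (measurableSet_le (mba_x1.comp h).abs measurable_const)
      ((measurable_cold0 P b).comp (f := fun η : R3 => (x - t • η, η)) (h.prodMk measurable_id))
      measurable_const
  refine Or.inr ⟨ho, hmeas, fun η h => (csec_facts hP ht h1 h2 h3 h).2.1, fun η => ?_, ?_⟩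
  · by_cases h : csec P b t x η = 0
    · exact h.trans_le zero_le
    · exact (csec_facts hP ht h1 h2 h3 h).2.2.1
  have hr0 : 0 < |x1 x| := abs_pos.2 ho.1
  have hM := flow_x1_le b t x
  have hct := mul_nonneg flow_ca_pos.le ht
  have hM0 : 0 < MM b t x := by linarith
  have hM1 : 0 < MM b t x - ca * t := by linarith
  have hx4 : 0 < x1 x ^ 4 := Even.pow_pos (by decide) ho.1
  have hx12 : 0 < x1 x ^ 12 := Even.pow_pos (by decide) ho.1
  have hC : cC = 10 ^ 13 := rfl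
  set B : ℝ := 2 * x1 x ^ 4 * (MM b t x - ca * t) / MM b t x with hB
  set S : Set R3 := {η : R3 | ‖η - uu b t x‖ ≤ 4 * x1 x ^ 4 ∧ |inner ℝ τ (η - uu b t x)| ≤ B}
    with hS
  set H : ℝ≥0∞ := ENNReal.ofReal (2 * cC / ((MM b t x - ca * t) * x1 x ^ 12)) with hH
  have h4 : ∫⁻ η, csec P b t x η ≤ ∫⁻ η, S.indicator (fun _ => H) η := by
    refine lintegral_mono fun η => ?_
    by_cases h : csec P b t x η = 0
    · exact h.trans_le zero_le
    · obtain ⟨-, h5, -, h6, h7⟩ := csec_facts hP ht h1 h2 h3 h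
      rw [indicator_of_mem (show η ∈ S from ⟨h5, h6⟩)]
      exact h7
  refine h4.trans ((lintegral_indicator_const_le _ _).trans ?_)
  refine (mul_le_mul_right (vol_ball_slab τ h1 _ _ B (by positivity) (by positivity)) _).trans ?_
  rw [hH, ← ENNReal.ofReal_mul (by rw [hC]; positivity)]
  refine ENNReal.ofReal_le_ofReal ?_
  have e : 2 * cC / ((MM b t x - ca * t) * x1 x ^ 12) * (8 * (4 * x1 x ^ 4) ^ 2 * B) =
      512 * cC / MM b t x := by
    have := ho.1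
    rw [hB]
    field_simp
    ring
  have hl : 0 < 8 * t + ‖x‖ := by linarith [abs_x1_le x]
  have h5 := ell_le_MM b ht x
  rw [e, div_le_div_iff₀ hM0 hl, hC]
  rw [show ca = 1 / 10 ^ 8 from rfl] at h5
  linarith

/-- Lower density on the core.  `ŷ = x - t u` has `u(0,ŷ) = u`, `MM b 0 ŷ = M - ca t ≥ max r (ca t)`
(`uu_back`, `MM_back`); `y = ŷ - t w`; `‖η - u(0,y)‖ ≤ ‖w‖ (1 + 2 ca t/m̂) ≤ 3‖w‖` (`uu_lip`);
`t r⁴ ≤ 10⁻⁶⁰ r`; `lane_of_laneIn`; `‖pr y‖ ≤ 2 l ≤ cK |x1 y|`; `MM_le_ell`. -/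
theorem cold0_ge (b : Bool) (ht : t ∈ Icc (0 : ℝ) 1) (x η : R3) {l : ℝ} (hl : 8 * t + ‖x‖ ≤ l)
    (h1 : cθ' * l ≤ |x1 x|) (h2 : laneIn b (x1 x)) (h3 : |x1 x| ≤ P.r0 / 2)
    (h4 : 2 * ca * t ≤ MM b t x) (h5 : ‖η - uu b t x‖ ≤ x1 x ^ 4 / 8) :
    ENNReal.ofReal (cC / (2 * l * x1 x ^ 12)) ≤ cold0 P b (x - t • η) η ∧ ‖x - t • η‖ ≤ 1 / 100 := by
  have h0 : 0 < |x1 x| := abs_pos.2 h2.1
  have hK : cK = 10 ^ 47 := rfl
  have hθ : cθ' = 1 / 10 ^ 46 := rfl
  have hH : cH = 1 / 10 ^ 47 := rfl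
  have h6 := hP.r0_K
  rw [hK] at h6
  rw [hθ] at h1
  rw [← Even.pow_abs (by decide : Even 4)] at h5
  rw [← Even.pow_abs (by decide : Even 12)]
  have h7 : |x1 x| ^ 4 ≤ 1 / 10 ^ 50 * |x1 x| := by
    rw [pow_succ]
    exact mul_le_mul_of_nonneg_right
      ((pow_le_of_le_one h0.le (by linarith) three_ne_zero).trans (by linarith)) h0.le
  have h8 : ‖t • (η - uu b t x)‖ = t * ‖η - uu b t x‖ := by
    rw [norm_smul, Real.norm_of_nonneg ht.1]
  have h9 : |x1 (x - t • η) - x1 x| ≤ 1 / 10 ^ 50 * |x1 x| := by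
    have e : x1 (x - t • η) - x1 x = -x1 (t • (η - uu b t x)) := by
      rw [x1_sub, x1_smul, x1_smul, x1_sub, x1_uu]
      ring
    rw [e, abs_neg]
    refine (abs_x1_le _).trans (h8.trans_le ((mul_le_of_le_one_left (norm_nonneg _) ht.2).trans ?_))
    linarith
  have h10 := abs_sub_abs_le_abs_sub (x1 (x - t • η)) (x1 x)
  have h11 := abs_sub_abs_le_abs_sub (x1 x) (x1 (x - t • η))
  rw [abs_sub_comm] at h11
  have h12 : ‖x - t • η‖ ≤ l := by
    have a1 := norm_sub_le x (t • η)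
    have a2 := norm_add_le (η - uu b t x) (uu b t x)
    rw [norm_smul, Real.norm_of_nonneg ht.1] at a1
    rw [sub_add_cancel] at a2
    have a3 : ‖η‖ ≤ 8 := by linarith [norm_uu_le b t x]
    linarith [mul_le_mul_of_nonneg_left a3 ht.1]
  have h13 : ‖uu b t x - uu b 0 (x - t • η)‖ ≤ 2 * ‖η - uu b t x‖ := by
    have a1 := uu_lip b 0 (x - t • uu b t x) (x - t • η)
    have a2 := flow_x1_le b t x
    rw [MM_back b ht.1, uu_back b ht.1 x h2.1, sub_sub_sub_cancel_left, ← smul_sub, h8] at a1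
    refine le_of_mul_le_mul_left (a1.trans ?_) (show 0 < MM b t x - ca * t by linarith)
    nlinarith [norm_nonneg (η - uu b t x)]
  have h14 : ‖η - uu b 0 (x - t • η)‖ ≤ x1 (x - t • η) ^ 4 := by
    have a1 := norm_sub_le_norm_sub_add_norm_sub η (uu b t x) (uu b 0 (x - t • η))
    have a2 : (9 / 10 * |x1 x|) ^ 4 ≤ |x1 (x - t • η)| ^ 4 :=
      pow_le_pow_left₀ (by positivity) (by linarith) 4
    rw [mul_pow] at a2
    rw [← Even.pow_abs (by decide : Even 4)]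
    linarith [pow_pos h0 4]
  refine ⟨?_, by linarith⟩
  rw [cold0, if_pos ⟨⟨lane_of_laneIn h2 (by rw [hH]; linarith), by linarith,
    (norm_pr_le _).trans (by rw [hK]; linarith)⟩, h14⟩, ← Even.pow_abs (by decide : Even 12) (x1 _)]
  have h15 := flow_x1_le b 0 (x - t • η)
  have h16 := MM_le_ell b le_rfl (x - t • η)
  have h17 : 0 < |x1 (x - t • η)| := by linarith
  refine ENNReal.ofReal_le_ofReal (div_le_div_of_nonneg_left (by unfold cC; norm_num)
    (mul_pos (by linarith) (pow_pos h17 _)) ?_)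
  have h18 : |x1 (x - t • η)| ^ 12 ≤ (101 / 100 * |x1 x|) ^ 12 :=
    pow_le_pow_left₀ h17.le (by linarith) 12
  rw [mul_pow] at h18
  rw [mul_comm 2, mul_assoc]
  exact mul_le_mul (by linarith) (by linarith [pow_pos h0 12]) (by positivity) (by linarith)

end

theorem measurable_csec (P : Par) (b : Bool) (t : ℝ) (x : R3) : Measurable (csec P b t x) := by
  have h : Measurable fun η : R3 => x - t • η := by fun_prop
  unfold csec
  exact Measurable.ite (measurableSet_le (mba_x1.comp h).abs measurable_const)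
    ((measurable_cold0 P b).comp (f := fun η : R3 => (x - t • η, η)) (h.prodMk measurable_id))
    measurable_const

/-- `lam = 8·8^N r⁴`, `H = N 2^{13} cC r^{-11}` (`r = |x1 x| ≤ 3 r0`), mass `≤ 5 H lam³ = c_N r`. -/
theorem conc_zed (η : ℝ≥0∞) (hη : 0 < η) : ∀ᶠ P in parF, ∀ (b : Bool) (t : ℝ) (x : R3), 0 ≤ t →
    (∀ ζ, zed0 P b t (x - t • ζ) ζ = 0) ∨ (Occ P b t x ∧ ∃ (lam : ℝ) (H : ℝ≥0∞), 0 < lam ∧
      8 * lam ≤ 1 ∧ Conc (fun ζ => zed0 P b t (x - t • ζ) ζ) (uu b t x) lam H η ∧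
      H * ENNReal.ofReal (lam ^ 2) * ENNReal.ofReal ((8 * lam) ^ (3 / 2 : ℝ)) ≤ η) := by
  have hev : ∀ᶠ P in parF, 8 * (8 * 8 ^ P.N * (3 * P.r0) ^ 4) ≤ 1 ∧
      ENNReal.ofReal (P.N * (2 ^ 11 * cC) * (8 * (8 * 8 ^ P.N) ^ 3) * (3 * P.r0)) ≤ η := by
    refine ev_r0 fun k2 k3 cs t0 d0 R _ _ _ => (FrameAux.ev_le
      (f := fun r => 8 * (8 * 8 ^ (k3 + 20) * (3 * r) ^ 4)) (by fun_prop) (by simp)).and ?_
    have h1 : Continuous fun r : ℝ => ENNReal.ofReal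
        ((k3 + 20 : ℕ) * (2 ^ 11 * cC) * (8 * (8 * 8 ^ (k3 + 20)) ^ 3) * (3 * r)) :=
      ENNReal.continuous_ofReal.comp (by fun_prop)
    exact ((h1.tendsto 0).eventually_le_const (by simpa using hη)).filter_mono nhdsWithin_le_nhds
  filter_upwards [ev_basic, hev] with P hP ⟨e1, e2⟩ b t x ht
  have hC : 0 ≤ cC := by unfold cC; norm_num
  have hH : cH = 1 / 10 ^ 47 := rfl
  have hL : ∀ ζ, zed0 P b t (x - t • ζ) ζ ≠ 0 → ∃ j ≤ P.N, Lev P b j t (x - t • ζ) ζ := by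
    intro ζ h
    obtain ⟨j, hj, h1⟩ := Finset.exists_ne_zero_of_sum_ne_zero h
    exact ⟨j, (Finset.mem_Icc.1 hj).2, by_contra fun hc => h1 (if_neg hc)⟩
  have hc : ∀ ζ j, j ≤ P.N → Lev P b j t (x - t • ζ) ζ →
      |x1 x| ≤ 2 * |x1 (x - t • ζ)| ∧ |x1 (x - t • ζ)| ≤ 11 / 10 * |x1 x| := fun ζ j hj h => by
    have h1 := h.x1_close hP hj ht
    have h2 := abs_sub_abs_le_abs_sub (x1 x) (x1 (x - t • ζ))
    have h3 := abs_sub_abs_le_abs_sub (x1 (x - t • ζ)) (x1 x)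
    have h4 := abs_nonneg (x1 (x - t • ζ))
    rw [sub_add_cancel, hH] at h1
    rw [abs_sub_comm] at h3
    constructor <;> linarith
  refine or_iff_not_imp_left.2 fun h => ?_
  obtain ⟨ζ₀, h0⟩ := not_forall.1 h
  obtain ⟨j₀, hj₀, h0⟩ := hL ζ₀ h0
  have hO := h0.occ hP hj₀ ht
  rw [sub_add_cancel] at hO
  have hr : 0 < |x1 x| := abs_pos.2 hO.1
  have hr3 := hO.2.1
  set lam : ℝ := 8 * 8 ^ P.N * |x1 x| ^ 4 with hlam
  set H : ℝ := P.N * (2 ^ 11 * cC / |x1 x| ^ 11) with hH'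
  have l0 : 0 < lam := by positivity
  have H0 : 0 ≤ H := by positivity
  have l1 : 8 * lam ≤ 1 := le_trans (by rw [hlam]; gcongr) e1
  have key : ENNReal.ofReal (H * (8 * lam ^ 3)) ≤ η := by
    refine (ENNReal.ofReal_le_ofReal ?_).trans e2
    calc _ = P.N * (2 ^ 11 * cC) * (8 * (8 * 8 ^ P.N) ^ 3) * |x1 x| := by
          rw [hH', hlam]
          field_simp
      _ ≤ _ := by gcongr
  have hs : ∀ ζ, zed0 P b t (x - t • ζ) ζ ≠ 0 → ‖ζ - uu b t x‖ ≤ lam := fun ζ h => by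
    obtain ⟨j, hj, h1⟩ := hL ζ h
    have h2 := h1.2.2.2
    have h3 : |x1 (x - t • ζ)| ^ 4 ≤ (11 / 10 * |x1 x|) ^ 4 :=
      pow_le_pow_left₀ (abs_nonneg _) (hc ζ j hj h1).2 4
    rw [ww, sub_add_cancel, ← Even.pow_abs (by decide : Even 4)] at h2
    rw [mul_pow] at h3
    calc _ ≤ 4 * 8 ^ j * |x1 (x - t • ζ)| ^ 4 := h2
      _ ≤ 4 * 8 ^ P.N * (2 * |x1 x| ^ 4) := by
          gcongr
          · norm_num
          · linarith [pow_pos hr 4]
      _ = lam := by ring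
  have hh : ∀ ζ, zed0 P b t (x - t • ζ) ζ ≤ ENNReal.ofReal H := fun ζ => by
    refine (Finset.sum_le_card_nsmul _ _ (ENNReal.ofReal (2 ^ 11 * cC / |x1 x| ^ 11))
      fun j hj => ?_).trans_eq ?_
    · obtain ⟨j1, j2⟩ := Finset.mem_Icc.1 hj
      split_ifs with h1
      · have h2 := (h1.small hP j2 ht).1
        have h3 := (hc ζ j j2 h1).1
        have h4 : 0 < |x1 (x - t • ζ)| := abs_pos.2 h1.1
        have h5 : |x1 (x - t • ζ)| ≤ 1 := by linarith [hP.r0_cs, hP.cs_le]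
        refine ENNReal.ofReal_le_ofReal ?_
        calc _ ≤ cC * |x1 (x - t • ζ)| ^ 2 / |x1 (x - t • ζ)| ^ 13 :=
              div_le_div_of_nonneg_right (mul_le_mul_of_nonneg_left
                (pow_le_pow_of_le_one h4.le h5 (by omega)) hC) (by positivity)
          _ = 2 ^ 11 * cC / (2 * |x1 (x - t • ζ)|) ^ 11 := by field_simp
          _ ≤ _ := by gcongr
      · exact zero_le
    · rw [Nat.card_Icc, Nat.add_sub_cancel, nsmul_eq_mul, hH',
        ENNReal.ofReal_mul (Nat.cast_nonneg _), ENNReal.ofReal_natCast]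
  refine ⟨hO, lam, ENNReal.ofReal H, l0, l1, ⟨(measurable_zed0 P b).comp
    (f := fun ζ : R3 => (t, x - t • ζ, ζ)) (by fun_prop), hs, hh, ?_⟩, ?_⟩
  · calc _ ≤ ∫⁻ ζ, {ζ : R3 | ‖ζ - uu b t x‖ ≤ lam}.indicator (fun _ => ENNReal.ofReal H) ζ := by
          refine lintegral_mono fun ζ => ?_
          by_cases h1 : zed0 P b t (x - t • ζ) ζ = 0
          · exact h1.trans_le zero_le
          · exact (hh ζ).trans_eq (indicator_of_mem (s := {ζ : R3 | ‖ζ - uu b t x‖ ≤ lam})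
              (hs ζ h1) fun _ => ENNReal.ofReal H).symm
      _ ≤ ENNReal.ofReal H * ENNReal.ofReal (8 * lam ^ 3) := by
          rw [lintegral_indicator_const (measurableSet_le (by fun_prop) measurable_const)]
          exact mul_le_mul_right ((vol_ball_le _ _ l0.le).trans
            (ENNReal.ofReal_le_ofReal (by linarith [pow_pos l0 3]))) _
      _ ≤ η := by rwa [← ENNReal.ofReal_mul H0]
  · rw [← ENNReal.ofReal_mul H0, ← ENNReal.ofReal_mul (by positivity)]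
    refine (ENNReal.ofReal_le_ofReal ?_).trans key
    calc _ ≤ H * lam ^ 2 * (8 * lam) := mul_le_mul_of_nonneg_left
          (Real.rpow_le_self_of_le_one (by positivity) l1 (by norm_num)) (by positivity)
      _ = _ := by ring

theorem Big_le_aux {P : Par} (hcs : 0 < P.cs) (p : Ph) :
    Big P p ≤ ENNReal.ofReal (2 * (P.N + 1) * cC / P.cs ^ 13 * Real.exp (9 / 2)) *
      ENNReal.ofReal ((1 + p.1) ^ 26) * Ga (1 / 2) p.2.2 := by
  unfold Big
  split_ifs with h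
  · have hC : 0 ≤ cC := by unfold cC; norm_num
    have h0 : 0 ≤ 2 * (P.N + 1) * cC / P.cs ^ 13 * (1 + p.1) ^ 26 := by positivity
    have h1 : 1 ≤ Real.exp (9 / 2) * Real.exp (-(1 / 2 * ‖p.2.2‖ ^ 2)) := by
      rw [← Real.exp_add]
      refine Real.one_le_exp ?_
      nlinarith [h.2, norm_nonneg p.2.2]
    rw [Ga, ← ENNReal.ofReal_mul (by positivity), ← ENNReal.ofReal_mul (by positivity)]
    refine ENNReal.ofReal_le_ofReal ?_
    calc _ = 2 * (P.N + 1) * cC / P.cs ^ 13 * (1 + p.1) ^ 26 := by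
          rw [Par.rstar, div_pow, ← pow_mul, div_div_eq_mul_div, mul_div_right_comm]
      _ ≤ _ := le_mul_of_one_le_right h0 h1
      _ = _ := by ring
  · exact zero_le

theorem Big_le {P : Par} (hP : P.Basic) : ∃ C : ℝ≥0∞, C ≠ ⊤ ∧ ∀ p : Ph, 0 ≤ p.1 →
    Big P p ≤ C * ENNReal.ofReal ((1 + p.1) ^ 26) * Ga (1 / 2) p.2.2 := by
  exact ⟨_, ENNReal.ofReal_ne_top, fun p _ => Big_le_aux hP.cs_pos p⟩

/-- `Big ≠ 0` forces `(1+t)² > cs/(2 r0)`, and `sup_{t ≥ T} (1+t)^{k+26} e^{-νt} → 0`. -/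
theorem ev_Big_small {ν : ℝ} (hν : 0 < ν) (k : ℕ) (η : ℝ≥0∞) (hη : 0 < η) :
    ∀ᶠ P in parF, ∀ p : Ph, 0 ≤ p.1 →
      ENNReal.ofReal (Real.exp (-(ν * p.1)) * (1 + p.1) ^ k) * Big P p ≤ η * Ga (1 / 2) p.2.2 := by
  refine ev_r0 fun k2 k3 cs t0 d0 R hcs _ _ => ?_
  set A : ℝ := 2 * (((k3 + 20 : ℕ) : ℝ) + 1) * cC / cs ^ 13 * Real.exp (9 / 2) with hA
  have h1 : Tendsto (fun t : ℝ => A * Real.exp ν *
      ((1 + t) ^ (((k + 26 : ℕ) : ℝ)) * Real.exp (-ν * (1 + t)))) atTop (𝓝 (A * Real.exp ν * 0)) :=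
    ((tendsto_rpow_mul_exp_neg_mul_atTop_nhds_zero _ ν hν).comp
      (tendsto_atTop_add_const_left _ 1 tendsto_id)).const_mul _
  have h2 := (ENNReal.tendsto_ofReal h1).eventually_le_const (u := η)
    (by rwa [mul_zero, ENNReal.ofReal_zero])
  obtain ⟨T, hT⟩ := eventually_atTop.1 (h2.and (eventually_ge_atTop 0))
  have hT0 : 0 ≤ T := (hT T le_rfl).2
  filter_upwards [FrameAux.ev_le (f := fun r => 2 * r) (by fun_prop)
    (c := cs / (1 + T) ^ 2) (by rw [mul_zero]; positivity)] with r hr p hp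
  by_cases hB : Big ⟨k2, k3, cs, t0, d0, R, r⟩ p = 0
  · rw [hB, mul_zero]
    exact zero_le
  have h3 : cs / (1 + p.1) ^ 2 < 2 * r := by
    by_contra hc
    exact hB (if_neg fun h => hc h.1)
  have h4 : T ≤ p.1 := by
    by_contra hc
    refine absurd (h3.trans_le hr) (not_lt.2 (div_le_div_of_nonneg_left hcs.le (by positivity) ?_))
    exact pow_le_pow_left₀ (by linarith) (by linarith [not_le.1 hc]) 2
  refine (mul_le_mul_right (Big_le_aux (P := ⟨k2, k3, cs, t0, d0, R, r⟩) hcs p) _).trans ?_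
  rw [← mul_assoc]
  refine mul_le_mul_left (le_trans (le_of_eq ?_) (hT p.1 h4).1) _
  have hC : 0 ≤ cC := by unfold cC; norm_num
  have hA0 : 0 ≤ A := by positivity
  change _ * (ENNReal.ofReal A * _) = _
  rw [← ENNReal.ofReal_mul hA0, ← ENNReal.ofReal_mul (by positivity), Real.rpow_natCast]
  congr 1
  have e : Real.exp (-(ν * p.1)) = Real.exp ν * Real.exp (-ν * (1 + p.1)) := by
    rw [← Real.exp_add]
    congr 1
    ring
  rw [e]
  ring

end
end Crest.Agent.R68
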