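import Crest.Prelude.Def_HardSphereBoltzmann

/-!
# Row 68 (S0091): core definitions (kinetic operators with values in `ℝ≥0∞`)

Phase points are `p = (t, x, v)`.  All densities are measurable maps `Ph → ℝ≥0∞`, periodic in `x`.
-/

set_option autoImplicit false
open MeasureTheory Set Filter Topology
open scoped ENNReal NNReal
open Crest.AnalysisR.VecCalc3 Crest.AnalysisR.PDE.Boltzmann

namespace Crest.Agent.R68
noncomputable section

/-- phase space `(t, x, v)` -/
abbrev Ph : Type := ℝ × R3 × R3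
/-- densities on phase space -/
abbrev PF : Type := Ph → ℝ≥0∞

/-- the point at time `s` of the characteristic through `p` -/
def fl (p : Ph) (s : ℝ) : Ph := (s, p.2.1 - (p.1 - s) • p.2.2, p.2.2)

/-- the forward characteristic starting from `q = (x, v)` at time `0` -/
def ch (q : R3 × R3) (s : ℝ) : Ph := (s, q.1 + s • q.2, q.2)

/-- `⟨v⟩ = 1 + ‖v‖` -/
def jb (v : R3) : ℝ := 1 + ‖v‖

/-- the hard-sphere cross section `|⟪v - v⁎, w⟫|` -/
def ab (v vs w : R3) : ℝ≥0∞ := ENNReal.ofReal |inner ℝ (v - vs) w|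

/-- gain operator applied to a function of the pair of incoming velocities -/
def QH (H : R3 × R3 → ℝ≥0∞) (v : R3) : ℝ≥0∞ :=
  ∫⁻ vs, ∫⁻ w, ab v vs w * H (postVel v vs w, postVelStar v vs w) ∂sphereMeasure

/-- bilinear gain operator `Q⁺(f, g)(v)` -/
def Qp (f g : R3 → ℝ≥0∞) (v : R3) : ℝ≥0∞ := QH (fun q => f q.1 * g q.2) v

/-- collision frequency `L[f](v)` -/
def LL (f : R3 → ℝ≥0∞) (v : R3) : ℝ≥0∞ := ∫⁻ vs, ∫⁻ w, ab v vs w * f vs ∂sphereMeasure

/-- the constant `c₀ = ∫_{S²} |ω₀| dω` (`= 2π`) -/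
def cz : ℝ≥0∞ := ∫⁻ w, ENNReal.ofReal |w 0| ∂sphereMeasure

/-- velocity section of `F` at the space-time point of `p` -/
def sec (F : PF) (p : Ph) : R3 → ℝ≥0∞ := fun η => F (p.1, p.2.1, η)

/-- `Q⁺(F, G)` on phase space -/
def QF (F G : PF) : PF := fun p => Qp (sec F p) (sec G p) p.2.2

/-- `L[F]` on phase space -/
def LF (F : PF) : PF := fun p => LL (sec F p) p.2.2

/-- `e^{-a}` on `ℝ≥0∞` -/
def ex (a : ℝ≥0∞) : ℝ≥0∞ := if a = ⊤ then 0 else ENNReal.ofReal (Real.exp (-a.toReal))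

/-- distance on `ℝ≥0∞` -/
def dd (a b : ℝ≥0∞) : ℝ≥0∞ := max (a - b) (b - a)

/-- pointwise distance of two densities -/
def ddF (f g : PF) : PF := fun p => dd (f p) (g p)

/-- integral along the characteristic from time `a` to the time of `p` -/
def Ia (a : ℝ) (f : PF) : PF := fun p => ∫⁻ s in Ioo a p.1, f (fl p s)

/-- optical depth between time `s` and the time of `p` -/
def Lam (F : PF) (p : Ph) (s : ℝ) : ℝ≥0∞ := ∫⁻ τ in Ioo s p.1, LF F (fl p τ)

/-- Duhamel map from time `a`: collision partner `Fb`, datum `D` (read at time `a`), source `β` -/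
def Duh (a : ℝ) (Fb D β : PF) : PF := fun p =>
  D (fl p a) * ex (Lam Fb p a) +
    ∫⁻ s in Ioo a p.1, ex (Lam Fb p s) * (QF Fb Fb (fl p s) + β (fl p s))

/-- undamped majorant of the Duhamel map -/
def Maj (a : ℝ) (E D β : PF) : PF := fun p =>
  D (fl p a) + ∫⁻ s in Ioo a p.1, (QF E E (fl p s) + β (fl p s))

/-- `F` solves the mild equation with extra source `β` everywhere on `[a, b]` -/
def Mild (F β : PF) (a b : ℝ) : Prop := ∀ p : Ph, p.1 ∈ Icc a b → F p = Duh a F F β p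

/-- lattice vector -/
def lat (m : Fin 3 → ℤ) : R3 := WithLp.toLp 2 (fun i => (m i : ℝ))

/-- representative of `x` modulo `ℤ³` in the centred cube -/
def red (x : R3) : R3 := WithLp.toLp 2 (fun i => x i - (round (x i) : ℝ))

/-- distance to the lattice -/
def tn (x : R3) : ℝ := ‖red x‖

/-- lattice periodicity in `x` -/
def Per (F : PF) : Prop := ∀ (t : ℝ) (x v : R3) (m : Fin 3 → ℤ), F (t, x + lat m, v) = F (t, x, v)

/-- the lattice points within sup-distance `ϱ` of `x` -/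
def img (ϱ : ℝ) (x : R3) : Finset (Fin 3 → ℤ) :=
  Fintype.piFinset fun i => Finset.Icc ⌈x i - ϱ⌉ ⌊x i + ϱ⌋

/-- integral of `φ` over the plane orthogonal to the unit vector `ν` (through the origin) -/
def Pl (ν : R3) (φ : R3 → ℝ≥0∞) : ℝ≥0∞ :=
  ∫⁻ q, φ (q - (inner ℝ q ν : ℝ) • ν) * (Icc (0 : ℝ) 1).indicator 1 (inner ℝ q ν : ℝ)

/-- direction of `p` -/
def dir (p : R3) : R3 := ‖p‖⁻¹ • p

/-- sine of the angle between the unit vectors `n` and `ν` -/
def sn (n ν : R3) : ℝ := ‖n - (inner ℝ n ν : ℝ) • ν‖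

/-- `x ^ (-γ)` in `ℝ≥0∞` (equal to `⊤` at `x ≤ 0` when `γ > 0`) -/
def npw (x γ : ℝ) : ℝ≥0∞ := ENNReal.ofReal x ^ (-γ)

/-- Gaussian -/
def Ga (a : ℝ) (v : R3) : ℝ≥0∞ := ENNReal.ofReal (Real.exp (-(a * ‖v‖ ^ 2)))

/-- the Maxwellian in `ℝ≥0∞` -/
def mu (v : R3) : ℝ≥0∞ := ENNReal.ofReal (maxwellian v)

/-- point singularity `1{‖ζ - c‖ ≤ 1} ‖ζ - c‖^{-3/2}` -/
def sing (c ζ : R3) : ℝ≥0∞ := if ‖ζ - c‖ ≤ 1 then npw ‖ζ - c‖ (3 / 2) else 0

/-- abstract singular weight: a plane singularity and finitely many point singularities -/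
def SgA (n : R3) (S : Finset R3) (ζ : R3) : ℝ≥0∞ :=
  1 + npw |inner ℝ n ζ| (1 / 4) + ∑ c ∈ S, sing c ζ

/-- `f` is concentrated in the ball `B(u, lam)`, with height at most `H` and mass at most `ρ` -/
structure Conc (f : R3 → ℝ≥0∞) (u : R3) (lam : ℝ) (H ρ : ℝ≥0∞) : Prop where
  meas : Measurable f
  supp : ∀ η, f η ≠ 0 → ‖η - u‖ ≤ lam
  le : ∀ η, f η ≤ H
  mass : ∫⁻ η, f η ≤ ρ

/-- the bound of the ball lemma -/
def ballB (u : R3) (lam : ℝ) (H ρ : ℝ≥0∞) (v : R3) : ℝ≥0∞ :=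
  if 8 * lam ≤ ‖v - u‖ then ρ * (npw ‖v - u‖ 1 + npw ‖v - u‖ (4 / 3)) else H * ENNReal.ofReal (lam ^ 2)

/-- every velocity section vanishes almost everywhere -/
def NullSec (f : PF) : Prop := ∀ (s : ℝ) (z : R3), ∀ᵐ η : R3, f (s, z, η) = 0

/-- every velocity section is finite almost everywhere -/
def FinSec (f : PF) : Prop := ∀ (s : ℝ) (z : R3), ∀ᵐ η : R3, f (s, z, η) ≠ ⊤

/-- positive "integral operators" on measurable densities -/
structure PosOp (T : PF → PF) : Prop where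
  meas : ∀ f, Measurable f → Measurable (T f)
  mono : ∀ f g, Measurable f → Measurable g → f ≤ g → T f ≤ T g
  add : ∀ f g, Measurable f → Measurable g → T (f + g) = T f + T g
  smul : ∀ (c : ℝ≥0∞) f, Measurable f → T (fun p => c * f p) = fun p => c * T f p
  iSup : ∀ f : ℕ → PF, (∀ n, Measurable (f n)) → Monotone f →
    T (fun p => ⨆ n, f n p) = fun p => ⨆ n, T (f n) p

/-- `T` does not see functions with null velocity sections -/
def KillsNull (T : PF → PF) : Prop := ∀ f, Measurable f → NullSec f → ∀ p, T f p = 0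

/-- real-valued version of a density -/
def rl (F : PF) (t : ℝ) (x v : R3) : ℝ := (F (t, x, v)).toReal

/-- the integrability hypothesis of the weak-solution module on `[0, T]` -/
def H3 (F : PF) (T : ℝ) : Prop := ∀ k : ℕ,
  ∫⁻ z in Ioo (0 : ℝ) T ×ˢ cell,
    (∫⁻ v, F (z.1, z.2, v) *
        ENNReal.ofReal (jb v ^ k * (1 + max (Real.log (F (z.1, z.2, v)).toReal) 0))) *
      (1 + ∫⁻ v, F (z.1, z.2, v) * ENNReal.ofReal (jb v ^ k)) ∂(volume : Measure (ℝ × R3)) < ⊤

/-- a mild solution on `[0, T]` with all the integrability needed for the weak formulation -/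
structure WSol (F : PF) (T : ℝ) : Prop where
  meas : Measurable F
  per : Per F
  mild : Mild F 0 0 T
  h3 : H3 F T
  fin0 : ∀ x v, F (0, x, v) ≠ ⊤
  adm : ∃ R, IsAdmissibleDatum (rl F 0) R

end
end Crest.Agent.R68
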