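import Crest.Agent.R68.Growth

/-! # Row 68: auxiliary lemmas for `DFA`, part 4 (slices of `JA`, seeds) -/

set_option autoImplicit false
open MeasureTheory Set Filter Topology
open scoped ENNReal NNReal
open Crest.AnalysisR.VecCalc3 Crest.AnalysisR.PDE.Boltzmann

namespace Crest.Agent.R68.DF4
noncomputable section

theorem JA_add {f g : PF} (hf : Measurable f) (s : ℝ) :
    JA (fun p => f p + g p) s = JA f s + JA g s := by
  unfold JA
  rw [← lintegral_add_left (f := fun p => f p * XiA p) (hf.mul measurable_XiA)]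
  exact lintegral_congr fun p => add_mul _ _ _

/-- `JA` is bounded by a bound on the velocity integrals. -/
theorem JA_le_slice {B : PF} {s : ℝ} (hs : s ≤ 1) {C : ℝ≥0∞}
    (h : ∀ (t : ℝ) (x : R3), 0 < t → 8 * t + ‖x‖ ≤ s →
      (∫⁻ v, B (t, x, v)) * ENNReal.ofReal (((8 * t + ‖x‖) ^ 3600)⁻¹) ≤ C) :
    JA B s ≤ C * 5 := by
  unfold JA
  rw [← lintegral_indicator (measurableSet_le measurable_elN measurable_const)]
  refine (lintegral_prod_le _).trans ?_
  have h1 : ∀ t : ℝ, ∫⁻ y : R3 × R3,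
      {p : Ph | elN p ≤ s}.indicator (fun p => B p * XiA p) (t, y) ≤
        (Ioc (0 : ℝ) 1).indicator (fun _ => C * 5) t := by
    intro t
    refine (lintegral_prod_le _).trans ?_
    by_cases ht : t ∈ Ioc (0 : ℝ) 1
    · rw [indicator_of_mem ht]
      have h2 : ∀ x : R3, ∫⁻ v : R3,
          {p : Ph | elN p ≤ s}.indicator (fun p => B p * XiA p) (t, x, v) ≤
            {x : R3 | ‖x - 0‖ ≤ 1}.indicator (fun _ => C) x := by
        intro x
        by_cases hx : 8 * t + ‖x‖ ≤ s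
        · have hx1 : x ∈ {x : R3 | ‖x - 0‖ ≤ 1} := by
            show ‖x - 0‖ ≤ 1
            rw [sub_zero]
            linarith [ht.1]
          rw [indicator_of_mem hx1]
          refine le_trans (le_of_eq ?_) (h t x ht.1 hx)
          rw [← lintegral_mul_const' _ _ ENNReal.ofReal_ne_top]
          refine lintegral_congr fun v => ?_
          rw [indicator_of_mem (show (t, x, v) ∈ {p : Ph | elN p ≤ s} from hx)]
          simp only [XiA, ht.1, if_true, elN]
        · refine le_trans (le_of_eq ?_) zero_le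
          rw [lintegral_congr (g := fun _ => 0), lintegral_zero]
          intro v
          exact indicator_of_notMem (show (t, x, v) ∉ {p : Ph | elN p ≤ s} from hx) _
      refine (lintegral_mono h2).trans ?_
      rw [lintegral_indicator (measurableSet_le (by fun_prop) measurable_const), setLIntegral_const]
      refine mul_le_mul_right ((vol_ball_le 0 1 zero_le_one).trans ?_) _
      norm_num
    · refine le_trans (le_of_eq ?_) zero_le
      rw [lintegral_congr (g := fun _ => 0), lintegral_zero]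
      intro x
      rw [lintegral_congr (g := fun _ => 0), lintegral_zero]
      intro v
      by_cases hx : 8 * t + ‖x‖ ≤ s
      · rw [indicator_of_mem (show (t, x, v) ∈ {p : Ph | elN p ≤ s} from hx)]
        have h0 : ¬ 0 < t := fun h0 => ht ⟨h0, by linarith [norm_nonneg x]⟩
        simp only [XiA, h0, if_false, mul_zero]
      · exact indicator_of_notMem (show (t, x, v) ∉ {p : Ph | elN p ≤ s} from hx) _
  refine (lintegral_mono h1).trans ?_
  rw [lintegral_indicator measurableSet_Ioc, setLIntegral_const]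
  simp

theorem good_of_near {v : R3} (h : ‖v - nn‖ ≤ 1 / 4) : good v := by
  have h1 : x1 v = 1 + x1 (v - nn) := by rw [x1_sub, x1_nn]; ring
  have h2 := abs_le.1 ((abs_x1_le (v - nn)).trans h)
  have h3 : ‖v‖ ≤ 5 / 4 := by
    have := norm_le_insert' v nn
    rw [norm_nn] at this
    linarith
  unfold good cθ jb
  refine le_trans ?_ (le_abs_self _)
  have h4 : (1 : ℝ) / 10 ^ 37 * (1 + ‖v‖) ≤ 1 / 10 ^ 37 * (9 / 4) :=
    mul_le_mul_of_nonneg_left (by linarith) (by positivity)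
  have h5 : (1 : ℝ) / 10 ^ 37 * (9 / 4) ≤ 1 / 2 := by norm_num
  linarith [h2.1]

theorem good_of_seed {τ α : ℝ} {p : Ph} (h : seed τ α p ≠ 0) : good p.2.2 := by
  unfold seed at h
  split_ifs at h with h1
  · exact good_of_near h1.2.2
  · exact absurd rfl h

/-- lower bound for the seed count -/
theorem JJ_seed_ge {τ α s : ℝ} (hτ : 0 < τ) (hα : 0 ≤ α) (hs : 20 * τ ≤ s) :
    ENNReal.ofReal (α / τ * ((20 * τ) ^ 3600)⁻¹ * (16 * τ ^ 4)) ≤ JJ (seed τ α) s := by
  set S : Set Ph := Icc τ (2 * τ) ×ˢ ({x : R3 | ‖x - 0‖ ≤ 4 * τ} ×ˢ {v : R3 | ‖v - nn‖ ≤ 1 / 4})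
    with hS
  have hm : MeasurableSet S := measurableSet_Icc.prod
    ((measurableSet_le (by fun_prop) measurable_const).prod
      (measurableSet_le (by fun_prop) measurable_const))
  have hel : ∀ p ∈ S, 0 < elN p ∧ elN p ≤ 20 * τ := by
    rintro ⟨t, x, v⟩ ⟨⟨h1, h2⟩, h3, -⟩
    have h4 : ‖x - 0‖ ≤ 4 * τ := h3
    rw [sub_zero] at h4
    simp only at h1 h2
    unfold elN
    constructor
    · have := norm_nonneg x
      simp only
      linarith
    · simp only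
      linarith
  have hsub : S ⊆ {p : Ph | elN p ≤ s} := fun p hp => (hel p hp).2.trans hs
  have hvol : ENNReal.ofReal (16 * τ ^ 4) ≤ volume S := by
    rw [hS, Measure.volume_eq_prod, Measure.prod_prod, Measure.volume_eq_prod, Measure.prod_prod,
      Real.volume_Icc]
    refine le_trans ?_ (mul_le_mul_right (mul_le_mul' (vol_ball_ge 0 (4 * τ) (by positivity))
      (vol_ball_ge nn (1 / 4) (by norm_num))) _)
    rw [← ENNReal.ofReal_mul (by positivity), ← ENNReal.ofReal_mul (by linarith)]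
    exact ENNReal.ofReal_le_ofReal (le_of_eq (by ring))
  have hpt : ∀ p ∈ S, ENNReal.ofReal (α / τ * ((20 * τ) ^ 3600)⁻¹) ≤ seed τ α p * Xi p := by
    intro p hp
    obtain ⟨h0, h20⟩ := hel p hp
    obtain ⟨h1, h3, h4⟩ := hp
    have h5 : ‖p.2.1 - 0‖ ≤ 4 * τ := h3
    rw [sub_zero] at h5
    have h6 : ‖p.2.2 - nn‖ ≤ 1 / 4 := h4
    have h7 : 0 < p.1 := lt_of_lt_of_le hτ h1.1
    rw [seed, if_pos ⟨h1, (tn_le_norm _).trans h5, h6⟩, Xi, if_pos (good_of_near h6), XiA,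
      if_pos h7, ENNReal.ofReal_mul (by positivity)]
    refine mul_le_mul_right (ENNReal.ofReal_le_ofReal ?_) _
    exact inv_anti₀ (by positivity) (pow_le_pow_left₀ h0.le h20 _)
  calc ENNReal.ofReal (α / τ * ((20 * τ) ^ 3600)⁻¹ * (16 * τ ^ 4))
      = ENNReal.ofReal (α / τ * ((20 * τ) ^ 3600)⁻¹) * ENNReal.ofReal (16 * τ ^ 4) :=
        ENNReal.ofReal_mul (by positivity)
    _ ≤ ENNReal.ofReal (α / τ * ((20 * τ) ^ 3600)⁻¹) * volume S := mul_le_mul_right hvol _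
    _ = ∫⁻ _ in S, ENNReal.ofReal (α / τ * ((20 * τ) ^ 3600)⁻¹) := (setLIntegral_const _ _).symm
    _ ≤ ∫⁻ p in S, seed τ α p * Xi p := setLIntegral_mono' hm hpt
    _ ≤ _ := lintegral_mono_set hsub

theorem seed_num {c σ τ α A : ℝ} {m : ℕ} (hτ : 0 < τ) (hσ : 0 ≤ σ) (hA : 0 < A)
    (h1 : A * τ ^ m ≤ 16 * c) (h2 : c * σ * τ ^ (m + 3) ≤ α) :
    σ ≤ α / τ * (A * τ ^ (2 * m + 6))⁻¹ * (16 * τ ^ 4) := by
  have e1 : α / τ * (A * τ ^ (2 * m + 6))⁻¹ * (16 * τ ^ 4) =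
      16 * α / (A * τ ^ m * τ ^ (m + 3)) := by
    field_simp
    ring
  rw [e1, le_div_iff₀ (by positivity)]
  have h3 : σ * τ ^ (m + 3) * (A * τ ^ m) ≤ σ * τ ^ (m + 3) * (16 * c) :=
    mul_le_mul_of_nonneg_left h1 (by positivity)
  linarith

theorem JJ_seed {P : Par} (hP : P.Basic) {c : ℝ} (hc : 0 < c) : ∀ᶠ τ in 𝓝[>] (0 : ℝ), ∀ α : ℝ,
    c * P.s1 ^ P.k2 * τ ^ 1800 ≤ α → ENNReal.ofReal (P.s1 ^ P.k2) ≤ JJ (seed τ α) P.top := by
  have hr := hP.r0_pos
  have hs : 0 < P.s1 := by unfold Par.s1; positivity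
  have ht : 0 < P.top := by unfold Par.top; positivity
  obtain ⟨A, hA, hA0⟩ : ∃ A : ℝ, A = 20 ^ 3600 ∧ 0 < A := ⟨_, rfl, by positivity⟩
  have h1 : ∀ᶠ τ in 𝓝[>] (0 : ℝ), 20 * τ ≤ P.top :=
    FrameAux.ev_le (f := fun τ => 20 * τ) (by fun_prop) (by simpa using ht)
  have h2 : ∀ᶠ τ in 𝓝[>] (0 : ℝ), A * τ ^ 1797 ≤ 16 * c :=
    FrameAux.ev_le (f := fun τ => A * τ ^ 1797) (by fun_prop)
      (by rw [zero_pow (by norm_num), mul_zero]; positivity)
  filter_upwards [h1, h2, FrameAux.ev_pos] with τ h1 h2 hτ α hα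
  refine le_trans (ENNReal.ofReal_le_ofReal ?_)
    (JJ_seed_ge hτ (le_trans (by positivity) hα) h1)
  rw [mul_pow, ← hA]
  exact seed_num (m := 1797) hτ (by positivity) hA0 h2 hα

/-- velocity integral of a seed -/
theorem lint_seed (τ α t : ℝ) (x : R3) :
    ∫⁻ v, seed τ α (t, x, v) ≤ if τ ≤ t then ENNReal.ofReal (α / τ) * 5 else 0 := by
  split_ifs with h
  · have h1 : ∀ v, seed τ α (t, x, v) ≤
        {v : R3 | ‖v - nn‖ ≤ 1}.indicator (fun _ => ENNReal.ofReal (α / τ)) v := by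
      intro v
      unfold seed
      split_ifs with h2
      · rw [indicator_of_mem (show v ∈ {v : R3 | ‖v - nn‖ ≤ 1} from h2.2.2.trans (by norm_num))]
      · exact zero_le
    refine (lintegral_mono h1).trans ?_
    rw [lintegral_indicator (measurableSet_le (by fun_prop) measurable_const), setLIntegral_const]
    refine mul_le_mul_right ((vol_ball_le nn 1 zero_le_one).trans ?_) _
    norm_num
  · rw [lintegral_congr (g := fun _ => 0), lintegral_zero]
    intro v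
    exact if_neg fun h2 => h h2.1.1

theorem JA_seed_ne_top {τ α s : ℝ} (hτ : 0 < τ) (hs : s ≤ 1) : JA (seed τ α) s ≠ ⊤ := by
  refine ne_top_of_le_ne_top ?_ (JA_le_slice hs
    (C := ENNReal.ofReal (α / τ) * 5 * ENNReal.ofReal ((τ ^ 3600)⁻¹)) fun t x ht _ => ?_)
  · exact ENNReal.mul_ne_top (ENNReal.mul_ne_top
      (ENNReal.mul_ne_top ENNReal.ofReal_ne_top (by norm_num)) ENNReal.ofReal_ne_top) (by norm_num)
  · refine (mul_le_mul_left (lint_seed τ α t x) _).trans ?_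
    split_ifs with h
    · refine mul_le_mul_right (ENNReal.ofReal_le_ofReal ?_) _
      exact inv_anti₀ (by positivity)
        (pow_le_pow_left₀ hτ.le (by linarith [norm_nonneg x]) _)
    · simp

/-- the background amplitude against the weight of the births -/
theorem wb_pt {P : Par} (hP : P.Basic) {t : ℝ} {x : R3} (v : R3) (ht : 0 < t) {s : ℝ}
    (hs : s < 1 / 2) (h : 8 * t + ‖x‖ ≤ s) :
    wbF P (lst (t, x, v)) * npw (ell (t, x, v)) 1 * ENNReal.ofReal (((8 * t + ‖x‖) ^ 3600)⁻¹) ≤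
      ENNReal.ofReal ((2 / P.d0) ^ P.k3 * s ^ (P.k2 + 1)) := by
  have hd := hP.d0_pos
  have hl0 : 0 < 8 * t + ‖x‖ := by positivity
  have he : ell (t, x, v) = 8 * t + ‖x‖ := ell_eq_elN (p := (t, x, v)) ht.le (h.trans_lt hs)
  have hlst : lst (t, x, v) ≤ 2 * (8 * t + ‖x‖) ^ (3 / 4 : ℝ) :=
    lst_le_elN (p := (t, x, v)) ht.le (h.trans (by linarith))
  have hlst0 : 0 ≤ lst (t, x, v) := lst_nonneg (p := (t, x, v)) ht.le
  rw [he]
  generalize 8 * t + ‖x‖ = l at *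
  generalize lst (t, x, v) = u at *
  have hl1 : l ≤ 1 := by linarith
  have hmin : 0 ≤ min (u / P.d0) 1 := le_min (by positivity) zero_le_one
  rw [SrcA.npw_one_eq hl0, wbF, ← ENNReal.ofReal_mul (by positivity),
    ← ENNReal.ofReal_mul (by positivity)]
  refine ENNReal.ofReal_le_ofReal ?_
  have h1 : min (u / P.d0) 1 ≤ 2 / P.d0 * l ^ (3 / 4 : ℝ) := by
    refine (min_le_left _ _).trans ?_
    rw [div_mul_eq_mul_div]
    exact div_le_div_of_nonneg_right hlst hd.le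
  have h2 : (l ^ (3 / 4 : ℝ)) ^ P.k3 ≤ l ^ (P.k2 + 1 + 3601) := by
    rw [← Real.rpow_natCast, ← Real.rpow_mul hl0.le, ← Real.rpow_natCast]
    refine Real.rpow_le_rpow_of_exponent_ge hl0 hl1 ?_
    have : (4 * P.k2 + 10000 : ℝ) ≤ P.k3 := by exact_mod_cast hP.k3_ge
    have h0 : (0 : ℝ) ≤ P.k2 := by positivity
    push_cast
    linarith
  have h3 : min (u / P.d0) 1 ^ P.k3 ≤ (2 / P.d0) ^ P.k3 * l ^ (P.k2 + 1 + 3601) := by
    refine (pow_le_pow_left₀ hmin h1 _).trans ?_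
    rw [mul_pow]
    exact mul_le_mul_of_nonneg_left h2 (by positivity)
  have h4 : l ^ (P.k2 + 1) ≤ s ^ (P.k2 + 1) := pow_le_pow_left₀ hl0.le h _
  obtain ⟨n, hn⟩ : ∃ n : ℕ, n = 3600 := ⟨_, rfl⟩
  have e1 : P.k2 + 1 + 3601 = P.k2 + 1 + (n + 1) := by omega
  rw [e1] at h3
  rw [← hn]
  calc min (u / P.d0) 1 ^ P.k3 * l⁻¹ * (l ^ n)⁻¹
      ≤ (2 / P.d0) ^ P.k3 * l ^ (P.k2 + 1 + (n + 1)) * l⁻¹ * (l ^ n)⁻¹ := by gcongr
    _ = (2 / P.d0) ^ P.k3 * l ^ (P.k2 + 1) := by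
        field_simp
        ring
    _ ≤ _ := mul_le_mul_of_nonneg_left h4 (by positivity)

theorem top_facts {P : Par} (hP : P.Basic) :
    0 < P.top ∧ 2 * P.top < 1 / 2 ∧ 2 * P.top ≤ P.t0 ∧ 2 * P.top = 200 * P.s1 := by
  have h1 := hP.r0_pos
  have h2 := hP.r0_t0
  have h3 := hP.t0_le
  unfold Par.top Par.s1
  refine ⟨by positivity, by linarith, by linarith, by ring⟩

/-- the smallness in `r0` -/
theorem ev_small {K η : ℝ≥0∞} (hK : K ≠ ⊤) (hη : 0 < η) : ∀ᶠ P in parF,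
    K * ENNReal.ofReal ((2 / P.d0) ^ P.k3 * (2 * P.top) ^ (P.k2 + 1)) ≤
      η * ENNReal.ofReal (P.s1 ^ P.k2) := by
  refine ev_r0 fun k2 k3 cs t0 d0 R _ _ hd => ?_
  have h1 : Tendsto (fun r : ℝ => K * ENNReal.ofReal ((2 / d0) ^ k3 * 200 ^ (k2 + 1) * (r / 1000)))
      (𝓝[>] 0) (𝓝 (K * ENNReal.ofReal ((2 / d0) ^ k3 * 200 ^ (k2 + 1) * (0 / 1000)))) := by
    refine ENNReal.Tendsto.const_mul (ENNReal.tendsto_ofReal ?_) (Or.inr hK)
    exact (Continuous.tendsto (by fun_prop) 0).mono_left nhdsWithin_le_nhds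
  rw [zero_div, mul_zero, ENNReal.ofReal_zero, mul_zero] at h1
  filter_upwards [h1.eventually (ge_mem_nhds hη), FrameAux.ev_pos] with r hr hr0
  have e1 : (2 / d0) ^ k3 * (2 * (r / 10)) ^ (k2 + 1) =
      (2 / d0) ^ k3 * 200 ^ (k2 + 1) * (r / 1000) * (r / 1000) ^ k2 := by
    rw [show 2 * (r / 10) = 200 * (r / 1000) by ring, mul_pow]
    ring
  show K * ENNReal.ofReal ((2 / d0) ^ k3 * (2 * (r / 10)) ^ (k2 + 1)) ≤
    η * ENNReal.ofReal ((r / 1000) ^ k2)
  rw [e1, ENNReal.ofReal_mul (by positivity), ← mul_assoc]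
  exact mul_le_mul_left hr _

end
end Crest.Agent.R68.DF4
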