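import Crest.Agent.R68.Base

/-! # Row 68: auxiliary lemmas for `DFA` (total gains, smallness of the higher order births) -/

set_option autoImplicit false
open MeasureTheory Set Filter Topology
open scoped ENNReal NNReal
open Crest.AnalysisR.VecCalc3 Crest.AnalysisR.PDE.Boltzmann

namespace Crest.Agent.R68
noncomputable section

theorem dfc_meas_jb : Measurable fun η : R3 => ENNReal.ofReal (jb η) :=
  (measurable_const.fun_add measurable_norm).ennreal_ofReal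

/-- the total gain is bounded by the product of the first moments -/
theorem dfc_prod {f g : R3 → ℝ≥0∞} (hf : Measurable f) (hg : Measurable g) :
    ∫⁻ v, Qp f g v ≤
      13 * ((∫⁻ η, ENNReal.ofReal (jb η) * f η) * ∫⁻ ζ, ENNReal.ofReal (jb ζ) * g ζ) := by
  have h := lint_QH (fun q : R3 × R3 => f q.1 * g q.2)
    ((hf.comp measurable_fst).fun_mul (hg.comp measurable_snd))
  refine (le_of_eq h).trans (mul_le_mul' cz_le ?_)
  rw [← lintegral_mul_const _ (dfc_meas_jb.fun_mul hf)]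
  refine lintegral_mono fun η => ?_
  beta_reduce
  rw [← lintegral_const_mul _ (dfc_meas_jb.fun_mul hg)]
  refine lintegral_mono fun ζ => ?_
  have h1 : ENNReal.ofReal ‖η - ζ‖ ≤ ENNReal.ofReal (jb η) * ENNReal.ofReal (jb ζ) := by
    rw [← ENNReal.ofReal_mul (show 0 ≤ jb η from add_nonneg zero_le_one (norm_nonneg _))]
    refine ENNReal.ofReal_le_ofReal ((norm_sub_le η ζ).trans ?_)
    show _ ≤ (1 + ‖η‖) * (1 + ‖ζ‖)
    nlinarith [mul_nonneg (norm_nonneg η) (norm_nonneg ζ)]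
  calc f η * g ζ * ENNReal.ofReal ‖η - ζ‖
      ≤ f η * g ζ * (ENNReal.ofReal (jb η) * ENNReal.ofReal (jb ζ)) := mul_le_mul_right h1 _
    _ = _ := by ring

theorem dfc_gain_mass : ∃ K : ℝ≥0∞, K ≠ ⊤ ∧ ∀ᶠ P in parF, ∀ q : Ph, q.1 ∈ Ioc 0 P.t0 →
    ∀ (f g : R3 → ℝ≥0∞) (c c' : ℝ≥0∞), Measurable f → Measurable g →
    (∀ η, g η ≤ c * sec (YY P) q η) →
    ((∀ η, f η ≤ sec (cZ P) q η) → ∫⁻ v, Qp f g v ≤ K * c * npw (ell q) 1) ∧
    ((∀ η, f η ≤ c' * sec (YY P) q η) → ∫⁻ v, Qp f g v ≤ K * c * c') := by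
  obtain ⟨Km, hKm, hm⟩ := moment_GS 1
  obtain ⟨Ke, hKe, he⟩ := moment_env
  refine ⟨13 * (Km * 8) * (Ke + Km * 8), by finiteness, ?_⟩
  filter_upwards [ev_basic, he] with P hP h1 q hq f g c c' hf hg hgc
  have h3 : q.1 ≤ 1 := by linarith [hq.2, hP.t0_le]
  have key : ∀ (g : R3 → ℝ≥0∞) (c : ℝ≥0∞), (∀ η, g η ≤ c * sec (YY P) q η) →
      ∫⁻ η, ENNReal.ofReal (jb η) * g η ≤ c * (Km * 8) := fun g c hgc => by
    have h4 := hm q hq.1.le (aT P.k3 q.1) (by linarith [(aT_mem hP ⟨hq.1.le, hq.2⟩).1])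
    simp only [pow_one] at h4
    calc _ ≤ ∫⁻ η, c * (ENNReal.ofReal (jb η) * sec (GS (aT P.k3 q.1)) q η) :=
          lintegral_mono fun η => by
            rw [mul_left_comm]
            exact mul_le_mul_right (hgc η) _
      _ ≤ _ := by
          rw [lintegral_const_mul _ (dfc_meas_jb.fun_mul (measurable_sec (measurable_GS _) q))]
          exact mul_le_mul_right (h4.trans (mul_le_mul_right (ob1_cube hq.1.le h3) _)) _
  refine ⟨fun hfc => (dfc_prod hf hg).trans ?_, fun hfc => (dfc_prod hf hg).trans ?_⟩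
  · have h5 : ∫⁻ η, ENNReal.ofReal (jb η) * f η ≤ Ke * npw (ell q) 1 :=
      (lintegral_mono fun η => mul_le_mul_right ((hfc η).trans le_self_add) _).trans
        (h1 0 zero_le_one q hq)
    calc _ ≤ 13 * (((Ke + Km * 8) * npw (ell q) 1) * (c * (Km * 8))) :=
          mul_le_mul_right (mul_le_mul' (h5.trans (mul_le_mul_left le_self_add _)) (key g c hgc)) _
      _ = _ := by ring
  · calc _ ≤ 13 * ((c' * (Ke + Km * 8)) * (c * (Km * 8))) :=
          mul_le_mul_right (mul_le_mul' ((key f c' hfc).trans (mul_le_mul_right le_add_self _))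
            (key g c hgc)) _
      _ = _ := by ring

/-- a bound of the weighted mass of the velocity sections bounds `JA` (the region has volume `≤ 5`) -/
theorem dfc_JA_le (Φ : PF) {s : ℝ} (hs : s ≤ 1) {B : ℝ≥0∞}
    (h : ∀ (t : ℝ) (x : R3), 0 < t → 8 * t + ‖x‖ ≤ s →
      (∫⁻ v, Φ (t, x, v)) * ENNReal.ofReal (((8 * t + ‖x‖) ^ 3600)⁻¹) ≤ B) :
    JA Φ s ≤ 5 * B := by
  have hS : MeasurableSet {p : Ph | elN p ≤ s} := measurableSet_le measurable_elN measurable_const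
  have hb : MeasurableSet {x : R3 | ‖x - 0‖ ≤ 1} :=
    measurableSet_le (measurable_id.sub_const 0).norm measurable_const
  have key : ∀ (t : ℝ) (x : R3),
      ∫⁻ v, {p : Ph | elN p ≤ s}.indicator (fun p => Φ p * XiA p) (t, x, v) ≤
        {x : R3 | ‖x - 0‖ ≤ 1}.indicator (fun _ => (Ioc (0 : ℝ) 1).indicator (fun _ => B) t) x := by
    intro t x
    by_cases ht : 0 < t ∧ 8 * t + ‖x‖ ≤ s
    · have e : ∀ v : R3, {p : Ph | elN p ≤ s}.indicator (fun p => Φ p * XiA p) (t, x, v) =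
          Φ (t, x, v) * ENNReal.ofReal (((8 * t + ‖x‖) ^ 3600)⁻¹) := fun v => by
        rw [indicator_of_mem (show ((t, x, v) : Ph) ∈ {p : Ph | elN p ≤ s} from ht.2)]
        exact congrArg (Φ (t, x, v) * ·) (if_pos ht.1)
      simp only [e]
      rw [lintegral_mul_const' _ _ ENNReal.ofReal_ne_top,
        indicator_of_mem (show x ∈ {x : R3 | ‖x - 0‖ ≤ 1} by
          show ‖x - 0‖ ≤ 1
          rw [sub_zero]
          linarith [ht.1, ht.2]),
        indicator_of_mem (show t ∈ Ioc (0 : ℝ) 1 from ⟨ht.1, by linarith [ht.1, ht.2, norm_nonneg x]⟩)]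
      exact h t x ht.1 ht.2
    · have e : ∀ v : R3, {p : Ph | elN p ≤ s}.indicator (fun p => Φ p * XiA p) (t, x, v) = 0 :=
        fun v => by
          by_cases h1 : 8 * t + ‖x‖ ≤ s
          · rw [indicator_of_mem (show ((t, x, v) : Ph) ∈ {p : Ph | elN p ≤ s} from h1)]
            exact mul_eq_zero_of_right _ (if_neg fun h2 => ht ⟨h2, h1⟩)
          · exact indicator_of_notMem (show ((t, x, v) : Ph) ∉ {p : Ph | elN p ≤ s} from h1) _
      simp only [e, lintegral_zero, zero_le]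
  have h5 := vol_ball_le 0 1 zero_le_one
  rw [one_pow, mul_one, ENNReal.ofReal_ofNat] at h5
  calc JA Φ s = ∫⁻ p, {p : Ph | elN p ≤ s}.indicator (fun p => Φ p * XiA p) p :=
        (lintegral_indicator hS _).symm
    _ ≤ ∫⁻ t : ℝ, ∫⁻ q : R3 × R3, {p : Ph | elN p ≤ s}.indicator (fun p => Φ p * XiA p) (t, q) :=
        lintegral_prod_le _
    _ ≤ ∫⁻ t : ℝ, (Ioc (0 : ℝ) 1).indicator (fun _ => B) t * 5 := lintegral_mono fun t => by
        refine (lintegral_prod_le _).trans ((lintegral_mono (key t)).trans ?_)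
        rw [lintegral_indicator_const hb]
        exact mul_le_mul_right h5 _
    _ = 5 * B := by
        rw [lintegral_mul_const' _ _ (by norm_num), lintegral_indicator_const measurableSet_Ioc,
          Real.volume_Ioc, sub_zero, ENNReal.ofReal_one, mul_one, mul_comm]

theorem dfc_real {a ρ d s : ℝ} {k2 k3 m : ℕ} (ha : 0 ≤ a) (haρ : a ≤ ρ) (hρ : ρ ≤ 1) (hd : 0 < d)
    (hs0 : 0 ≤ s) (hs : s ≤ ρ ^ 4) (h1 : 1 ≤ m) (h2 : m ≤ k2) (h3 : 3 * m + (2 * k2 + 2) ≤ 3 * k3) :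
    2 * (2 * a ^ 3 / d) ^ k3 + (s ^ k2 * (2 * a ^ 3) ^ m + s ^ m * (2 * a ^ 3) ^ k2) ≤
      (2 * (2 / d) ^ k3 + 2 ^ m + 2 ^ k2) * (ρ ^ (2 * k2 + 2) * a ^ (3 * m)) := by
  have hρ0 : 0 ≤ ρ := ha.trans haρ
  have e1 : a ^ (3 * k3) ≤ ρ ^ (2 * k2 + 2) * a ^ (3 * m) :=
    calc a ^ (3 * k3) ≤ a ^ (2 * k2 + 2 + 3 * m) :=
          pow_le_pow_of_le_one ha (haρ.trans hρ) (by omega)
      _ ≤ _ := by rw [pow_add a (2 * k2 + 2)]; gcongr
  have e2 : s ^ k2 ≤ ρ ^ (2 * k2 + 2) :=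
    calc s ^ k2 ≤ (ρ ^ 4) ^ k2 := by gcongr
      _ ≤ _ := by rw [← pow_mul]; exact pow_le_pow_of_le_one hρ0 hρ (by omega)
  obtain ⟨j, rfl⟩ := Nat.exists_eq_add_of_le h2
  have e3 : s ^ m * a ^ (3 * j) ≤ ρ ^ (2 * (m + j) + 2) :=
    calc s ^ m * a ^ (3 * j) ≤ (ρ ^ 4) ^ m * ρ ^ (3 * j) := by gcongr
      _ ≤ _ := by rw [← pow_mul, ← pow_add]; exact pow_le_pow_of_le_one hρ0 hρ (by omega)
  have f1 : 2 * (2 * a ^ 3 / d) ^ k3 = 2 * (2 / d) ^ k3 * a ^ (3 * k3) := by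
    rw [mul_div_right_comm, mul_pow, ← pow_mul, mul_assoc]
  have f2 : s ^ (m + j) * (2 * a ^ 3) ^ m = 2 ^ m * (s ^ (m + j) * a ^ (3 * m)) := by
    rw [mul_pow, ← pow_mul, mul_left_comm]
  have f3 : s ^ m * (2 * a ^ 3) ^ (m + j) = 2 ^ (m + j) * (s ^ m * a ^ (3 * j) * a ^ (3 * m)) := by
    rw [mul_pow, ← pow_mul, mul_add, pow_add a]
    ring
  rw [f1, f2, f3, add_mul, add_mul, add_assoc]
  gcongr

theorem dfc_omF {P : Par} (hP : P.Basic) {b : ℝ≥0∞} (hb : b ≤ 1) {u : ℝ} (hu : 0 ≤ u) :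
    omF P b u ≤ ENNReal.ofReal (2 * (u / P.d0) ^ P.k3 +
      (P.s1 ^ P.k2 * u ^ 2400 + P.s1 ^ 2400 * u ^ P.k2)) := by
  have hd := hP.d0_pos
  have hs : 0 ≤ P.s1 := div_nonneg hP.r0_pos.le (by norm_num)
  rw [ENNReal.ofReal_add (by positivity) (by positivity),
    ENNReal.ofReal_add (by positivity) (by positivity), ENNReal.ofReal_mul zero_le_two,
    ENNReal.ofReal_mul (pow_nonneg hs _), ENNReal.ofReal_mul (pow_nonneg hs _),
    ENNReal.ofReal_ofNat]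
  refine add_le_add (mul_le_mul_right (ENNReal.ofReal_le_ofReal ?_) _) (mul_le_of_le_one_left' hb)
  exact pow_le_pow_left₀ (le_min (by positivity) zero_le_one) (min_le_left _ _) _

theorem dfc_ev_r0 {A : ℕ → ℕ → ℝ → ℝ≥0∞} (hA : ∀ k2 k3 d, A k2 k3 d ≠ ⊤) {η : ℝ≥0∞} (hη : 0 < η) :
    ∀ᶠ P in parF, A P.k2 P.k3 P.d0 * ENNReal.ofReal P.r0 ≤ η := by
  refine ev_r0 fun k2 k3 _ _ d0 _ _ _ _ => ?_
  have h1 := ENNReal.Tendsto.const_mul (a := A k2 k3 d0)
    (ENNReal.tendsto_ofReal (continuous_id.tendsto (0 : ℝ))) (Or.inr (hA k2 k3 d0))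
  rw [id, ENNReal.ofReal_zero, mul_zero] at h1
  exact (h1.eventually_le_const hη).filter_mono nhdsWithin_le_nhds

theorem dfc_leak (P : Par) {t : ℝ} (x : R3) (ht : 0 < t) :
    ∫⁻ v, leak P (t, x, v) ≤ ENNReal.ofReal (40 * (8 * t + ‖x‖) ^ P.k3) := by
  have hb : MeasurableSet {v : R3 | ‖v - 0‖ ≤ 2} :=
    measurableSet_le (measurable_id.sub_const 0).norm measurable_const
  have h0 : 0 ≤ 8 * t + tn x := add_nonneg (by linarith) (tn_nonneg x)
  calc _ ≤ ∫⁻ v, {v : R3 | ‖v - 0‖ ≤ 2}.indicator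
          (fun _ => ENNReal.ofReal ((8 * t + ‖x‖) ^ P.k3)) v := lintegral_mono fun v => by
        show (if ‖v‖ ≤ 2 then ENNReal.ofReal (min 1 (8 * t + tn x) ^ P.k3) else 0) ≤ _
        split_ifs with h
        · rw [indicator_of_mem (show v ∈ {v : R3 | ‖v - 0‖ ≤ 2} by
            show ‖v - 0‖ ≤ 2
            rwa [sub_zero])]
          refine ENNReal.ofReal_le_ofReal (pow_le_pow_left₀ (le_min zero_le_one h0) ?_ _)
          linarith [min_le_right 1 (8 * t + tn x), tn_le_norm x]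
        · exact zero_le
    _ ≤ _ := by
        rw [lintegral_indicator_const hb, ENNReal.ofReal_mul (by norm_num), mul_comm]
        refine mul_le_mul_left ((vol_ball_le 0 2 zero_le_two).trans (le_of_eq ?_)) _
        norm_num

theorem dfc_lam_small (η : ℝ≥0∞) (hη : 0 < η) : ∀ᶠ P in parF, ∀ b : ℝ≥0∞, b ≤ 1 → ∀ g : PF,
    Measurable g → (∀ p : Ph, p.1 ∈ Icc 0 P.t0 → g p ≤ wY P (omF P b) p) →
    JA (fun p => QF g g p + leak P p) (2 * P.top) ≤ η * ENNReal.ofReal (P.s1 ^ P.k2) := by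
  obtain ⟨K, hK, hg⟩ := dfc_gain_mass
  obtain ⟨m, hm⟩ : ∃ m : ℕ, m = 2400 := ⟨_, rfl⟩
  obtain ⟨C, hC⟩ : ∃ C : ℕ → ℕ → ℝ → ℝ, ∀ k2 k3 d, C k2 k3 d = 2 * (2 / d) ^ k3 + 2 ^ m + 2 ^ k2 :=
    ⟨_, fun _ _ _ => rfl⟩
  filter_upwards [ev_basic, hg, dfc_ev_r0 (A := fun k2 k3 d =>
    5 * (K * ENNReal.ofReal (C k2 k3 d ^ 2) + 40) * ENNReal.ofReal (1000 ^ k2))
    (fun _ _ _ => by finiteness) hη] with P hP h1 h2 b hb g hgm hgb
  have hr := hP.r0_pos
  have hd := hP.d0_pos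
  have hr1 : P.r0 ≤ 1 / 100 := hP.r0_t0.trans hP.t0_le
  have htop : 2 * P.top = P.r0 / 5 := by
    show 2 * (P.r0 / 10) = _
    ring
  have hs1 : P.r0 = 1000 * P.s1 := by
    show _ = 1000 * (P.r0 / 1000)
    ring
  have hs0 : 0 ≤ P.s1 := by linarith
  obtain ⟨hρ0, hρ4, -, -⟩ := fA_root hr.le
  generalize P.r0 ^ (1 / 4 : ℝ) = ρ at hρ0 hρ4
  have hρ1 : ρ ≤ 1 := by
    refine pow_le_one_iff_of_nonneg hρ0 (n := 4) (by norm_num) |>.1 ?_
    linarith
  have k2 := hP.k2_ge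
  have k3 := hP.k3_ge
  refine (dfc_JA_le _ (by linarith) (B := (K * ENNReal.ofReal (C P.k2 P.k3 P.d0 ^ 2) + 40) *
    ENNReal.ofReal (P.r0 ^ (P.k2 + 1))) fun t x ht hx => ?_).trans ?_
  · obtain ⟨l, hl⟩ : ∃ l, l = 8 * t + ‖x‖ := ⟨_, rfl⟩
    have hl0 : 0 < l := by rw [hl]; linarith [norm_nonneg x]
    have ht0 : t ≤ P.t0 := by linarith [norm_nonneg x, hP.r0_t0]
    obtain ⟨ha0, ha4, ha3, -⟩ := fA_root hl0.le
    have h3 := lst_le_elN (p := (t, x, 0)) ht.le (show 8 * t + ‖x‖ ≤ 1 by linarith)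
    rw [show elN (t, x, 0) = l from hl.symm, ha3] at h3
    generalize l ^ (1 / 4 : ℝ) = a at ha0 ha4 h3
    have haρ : a ≤ ρ := by
      refine (pow_le_pow_iff_left₀ ha0 hρ0 (n := 4) (by norm_num)).1 ?_
      linarith
    have h4 : omF P b (lst (t, x, 0)) ≤
        ENNReal.ofReal (C P.k2 P.k3 P.d0 * (ρ ^ (2 * P.k2 + 2) * a ^ (3 * m))) := by
      have h5 : 0 ≤ 2 * a ^ 3 := by positivity
      refine ((adm_omF hP b).2.1 (lst_nonneg (p := (t, x, 0)) ht.le) h5 h3).trans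
        ((dfc_omF hP hb h5).trans (ENNReal.ofReal_le_ofReal ?_))
      rw [← hm, hC]
      exact dfc_real ha0 haρ hρ1 hd hs0 (by linarith) (by omega) (by omega) (by omega)
    have h5 : ∀ ζ, sec g (t, x, 0) ζ ≤
        ENNReal.ofReal (C P.k2 P.k3 P.d0 * (ρ ^ (2 * P.k2 + 2) * a ^ (3 * m))) *
          sec (YY P) (t, x, 0) ζ := fun ζ =>
      (hgb (t, x, ζ) ⟨ht.le, ht0⟩).trans (mul_le_mul_left h4 _)
    have h6 := (h1 (t, x, 0) ⟨ht, ht0⟩ _ _ _ _ (measurable_sec hgm _) (measurable_sec hgm _) h5).2 h5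
    have hC0 : 0 ≤ C P.k2 P.k3 P.d0 := by rw [hC]; positivity
    have h7 : ∫⁻ v, (QF g g (t, x, v) + leak P (t, x, v)) ≤ K *
        ENNReal.ofReal (C P.k2 P.k3 P.d0 * (ρ ^ (2 * P.k2 + 2) * a ^ (3 * m))) *
        ENNReal.ofReal (C P.k2 P.k3 P.d0 * (ρ ^ (2 * P.k2 + 2) * a ^ (3 * m))) +
          ENNReal.ofReal (40 * l ^ P.k3) := by
      rw [lintegral_add_right _ (g := fun v => leak P (t, x, v))
        (measurable_sec (measurable_leak P) (t, x, 0)), hl]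
      exact add_le_add h6 (dfc_leak P x ht)
    obtain ⟨n, hn⟩ : ∃ n : ℕ, n = 3600 := ⟨_, rfl⟩
    have hln : 0 < l ^ n := pow_pos hl0 n
    rw [← hl, ← hn]
    refine (mul_le_mul_left h7 _).trans ?_
    rw [add_mul, add_mul, mul_assoc K, mul_assoc K, mul_assoc K,
      ← ENNReal.ofReal_mul (by positivity), ← ENNReal.ofReal_mul (by positivity),
      ← ENNReal.ofReal_mul (by positivity), ← ENNReal.ofReal_mul (by positivity),
      ← ENNReal.ofReal_ofNat 40, ← ENNReal.ofReal_mul (by positivity)]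
    refine add_le_add (mul_le_mul_right (ENNReal.ofReal_le_ofReal (le_of_eq ?_)) _)
      (ENNReal.ofReal_le_ofReal ?_)
    · have e1 : a ^ (3 * m) * a ^ (3 * m) = l ^ n := by
        rw [ha4, ← pow_mul, ← pow_add]
        congr 1
        omega
      have e2 : ρ ^ (2 * P.k2 + 2) * ρ ^ (2 * P.k2 + 2) = P.r0 ^ (P.k2 + 1) := by
        rw [hρ4, ← pow_mul, ← pow_add]
        congr 1
        omega
      rw [← div_eq_mul_inv, div_eq_iff hln.ne', ← e1, ← e2]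
      ring
    · rw [← div_eq_mul_inv, div_le_iff₀ hln, mul_assoc]
      refine mul_le_mul_of_nonneg_left ?_ (by norm_num)
      calc l ^ P.k3 ≤ l ^ (P.k2 + 1 + n) :=
            pow_le_pow_of_le_one hl0.le (by linarith) (by omega)
        _ ≤ _ := by
            rw [pow_add l (P.k2 + 1)]
            exact mul_le_mul_of_nonneg_right (pow_le_pow_left₀ hl0.le (by linarith) _) hln.le
  · have e : P.r0 ^ (P.k2 + 1) = 1000 ^ P.k2 * (P.r0 * P.s1 ^ P.k2) := by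
      rw [pow_succ, mul_left_comm, ← mul_pow, ← hs1, mul_comm]
    rw [e, ENNReal.ofReal_mul (by positivity), ENNReal.ofReal_mul hr.le, ← mul_assoc, ← mul_assoc,
      ← mul_assoc]
    exact mul_le_mul_left h2 _

end
end Crest.Agent.R68
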