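import Crest.Agent.R68.Growth
import Crest.Agent.R68.DFAAuxC
import Crest.Agent.R68.DFAAux4

/-! # Row 68: Doeblin-Fortet argument, part A: decomposition and counting -/

set_option autoImplicit false
open MeasureTheory Set Filter Topology
open scoped ENNReal NNReal
open Crest.AnalysisR.VecCalc3 Crest.AnalysisR.PDE.Boltzmann

namespace Crest.Agent.R68
noncomputable section

/-- neutrons -/
def gh (P : Par) (β F : PF) : PF := cut P (fun p => gp P β F p - ZZ P p)
/-- neutrons with half of the thermal margin -/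
def hh (P : Par) (β F : PF) : PF := cut P (fun p => gp P β F p - 1 / 2 * ZZ P p)
/-- medium: depleted cold part and thermal part -/
def mm (P : Par) (β F : PF) : PF :=
  cut P (fun p => c0 P p * ex (Lam F p 0) + min (gp P β F p) (ZZ P p))
/-- linear births -/
def Bh (P : Par) (β F : PF) : PF := fun p => 2 * QF (mm P β F) (gh P β F) p + β p
/-- higher order births -/
def lam (P : Par) (β F : PF) : PF := fun p => QF (gh P β F) (gh P β F) p + leak P p
/-- all births -/
def Ball (P : Par) (β F : PF) : PF := fun p => Bh P β F p + lam P β F p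
/-- the region seen by the truncated operators -/
def MR (u : ℝ) : Set Ph :=
  {p | 0 < p.1 ∧ p.1 ≤ u ^ (4 / 3 : ℝ) ∧ ‖p.2.1‖ ≤ 3 * u ∧ ‖p.2.2‖ ≤ u ^ (-(1 / 3 : ℝ))}

section
variable {P : Par} {b : ℝ≥0∞} {β F : PF}

theorem ESol.measurable_gh (h : ESol P b β F) (hβ : Measurable β) : Measurable (gh P β F) := by
  exact measurable_cut P ((h.measurable_gp hβ).sub (measurable_ZZ P))
theorem ESol.measurable_hh (h : ESol P b β F) (hβ : Measurable β) : Measurable (hh P β F) := by
  exact measurable_cut P ((h.measurable_gp hβ).sub ((measurable_ZZ P).const_mul _))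
theorem ESol.measurable_mm (h : ESol P b β F) (hβ : Measurable β) : Measurable (mm P β F) := by
  refine measurable_cut P (((measurable_c0 P).mul (measurable_ex.comp ?_)).add
    ((h.measurable_gp hβ).min (measurable_ZZ P)))
  exact (measurable_Lam h.meas).comp (measurable_id.prodMk measurable_const)
theorem ESol.measurable_Bh (h : ESol P b β F) (hβ : Measurable β) : Measurable (Bh P β F) := by
  exact ((measurable_QF (h.measurable_mm hβ) (h.measurable_gh hβ)).const_mul _).add hβ
theorem ESol.measurable_lam (h : ESol P b β F) (hβ : Measurable β) : Measurable (lam P β F) := by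
  exact (measurable_QF (h.measurable_gh hβ) (h.measurable_gh hβ)).add (measurable_leak P)
theorem ESol.measurable_Ball (h : ESol P b β F) (hβ : Measurable β) : Measurable (Ball P β F) := by
  exact (h.measurable_Bh hβ).add (h.measurable_lam hβ)
theorem ESol.per_gh (h : ESol P b β F) (hβ : Per β) : Per (gh P β F) := by
  refine per_cut P fun t x v m => ?_
  simp only [h.per_gp hβ t x v m, per_ZZ P t x v m]
theorem ESol.eq_mm_add_gh (h : ESol P b β F) : F = fun p => mm P β F p + gh P β F p := by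
  funext p
  by_cases hp : p.1 ∈ Icc 0 P.t0
  · simp only [mm, gh, cut, if_pos hp]
    rw [add_assoc, add_comm (min _ _), tsub_add_min]
    exact h.split hp
  · simp only [mm, gh, cut, if_neg hp, add_zero]
    exact h.zero p hp
theorem mm_le_cZ : mm P β F ≤ cut P (cZ P) := by
  intro p
  simp only [mm, cut, cZ]
  split_ifs
  · exact add_le_add (mul_le_of_le_one_right' (ex_le_one _)) (min_le_right _ _)
  · exact le_rfl
theorem gh_le_hh : gh P β F ≤ hh P β F := by
  intro p
  simp only [gh, hh, cut]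
  split_ifs
  · exact tsub_le_tsub_left (mul_le_of_le_one_left' ENNReal.half_le_self) _
  · exact le_rfl
theorem ESol.gh_le (h : ESol P b β F) :
    gh P β F ≤ cut P (fun p => 3 / 2 * wY P (wbF P) p + b / 4 * wY P (wnF P) p) := by
  intro p
  simp only [gh, cut]
  split_ifs with hp
  · rw [tsub_le_iff_left, ← add_assoc]
    refine (h.bd p hp).trans ?_
    gcongr
    refine mul_le_of_le_one_left' ?_
    exact ENNReal.div_le_of_le_mul (by norm_num)
  · exact le_rfl
theorem measurableSet_MR (u : ℝ) : MeasurableSet (MR u) := by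
  refine (measurableSet_lt measurable_const measurable_fst).inter
    ((measurableSet_le measurable_fst measurable_const).inter
      ((measurableSet_le mba_x.norm measurable_const).inter
        (measurableSet_le mba_v.norm measurable_const)))
theorem JA_mono (B : PF) {s s' : ℝ} (h : s ≤ s') : JA B s ≤ JA B s' := by
  exact lintegral_mono_set fun p hp => le_trans hp h

end

theorem DFA1_QF {P : Par} {b : ℝ≥0∞} {β F : PF} (h : ESol P b β F) (hβ : Measurable β) (q : Ph) :
    QF F F q = QF (mm P β F) (mm P β F) q + 2 * QF (mm P β F) (gh P β F) q +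
      QF (gh P β F) (gh P β F) q := by
  have hm := h.measurable_mm hβ
  have hg := h.measurable_gh hβ
  have e : QF F F q = QF (fun p => mm P β F p + gh P β F p) (fun p => mm P β F p + gh P β F p) q := by
    rw [← h.eq_mm_add_gh]
  rw [e, QF_add_left hm (hm.fun_add hg), QF_add_right hm hm, QF_add_right hg hm, QF_comm hg hm]
  ring

/-- the source along a characteristic: thermal part plus births -/
theorem DFA1_src : ∀ᶠ P in parF, ∀ (b : ℝ≥0∞) (β F : PF), Measurable β → ESol P b β F →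
    ∀ p : Ph, p.1 ∈ Icc 0 P.t0 → ∀ s : ℝ, 0 ≤ s → s ≤ p.1 →
      QF F F (fl p s) + β (fl p s) ≤ ZZ P p + Ball P β F (fl p s) := by
  filter_upwards [ev_basic, thermal 1 one_pos] with P hP hth b β F hβ h p hp s hs hsp
  have h1 : mm P β F ≤ sZ P := by
    refine mm_le_cZ.trans fun q => ?_
    simp only [cut, cZ, sZ]
    split_ifs with hq
    · rw [csm_eq_c0 hP ⟨hq.1, by linarith [hq.2, hP.t0_le]⟩]
    · exact zero_le
  have h2 := (QF_mono h1 h1 (fl p s)).trans (hth p s hs hsp)
  rw [one_mul, Big_eq_zero hP ⟨hp.1, by linarith [hp.2, hP.t0_le]⟩, add_zero] at h2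
  rw [DFA1_QF h hβ]
  simp only [Ball, Bh, lam]
  calc _ ≤ (ZZ P p + leak P (fl p s)) + 2 * QF (mm P β F) (gh P β F) (fl p s) +
        QF (gh P β F) (gh P β F) (fl p s) + β (fl p s) := by gcongr
    _ = _ := by ring

/-- `QF F F = QF mm mm + 2 QF mm gh + QF gh gh`, `thermal` (with `η t0 ≤ 1/2`, `η ≤ 1`), `csm_eq_c0`,
`Big_eq_zero`. -/
theorem hh_le : ∀ᶠ P in parF, ∀ (b : ℝ≥0∞) (β F : PF), Measurable β → ESol P b β F →
    ∀ p : Ph, p.1 ∈ Icc 0 P.t0 → hh P β F p ≤ g0 P p + Ia 0 (Ball P β F) p := by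
  filter_upwards [ev_basic, DFA1_src] with P hP hsrc b β F hβ h p hp
  have h1 : gp P β F p ≤ g0 P p + ∫⁻ s in Ioo 0 p.1, (ZZ P p + Ball P β F (fl p s)) := by
    refine add_le_add ((mul_le_of_le_one_right' (ex_le_one _)).trans (g0_fl P p 0).le) ?_
    refine setLIntegral_mono' measurableSet_Ioo fun s hs => ?_
    exact (mul_le_of_le_one_left' (ex_le_one _)).trans (hsrc b β F hβ h p hp s hs.1.le hs.2.le)
  rw [lintegral_add_left measurable_const, setLIntegral_const, Real.volume_Ioo] at h1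
  have h2 : ZZ P p * ENNReal.ofReal (p.1 - 0) ≤ 1 / 2 * ZZ P p := by
    rw [mul_comm]
    refine mul_le_mul_left ?_ _
    have : (1 / 2 : ℝ≥0∞) = ENNReal.ofReal (1 / 2) := by
      rw [ENNReal.ofReal_div_of_pos two_pos]; simp
    rw [this]
    exact ENNReal.ofReal_le_ofReal (by linarith [hp.2, hP.t0_le])
  simp only [hh, cut, if_pos hp]
  rw [tsub_le_iff_right]
  refine h1.trans ?_
  rw [add_assoc, add_comm (Ia 0 _ p)]
  exact add_le_add le_rfl (add_le_add h2 le_rfl)

/-- thermal births are never good (`thermal` at `s = t`, `supp_ZZ`) -/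
theorem JJ_le_JA : ∀ᶠ P in parF, ∀ (b : ℝ≥0∞) (β F : PF), Measurable β → ESol P b β F →
    JJ (fun p => QF F F p + β p) P.top ≤ JA (Ball P β F) P.top ∧
      Jw (QF F F) P.top ≤ JA (Ball P β F) (2 * P.top) := by
  filter_upwards [ev_basic, DFA1_src] with P hP hsrc b β F hβ h
  have key : ∀ p : Ph, elN p ≤ 2 * P.top →
      (QF F F p + β p) * Xi p ≤ Ball P β F p * XiA p := by
    intro p hp
    by_cases hg : good p.2.2
    · by_cases h0 : 0 < p.1
      · have ht : p.1 ∈ Icc 0 P.t0 := by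
          refine ⟨h0.le, ?_⟩
          simp only [elN, Par.top] at hp
          linarith [norm_nonneg p.2.1, hP.r0_t0, hP.r0_pos]
        have hz : ZZ P p = 0 := by
          by_contra hz
          have h1 := (supp_ZZ hP h0.le hz).2
          have h2 : (0 : ℝ) < cθ := by unfold cθ; positivity
          have h3 : cθ * 1 ≤ cθ * jb p.2.2 :=
            mul_le_mul_of_nonneg_left (by unfold jb; linarith [norm_nonneg p.2.2]) h2.le
          unfold good at hg
          linarith
        have h4 := hsrc b β F hβ h p ht p.1 h0.le le_rfl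
        rw [fl_self, hz, zero_add] at h4
        simp only [Xi, if_pos hg]
        exact mul_le_mul_left h4 _
      · simp [Xi, XiA, h0]
    · simp [Xi, hg]
  have htop : 0 ≤ P.top := by unfold Par.top; linarith [hP.r0_pos]
  constructor
  · refine setLIntegral_mono' (measurableSet_le measurable_elN measurable_const) fun p hp => ?_
    exact key p (le_trans hp (by linarith))
  · refine le_trans (lintegral_mono_set fun p hp => hp.2) ?_
    refine setLIntegral_mono' (measurableSet_le measurable_elN measurable_const) fun p hp => ?_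
    exact (mul_le_mul_left le_self_add _).trans (key p hp)

/-- `hh_le`, `g0 = 0` on `MR u` (`tn (x - t v) ≤ 4u < d0`), `lint_Ia_mul`; the births lie in `elN ≤ 12 u`. -/
theorem mass_le_JA : ∀ᶠ P in parF, ∀ (b : ℝ≥0∞) (β F : PF), Measurable β → ESol P b β F →
    ∀ u ∈ Ioc 0 (2 * P.s1),
      ∫⁻ p in MR u, hh P β F p ≤ ENNReal.ofReal ((12 * u) ^ 3600) * JA (Ball P β F) (12 * u) := by
  filter_upwards [ev_basic, hh_le] with P hP hhh b β F hβ h u hu
  have hu0 : 0 < u := hu.1
  have hK : (1 : ℝ) ≤ cK := by unfold cK; norm_num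
  have hr : P.r0 ≤ cK * P.r0 := le_mul_of_one_le_left hP.r0_pos.le hK
  have hu2 : u ≤ P.r0 / 500 := by
    have := hu.2
    unfold Par.s1 at this
    linarith
  have hu1 : u ≤ 1 := by linarith [hP.r0_K]
  have h43 : u ^ (4 / 3 : ℝ) ≤ u := by
    have := Real.rpow_le_rpow_of_exponent_ge hu0 hu1 (by norm_num : (1 : ℝ) ≤ 4 / 3)
    rwa [Real.rpow_one] at this
  have hprod : ∀ {t w : ℝ}, 0 ≤ t → t ≤ u ^ (4 / 3 : ℝ) → 0 ≤ w → w ≤ u ^ (-(1 / 3 : ℝ)) →
      t * w ≤ u := by
    intro t w _ h2 h3 h4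
    refine (mul_le_mul h2 h4 h3 (by positivity)).trans (le_of_eq ?_)
    rw [← Real.rpow_add hu0]
    norm_num
  have hB := h.measurable_Ball hβ
  have hind : Measurable ((MR u).indicator (1 : PF)) :=
    measurable_one.indicator (measurableSet_MR u)
  have h1 : ∫⁻ p in MR u, hh P β F p ≤ ∫⁻ p, Ia 0 (Ball P β F) p * (MR u).indicator 1 p := by
    rw [← lintegral_indicator (measurableSet_MR u)]
    refine lintegral_mono fun p => ?_
    by_cases hp : p ∈ MR u
    · rw [indicator_of_mem hp, indicator_of_mem hp, Pi.one_apply, mul_one]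
      obtain ⟨a1, a2, a3, a4⟩ := hp
      have ht : p.1 ∈ Icc 0 P.t0 := ⟨a1.le, by linarith [hP.r0_t0, hP.r0_pos]⟩
      have hg : g0 P p = 0 := by
        refine if_neg fun hc => absurd hc.2 (not_lt.2 ((tn_le_norm _).trans ?_))
        have e1 := norm_sub_le p.2.1 (p.1 • p.2.2)
        rw [norm_smul, Real.norm_of_nonneg a1.le] at e1
        have e2 := hprod a1.le a2 (norm_nonneg _) a4
        linarith [hP.r0_d0, hP.r0_pos]
      have := hhh b β F hβ h p ht
      rwa [hg, zero_add] at this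
    · rw [indicator_of_notMem hp]
      exact zero_le
  refine h1.trans ?_
  rw [lint_Ia_mul 0 _ _ hB hind, JA, ← lintegral_const_mul' _ _ ENNReal.ofReal_ne_top,
    ← lintegral_indicator (measurableSet_Ioi.prod MeasurableSet.univ),
    ← lintegral_indicator (measurableSet_le measurable_elN measurable_const)]
  refine lintegral_mono fun q => ?_
  by_cases hq : q ∈ Ioi (0 : ℝ) ×ˢ (univ : Set (R3 × R3))
  swap
  · rw [indicator_of_notMem hq]
    exact zero_le
  rw [indicator_of_mem hq]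
  have hq0 : 0 < q.1 := hq.1
  by_cases hl : elN q ≤ 12 * u
  · rw [indicator_of_mem (show q ∈ {p : Ph | elN p ≤ 12 * u} from hl), mul_left_comm]
    refine mul_le_mul_right ?_ _
    have e1 : ∫⁻ t in Ioi q.1, (MR u).indicator (1 : PF) (fl q t) ≤ 1 := by
      calc ∫⁻ t in Ioi q.1, (MR u).indicator (1 : PF) (fl q t)
          ≤ ∫⁻ t, (Ioc (0 : ℝ) 1).indicator 1 t := by
            refine (setLIntegral_le_lintegral _ _).trans (lintegral_mono fun t => ?_)
            by_cases ht : fl q t ∈ MR u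
            · rw [indicator_of_mem ht, indicator_of_mem
                (show t ∈ Ioc (0 : ℝ) 1 from ⟨ht.1, ht.2.1.trans (h43.trans hu1)⟩)]
              exact le_rfl
            · rw [indicator_of_notMem ht]
              exact zero_le
        _ = 1 := by rw [lintegral_indicator_one measurableSet_Ioc]; simp
    refine e1.trans ?_
    have e2 : 0 < elN q := by unfold elN; linarith [norm_nonneg q.2.1]
    rw [XiA, if_pos hq0, ← ENNReal.ofReal_mul (by positivity), ENNReal.one_le_ofReal,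
      ← div_eq_mul_inv, one_le_div (by positivity)]
    exact pow_le_pow_left₀ e2.le hl _
  · have e1 : ∫⁻ t in Ioi q.1, (MR u).indicator (1 : PF) (fl q t) = 0 := by
      refine setLIntegral_eq_zero measurableSet_Ioi fun t ht => ?_
      refine indicator_of_notMem (fun hm => hl ?_) _
      obtain ⟨a1, a2, a3, a4⟩ := hm
      have ht' : q.1 < t := ht
      simp only [fl] at a1 a2 a3 a4
      have e2 := norm_add_le (q.2.1 - (q.1 - t) • q.2.2) ((q.1 - t) • q.2.2)
      rw [sub_add_cancel, norm_smul, Real.norm_of_nonpos (by linarith)] at e2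
      have e3 := hprod (t := -(q.1 - t)) (by linarith) (by linarith) (norm_nonneg _) a4
      unfold elN
      linarith
    rw [e1, mul_zero]
    exact zero_le

/-- velocity space: fast collisions have good offspring, slow ones are rare -/
theorem DFA2_vel {m g : R3 → ℝ≥0∞} (hm : Measurable m) (hg : Measurable g)
    (hs : ∀ η, m η ≠ 0 → ‖η‖ ≤ 2 ∧ |x1 η| ≤ cθ) :
    ∫⁻ v, Qp m g v ≤ 2 * (∫⁻ v, {v | good v}.indicator 1 v * Qp m g v) +
      ENNReal.ofReal (13 * cd) * (∫⁻ η, m η) * ∫⁻ ζ, if ‖ζ‖ ≤ 3 then g ζ else 0 := by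
  have hH : Measurable fun q : R3 × R3 => m q.1 * g q.2 :=
    (hm.comp measurable_fst).mul (hg.comp measurable_snd)
  have hg' : Measurable fun ζ => if ‖ζ‖ ≤ 3 then g ζ else 0 :=
    Measurable.ite (measurableSet_le measurable_norm measurable_const) hg measurable_const
  have hz : cz ≠ ⊤ := ne_top_of_le_ne_top (by norm_num) cz_le
  unfold Qp
  rw [lint_QH _ hH, lint_QH_mul _ hH _ (measurable_one.indicator measurableSet_good),
    ← lintegral_const_mul' _ _ hz, ← lintegral_const_mul' _ _ ENNReal.ofNat_ne_top,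
    ← lintegral_const_mul _ hm, ← lintegral_mul_const _ (hm.const_mul _),
    ← lintegral_add_right _ ((hm.const_mul _).mul_const _)]
  refine lintegral_mono fun η => ?_
  rw [← lintegral_const_mul' _ _ hz, ← lintegral_const_mul' _ _ ENNReal.ofNat_ne_top,
    ← lintegral_const_mul _ hg', ← lintegral_add_right _ (hg'.const_mul _)]
  refine lintegral_mono fun ζ => ?_
  by_cases h0 : m η = 0
  · simp [h0]
  obtain ⟨h1, h2⟩ := hs η h0
  rcases le_or_gt cd ‖η - ζ‖ with h | h
  · refine le_add_right ?_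
    have h3 : (1 : ℝ≥0∞) ≤ 2 * (19 / 20) := by
      rw [← mul_div_assoc, ENNReal.le_div_iff_mul_le (by norm_num) (by norm_num)]
      norm_num
    calc _ = m η * g ζ * (1 * (cz * ENNReal.ofReal ‖η - ζ‖)) := by ring
      _ ≤ m η * g ζ * (2 * (19 / 20) * (cz * ENNReal.ofReal ‖η - ζ‖)) := by gcongr
      _ = 2 * (m η * g ζ * (19 / 20 * (cz * ENNReal.ofReal ‖η - ζ‖))) := by ring
      _ ≤ _ := by gcongr; exact good_offspring η ζ h1 h2 h
  · refine le_add_left ?_
    have h3 : ‖ζ‖ ≤ 3 := by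
      have := norm_sub_le η (η - ζ)
      rw [sub_sub_cancel] at this
      have : cd ≤ 1 := by unfold cd; norm_num
      linarith
    rw [if_pos h3, ENNReal.ofReal_mul (by norm_num), ENNReal.ofReal_ofNat]
    calc _ = cz * ENNReal.ofReal ‖η - ζ‖ * m η * g ζ := by ring
      _ ≤ _ := by gcongr; exact cz_le

theorem DFA2_sec {f g : PF} (hf : Measurable f) (hg : Measurable g)
    (h : ∀ t x, ∫⁻ v, f (t, x, v) ≤ ∫⁻ v, g (t, x, v)) : ∫⁻ p, f p ≤ ∫⁻ p, g p := by
  rw [Measure.volume_eq_prod, lintegral_prod _ hf.aemeasurable, lintegral_prod _ hg.aemeasurable]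
  refine lintegral_mono fun t => ?_
  rw [Measure.volume_eq_prod, lintegral_prod _ (prepost_sec hf t).aemeasurable,
    lintegral_prod _ (prepost_sec hg t).aemeasurable]
  exact lintegral_mono (h t)

theorem DFA2_int {l : ℝ} (hl : 0 < l) (a : ℝ) :
    ∫⁻ t in Ioi a, ENNReal.ofReal (((l + 5 * (t - a)) ^ 2)⁻¹) = ENNReal.ofReal ((5 * l)⁻¹) := by
  have h1 : ∀ t ∈ Ici a, HasDerivAt (fun t => -(5 * (l + 5 * (t - a)))⁻¹)
      (((l + 5 * (t - a)) ^ 2)⁻¹) t := fun t ht => by
    have h0 : 0 < l + 5 * (t - a) := by linarith [mem_Ici.1 ht]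
    refine ((((((hasDerivAt_id' t).sub_const a).const_mul 5).const_add l).const_mul 5).fun_inv
      (by positivity)).fun_neg.congr_deriv ?_
    field_simp
  have h2 : Tendsto (fun t => -(5 * (l + 5 * (t - a)))⁻¹) atTop (𝓝 0) := by
    rw [← neg_zero]
    refine (tendsto_inv_atTop_zero.comp ?_).neg
    exact (tendsto_atTop_add_const_left _ _ ((tendsto_atTop_add_const_right _ _
      tendsto_id).const_mul_atTop (by norm_num))).const_mul_atTop (by norm_num)
  rw [← ofReal_integral_eq_lintegral_ofReal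
    (integrableOn_Ioi_deriv_of_nonneg' h1 (fun _ _ => by positivity) h2)
    (.of_forall fun _ => by positivity),
    integral_Ioi_of_hasDerivAt_of_nonneg' h1 (fun _ _ => by positivity) h2]
  simp

/-- the weight of the slow collisions -/
def DFA2_phi (s : ℝ) : PF := fun p =>
  if 0 < p.1 ∧ elN p ≤ s ∧ ‖p.2.2‖ ≤ 3 then ENNReal.ofReal ((elN p ^ 3601)⁻¹) else 0

theorem DFA2_meas (s : ℝ) : Measurable (DFA2_phi s) :=
  Measurable.ite ((measurableSet_lt measurable_const measurable_fst).inter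
    ((measurableSet_le measurable_elN measurable_const).inter
      (measurableSet_le mba_v.norm measurable_const)))
    (measurable_elN.pow_const _).inv.ennreal_ofReal measurable_const

theorem DFA2_slow {B : PF} (hB : Measurable B) (s : ℝ) :
    ∫⁻ p, Ia 0 B p * DFA2_phi s p ≤ 2⁻¹ * JA B s := by
  rw [lint_Ia_mul 0 _ _ hB (DFA2_meas s), JA, ← lintegral_const_mul' _ _ (by norm_num),
    ← lintegral_indicator (measurableSet_Ioi.prod MeasurableSet.univ),
    ← lintegral_indicator (measurableSet_le measurable_elN measurable_const)]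
  refine lintegral_mono fun q => ?_
  by_cases hq : q ∈ Ioi (0 : ℝ) ×ˢ (univ : Set (R3 × R3))
  swap
  · rw [indicator_of_notMem hq]
    exact zero_le
  rw [indicator_of_mem hq]
  have hq0 : 0 < q.1 := hq.1
  have hl : 0 < elN q := by unfold elN; linarith [norm_nonneg q.2.1]
  have key : ∀ t ∈ Ioi q.1, ‖q.2.2‖ ≤ 3 → elN q + 5 * (t - q.1) ≤ elN (fl q t) := fun t ht hv => by
    have ht' : q.1 < t := ht
    have e2 := norm_add_le (q.2.1 - (q.1 - t) • q.2.2) ((q.1 - t) • q.2.2)
    rw [sub_add_cancel, norm_smul, Real.norm_of_nonpos (by linarith)] at e2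
    simp only [elN, fl]
    nlinarith
  by_cases hs : elN q ≤ s
  · rw [indicator_of_mem (show q ∈ {p : Ph | elN p ≤ s} from hs), mul_left_comm]
    refine mul_le_mul_right ?_ _
    calc _ ≤ ∫⁻ t in Ioi q.1, ENNReal.ofReal ((elN q ^ 3599)⁻¹) *
          ENNReal.ofReal (((elN q + 5 * (t - q.1)) ^ 2)⁻¹) := by
          refine setLIntegral_mono' measurableSet_Ioi fun t ht => ?_
          rw [DFA2_phi]
          split_ifs with h
          · have h1 := key t ht h.2.2
            have h2 : 0 ≤ 5 * (t - q.1) := by linarith [mem_Ioi.1 ht]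
            rw [← ENNReal.ofReal_mul (by positivity), ← mul_inv, show 3601 = 3599 + 2 from rfl,
              pow_add]
            have h3 : elN q ≤ elN (fl q t) := by linarith
            have h4 : 0 < elN (fl q t) := hl.trans_le h3
            gcongr
          · exact zero_le
      _ ≤ _ := by
          rw [lintegral_const_mul' _ _ ENNReal.ofReal_ne_top, DFA2_int hl, XiA, if_pos hq0,
            ← ENNReal.ofReal_mul (by positivity), ← ENNReal.ofReal_ofNat 2,
            ← ENNReal.ofReal_inv_of_pos two_pos, ← ENNReal.ofReal_mul (by positivity), ← mul_inv,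
            ← mul_inv, show 3600 = 3599 + 1 from rfl, pow_succ _ 3599]
          refine ENNReal.ofReal_le_ofReal (inv_anti₀ (by positivity) ?_)
          have : 0 < elN q ^ 3599 * elN q := by positivity
          linarith
  · rw [setLIntegral_eq_zero measurableSet_Ioi, mul_zero]
    · exact zero_le
    · intro t ht
      refine if_neg fun h => hs ?_
      linarith [key t ht h.2.2, mem_Ioi.1 ht, h.2.1]

/-- Fast collisions are counted by the good births, slow ones are rare.  Split `mm(η) gh(ζ)` according to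
`cd ≤ ‖η - ζ‖`.  Fast: total gain `2 cz ∫∫ mm gh ‖η-ζ‖` (`lint_QH`) against
`QF F F ≥ 2 QH (mm ⊗ gh 1_fast)` (`QH_swap`), `lint_QH_mul`, `good_offspring`.  Slow: at most
`26 cd (∫ mm) ∫ gh 1{‖ζ‖ ≤ 3}`, `∫ mm ≤ 2 cK2/ell` (`mass_c0`, `mass_ZZ`), `gh ≤ Ia 0 Ball` there (`hh_le`,
`g0 = 0`), `lint_Ia_mul`, `elN (fl q t) ≥ elN q + 5 (t - q.1)` for `‖v‖ ≤ 3`, and
`∫ 52 cd cK2 (ℓ + 5τ)^{-3601} dτ ≤ ℓ^{-3600}/2`.  Hence `JA ≤ 2 JJ + JA lam + JA/2`. -/
theorem JA_le_JJ : ∀ᶠ P in parF, ∀ (b : ℝ≥0∞) (β F : PF), Measurable β → ESol P b β F →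
    (∀ p, β p ≠ 0 → good p.2.2) → JA (Ball P β F) P.top ≠ ⊤ →
    JA (Ball P β F) P.top ≤ 4 * JJ (fun p => QF F F p + β p) P.top + 2 * JA (lam P β F) P.top := by
  filter_upwards [ev_basic, hh_le, mass_ZZ 1 one_pos] with P hP hhh hZ b β F hβ h hgood hfin
  have hm := h.measurable_mm hβ
  have hg := h.measurable_gh hβ
  have hQ := measurable_QF hm hg
  have hF := measurable_QF h.meas h.meas
  have hA : MeasurableSet {p : Ph | elN p ≤ P.top} := measurableSet_le measurable_elN measurable_const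
  have hK : (1 : ℝ) ≤ cK := by unfold cK; norm_num
  have hr : P.r0 ≤ cK * P.r0 := le_mul_of_one_le_left hP.r0_pos.le hK
  have htop : P.top = P.r0 / 10 := rfl
  have h1 : ∫⁻ p in {p : Ph | elN p ≤ P.top}, 2 * QF (mm P β F) (gh P β F) p * XiA p ≤
      2 * JJ (QF F F) P.top + ∫⁻ p, gh P β F p * DFA2_phi P.top p := by
    have m1 := ((hF.fun_mul measurable_Xi).const_mul 2).indicator hA
    rw [JJ, ← lintegral_const_mul' _ _ ENNReal.ofNat_ne_top, ← lintegral_indicator hA,
      ← lintegral_indicator hA, ← lintegral_add_left m1]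
    refine DFA2_sec (((hQ.const_mul 2).fun_mul measurable_XiA).indicator hA)
      (m1.fun_add (hg.fun_mul (DFA2_meas _))) fun t x => ?_
    by_cases ht : 0 < t ∧ 8 * t + ‖x‖ ≤ P.top
    swap
    · refine lintegral_mono fun v => le_of_eq_of_le ?_ zero_le
      by_cases hv : (t, x, v) ∈ {p : Ph | elN p ≤ P.top}
      · rw [indicator_of_mem hv, XiA, if_neg fun h0 => ht ⟨h0, hv⟩, mul_zero]
      · exact indicator_of_notMem hv _
    obtain ⟨l, hl⟩ : ∃ l, l = 8 * t + ‖x‖ := ⟨_, rfl⟩
    have hl0 : 0 < l := by linarith [norm_nonneg x, ht.1]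
    have hl1 : l ≤ 1 / 10 := by linarith [ht.2, hP.r0_K]
    have ht1 : t ≤ 1 / 10 := by linarith [norm_nonneg x, ht.1]
    have e0 : ∀ v, elN (t, x, v) = l := fun v => hl.symm
    have e1 : ∀ v, (t, x, v) ∈ {p : Ph | elN p ≤ P.top} := fun v => ht.2
    obtain ⟨m, hm'⟩ : ∃ m, m = sec (mm P β F) (t, x, 0) := ⟨_, rfl⟩
    obtain ⟨g, hg'⟩ : ∃ g, g = sec (gh P β F) (t, x, 0) := ⟨_, rfl⟩
    have mm' : Measurable m := hm' ▸ measurable_sec hm _
    have mg' : Measurable g := hg' ▸ measurable_sec hg _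
    have e2 : ∀ v, QF (mm P β F) (gh P β F) (t, x, v) = Qp m g v := fun v => by
      rw [hm', hg']; rfl
    have e3 : ∀ η, m η ≤ sec (c0 P) (t, x, 0) η + sec (ZZ P) (t, x, 0) η := fun η => by
      rw [hm']
      refine (mm_le_cZ (t, x, η)).trans ?_
      rw [cut]
      split_ifs
      exacts [le_rfl, zero_le]
    have e4 : ∫⁻ η, m η ≤ ENNReal.ofReal (2 * cK2 / l) := by
      have a1 := mass_c0 hP (t, x, 0) ⟨ht.1, ht1⟩
      have a2 := hZ (t, x, 0) ht.1.le
      have a3 : (0 : ℝ) < cK2 := by unfold cK2; positivity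
      rw [ell_eq_elN ht.1.le (by rw [e0]; linarith), e0] at a1
      refine (lintegral_mono e3).trans ?_
      rw [lintegral_add_left (measurable_sec (measurable_c0 P) _), mul_div_assoc, two_mul,
        ENNReal.ofReal_add (by positivity) (by positivity)]
      refine add_le_add a1 (a2.trans ?_)
      rw [one_mul]
      refine ENNReal.ofReal_le_ofReal ((le_div_iff₀ hl0).2 ?_)
      calc (1 + t) ^ 3 * l ≤ (1 + 1 / 10) ^ 3 * (1 / 10) := by
            have := ht.1
            gcongr
        _ ≤ _ := by unfold cK2; norm_num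
    have e5 := DFA2_vel mm' mg' fun η h0 => by
      have a1 : (0 : ℝ) < cθ := by unfold cθ; positivity
      by_cases a2 : c0 P (t, x, η) = 0
      · have a3 : ZZ P (t, x, η) ≠ 0 := fun a3 => h0 (le_zero_iff.1 ((e3 η).trans_eq (by
          simp only [sec, a2, a3, add_zero])))
        exact ⟨(supp_ZZ hP ht.1.le a3).1, by linarith [(supp_ZZ hP ht.1.le a3).2]⟩
      · exact ⟨(supp_c0 hP a2).1, by linarith [(supp_c0 hP a2).2]⟩
    obtain ⟨W, hW⟩ : ∃ W, W = ENNReal.ofReal ((l ^ 3600)⁻¹) := ⟨_, rfl⟩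
    have hW' : W ≠ ⊤ := hW ▸ ENNReal.ofReal_ne_top
    have e6 : ∀ v, XiA (t, x, v) = W := fun v => by rw [XiA, if_pos ht.1, e0, hW]
    have e7 : 2 * W * (ENNReal.ofReal (13 * cd) * ENNReal.ofReal (2 * cK2 / l)) ≤
        ENNReal.ofReal ((l ^ 3601)⁻¹) := by
      have a1 : 13 * cd * (2 * cK2 / l) = 26 / 100 * l⁻¹ := by unfold cd cK2; ring
      rw [← ENNReal.ofReal_mul (by unfold cd; positivity), a1, hW, ← ENNReal.ofReal_ofNat 2,
        ← ENNReal.ofReal_mul zero_le_two, ← ENNReal.ofReal_mul (by positivity),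
        show 3601 = 3600 + 1 from rfl, pow_succ _ 3600, mul_inv]
      refine ENNReal.ofReal_le_ofReal ?_
      have : 0 ≤ (l ^ 3600)⁻¹ * l⁻¹ := by positivity
      linarith
    simp only [indicator_of_mem (e1 _), e2, e6]
    rw [lintegral_add_right' _ (prepost_sec (prepost_sec (hg.fun_mul (DFA2_meas _)) t) x).aemeasurable]
    calc _ = 2 * W * ∫⁻ v, Qp m g v := by
          rw [← lintegral_const_mul' _ _ (ENNReal.mul_ne_top ENNReal.ofNat_ne_top hW')]
          exact lintegral_congr fun v => by ring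
      _ ≤ 2 * W * (2 * (∫⁻ v, {v | good v}.indicator 1 v * Qp m g v) + ENNReal.ofReal (13 * cd) *
          ENNReal.ofReal (2 * cK2 / l) * ∫⁻ ζ, if ‖ζ‖ ≤ 3 then g ζ else 0) := by
          gcongr
          exact e5.trans (by gcongr)
      _ ≤ _ := by
          rw [mul_add, ← mul_assoc (2 * W) (_ * _), ← mul_assoc (2 * W),
            ← lintegral_const_mul' _ _ (ENNReal.mul_ne_top
              (ENNReal.mul_ne_top ENNReal.ofNat_ne_top hW') ENNReal.ofNat_ne_top)]
          refine add_le_add (lintegral_mono fun v => ?_) ((mul_le_mul_left e7 _).trans ?_)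
          · by_cases hv : good v
            · rw [Xi, if_pos hv, e6, indicator_of_mem (show v ∈ {v | good v} from hv),
                DFA1_QF h hβ, e2, Pi.one_apply]
              calc _ = 2 * (2 * Qp m g v * W) := by ring
                _ ≤ _ := by gcongr; exact le_add_right le_add_self
            · rw [indicator_of_notMem (show v ∉ {v | good v} from hv), zero_mul, mul_zero]
              exact zero_le
          · rw [← lintegral_const_mul' _ _ ENNReal.ofReal_ne_top]
            refine lintegral_mono fun v => ?_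
            split_ifs with hv
            · rw [DFA2_phi, if_pos ⟨ht.1, e1 v, hv⟩, e0, hg', mul_comm]
              exact le_rfl
            · rw [mul_zero]
              exact zero_le
  have h2 : ∫⁻ p, gh P β F p * DFA2_phi P.top p ≤ 2⁻¹ * JA (Ball P β F) P.top := by
    refine le_trans (lintegral_mono fun p => ?_) (DFA2_slow (h.measurable_Ball hβ) P.top)
    rw [DFA2_phi]
    split_ifs with hp
    · refine mul_le_mul_left ((gh_le_hh p).trans ?_) _
      obtain ⟨a1, a2, a3⟩ := hp
      unfold elN at a2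
      have hg0 : g0 P p = 0 := by
        refine if_neg fun hc => absurd hc.2 (not_lt.2 ((tn_le_norm _).trans ?_))
        have e1 := norm_sub_le p.2.1 (p.1 • p.2.2)
        rw [norm_smul, Real.norm_of_nonneg a1.le] at e1
        have e2 := mul_le_mul_of_nonneg_left a3 a1.le
        linarith [hP.r0_d0, hP.r0_pos]
      have := hhh b β F hβ h p ⟨a1.le, by linarith [hP.r0_t0, hP.r0_pos, norm_nonneg p.2.1]⟩
      rwa [hg0, zero_add] at this
    · rw [mul_zero, mul_zero]
  have h3 : JA (Ball P β F) P.top =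
      (∫⁻ p in {p : Ph | elN p ≤ P.top}, 2 * QF (mm P β F) (gh P β F) p * XiA p) + JJ β P.top +
        JA (lam P β F) P.top := by
    rw [JA, JA, JJ, ← lintegral_add_left ((hQ.const_mul 2).fun_mul measurable_XiA),
      ← lintegral_add_right _ ((h.measurable_lam hβ).fun_mul measurable_XiA)]
    refine lintegral_congr fun p => ?_
    simp only [Ball, Bh, add_mul]
    by_cases hp : β p = 0
    · rw [hp, zero_mul, zero_mul]
    · rw [Xi, if_pos (hgood p hp)]
  have h4 : JJ (fun p => QF F F p + β p) P.top = JJ (QF F F) P.top + JJ β P.top := by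
    rw [JJ, JJ, JJ, ← lintegral_add_left (hF.fun_mul measurable_Xi)]
    exact lintegral_congr fun p => add_mul _ _ _
  rw [h4, ← ENNReal.add_le_add_iff_right hfin]
  calc _ = 2 * JA (Ball P β F) P.top := (two_mul _).symm
    _ ≤ 2 * (2 * JJ (QF F F) P.top + 2⁻¹ * JA (Ball P β F) P.top + 2 * JJ β P.top +
        JA (lam P β F) P.top) := by
        refine mul_le_mul_right (h3.trans_le (add_le_add (add_le_add (h1.trans ?_) ?_) le_rfl)) _
        · exact add_le_add le_rfl h2
        · exact le_mul_of_one_le_left' one_le_two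
    _ = 4 * (JJ (QF F F) P.top + JJ β P.top) + 2 * JA (lam P β F) P.top +
        2 * 2⁻¹ * JA (Ball P β F) P.top := by ring
    _ = _ := by rw [ENNReal.mul_inv_cancel (by norm_num) (by norm_num), one_mul]

/-- total gain of medium × weight and of weight × weight (`lint_QH`, `moment_GS`, `mass_c0`, `mass_ZZ`) -/
theorem gain_mass : ∃ K : ℝ≥0∞, K ≠ ⊤ ∧ ∀ᶠ P in parF, ∀ q : Ph, q.1 ∈ Ioc 0 P.t0 →
    ∀ (f g : R3 → ℝ≥0∞) (c c' : ℝ≥0∞), Measurable f → Measurable g →
    (∀ η, g η ≤ c * sec (YY P) q η) →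
    ((∀ η, f η ≤ sec (cZ P) q η) → ∫⁻ v, Qp f g v ≤ K * c * npw (ell q) 1) ∧
    ((∀ η, f η ≤ c' * sec (YY P) q η) → ∫⁻ v, Qp f g v ≤ K * c * c') :=
  dfc_gain_mass

/-- `gh ≤ omF b (lst) YY`, `lst ≤ 2 elN^{3/4}` (`lst_le_elN`), so `omF² elN^{-3600}` is bounded by
`c_P r0^{k2+1}`-type powers on `elN ≤ 2 top` (`s₁^{2 k2}`, `s₁^{4800} top^{3k2/2 - 3600}`,
`top^{3k3/2 - 3600} d0^{-2 k3}`), `leak` gives `top^{k3 - 3600}`; the region has volume `≤ 5`. -/
theorem JA_lam_small (η : ℝ≥0∞) (hη : 0 < η) : ∀ᶠ P in parF, ∀ b : ℝ≥0∞, b ≤ 1 → ∀ β F : PF,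
    Measurable β → ESol P b β F →
    JA (lam P β F) (2 * P.top) ≤ η * ENNReal.ofReal (P.s1 ^ P.k2) := by
  filter_upwards [dfc_lam_small η hη] with P h b hb β F hβ hF
  refine h b hb _ (hF.measurable_gh hβ) fun p hp => ?_
  exact (le_of_eq (if_pos hp)).trans (tsub_le_iff_left.2 (hF.gp_le hp))

/-- velocity mass of the linear gain, from a bound on the neutrons at `(t, x)` -/
theorem DF4.lin_mass : ∃ K : ℝ≥0∞, K ≠ ⊤ ∧ ∀ᶠ P in parF, ∀ (b : ℝ≥0∞) (β F : PF), Measurable β →
    ESol P b β F → ∀ (t : ℝ) (x : R3) (c : ℝ≥0∞), t ∈ Ioc 0 P.t0 →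
    (∀ η, gh P β F (t, x, η) ≤ c * YY P (t, x, η)) →
    ∫⁻ v, 2 * QF (mm P β F) (gh P β F) (t, x, v) ≤ K * (c * npw (ell (t, x, 0)) 1) := by
  obtain ⟨K, hK, h⟩ := gain_mass
  refine ⟨2 * K, ENNReal.mul_ne_top (by norm_num) hK, ?_⟩
  filter_upwards [h] with P h b β F hβ hF t x c ht hc
  rw [lintegral_const_mul' _ _ (by norm_num), mul_assoc, ← mul_assoc K]
  refine mul_le_mul_right ((h (t, x, 0) ht (sec (mm P β F) (t, x, 0)) (sec (gh P β F) (t, x, 0)) c 0
    (measurable_sec (hF.measurable_mm hβ) _) (measurable_sec (hF.measurable_gh hβ) _) hc).1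
    fun η => (mm_le_cZ (t, x, η)).trans (le_of_eq ?_)) _
  exact if_pos ⟨ht.1.le, ht.2⟩

theorem DF4.gh_base {P : Par} {F : PF} (hF : ESol P 0 0 F) (t : ℝ) (x η : R3) :
    gh P 0 F (t, x, η) ≤ 3 / 2 * wbF P (lst (t, x, 0)) * YY P (t, x, η) := by
  refine (hF.gh_le (t, x, η)).trans ?_
  unfold cut
  split_ifs
  · simp only [ENNReal.zero_div, zero_mul, add_zero, mul_assoc]
    exact le_rfl
  · exact zero_le

theorem DF4.gh_congr {P : Par} {F F1 : PF} {τ α : ℝ} (h : ∀ p : Ph, p.1 ≤ τ → F p = F1 p) {p : Ph}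
    (hp : p.1 ≤ τ) : gh P (seed τ α) F p = gh P 0 F1 p := by
  have h1 : gp P (seed τ α) F p = gp P 0 F1 p :=
    Duh_congr p (fun q hq => h q (hq.2.le.trans hp)) (fun _ _ => rfl)
      fun q hq => if_neg fun h2 => absurd (hq.2.trans_le hp) (not_lt.2 h2.1.1)
  simp only [gh, cut, h1]

/-- base solution: `2 QF mm gh` has mass `≤ K wbF (lst)/ell`, `3 k3/4 - 3601 ≥ k2 + 1` -/
theorem Jw_base_small (η : ℝ≥0∞) (hη : 0 < η) : ∀ᶠ P in parF, ∀ F : PF, ESol P 0 0 F →
    Jw (QF F F) P.top ≤ η * ENNReal.ofReal (P.s1 ^ P.k2) := by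
  obtain ⟨K, hK, h1⟩ := DF4.lin_mass
  have hη2 : 0 < η / 2 := ENNReal.half_pos hη.ne'
  have hK' : K * (3 / 2) * 5 ≠ ⊤ := ENNReal.mul_ne_top
    (ENNReal.mul_ne_top hK (ENNReal.div_ne_top (by norm_num) (by norm_num))) (by norm_num)
  filter_upwards [ev_basic, h1, JJ_le_JA, JA_lam_small _ hη2, DF4.ev_small hK' hη2]
    with P hP h1 h2 h3 h4 F hF
  obtain ⟨-, t2, t3, -⟩ := DF4.top_facts hP
  have h0 : Measurable (0 : PF) := measurable_zero
  refine (h2 0 0 F h0 hF).2.trans ?_
  have h5 : JA (Bh P 0 F) (2 * P.top) ≤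
      K * (3 / 2) * ENNReal.ofReal ((2 / P.d0) ^ P.k3 * (2 * P.top) ^ (P.k2 + 1)) * 5 := by
    refine DF4.JA_le_slice (by linarith) fun t x ht hx => ?_
    simp only [Bh, Pi.zero_apply, add_zero]
    refine (mul_le_mul_left (h1 0 0 F h0 hF t x _ ⟨ht, by linarith [norm_nonneg x]⟩
      (DF4.gh_base hF t x)) _).trans ?_
    have := DF4.wb_pt hP (0 : R3) ht t2 hx
    calc _ = K * (3 / 2) * (wbF P (lst (t, x, 0)) * npw (ell (t, x, 0)) 1 *
          ENNReal.ofReal (((8 * t + ‖x‖) ^ 3600)⁻¹)) := by ring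
      _ ≤ _ := mul_le_mul_right this _
  rw [mul_right_comm] at h5
  unfold Ball
  rw [DF4.JA_add (hF.measurable_Bh h0), ← ENNReal.add_halves η, add_mul]
  exact add_le_add (h5.trans h4) (h3 0 zero_le 0 F h0 hF)

/-- before `τ` the solution is the base solution (`Duh_congr`), afterwards `ell ≥ 8 τ` -/
theorem JA_ne_top : ∀ᶠ P in parF, ∀ F1, ESol P 0 0 F1 → ∀ (τ α : ℝ) (F : PF), 0 < τ →
    ESol P 1 (seed τ α) F → (∀ p : Ph, p.1 ≤ τ → F p = F1 p) →
    JA (Ball P (seed τ α) F) P.top ≠ ⊤ := by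
  obtain ⟨K, hK, h1⟩ := DF4.lin_mass
  filter_upwards [ev_basic, h1, JA_lam_small 1 one_pos, ev_omF_le]
    with P hP h1 h3 h4 F1 hF1 τ α F hτ hF hc
  obtain ⟨t1, t2, t3, -⟩ := DF4.top_facts hP
  have h0 : Measurable (seed τ α) := measurable_seed τ α
  have h5 : JA (fun p => 2 * QF (mm P (seed τ α) F) (gh P (seed τ α) F) p) P.top ≤
      (K * (3 / 2) * ENNReal.ofReal ((2 / P.d0) ^ P.k3 * P.top ^ (P.k2 + 1)) +
        K * (3 * npw τ 1) * ENNReal.ofReal ((τ ^ 3600)⁻¹)) * 5 := by
    refine DF4.JA_le_slice (by linarith) fun t x ht hx => ?_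
    have htt : t ∈ Ioc 0 P.t0 := ⟨ht, by linarith [norm_nonneg x]⟩
    rcases le_total t τ with hle | hle
    · refine le_trans ?_ le_self_add
      refine (mul_le_mul_left (h1 1 _ F h0 hF t x (3 / 2 * wbF P (lst (t, x, 0))) htt
        fun η => ?_) _).trans ?_
      · rw [DF4.gh_congr hc hle]
        exact DF4.gh_base hF1 t x η
      · have := DF4.wb_pt hP (0 : R3) ht (s := P.top) (by linarith) hx
        calc _ = K * (3 / 2) * (wbF P (lst (t, x, 0)) * npw (ell (t, x, 0)) 1 *
              ENNReal.ofReal (((8 * t + ‖x‖) ^ 3600)⁻¹)) := by ring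
          _ ≤ _ := mul_le_mul_right this _
    · refine le_trans ?_ le_add_self
      refine (mul_le_mul_left (h1 1 _ F h0 hF t x 3 htt fun η => ?_) _).trans ?_
      · have h6 : gh P (seed τ α) F (t, x, η) ≤ wY P (omF P 1) (t, x, η) := by
          unfold gh cut
          rw [if_pos ⟨htt.1.le, htt.2⟩]
          exact tsub_le_iff_left.2 (hF.gp_le ⟨htt.1.le, htt.2⟩)
        refine h6.trans (mul_le_mul_left (h4 1 le_rfl _ ⟨lst_nonneg ht.le, lst_le_two ⟨ht.le, ?_⟩⟩) _)
        have := hP.t0_le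
        show t ≤ 1
        linarith [htt.2]
      · have h7 : τ ≤ ell (t, x, (0 : R3)) := by
          have := tn_nonneg x
          show τ ≤ 8 * t + tn x
          linarith
        refine mul_le_mul' (mul_le_mul_right (mul_le_mul_right (MB.npw_anti zero_le_one h7) _) _)
          (ENNReal.ofReal_le_ofReal ?_)
        exact inv_anti₀ (by positivity)
          (pow_le_pow_left₀ hτ.le (by linarith [norm_nonneg x]) _)
  unfold Ball
  rw [DF4.JA_add (hF.measurable_Bh h0)]
  unfold Bh
  rw [DF4.JA_add (f := fun p => 2 * QF (mm P (seed τ α) F) (gh P (seed τ α) F) p)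
    ((measurable_QF (hF.measurable_mm h0) (hF.measurable_gh h0)).const_mul 2)]
  refine ENNReal.add_ne_top.2 ⟨ENNReal.add_ne_top.2 ⟨ne_top_of_le_ne_top ?_ h5,
    DF4.JA_seed_ne_top hτ (by linarith)⟩, ne_top_of_le_ne_top ?_
      ((JA_mono _ (by linarith)).trans (h3 1 le_rfl _ F h0 hF))⟩
  · exact ENNReal.mul_ne_top (ENNReal.add_ne_top.2 ⟨ENNReal.mul_ne_top (ENNReal.mul_ne_top hK
      (ENNReal.div_ne_top (by norm_num) (by norm_num))) ENNReal.ofReal_ne_top,
      ENNReal.mul_ne_top (ENNReal.mul_ne_top hK (ENNReal.mul_ne_top (by norm_num)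
        (MB.npw_ne_top hτ 1))) ENNReal.ofReal_ne_top⟩) (by norm_num)
  · exact ENNReal.mul_ne_top (by norm_num) ENNReal.ofReal_ne_top

theorem good_of_seed {τ α : ℝ} {p : Ph} (h : seed τ α p ≠ 0) : good p.2.2 := DF4.good_of_seed h

/-- the seed region has volume `≥ τ · 4(4τ)³ · 4/4³` and lies in `elN ≤ 20 τ` -/
theorem JJ_seed {P : Par} (hP : P.Basic) {c : ℝ} (hc : 0 < c) : ∀ᶠ τ in 𝓝[>] (0 : ℝ), ∀ α : ℝ,
    c * P.s1 ^ P.k2 * τ ^ 1800 ≤ α → ENNReal.ofReal (P.s1 ^ P.k2) ≤ JJ (seed τ α) P.top :=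
  DF4.JJ_seed hP hc

end
end Crest.Agent.R68
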