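import Crest.Agent.R68.DFA

/-! # Row 68: auxiliary lemmas for `DFB` (weighted multiplication operators) -/

set_option autoImplicit false
open MeasureTheory Set Filter Topology
open scoped ENNReal NNReal
open Crest.AnalysisR.VecCalc3 Crest.AnalysisR.PDE.Boltzmann

namespace Crest.Agent.R68
noncomputable section
namespace DFBA

/-- multiplication operator with a weight on the collision time and the parent velocity -/
def Tw (P : Par) (w : Ph → ℝ → R3 → ℝ≥0∞) (f : PF) : PF := fun p => ∫⁻ s in Ioo 0 p.1,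
  2 * Qp (sec (c0 P) (fl p s)) (fun ζ => w p s ζ * sec f (fl p s) ζ) p.2.2

/-- joint measurability of a weight -/
def MW (w : Ph → ℝ → R3 → ℝ≥0∞) : Prop := Measurable fun x : (Ph × ℝ) × R3 => w x.1.1 x.1.2 x.2

variable {P : Par} {w w' : Ph → ℝ → R3 → ℝ≥0∞} {f g : PF}

theorem meas_H (hw : MW w) (hf : Measurable f) :
    Measurable fun x : (Ph × ℝ) × (R3 × R3) => sec (c0 P) (fl x.1.1 x.1.2) x.2.1 *
      (w x.1.1 x.1.2 x.2.2 * sec f (fl x.1.1 x.1.2) x.2.2) := by
  have h1 : Measurable fun x : (Ph × ℝ) × (R3 × R3) => fl x.1.1 x.1.2 :=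
    measurable_fl.comp measurable_fst
  exact ((measurable_c0 P).comp (h1.fst.prodMk (h1.snd.fst.prodMk measurable_snd.fst))).mul
    ((Measurable.comp (f := fun x : (Ph × ℝ) × (R3 × R3) => (x.1, x.2.2)) hw
      (measurable_fst.prodMk measurable_snd.snd)).mul
      (hf.comp (h1.fst.prodMk (h1.snd.fst.prodMk measurable_snd.snd))))

theorem meas_H' (hw : MW w) (hf : Measurable f) (p : Ph) (s : ℝ) :
    Measurable fun q : R3 × R3 => sec (c0 P) (fl p s) q.1 * (w p s q.2 * sec f (fl p s) q.2) :=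
  (meas_H (P := P) hw hf).comp (f := fun q : R3 × R3 => ((p, s), q)) measurable_prodMk_left

theorem meas_I (hw : MW w) (hf : Measurable f) : Measurable fun x : Ph × ℝ =>
    2 * Qp (sec (c0 P) (fl x.1 x.2)) (fun ζ => w x.1 x.2 ζ * sec f (fl x.1 x.2) ζ) x.1.2.2 :=
  (measurable_QH_param (fun (x : Ph × ℝ) (q : R3 × R3) => sec (c0 P) (fl x.1 x.2) q.1 *
    (w x.1 x.2 q.2 * sec f (fl x.1 x.2) q.2)) (meas_H hw hf) (fun x => x.1.2.2)
      measurable_fst.snd.snd).const_mul 2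

theorem meas_I' (hw : MW w) (hf : Measurable f) (p : Ph) : Measurable fun s : ℝ =>
    2 * Qp (sec (c0 P) (fl p s)) (fun ζ => w p s ζ * sec f (fl p s) ζ) p.2.2 :=
  (meas_I (P := P) hw hf).comp (f := fun s : ℝ => (p, s)) measurable_prodMk_left

theorem Tw_mono (h : f ≤ g) : Tw P w f ≤ Tw P w g := fun _ =>
  lintegral_mono fun _ => mul_le_mul_right
    (QH_mono (fun _ => mul_le_mul_right (mul_le_mul_right (h _) _) _) _) _

theorem posOp_Tw (hw : MW w) : PosOp (Tw P w) := by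
  refine ⟨fun f hf => PosA.measurable_lint_Ioo measurable_const measurable_fst (meas_I hw hf),
    fun f g _ _ h => Tw_mono h, fun f g hf _ => ?_, fun c f hf => ?_, fun f hf hmono => ?_⟩
  · funext p
    rw [Pi.add_apply, Tw, Tw, Tw, ← lintegral_add_left (meas_I' hw hf p)]
    refine lintegral_congr fun s => ?_
    rw [← mul_add, Qp, Qp, Qp, ← QH_add (meas_H' hw hf p s)]
    congr 2
    funext q
    simp only [sec, Pi.add_apply, mul_add]
  · funext p
    rw [Tw, Tw, ← lintegral_const_mul _ (meas_I' hw hf p)]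
    refine lintegral_congr fun s => ?_
    rw [mul_left_comm, Qp, Qp, ← QH_const_mul _ (meas_H' hw hf p s)]
    congr 2
    funext q
    simp only [sec, mul_left_comm _ c]
  · funext p
    simp only [Tw]
    rw [← lintegral_iSup (fun n => meas_I' hw (hf n) p) fun i j h s => mul_le_mul_right
      (QH_mono (fun _ => mul_le_mul_right (mul_le_mul_right (hmono h _) _) _) _) _]
    refine lintegral_congr fun s => ?_
    simp only [Qp]
    rw [← ENNReal.mul_iSup, ← QH_iSup (fun n => meas_H' hw (hf n) p s)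
      fun i j h q => mul_le_mul_right (mul_le_mul_right (hmono h _) _) _]
    congr 2
    funext q
    simp only [sec, ENNReal.mul_iSup]

theorem TT_eq_add (hw : MW w) (h : ∀ p s ζ, w p s ζ + w' p s ζ = 1) (hf : Measurable f) (p : Ph) :
    TT P f p = Tw P w f p + Tw P w' f p := by
  rw [Tw, Tw, ← lintegral_add_left (meas_I' hw hf p)]
  refine lintegral_congr fun s => ?_
  rw [← mul_add, Qp, Qp, ← QH_add (meas_H' hw hf p s)]
  show 2 * QH (fun q => sec (c0 P) (fl p s) q.1 * sec f (fl p s) q.2) p.2.2 = _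
  congr 2
  funext q
  rw [← mul_add, ← add_mul, h, one_mul]

theorem Tw_cut (f : PF) {p : Ph} (hp : p.1 ∈ Icc 0 P.t0) : Tw P w (cut P f) p = Tw P w f p := by
  refine setLIntegral_congr_fun measurableSet_Ioo fun s hs => ?_
  have h : sec (cut P f) (fl p s) = sec f (fl p s) :=
    funext fun η => if_pos ⟨hs.1.le, hs.2.le.trans hp.2⟩
  simp only [h]

theorem hh_le_TT (η : ℝ≥0∞) (hη : 0 < η) : ∃ c : ℝ, 0 < c ∧ ∀ᶠ P in parF, ∀ (τ α : ℝ) (F : PF),
    0 < τ → α ≤ c * P.s1 ^ P.k2 * τ ^ 1800 → ESol P 1 (seed τ α) F → ∀ p : Ph, p.1 ∈ Icc 0 P.t0 →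
    hh P (seed τ α) F p ≤ TT P (gh P (seed τ α) F) p +
      (11 / 10 * wY P (wbF P) p + η * wY P (wnF P) p) := by
  obtain ⟨r, hr0, hr⟩ := ENNReal.lt_iff_exists_nnreal_btwn.1 hη
  have hr0' : 0 < r := by exact_mod_cast hr0
  obtain ⟨c, hc0, hc1, hc2⟩ : ∃ c : ℝ≥0, 0 < c ∧ 8 * c ≤ r ∧ 1 + 11 * c ≤ 11 / 10 := by
    refine ⟨min (r / 8) (1 / 110), lt_min (by positivity) (by norm_num), ?_, ?_⟩
    · have := min_le_left (r / 8) (1 / 110)
      rw [le_div_iff₀ (by norm_num)] at this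
      rwa [mul_comm]
    · calc 1 + 11 * min (r / 8) (1 / 110) ≤ 1 + 11 * (1 / 110) := by
            gcongr
            exact min_le_right _ _
        _ = 11 / 10 := by norm_num
  have hc0' : (0 : ℝ≥0∞) < c := by exact_mod_cast hc0
  have hc1' : 8 * (c : ℝ≥0∞) ≤ η := le_trans (by exact_mod_cast hc1) hr.le
  have hc2' : 1 + 11 * (c : ℝ≥0∞) ≤ 11 / 10 := by
    have h := ENNReal.coe_le_coe.2 hc2
    rwa [ENNReal.coe_div (by norm_num), ENNReal.coe_add, ENNReal.coe_mul] at h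
  refine ⟨c, by exact_mod_cast hc0, ?_⟩
  filter_upwards [ev_basic, hh_le, small_ops c hc0', Ia_leak c hc0', ev_wnF_le 1 one_pos]
    with P hP h1 h2 h3 h4 τ α F hτ hα hE p hp
  have hβ := measurable_seed τ α
  have hg := hE.measurable_gh hβ
  have hω := measurable_wY P (measurable_omF P 1)
  have hI := posOp_Ia 0
  have hsplit : ∀ q, wY P (omF P 1) q = 2 * wY P (wbF P) q + wY P (wnF P) q := fun q => by
    simp only [wY, omF]
    ring
  have g1 : ∀ q, gh P (seed τ α) F q ≤ wY P (omF P 1) q ∧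
      gh P (seed τ α) F q ≤ 3 * YY P q := fun q => by
    have h5 := hE.gh_le q
    unfold cut at h5
    split_ifs at h5 with hq
    · have h6 : gh P (seed τ α) F q ≤ wY P (omF P 1) q := by
        rw [hsplit]
        refine h5.trans (add_le_add (mul_le_mul_left ?_ _) (mul_le_of_le_one_left' ?_))
        · exact ENNReal.div_le_of_le_mul (by norm_num)
        · exact ENNReal.div_le_of_le_mul (by norm_num)
      refine ⟨h6, h6.trans (mul_le_mul_left ?_ _)⟩
      have h7 := lst_nonneg hq.1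
      have h8 := lst_le_two (p := q) ⟨hq.1, hq.2.trans (hP.t0_le.trans (by norm_num))⟩
      calc omF P 1 (lst q) ≤ 2 * 1 + 1 * 1 :=
            add_le_add (mul_le_mul_right (wbF_le_one hP h7) _) (mul_le_mul_right (h4 _ ⟨h7, h8⟩) _)
        _ = 3 := by norm_num
    · exact ⟨h5.trans zero_le, h5.trans zero_le⟩
  have g2 : mm P (seed τ α) F ≤ fun q => c0 P q + ZZ P q := fun q => by
    refine (mm_le_cZ q).trans ?_
    unfold cut
    split_ifs
    · exact le_rfl
    · exact zero_le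
  have m1 := (measurable_QF (measurable_c0 P) hg).const_mul 2
  have m2 := measurable_QF (measurable_ZZ P) hω
  have m3 := measurable_QF (measurable_YY P) hω
  have g3 : Ball P (seed τ α) F ≤ (fun q => 2 * QF (c0 P) (gh P (seed τ α) F) q) +
      (fun q => 2 * QF (ZZ P) (wY P (omF P 1)) q) + seed τ α +
      (fun q => 3 * QF (YY P) (wY P (omF P 1)) q) + leak P := fun q => by
    have a1 : QF (mm P (seed τ α) F) (gh P (seed τ α) F) q ≤
        QF (c0 P) (gh P (seed τ α) F) q + QF (ZZ P) (wY P (omF P 1)) q := by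
      refine (QF_mono g2 le_rfl q).trans ?_
      rw [QF_add_left (measurable_c0 P) hg]
      exact add_le_add le_rfl (QF_mono le_rfl (fun q => (g1 q).1) q)
    have a2 : QF (gh P (seed τ α) F) (gh P (seed τ α) F) q ≤ 3 * QF (YY P) (wY P (omF P 1)) q := by
      have a3 := QF_mul_tx (measurable_YY P) hω (fun _ => 3) (fun _ => 1) q
      simp only [one_mul, mul_one] at a3
      rw [← a3]
      exact QF_mono (fun q => (g1 q).2) (fun q => (g1 q).1) q
    simp only [Ball, Bh, lam, Pi.add_apply]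
    rw [← mul_add, ← add_assoc]
    gcongr
  have g4 := hI.mono _ _ (hE.measurable_Ball hβ)
    ((((m1.add (m2.const_mul 2)).add hβ).add (m3.const_mul 3)).add (measurable_leak P)) g3 p
  rw [hI.add _ _ (((m1.add (m2.const_mul 2)).add hβ).add (m3.const_mul 3)) (measurable_leak P),
    hI.add _ _ ((m1.add (m2.const_mul 2)).add hβ) (m3.const_mul 3),
    hI.add _ _ (m1.add (m2.const_mul 2)) hβ, hI.add _ _ m1 (m2.const_mul 2),
    hI.smul 2 _ m2, hI.smul 3 _ m3] at g4
  simp only [Pi.add_apply] at g4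
  obtain ⟨b1, b2, -⟩ := h2 _ (adm_omF hP 1) p hp
  have hS : ∀ ω : ℝ → ℝ≥0∞, ω (lst p) * Ga (aT P.k3 p.1) p.2.2 ≤ wY P ω p := fun ω =>
    mul_le_mul_right (le_mul_of_one_le_right' (one_le_Sg p)) _
  have b3 := (h3 p hp).trans (mul_le_mul_right (hS _) _)
  have b4 := (Ia_seed_le hP hτ c.coe_nonneg hα p hp).trans (mul_le_mul_right (hS _) _)
  have e3 : ENNReal.ofReal (3 * (c : ℝ)) = 3 * (c : ℝ≥0∞) := by
    rw [ENNReal.ofReal_mul (by norm_num), ENNReal.ofReal_coe_nnreal, ENNReal.ofReal_ofNat]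
  rw [e3] at b4
  rw [hsplit] at b1 b2
  calc hh P (seed τ α) F p ≤ g0 P p + Ia 0 (Ball P (seed τ α) F) p := h1 1 _ F hβ hE p hp
    _ ≤ wY P (wbF P) p + (TT P (gh P (seed τ α) F) p +
        2 * (c * (2 * wY P (wbF P) p + wY P (wnF P) p)) + 3 * c * wY P (wnF P) p +
        3 * (c * (2 * wY P (wbF P) p + wY P (wnF P) p)) + c * wY P (wbF P) p) :=
        add_le_add (g0_le hP p hp.1) (g4.trans (add_le_add (add_le_add (add_le_add
          (add_le_add le_rfl (mul_le_mul_right b1 _)) b4) (mul_le_mul_right b2 _)) b3))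
    _ = TT P (gh P (seed τ α) F) p +
        ((1 + 11 * c) * wY P (wbF P) p + 8 * c * wY P (wnF P) p) := by ring
    _ ≤ _ := by gcongr

theorem Jw_lower (hsup : ∃ c : ℝ, 0 < c ∧ ∃ c6 : ℝ, 0 < c6 ∧ ∀ᶠ P in parF, ∀ (τ α : ℝ) (F : PF),
    0 < τ → α ≤ c6 * P.s1 ^ P.k2 * τ ^ 1800 → ESol P 1 (seed τ α) F → Wit P (seed τ α) F →
    ∃ u ∈ Ioc 0 (2 * P.s1),
      ENNReal.ofReal (c * P.s1 ^ P.k2 * u ^ 3494) ≤ ∫⁻ p in MR u, hh P (seed τ α) F p) :
    ∃ c : ℝ, 0 < c ∧ ∀ᶠ P in parF, ∀ F1, ESol P 0 0 F1 → ∀ᶠ τ in 𝓝[>] (0 : ℝ),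
    ∀ (α : ℝ) (F : PF), ESol P 1 (seed τ α) F → (∀ p : Ph, p.1 ≤ τ → F p = F1 p) →
    Wit P (seed τ α) F → ENNReal.ofReal (c * P.s1 ^ P.k2) ≤ Jw (QF F F) P.top := by
  obtain ⟨cs, hcs, c6, hc6, hsup⟩ := hsup
  obtain ⟨M, hM, hMu⟩ : ∃ M : ℝ, 0 < M ∧ ∀ u : ℝ, 0 < u → u ≤ 1 →
      (12 * u) ^ 3600 ≤ M * u ^ 3494 :=
    ⟨12 ^ 3600, pow_pos (by norm_num) _, fun u h0 h1 => by
      rw [mul_pow]
      exact mul_le_mul_of_nonneg_left (pow_le_pow_of_le_one h0.le h1 (by norm_num))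
        (pow_pos (by norm_num) _).le⟩
  have hκ : 0 < cs / M / 16 := by positivity
  refine ⟨min (1 / 2) (cs / M / 16), lt_min (by norm_num) hκ, ?_⟩
  filter_upwards [ev_basic, hsup, mass_le_JA, JA_le_JJ, JA_ne_top, JJ_le_JA, JJ_le_Jw,
    JA_lam_small (4 * ENNReal.ofReal (cs / M / 16))
      (ENNReal.mul_pos (by norm_num) (ENNReal.ofReal_pos.2 hκ).ne')]
    with P hP h1 h2 h3 h4 h5 h6 h7 F1 hF1
  filter_upwards [JJ_seed hP hc6, self_mem_nhdsWithin] with τ h8 hτ α F hE hag hW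
  have hβ := measurable_seed τ α
  have hr := hP.r0_pos
  have hs1 : 0 < P.s1 := by unfold Par.s1; positivity
  have hS : 0 < P.s1 ^ P.k2 := pow_pos hs1 _
  have a1 := h4 F1 hF1 τ α F hτ hE hag
  have a2 := h6 1 le_rfl _ F hβ hE (ne_top_of_le_ne_top a1 (h5 1 _ F hβ hE).1)
  rcases le_total α (c6 * P.s1 ^ P.k2 * τ ^ 1800) with hα | hα
  · obtain ⟨u, hu, a3⟩ := h1 τ α F hτ hα hE hW
    have hu1 : 12 * u ≤ P.top := by
      have := hu.2
      unfold Par.s1 at this
      unfold Par.top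
      linarith
    have hu2 : u ≤ 1 := by
      have := hP.r0_t0
      have := hP.t0_le
      unfold Par.top at hu1
      linarith
    have hu3 : 0 < M * u ^ 3494 := mul_pos hM (pow_pos hu.1 _)
    have a4 : ENNReal.ofReal (M * u ^ 3494) * ENNReal.ofReal (cs / M * P.s1 ^ P.k2) ≤
        ENNReal.ofReal (M * u ^ 3494) * JA (Ball P (seed τ α) F) P.top := by
      rw [← ENNReal.ofReal_mul hu3.le]
      have e : M * u ^ 3494 * (cs / M * P.s1 ^ P.k2) = cs * P.s1 ^ P.k2 * u ^ 3494 := by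
        generalize u ^ 3494 = y
        field_simp
      rw [e]
      exact a3.trans ((h2 1 _ F hβ hE u hu).trans
        (mul_le_mul' (ENNReal.ofReal_le_ofReal (hMu u hu.1 hu2)) (JA_mono _ hu1)))
    rw [ENNReal.mul_le_mul_iff_right (ENNReal.ofReal_pos.2 hu3).ne' ENNReal.ofReal_ne_top] at a4
    have a5 := h3 1 _ F hβ hE (fun p hp => good_of_seed hp) a1
    have a6 := (JA_mono _ (show P.top ≤ 2 * P.top by unfold Par.top; linarith)).trans
      (h7 1 le_rfl _ F hβ hE)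
    rw [mul_assoc, ← ENNReal.ofReal_mul hκ.le] at a6
    refine (ENNReal.ofReal_le_ofReal (mul_le_mul_of_nonneg_right (min_le_right _ _) hS.le)).trans ?_
    have e : ENNReal.ofReal (cs / M * P.s1 ^ P.k2) =
        16 * ENNReal.ofReal (cs / M / 16 * P.s1 ^ P.k2) := by
      rw [← ENNReal.ofReal_ofNat 16, ← ENNReal.ofReal_mul (by norm_num)]
      congr 1
      ring
    have hy : ENNReal.ofReal (cs / M / 16 * P.s1 ^ P.k2) ≠ ⊤ := ENNReal.ofReal_ne_top
    rw [e] at a4
    generalize ENNReal.ofReal (cs / M / 16 * P.s1 ^ P.k2) = y at *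
    have a7 : 8 * y + 8 * y ≤ 8 * Jw (QF F F) P.top + 8 * y :=
      calc 8 * y + 8 * y = 16 * y := by ring
        _ ≤ _ := a4.trans a5
        _ ≤ 4 * (2 * Jw (QF F F) P.top) + 2 * (4 * y) := by gcongr
        _ = _ := by ring
    rwa [ENNReal.add_le_add_iff_right (ENNReal.mul_ne_top (by norm_num) hy),
      ENNReal.mul_le_mul_iff_right (by norm_num) (by norm_num)] at a7
  · have a3 : JJ (seed τ α) P.top ≤ JJ (fun p => QF F F p + seed τ α p) P.top :=
      lintegral_mono fun p => mul_le_mul_left le_add_self _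
    have a4 := ((h8 α hα).trans a3).trans a2
    refine (ENNReal.ofReal_le_ofReal (mul_le_mul_of_nonneg_right (min_le_left _ _) hS.le)).trans ?_
    have e : ENNReal.ofReal (P.s1 ^ P.k2) = 2 * ENNReal.ofReal (1 / 2 * P.s1 ^ P.k2) := by
      rw [← ENNReal.ofReal_ofNat 2, ← ENNReal.ofReal_mul (by norm_num)]
      congr 1
      ring
    rwa [e, ENNReal.mul_le_mul_iff_right (by norm_num) (by norm_num)] at a4

end DFBA
end
end Crest.Agent.R68
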