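import Crest.Agent.R68.DFA

/-! # Row 68: from the supremum to the mass (for `sup_to_mass`) -/

set_option autoImplicit false
open MeasureTheory Set Filter Topology
open scoped ENNReal NNReal
open Crest.AnalysisR.VecCalc3 Crest.AnalysisR.PDE.Boltzmann

namespace Crest.Agent.R68
noncomputable section
namespace DFS

theorem num {a b : ℝ≥0∞} (ha : a ≠ ⊤) (hb : b ≠ ⊤) (h : a.toReal ≤ b.toReal) : a ≤ b :=
  (ENNReal.toReal_le_toReal ha hb).1 h

theorem c1 : (6 * 100⁻¹ + 11 / 10 : ℝ≥0∞) ≤ 3 / 2 := by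
  refine num (by finiteness) (by finiteness) ?_
  rw [ENNReal.toReal_add (by finiteness) (by finiteness)]
  norm_num

theorem c2 : (1 / 10 + 5 * 100⁻¹ : ℝ≥0∞) ≤ 1 / 5 := by
  refine num (by finiteness) (by finiteness) ?_
  rw [ENNReal.toReal_add (by finiteness) (by finiteness)]
  norm_num

theorem c3 : (2 * 100⁻¹ + 11 / 10 : ℝ≥0∞) ≤ 2 :=
  (add_le_add (mul_le_mul_left (by norm_num) _) le_rfl).trans (c1.trans
    (num (by finiteness) (by finiteness) (by norm_num)))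

theorem arith {B N X Y : ℝ≥0∞} (h : 3 / 2 * B + 1 / 5 * N < Y)
    (hY : Y ≤ X + ((6 * 100⁻¹ + 11 / 10) * B + 5 * 100⁻¹ * N)) : 1 / 10 * N < X := by
  by_contra hX
  refine absurd h (not_lt.2 (hY.trans ?_))
  calc _ ≤ 1 / 10 * N + (3 / 2 * B + 5 * 100⁻¹ * N) :=
        add_le_add (not_lt.1 hX) (add_le_add (mul_le_mul_left c1 _) le_rfl)
    _ = 3 / 2 * B + (1 / 10 + 5 * 100⁻¹) * N := by ring
    _ ≤ _ := add_le_add le_rfl (mul_le_mul_left c2 _)

theorem lin {T : PF → PF} (hT : PosOp T) {f g : PF} (hf : Measurable f) (hg : Measurable g)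
    (a b : ℝ≥0∞) (p : Ph) : T (fun q => a * f q + b * g q) p = a * T f p + b * T g p := by
  have h := congrFun (hT.add _ _ (hf.const_mul a) (hg.const_mul b)) p
  rw [hT.smul a f hf, hT.smul b g hg] at h
  exact h

theorem lin_le {T : PF → PF} (hT : PosOp T) {d f g : PF} (hd : Measurable d) (hf : Measurable f)
    (hg : Measurable g) {a b : ℝ≥0∞} (h : ∀ q, d q ≤ a * f q + b * g q) (p : Ph) :
    T d p ≤ a * T f p + b * T g p :=
  (hT.mono _ _ hd ((hf.const_mul a).add (hg.const_mul b)) h p).trans_eq (lin hT hf hg a b p)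

theorem easy {T : PF → PF} (hT : PosOp T) {B N g : PF} (mB : Measurable B) (mN : Measurable N)
    (mg : Measurable g) (hg : g ≤ fun q => 2 * B q + 1 * N q) {p : Ph} {δ η Y : ℝ≥0∞}
    (hη : η ≤ δ) (hH : Y ≤ T g p + (11 / 10 * B p + η * N p)) (hB : T B p ≤ δ * B p)
    (hN : T N p ≤ δ * N p) : Y ≤ 0 + ((6 * δ + 11 / 10) * B p + 5 * δ * N p) := by
  have h1 := lin_le hT mg mB mN hg p
  calc Y ≤ (2 * (δ * B p) + 1 * (δ * N p)) + (11 / 10 * B p + δ * N p) :=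
        hH.trans (add_le_add (h1.trans (by gcongr)) (by gcongr))
    _ ≤ _ + (4 * δ * B p + 3 * δ * N p) := le_self_add
    _ = _ := by ring

theorem chain {T U C : PF → PF} (hT : PosOp T) (hU : PosOp U)
    (hTUC : ∀ f, Measurable f → ∀ q, T f q = U f q + C f q) (hCm : ∀ f g, f ≤ g → C f ≤ C g)
    (hCa : ∀ f g : PF, Measurable f → Measurable g → ∀ p, C (fun q => f q + g q) p ≤ T f p + C g p)
    {B N g h : PF} (mB : Measurable B) (mN : Measurable N) (mg : Measurable g) {S : Set Ph}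
    {L : Ph → Prop} [DecidablePred L] (mL : MeasurableSet {q | L q}) (hg0 : ∀ q ∉ S, g q = 0)
    (hgh : g ≤ h) (hg : g ≤ fun q => 2 * B q + 1 * N q) {δ η K : ℝ≥0∞} (hη : η ≤ δ)
    (hηK : η * K ≤ δ) (hδ : 2 * δ + 11 / 10 ≤ 2)
    (hH : ∀ q ∈ S, h q ≤ T g q + (11 / 10 * B q + η * N q)) (hB : ∀ q ∈ S, T B q ≤ δ * B q)
    (hC : ∀ q ∈ S, ¬ L q → C N q ≤ η * N q) {p : Ph} (hp : p ∈ S) (hpL : ¬ L p)
    (hlow : T (fun q => if L q then N q else 0) p ≤ δ * N p) (hN : T N p ≤ K * N p) :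
    h p ≤ U (U g) p + ((6 * δ + 11 / 10) * B p + 5 * δ * N p) := by
  set g₁ : PF := fun q => if L q then g q else 0 with hg₁
  set g₂ : PF := fun q => if L q then 0 else g q with hg₂
  have m₁ : Measurable g₁ := Measurable.ite mL mg measurable_const
  have m₂ : Measurable g₂ := Measurable.ite mL measurable_const mg
  have mN₁ : Measurable fun q => if L q then N q else 0 := Measurable.ite mL mN measurable_const
  have mU := hU.meas g mg
  have hUT : ∀ f, Measurable f → U f p ≤ T f p := fun f hf => by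
    rw [hTUC f hf]; exact le_self_add
  have hCg : ∀ f, f ≤ g → ∀ q ∈ S, ¬ L q → C f q ≤ 2 * (δ * B q) + η * N q := by
    intro f hf q hq hL
    refine (hCm _ (fun q => 2 * B q + N q) (fun q => (hf q).trans ((hg q).trans_eq ?_)) q).trans
      ((hCa _ _ (mB.const_mul 2) mN q).trans (add_le_add ?_ (hC q hq hL)))
    · simp only [one_mul]
    · rw [hT.smul 2 B mB]
      exact mul_le_mul_right (hB q hq) _
  have e : g = g₁ + g₂ := funext fun q => by
    simp only [hg₁, hg₂, Pi.add_apply]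
    split_ifs <;> simp
  have h0 : T g p = T g₁ p + (U g₂ p + C g₂ p) := by
    rw [← hTUC _ m₂, ← Pi.add_apply (T g₁), ← hT.add _ _ m₁ m₂, ← e]
  have h1 : T g₁ p ≤ 2 * (δ * B p) + 1 * (δ * N p) := by
    refine (lin_le hT m₁ mB mN₁ (fun q => ?_) p).trans
      (add_le_add (mul_le_mul_right (hB p hp) _) (mul_le_mul_right hlow _))
    simp only [hg₁]
    split_ifs
    · exact hg q
    · exact zero_le
  have h2 : C g₂ p ≤ 2 * (δ * B p) + δ * N p :=
    (hCg g₂ (fun q => by simp only [hg₂]; split_ifs; exacts [zero_le, le_rfl]) p hp hpL).trans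
      (by gcongr)
  have h3 : g₂ ≤ U g + fun q => 2 * B q + 2 * η * N q := fun q => by
    simp only [hg₂, Pi.add_apply]
    split_ifs with hL
    · exact zero_le
    by_cases hq : q ∈ S
    swap
    · rw [hg0 q hq]; exact zero_le
    refine (hgh q).trans ((hH q hq).trans ?_)
    rw [hTUC g mg]
    calc _ ≤ U g q + (2 * (δ * B q) + η * N q) + (11 / 10 * B q + η * N q) :=
          add_le_add (add_le_add le_rfl (hCg g le_rfl q hq hL)) le_rfl
      _ = U g q + ((2 * δ + 11 / 10) * B q + 2 * η * N q) := by ring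
      _ ≤ _ := by gcongr
  have h4 : U g₂ p ≤ U (U g) p + (2 * (δ * B p) + 2 * δ * N p) := by
    have mR : Measurable fun q => 2 * B q + 2 * η * N q := (mB.const_mul 2).add (mN.const_mul _)
    refine (hU.mono _ _ m₂ (mU.add mR) h3 p).trans ?_
    rw [hU.add _ _ mU mR, Pi.add_apply]
    refine add_le_add le_rfl ((hUT _ mR).trans ?_)
    rw [lin hT mB mN]
    refine add_le_add (mul_le_mul_right (hB p hp) _) ((mul_le_mul_right hN _).trans ?_)
    rw [← mul_assoc, mul_assoc 2]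
    gcongr
  calc h p ≤ (2 * (δ * B p) + 1 * (δ * N p) + (U (U g) p + (2 * (δ * B p) + 2 * δ * N p) +
        (2 * (δ * B p) + δ * N p))) + (11 / 10 * B p + δ * N p) := by
        refine (hH p hp).trans (add_le_add ?_ (by gcongr))
        rw [h0]
        exact add_le_add h1 (add_le_add h4 h2)
    _ = _ := by ring

theorem K_small {K : ℝ≥0∞} (hK : K ≠ ⊤) {j : ℝ} (hj : 100 * K.toReal + 1 ≤ j) :
    K * npw j 1 ≤ 100⁻¹ := by
  have hk := K.toReal_nonneg
  have hj0 : 0 < j := by linarith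
  unfold npw
  rw [ENNReal.rpow_neg_one, ← ENNReal.ofReal_inv_of_pos hj0, ← ENNReal.ofReal_toReal hK,
    ← ENNReal.ofReal_mul hk, ← ENNReal.ofReal_ofNat 100,
    ← ENNReal.ofReal_inv_of_pos (by norm_num)]
  refine ENNReal.ofReal_le_ofReal ?_
  rw [← div_eq_mul_inv, div_le_iff₀ hj0]
  linarith

theorem N_ge {P : Par} (hP : P.Basic) {p : Ph} (hp : p.1 ∈ Icc 0 P.t0) {R : ℝ} (hR : ‖p.2.2‖ ≤ R) :
    ENNReal.ofReal (P.s1 ^ P.k2) * ENNReal.ofReal (lst p ^ 2400) *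
      ENNReal.ofReal (Real.exp (-(1 / 4 * R ^ 2))) ≤ wY P (wnF P) p := by
  refine mul_le_mul' le_self_add (le_trans ?_ (le_mul_of_one_le_right' (one_le_Sg p)))
  refine ENNReal.ofReal_le_ofReal (Real.exp_le_exp.2 (neg_le_neg ?_))
  exact mul_le_mul (aT_mem hP hp).2 (pow_le_pow_left₀ (norm_nonneg _) hR 2) (by positivity)
    (by norm_num)

theorem final {K I : ℝ≥0∞} (hK : K ≠ ⊤) {a u E : ℝ} (ha : 0 ≤ a) (hu : 0 < u) (hE : 0 ≤ E)
    (h : 1 / 10 * (ENNReal.ofReal a * ENNReal.ofReal (u ^ 2400) * ENNReal.ofReal E) ≤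
      K * npw u 1094 * I) :
    ENNReal.ofReal (E / (10 * (K.toReal + 1)) * a * u ^ 3494) ≤ I := by
  have hk := K.toReal_nonneg
  set k := K.toReal + 1 with hk1
  have hk0 : 0 < k := by positivity
  have hKk : K ≤ ENNReal.ofReal k :=
    (ENNReal.ofReal_toReal hK).symm.trans_le (ENNReal.ofReal_le_ofReal (by linarith))
  have e1 : npw u 1094 = ENNReal.ofReal (u ^ 1094)⁻¹ := by
    unfold npw
    rw [ENNReal.ofReal_rpow_of_pos hu, Real.rpow_neg hu.le, ← Real.rpow_natCast]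
    norm_num
  have e2 : u ^ 3494 = u ^ 2400 * u ^ 1094 := by rw [← pow_add]
  have e3 : (1 / 10 : ℝ≥0∞) = ENNReal.ofReal (1 / 10) := by
    rw [ENNReal.ofReal_div_of_pos (by norm_num), ENNReal.ofReal_one, ENNReal.ofReal_ofNat]
  have hA : 0 < u ^ 2400 := pow_pos hu _
  have hC : 0 < u ^ 1094 := pow_pos hu _
  rw [e1, e3] at h
  rw [e2]
  generalize u ^ 2400 = A at *
  generalize u ^ 1094 = C at *
  have h2 := mul_le_mul_right (h.trans (mul_le_mul_left (mul_le_mul_left hKk _) _))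
    (ENNReal.ofReal (C / k))
  rw [← mul_assoc _ _ I, ← ENNReal.ofReal_mul hk0.le, ← ENNReal.ofReal_mul ha,
    ← ENNReal.ofReal_mul (p := a * A) (by positivity),
    ← ENNReal.ofReal_mul (p := 1 / 10) (by positivity),
    ← ENNReal.ofReal_mul (p := C / k) (by positivity),
    ← ENNReal.ofReal_mul (p := C / k) (by positivity),
    show C / k * (k * C⁻¹) = 1 by field_simp, ENNReal.ofReal_one, one_mul] at h2
  refine le_trans (le_of_eq ?_) h2
  congr 1
  field_simp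

theorem geom {p : Ph} (ht : 0 ≤ p.1) :
    p.1 ≤ lst p ^ (4 / 3 : ℝ) ∧ ‖red p.2.1‖ ≤ lst p := by
  have h1 := tn_nonneg p.2.1
  have h2 : 0 ≤ p.1 ^ (3 / 4 : ℝ) := Real.rpow_nonneg ht _
  have e : lst p = p.1 ^ (3 / 4 : ℝ) + tn p.2.1 := rfl
  refine ⟨?_, (show tn p.2.1 ≤ lst p by linarith)⟩
  have h3 : (p.1 ^ (3 / 4 : ℝ)) ^ (4 / 3 : ℝ) ≤ lst p ^ (4 / 3 : ℝ) :=
    Real.rpow_le_rpow h2 (by linarith) (by norm_num)
  rw [← Real.rpow_mul ht] at h3
  norm_num at h3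
  exact h3

theorem per_red {f : PF} (hf : Per f) (p : Ph) : f p = f (p.1, red p.2.1, p.2.2) := by
  obtain ⟨m, hm⟩ := exists_red_eq p.2.1
  rw [← hf p.1 (red p.2.1) p.2.2 m, hm, sub_add_cancel]

theorem vel {u R : ℝ} (hu : 0 < u) (hR : 0 < R) (h : u ≤ R ^ (-4 : ℝ)) :
    R ≤ u ^ (-(1 / 4 : ℝ)) := by
  have h1 := Real.rpow_le_rpow_of_nonpos hu h (show -(1 / 4 : ℝ) ≤ 0 by norm_num)
  rw [← Real.rpow_mul hR.le] at h1
  norm_num at h1
  norm_num
  exact h1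

theorem ev_s1 {ε : ℝ} (hε : 0 < ε) : ∀ᶠ P in parF, 2 * P.s1 ≤ ε :=
  ev_r0 fun _ _ _ _ _ _ _ _ _ =>
    ((eventually_le_nhds (show (0 : ℝ) < 500 * ε by positivity)).filter_mono
      nhdsWithin_le_nhds).mono fun r hr => by
        show 2 * (r / 1000) ≤ ε
        linarith

theorem main (U C : Par → ℝ → PF → PF) (hU : ∀ P u, PosOp (U P u))
    (hTUC : ∀ P u f, Measurable f → ∀ p, TT P f p = U P u f p + C P u f p)
    (hCm : ∀ P u f g, f ≤ g → C P u f ≤ C P u g)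
    (hCa : ∀ P u (f g : PF), Measurable f → Measurable g → ∀ p,
      C P u (fun q => f q + g q) p ≤ TT P f p + C P u g p)
    (hUp : ∀ P u f, Per f → Per (U P u f))
    (hCs : ∀ η : ℝ≥0∞, 0 < η → ∀ᶠ P in parF, ∀ u ∈ Ioc 0 (2 * P.s1), ∀ q : Ph,
      q.1 ∈ Icc 0 P.t0 → u ^ 2 ≤ lst q → C P u (wY P (wnF P)) q ≤ η * wY P (wnF P) q)
    (hUU : ∃ K : ℝ≥0∞, K ≠ ⊤ ∧ ∀ᶠ P in parF, ∀ u ∈ Ioc 0 (2 * P.s1), ∀ f : PF,
      Measurable f → ∀ p : Ph, 0 ≤ p.1 → p.1 ≤ u ^ (4 / 3 : ℝ) → ‖p.2.1‖ ≤ u →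
      ‖p.2.2‖ ≤ u ^ (-(1 / 4 : ℝ)) → U P u (U P u f) p ≤ K * npw u 1094 * ∫⁻ q in MR u, f q)
    (hhh : ∀ η : ℝ≥0∞, 0 < η → ∃ c : ℝ, 0 < c ∧ ∀ᶠ P in parF, ∀ (τ α : ℝ) (F : PF),
      0 < τ → α ≤ c * P.s1 ^ P.k2 * τ ^ 1800 → ESol P 1 (seed τ α) F → ∀ p : Ph,
      p.1 ∈ Icc 0 P.t0 → hh P (seed τ α) F p ≤ TT P (gh P (seed τ α) F) p +
        (11 / 10 * wY P (wbF P) p + η * wY P (wnF P) p)) :
    ∃ c : ℝ, 0 < c ∧ ∃ c6 : ℝ, 0 < c6 ∧ ∀ᶠ P in parF, ∀ (τ α : ℝ) (F : PF),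
    0 < τ → α ≤ c6 * P.s1 ^ P.k2 * τ ^ 1800 → ESol P 1 (seed τ α) F → Wit P (seed τ α) F →
    ∃ u ∈ Ioc 0 (2 * P.s1),
      ENNReal.ofReal (c * P.s1 ^ P.k2 * u ^ 3494) ≤ ∫⁻ p in MR u, hh P (seed τ α) F p := by
  obtain ⟨K, hK, hN⟩ := TT_wn
  obtain ⟨K', hK', hUU⟩ := hUU
  have hδ : (0 : ℝ≥0∞) < 100⁻¹ := by norm_num
  set η : ℝ≥0∞ := 100⁻¹ * (K + 1)⁻¹ with hη
  have hK1 : K + 1 ≠ ⊤ := by finiteness
  have hη0 : 0 < η := ENNReal.mul_pos hδ.ne' (ENNReal.inv_ne_zero.2 hK1)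
  have hη1 : η ≤ 100⁻¹ := mul_le_of_le_one_right' (ENNReal.inv_le_one.2 le_add_self)
  have hη2 : η * K ≤ 100⁻¹ := by
    rw [hη, mul_assoc]
    refine mul_le_of_le_one_right' ((mul_le_mul_right (le_self_add (b := 1)) _).trans_eq ?_)
    exact ENNReal.inv_mul_cancel (by simp) hK1
  obtain ⟨c6, hc6, hhh⟩ := hhh η hη0
  set R : ℝ := 100 * K.toReal + 1 with hR
  have hR0 : 0 < R := by positivity
  refine ⟨Real.exp (-(1 / 4 * R ^ 2)) / (10 * (K'.toReal + 1)), by positivity, c6, hc6, ?_⟩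
  filter_upwards [ev_basic, hUU, hhh, hCs η hη0, TT_wb _ hδ, TT_wn_far _ hδ, TT_wn_low _ hδ,
    ev_s1 (Real.rpow_pos_of_pos hR0 (-4)), ev_s1 one_pos]
    with P hP hUU hhh hCs hwb hfar hlow hs1 hs2 τ α F hτ hα hF ⟨p, hp, hW⟩
  have mβ := measurable_seed τ α
  have mB := measurable_wY P (measurable_wbF P)
  have mN := measurable_wY P (measurable_wnF P)
  have mg := hF.measurable_gh mβ
  have hT := posOp_TT P
  have hH := hhh τ α F hτ hα hF
  have hB : ∀ q : Ph, q.1 ∈ Icc 0 P.t0 → TT P (wY P (wbF P)) q ≤ 100⁻¹ * wY P (wbF P) q :=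
    fun q hq => (hwb q hq).trans (mul_le_mul_left (mul_le_of_le_one_right'
      (ENNReal.rpow_le_one_of_one_le_of_neg (Wb.one_le_J _) (by norm_num))) _)
  have hg : gh P (seed τ α) F ≤ fun q => 2 * wY P (wbF P) q + 1 * wY P (wnF P) q := fun q => by
    refine (hF.gh_le q).trans ?_
    unfold cut
    split_ifs
    · exact add_le_add (mul_le_mul_left (num (by finiteness) (by finiteness) (by norm_num)) _)
        (mul_le_mul_left (num (by finiteness) (by finiteness) (by norm_num)) _)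
    · exact zero_le
  have hW' : 3 / 2 * wY P (wbF P) p + 1 / 5 * wY P (wnF P) p < hh P (seed τ α) F p := by
    unfold hh cut
    rw [if_pos hp, lt_tsub_iff_left, ← add_assoc]
    exact hW
  have hA : ¬ TT P (wY P (wnF P)) p ≤ 100⁻¹ * wY P (wnF P) p := fun h =>
    not_lt_zero (arith hW' (easy hT mB mN mg hg hη1 (hH p hp) (hB p hp) h))
  have ht : 0 < p.1 := by
    refine hp.1.lt_of_ne fun h => hA ?_
    unfold TT Ia
    rw [← h, Ioo_self, Measure.restrict_empty, lintegral_zero_measure]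
    exact zero_le
  have hu : lst p ∈ Ioc 0 (2 * P.s1) := ⟨lst_pos ht, le_of_not_ge fun h => hA (hfar p hp h)⟩
  have hv : ‖p.2.2‖ ≤ R := by
    have : jb p.2.2 ≤ R := le_of_not_ge fun h =>
      hA ((hN P hP p hp).trans (mul_le_mul_left (K_small hK h) _))
    unfold jb at this
    linarith
  refine ⟨lst p, hu, final hK' (pow_nonneg (MB.s1_pos hP.r0_pos).le _) hu.1 (Real.exp_pos _).le ?_⟩
  have h1 := arith hW' (chain hT (hU P (lst p)) (hTUC P _) (hCm P _) (hCa P _) mB mN mg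
    (S := {q | q.1 ∈ Icc 0 P.t0}) (L := fun q => lst q < lst p ^ 2)
    (measurableSet_lt measurable_lst measurable_const) (fun q hq => if_neg hq) gh_le_hh hg hη1 hη2
    c3 hH hB (fun q hq hL => hCs _ hu q hq (not_lt.1 hL)) hp
    (not_lt.2 (by nlinarith [hu.1, hu.2])) (hlow p hp hu.2)
    ((hN P hP p hp).trans (mul_le_mul_left (mul_le_of_le_one_right' (OpsA1.npw_jb_le_one _)) _)))
  refine (mul_le_mul_right (N_ge hP hp hv) _).trans (h1.le.trans ?_)
  rw [per_red (hUp P _ _ (hUp P _ _ (hF.per_gh (per_seed τ α)))) p]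
  exact (hUU _ hu _ mg (p.1, red p.2.1, p.2.2) hp.1 (geom hp.1).1 (geom hp.1).2
    (hv.trans (vel hu.1 hR0 (hu.2.trans hs1)))).trans
    (mul_le_mul_right (lintegral_mono gh_le_hh) _)

end DFS
end
end Crest.Agent.R68
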