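import Crest.Agent.R68.DFBAuxT
import Crest.Agent.R68.DFBAuxS
import Crest.Agent.R68.DFA
import Crest.Agent.R68.DFBAuxA

/-! # Row 68: Doeblin-Fortet argument, part B: truncated operators -/

set_option autoImplicit false
open MeasureTheory Set Filter Topology
open scoped ENNReal NNReal
open Crest.AnalysisR.VecCalc3 Crest.AnalysisR.PDE.Boltzmann

namespace Crest.Agent.R68
noncomputable section

/-- admissible collision times -/
def okS (u : ℝ) (p : Ph) (s : ℝ) : Prop := u ^ 4 ≤ p.1 - s ∧ u ^ 108 ≤ |x1 (red (fl p s).2.1)|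
/-- admissible parent velocities -/
def okV (u : ℝ) (v ζ : R3) : Prop := u ≤ ‖ζ - v‖ ∧ ‖ζ - v‖ ≤ u ^ (-(1 / 4 : ℝ))

open Classical in
/-- truncated multiplication operator -/
def Tu (P : Par) (u : ℝ) (f : PF) : PF := fun p => ∫⁻ s in Ioo 0 p.1,
  if okS u p s then
    2 * Qp (sec (c0 P) (fl p s)) (fun ζ => if okV u p.2.2 ζ then sec f (fl p s) ζ else 0) p.2.2
  else 0

open Classical in
/-- the truncation error -/
def Tc (P : Par) (u : ℝ) (f : PF) : PF := fun p => ∫⁻ s in Ioo 0 p.1,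
  if okS u p s then
    2 * Qp (sec (c0 P) (fl p s)) (fun ζ => if okV u p.2.2 ζ then 0 else sec f (fl p s) ζ) p.2.2
  else 2 * QF (c0 P) f (fl p s)

namespace DFBA

open Classical in
/-- the weight of `Tu` -/
def wU (u : ℝ) (p : Ph) (s : ℝ) (ζ : R3) : ℝ≥0∞ := if okS u p s ∧ okV u p.2.2 ζ then 1 else 0

open Classical in
/-- the weight of `Tc` -/
def wC (u : ℝ) (p : Ph) (s : ℝ) (ζ : R3) : ℝ≥0∞ := if okS u p s ∧ okV u p.2.2 ζ then 0 else 1

theorem meas_ok (u : ℝ) :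
    MeasurableSet {x : (Ph × ℝ) × R3 | okS u x.1.1 x.1.2 ∧ okV u x.1.1.2.2 x.2} := by
  have h1 : Measurable fun x : (Ph × ℝ) × R3 => |x1 (red (fl x.1.1 x.1.2).2.1)| :=
    (mba_x1.comp (measurable_red.comp (measurable_fl.comp measurable_fst).snd.fst)).abs
  have h2 : Measurable fun x : (Ph × ℝ) × R3 => ‖x.2 - x.1.1.2.2‖ := by fun_prop
  exact ((measurableSet_le measurable_const (measurable_fst.fst.fst.sub measurable_fst.snd)).inter
    (measurableSet_le measurable_const h1)).inter ((measurableSet_le measurable_const h2).inter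
      (measurableSet_le h2 measurable_const))

theorem mw_U (u : ℝ) : MW (wU u) := Measurable.ite (meas_ok u) measurable_const measurable_const

theorem mw_C (u : ℝ) : MW (wC u) := Measurable.ite (meas_ok u) measurable_const measurable_const

theorem Tu_eq (P : Par) (u : ℝ) : Tu P u = Tw P (wU u) := by
  funext f p
  refine lintegral_congr fun s => ?_
  by_cases h : okS u p s
  · rw [if_pos h]
    congr 2
    funext ζ
    by_cases h' : okV u p.2.2 ζ <;> simp [wU, h, h']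
  · rw [if_neg h]
    have e : (fun ζ => wU u p s ζ * sec f (fl p s) ζ) = fun _ => 0 :=
      funext fun ζ => by simp [wU, h]
    rw [e]
    simp [Qp, QH]

theorem Tc_eq (P : Par) (u : ℝ) : Tc P u = Tw P (wC u) := by
  funext f p
  refine lintegral_congr fun s => ?_
  by_cases h : okS u p s
  · rw [if_pos h]
    congr 2
    funext ζ
    by_cases h' : okV u p.2.2 ζ <;> simp [wC, h, h']
  · rw [if_neg h]
    have e : (fun ζ => wC u p s ζ * sec f (fl p s) ζ) = sec f (fl p s) :=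
      funext fun ζ => by simp [wC, h]
    rw [e]
    rfl

end DFBA

theorem posOp_Tu (P : Par) (u : ℝ) : PosOp (Tu P u) := by
  rw [DFBA.Tu_eq]
  exact DFBA.posOp_Tw (DFBA.mw_U u)

theorem posOp_Tc (P : Par) (u : ℝ) : PosOp (Tc P u) := by
  rw [DFBA.Tc_eq]
  exact DFBA.posOp_Tw (DFBA.mw_C u)

theorem TT_eq_Tu_add_Tc (P : Par) (u : ℝ) {f : PF} (hf : Measurable f) (p : Ph) :
    TT P f p = Tu P u f p + Tc P u f p := by
  rw [DFBA.Tu_eq, DFBA.Tc_eq]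
  refine DFBA.TT_eq_add (DFBA.mw_U u) (fun p s ζ => ?_) hf p
  unfold DFBA.wU DFBA.wC
  split_ifs <;> simp

theorem Tc_mono (P : Par) (u : ℝ) {f g : PF} (h : f ≤ g) : Tc P u f ≤ Tc P u g := by
  rw [DFBA.Tc_eq]
  exact DFBA.Tw_mono h

theorem Tc_add_le (P : Par) (u : ℝ) {f g : PF} (hf : Measurable f) (hg : Measurable g) (p : Ph) :
    Tc P u (fun q => f q + g q) p ≤ TT P f p + Tc P u g p := by
  have h : Tc P u (fun q => f q + g q) p = Tc P u f p + Tc P u g p :=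
    congrFun ((posOp_Tc P u).add f g hf hg) p
  rw [h, TT_eq_Tu_add_Tc P u hf]
  exact add_le_add le_add_self le_rfl

theorem Tc_cut {P : Par} (u : ℝ) (f : PF) {p : Ph} (hp : p.1 ∈ Icc 0 P.t0) :
    Tc P u (cut P f) p = Tc P u f p := by
  rw [DFBA.Tc_eq]
  exact DFBA.Tw_cut f hp

theorem Tu_per (P : Par) (u : ℝ) {f : PF} (hf : Per f) : Per (Tu P u f) := by
  intro t x v m
  refine lintegral_congr fun s => ?_
  have h1 : okS u (t, x + lat m, v) s ↔ okS u (t, x, v) s := by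
    simp only [okS, PosA.fl_lat, red_add_lat]
    rfl
  have h2 : ∀ g : PF, Per g → sec g (fl (t, x + lat m, v) s) = sec g (fl (t, x, v) s) :=
    fun g hg => by
      rw [PosA.fl_lat, PosA.per_sec hg]
      rfl
  rw [h2 f hf, h2 _ (per_c0 P), propext h1]

/-- For each of the two powers `k ∈ {2400, k2}`: (i) times `t - s < u⁴`: `src_c0`, `flight3`
(`|E|^{3/4} ≤ u³`, `lst^{k-1} ≤ u^{-2} lst^k`); (ii) times in `slabS (u^108)`: `src_csm`, `flight3`,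
`slab_time` (`|E|^{3/4} ≤ |E|^{1/36}`), Young as in `TT_wb`, and `flight0` for the `r0` term;
(iii) `src_c0_trunc` with `ϑ = u` and `flight1`. -/
theorem Tc_small (η : ℝ≥0∞) (hη : 0 < η) : ∀ᶠ P in parF, ∀ u ∈ Ioc 0 (2 * P.s1), ∀ q : Ph,
    q.1 ∈ Icc 0 P.t0 → u ^ 2 ≤ lst q → Tc P u (wY P (wnF P)) q ≤ η * wY P (wnF P) q := by
  obtain ⟨K, hK, h⟩ := DFBT.main
  filter_upwards [DFBT.ev_small hK η hη, ev_basic] with P hs hP u hu q hq hl
  refine (h P hP u hu q hq hl _ fun s _ => ?_).trans (mul_le_mul_left hs _)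
  by_cases h1 : okS u q s
  · refine Or.inl ((if_pos h1).trans_le (mul_le_mul_right
      (SrcB.Qp_mono (fun _ => le_rfl) (fun ζ => ?_) _) _))
    by_cases h2 : okV u q.2.2 ζ
    · rw [if_pos h2]
      exact zero_le
    · rw [if_neg h2, if_pos (by simpa only [okV, not_and_or, not_le] using h2)]
  · exact Or.inr ⟨by simpa only [okS, not_and_or, not_le] using h1, (if_neg h1).le⟩

theorem TuSq_npw_pow {u : ℝ} (hu : 0 < u) : npw (u ^ 108) 5 = npw u 540 := by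
  unfold npw
  rw [ENNReal.ofReal_pow hu.le, ← ENNReal.rpow_natCast, ← ENNReal.rpow_mul]
  norm_num

theorem TuSq_inv_le {u τ : ℝ} (hu : 0 < u) (h : u ^ 4 ≤ τ) :
    ENNReal.ofReal ((τ ^ 3)⁻¹) ≤ npw u 12 := by
  unfold npw
  rw [ENNReal.ofReal_rpow_of_pos hu, Real.rpow_neg hu.le]
  refine ENNReal.ofReal_le_ofReal (inv_anti₀ (by positivity) ?_)
  calc u ^ (12 : ℝ) = (u ^ 4) ^ 3 := by rw [← pow_mul, ← Real.rpow_natCast]; norm_num
    _ ≤ τ ^ 3 := pow_le_pow_left₀ (by positivity) h 3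

theorem TuSq_one {K : ℝ≥0∞} (hK' : K ≠ ⊤) {P : Par}
    (hK : ∀ q : Ph, q.1 ∈ Icc (0 : ℝ) (1 / 10) →
      ‖q.2.1‖ ≤ 1 / 4 → ∀ ϱ : ℝ, 0 < ϱ → ϱ ≤ |x1 q.2.1| → ∀ g : R3 → ℝ≥0∞, Measurable g →
      Qp (sec (c0 P) q) g q.2.2 ≤ K * npw ϱ 5 * ∫⁻ ζ, npw ‖ζ - q.2.2‖ 1 * g ζ)
    {u : ℝ} (hu : 0 < u) {g : PF} (hg : Measurable g) (p : Ph) (ht : p.1 ≤ 1 / 10)
    (hx : ∀ s ∈ Ioo 0 p.1, ‖p.2.1 - (p.1 - s) • p.2.2‖ ≤ 1 / 4) :
    Tu P u g p ≤ 2 * K * npw u 541 * ∫⁻ s in Ioo 0 p.1, if u ^ 4 ≤ p.1 - s then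
      ∫⁻ ζ, if ‖ζ - p.2.2‖ ≤ u ^ (-(1 / 4 : ℝ)) then g (s, p.2.1 - (p.1 - s) • p.2.2, ζ) else 0
      else 0 := by
  classical
  have hn : ∀ γ : ℝ, npw u γ ≠ ⊤ := fun γ => by
    unfold npw
    rw [ENNReal.ofReal_rpow_of_pos hu]
    exact ENNReal.ofReal_ne_top
  rw [← lintegral_const_mul' _ _ (ENNReal.mul_ne_top (ENNReal.mul_ne_top (by simp) hK') (hn _))]
  refine setLIntegral_mono' measurableSet_Ioo fun s hs => ?_
  by_cases h : okS u p s
  · rw [if_pos h, if_pos h.1]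
    have hm : MeasurableSet {ζ : R3 | okV u p.2.2 ζ} :=
      (measurableSet_le (f := fun _ => u) (g := fun ζ : R3 => ‖ζ - p.2.2‖) measurable_const
        (by fun_prop)).inter (measurableSet_le (f := fun ζ : R3 => ‖ζ - p.2.2‖)
          (g := fun _ => u ^ (-(1 / 4 : ℝ))) (by fun_prop) measurable_const)
    have h2 := h.2
    rw [red_eq_self (x := (fl p s).2.1) ((hx s hs).trans_lt (by norm_num))] at h2
    have h3 := hK (fl p s) ⟨hs.1.le, hs.2.le.trans ht⟩ (hx s hs) _ (pow_pos hu 108) h2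
      (fun ζ => if okV u p.2.2 ζ then sec g (fl p s) ζ else 0)
      (Measurable.ite hm (measurable_sec hg (fl p s)) measurable_const)
    rw [TuSq_npw_pow hu] at h3
    refine (mul_le_mul_right h3 2).trans ?_
    rw [show (541 : ℝ) = 540 + 1 by norm_num, BallA.npw_add hu, mul_assoc 2, mul_assoc 2,
      ← mul_assoc K, mul_assoc (K * _), ← lintegral_const_mul' _ _ (hn 1)]
    refine mul_le_mul_right (mul_le_mul_right (lintegral_mono fun ζ => ?_) _) _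
    by_cases hv : okV u p.2.2 ζ
    · simp only [if_pos hv, if_pos hv.2]
      exact mul_le_mul_left (BallA.npw_anti zero_le_one hv.1) _
    · simp only [if_neg hv, mul_zero]
      exact zero_le
  · rw [if_neg h]
    exact zero_le

theorem TuSq_two {u : ℝ} (hu : 0 < u) {G : PF} (hG : Measurable G) (s : ℝ) (z : R3) :
    ∫⁻ ζ₁ : R3, ∫⁻ s' : ℝ, (if u ^ 4 ≤ s - s' then ∫⁻ ζ₂, G (s', z - (s - s') • ζ₁, ζ₂) else 0) ≤
      npw u 12 * ∫⁻ q, G q := by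
  have hH : Measurable fun y : ℝ × R3 => ∫⁻ ζ₂, G (y.1, y.2, ζ₂) :=
    Measurable.lintegral_prod_right' (f := fun w : (ℝ × R3) × R3 => G (w.1.1, w.1.2, w.2))
      (hG.comp (by fun_prop))
  have hΦ : Measurable (Function.uncurry fun (ζ₁ : R3) (s' : ℝ) =>
      if u ^ 4 ≤ s - s' then ∫⁻ ζ₂, G (s', z - (s - s') • ζ₁, ζ₂) else 0) :=
    Measurable.ite (measurableSet_le measurable_const (by fun_prop))
      (hH.comp (f := fun w : R3 × ℝ => (w.2, z - (s - w.2) • w.1)) (by fun_prop)) measurable_const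
  have hn : npw u 12 ≠ ⊤ := by
    unfold npw
    rw [ENNReal.ofReal_rpow_of_pos hu]
    exact ENNReal.ofReal_ne_top
  rw [lintegral_lintegral_swap hΦ.aemeasurable, Measure.volume_eq_prod,
    lintegral_prod _ hG.aemeasurable, ← lintegral_const_mul' _ _ hn]
  refine lintegral_mono fun s' => ?_
  by_cases h : u ^ 4 ≤ s - s'
  · simp only [if_pos h]
    rw [lint_affine (fun y => ∫⁻ ζ₂, G (s', y, ζ₂)) (hH.comp measurable_prodMk_left) z _
      ((pow_pos hu 4).trans_le h), Measure.volume_eq_prod,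
      lintegral_prod (fun y : R3 × R3 => G (s', y)) (hG.comp measurable_prodMk_left).aemeasurable]
    exact mul_le_mul_left (TuSq_inv_le hu h) _
  · simp only [if_neg h, lintegral_zero]
    exact zero_le

/-- All points have `‖z‖ ≤ 3u ≤ 1/4` so `red z = z`; `kernel_c0` gives kernels `≤ 2 K u^{-540} u^{-1}`;
`‖ζ₁‖ ≤ 2 u^{-1/4}`, `‖ζ₂‖ ≤ 3 u^{-1/4} ≤ u^{-1/3}`; Tonelli and `lint_affine` in `ζ₁` with `τ = s - s' ≥ u⁴`. -/
theorem Tu_sq_le : ∃ K : ℝ≥0∞, K ≠ ⊤ ∧ ∀ᶠ P in parF, ∀ u ∈ Ioc 0 (2 * P.s1), ∀ f : PF,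
    Measurable f → ∀ p : Ph, 0 ≤ p.1 → p.1 ≤ u ^ (4 / 3 : ℝ) → ‖p.2.1‖ ≤ u →
    ‖p.2.2‖ ≤ u ^ (-(1 / 4 : ℝ)) → Tu P u (Tu P u f) p ≤ K * npw u 1094 * ∫⁻ q in MR u, f q := by
  obtain ⟨K, hK', hK⟩ := kernel_c0
  refine ⟨2 * K * (2 * K), by finiteness, ?_⟩
  filter_upwards [ev_basic] with P hP u hu f hf p _ ht hx hv
  have hu0 := hu.1
  have hu1 : u ≤ 1 / 10 ^ 6 := by
    have h1 := hP.r0_K
    have h2 := hu.2
    unfold cK at h1
    unfold Par.s1 at h2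
    linarith
  have hT : u ^ (4 / 3 : ℝ) ≤ u := by
    simpa using Real.rpow_le_rpow_of_exponent_ge hu0 (by linarith) (show (1 : ℝ) ≤ 4 / 3 by norm_num)
  have ha0 : 0 < u ^ (-(1 / 4 : ℝ)) := Real.rpow_pos_of_pos hu0 _
  have hTa : u ^ (4 / 3 : ℝ) * u ^ (-(1 / 4 : ℝ)) ≤ u := by
    rw [← Real.rpow_add hu0]
    simpa using Real.rpow_le_rpow_of_exponent_ge hu0 (by linarith)
      (show (1 : ℝ) ≤ 4 / 3 + -(1 / 4) by norm_num)
  have h3a : 3 * u ^ (-(1 / 4 : ℝ)) ≤ u ^ (-(1 / 3 : ℝ)) := by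
    rw [show -(1 / 3 : ℝ) = -(1 / 12) + -(1 / 4) by norm_num, Real.rpow_add hu0]
    refine mul_le_mul_of_nonneg_right ?_ ha0.le
    have e : (3 : ℝ) = ((1 / 3) ^ 12 : ℝ) ^ (-(1 / 12 : ℝ)) := by
      rw [← Real.rpow_natCast, ← Real.rpow_mul (by norm_num)]
      norm_num [Real.rpow_neg_one]
    rw [e]
    exact Real.rpow_le_rpow_of_nonpos hu0 (by linarith) (by norm_num)
  have hn : ∀ γ : ℝ, npw u γ ≠ ⊤ := fun γ => by
    unfold npw
    rw [ENNReal.ofReal_rpow_of_pos hu0]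
    exact ENNReal.ofReal_ne_top
  have hC : 2 * K * npw u 541 ≠ ⊤ := ENNReal.mul_ne_top (ENNReal.mul_ne_top (by simp) hK') (hn _)
  have hz : ∀ s ∈ Ioo 0 p.1, ‖p.2.1 - (p.1 - s) • p.2.2‖ ≤ u + (p.1 - s) * u ^ (-(1 / 4 : ℝ)) := by
    intro s hs
    refine (norm_sub_le _ _).trans (add_le_add hx ?_)
    rw [norm_smul, Real.norm_of_nonneg (sub_nonneg.2 hs.2.le)]
    exact mul_le_mul_of_nonneg_left hv (sub_nonneg.2 hs.2.le)
  have hta : p.1 * u ^ (-(1 / 4 : ℝ)) ≤ u := (mul_le_mul_of_nonneg_right ht ha0.le).trans hTa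
  have hG : Measurable ((MR u).indicator f) := hf.indicator (measurableSet_MR u)
  have key : ∀ s ∈ Ioo 0 p.1, ∀ ζ₁ : R3, ‖ζ₁ - p.2.2‖ ≤ u ^ (-(1 / 4 : ℝ)) →
      Tu P u f (s, p.2.1 - (p.1 - s) • p.2.2, ζ₁) ≤ 2 * K * npw u 541 *
        ∫⁻ s' : ℝ, (if u ^ 4 ≤ s - s' then
          ∫⁻ ζ₂, (MR u).indicator f (s', p.2.1 - (p.1 - s) • p.2.2 - (s - s') • ζ₁, ζ₂) else 0) := by
    intro s hs ζ₁ h1
    have h2 : ‖ζ₁‖ ≤ 2 * u ^ (-(1 / 4 : ℝ)) := by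
      have := norm_add_le (ζ₁ - p.2.2) p.2.2
      rw [sub_add_cancel] at this
      linarith
    have h3 : ∀ s' ∈ Ioo 0 s, ‖p.2.1 - (p.1 - s) • p.2.2 - (s - s') • ζ₁‖ ≤ 3 * u := by
      intro s' hs'
      refine (norm_sub_le _ _).trans ?_
      rw [norm_smul, Real.norm_of_nonneg (sub_nonneg.2 hs'.2.le)]
      have e1 := hz s hs
      have e2 := mul_le_mul_of_nonneg_left h2 (sub_nonneg.2 hs'.2.le)
      have e3 := mul_pos hs'.1 ha0
      have e4 := mul_pos (sub_pos.2 hs.2) ha0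
      nlinarith
    refine (TuSq_one hK' (hK P hP) hu0 hf (s, p.2.1 - (p.1 - s) • p.2.2, ζ₁)
      (by linarith [hs.2]) fun s' hs' => (h3 s' hs').trans (by linarith)).trans
      (mul_le_mul_right ?_ _)
    refine le_trans (setLIntegral_mono' measurableSet_Ioo fun s' hs' => ?_)
      (setLIntegral_le_lintegral (Ioo 0 s) _)
    dsimp only
    split_ifs
    · refine lintegral_mono fun ζ₂ => ?_
      dsimp only
      split_ifs with h4
      · rw [indicator_of_mem]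
        refine ⟨hs'.1, by linarith [hs'.2, hs.2], h3 s' hs', le_trans ?_ h3a⟩
        have := norm_add_le (ζ₂ - ζ₁) ζ₁
        rw [sub_add_cancel] at this
        dsimp only
        linarith
      · exact zero_le
    · exact le_rfl
  refine (TuSq_one hK' (hK P hP) hu0 ((posOp_Tu P u).meas f hf) p (by linarith)
    fun s hs => (hz s hs).trans (by nlinarith [mul_pos hs.1 ha0])).trans ?_
  have h5 : ∫⁻ s in Ioo 0 p.1, (if u ^ 4 ≤ p.1 - s then
      ∫⁻ ζ, if ‖ζ - p.2.2‖ ≤ u ^ (-(1 / 4 : ℝ)) then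
        Tu P u f (s, p.2.1 - (p.1 - s) • p.2.2, ζ) else 0 else 0) ≤
      ∫⁻ _s in Ioo 0 p.1, 2 * K * npw u 541 * (npw u 12 * ∫⁻ q in MR u, f q) := by
    refine setLIntegral_mono' measurableSet_Ioo fun s hs => ?_
    split_ifs
    · rw [← lintegral_indicator (measurableSet_MR u)]
      refine le_trans ?_ (mul_le_mul_right (TuSq_two hu0 hG s (p.2.1 - (p.1 - s) • p.2.2)) _)
      rw [← lintegral_const_mul' _ _ hC]
      refine lintegral_mono fun ζ => ?_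
      dsimp only
      split_ifs with h1
      · exact key s hs ζ h1
      · exact zero_le
    · exact zero_le
  rw [setLIntegral_const, Real.volume_Ioo] at h5
  have h6 : ENNReal.ofReal (p.1 - 0) ≤ 1 := ENNReal.ofReal_le_one.2 (by linarith)
  refine (mul_le_mul_right (h5.trans (mul_le_of_le_one_right' h6)) _).trans (le_of_eq ?_)
  rw [show (1094 : ℝ) = 541 + 541 + 12 by norm_num, BallA.npw_add hu0, BallA.npw_add hu0]
  ring

/-- `hh_le`, `mm_le_cZ`, `gh ≤ omF 1 YY ≤ 3 YY`, `g0_le`, `small_ops`, `Ia_leak`, `Ia_seed_le` -/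
theorem hh_le_TT (η : ℝ≥0∞) (hη : 0 < η) : ∃ c : ℝ, 0 < c ∧ ∀ᶠ P in parF, ∀ (τ α : ℝ) (F : PF),
    0 < τ → α ≤ c * P.s1 ^ P.k2 * τ ^ 1800 → ESol P 1 (seed τ α) F → ∀ p : Ph, p.1 ∈ Icc 0 P.t0 →
    hh P (seed τ α) F p ≤ TT P (gh P (seed τ α) F) p +
      (11 / 10 * wY P (wbF P) p + η * wY P (wnF P) p) :=
  DFBA.hh_le_TT η hη

/-- From the witness `p` (WLOG `x = red x` by periodicity; `t > 0`, `YY p ≠ ⊤`), `u = lst p`:
`3/2 wbY + 1/5 wnY < hh p ≤ TT gh p + 11/10 wbY + η wnY`, `gh ≤ 3/2 wbY + 1/4 wnY`.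
`TT_wb`, `TT_wn` exclude `⟨v⟩ ≥ R₁ = 100 K`; `TT_wn_far` excludes `u ≥ 2 s₁`.  Otherwise
`TT gh p ≤ TT (gh 1{lst < u²}) p + Tc gh p + Tu (gh 1{lst ≥ u²}) p` (`TT_wn_low`, `Tc_small` as `u² ≤ u`), and on
`{lst ≥ u²}` in the strip `gh ≤ hh ≤ Tu gh + Tc gh + 11/10 wbY + η wnY ≤ Tu gh + 2 wbY + 2η wnY`; so
`(1/10) wnY p ≤ Tu (Tu gh) p ≤ K u^{-1094} ∫_{MR u} hh` with `wnY p ≥ s₁^{k2} u^{2400} e^{-R₁²/4}`. -/
theorem sup_to_mass : ∃ c : ℝ, 0 < c ∧ ∃ c6 : ℝ, 0 < c6 ∧ ∀ᶠ P in parF, ∀ (τ α : ℝ) (F : PF),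
    0 < τ → α ≤ c6 * P.s1 ^ P.k2 * τ ^ 1800 → ESol P 1 (seed τ α) F → Wit P (seed τ α) F →
    ∃ u ∈ Ioc 0 (2 * P.s1),
      ENNReal.ofReal (c * P.s1 ^ P.k2 * u ^ 3494) ≤ ∫⁻ p in MR u, hh P (seed τ α) F p :=
  DFS.main Tu Tc posOp_Tu (fun P u _ hf => TT_eq_Tu_add_Tc P u hf) (fun P u _ _ => Tc_mono P u)
    (fun P u _ _ => Tc_add_le P u) (fun P u _ => Tu_per P u) Tc_small Tu_sq_le hh_le_TT

/-- `JJ_seed` if `α` is large; otherwise `sup_to_mass`, `mass_le_JA`, `JA_mono`, `JA_le_JJ`,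
`JA_lam_small`, `JA_ne_top`; finally `JJ_le_JA`, `JJ_le_Jw`. -/
theorem Jw_lower : ∃ c : ℝ, 0 < c ∧ ∀ᶠ P in parF, ∀ F1, ESol P 0 0 F1 → ∀ᶠ τ in 𝓝[>] (0 : ℝ),
    ∀ (α : ℝ) (F : PF), ESol P 1 (seed τ α) F → (∀ p : Ph, p.1 ≤ τ → F p = F1 p) →
    Wit P (seed τ α) F → ENNReal.ofReal (c * P.s1 ^ P.k2) ≤ Jw (QF F F) P.top :=
  DFBA.Jw_lower sup_to_mass

end
end Crest.Agent.R68
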