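import Crest.Agent.R68.OpsA

/-! # Row 68: the truncation error is small (auxiliary file of `DFB`) -/

set_option autoImplicit false
open MeasureTheory Set Filter Topology
open scoped ENNReal NNReal
open Crest.AnalysisR.VecCalc3 Crest.AnalysisR.PDE.Boltzmann

namespace Crest.Agent.R68.DFBT
noncomputable section

open OpsA1 (II measurable_II)

theorem lint_II (P : Par) (p : Ph) (E : Set ℝ) :
    ∫⁻ s in E, II P (wnF P) p s =
      ENNReal.ofReal (P.s1 ^ P.k2) * (∫⁻ s in E, II P (pw 2400) p s) +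
        ENNReal.ofReal (P.s1 ^ 2400) * ∫⁻ s in E, II P (pw P.k2) p s := by
  rw [← lintegral_const_mul _ (measurable_II P (measurable_pw _) p),
    ← lintegral_const_mul _ (measurable_II P (measurable_pw _) p),
    ← lintegral_add_left ((measurable_II P (measurable_pw _) p).const_mul _)]
  refine lintegral_congr fun s => ?_
  unfold II wnF
  ring

theorem full {P : Par} (hP : P.Basic) {p : Ph} (hp : p.1 ∈ Icc 0 P.t0) :
    ∫⁻ s in Ioo 0 p.1, II P (wnF P) p s ≤ wnF P (lst p) * Ga (aT P.k3 p.1) p.2.2 := by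
  have h2 := hP.k2_ge
  have h3 := hP.k3_ge
  have key : ∀ k : ℕ, 100 ≤ k → k ≤ P.k3 → ∫⁻ s in Ioo 0 p.1, II P (pw k) p s ≤
      pw k (lst p) * Ga (aT P.k3 p.1) p.2.2 := fun k hk hk' => by
    refine (flight1 (by omega) hk' p (OpsA1.t0_le_one hP hp)).trans
      (mul_le_of_le_one_left' (ENNReal.ofReal_le_one.2 ?_))
    have : (100 : ℝ) ≤ k := by exact_mod_cast hk
    exact (div_le_one (by linarith)).2 this
  rw [lint_II]
  refine (add_le_add (mul_le_mul_right (key _ (by omega) (by omega)) _)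
    (mul_le_mul_right (key _ (by omega) (by omega)) _)).trans (le_of_eq ?_)
  unfold wnF
  ring

theorem part {P : Par} (hP : P.Basic) {p : Ph} (hp : p.1 ∈ Icc 0 P.t0) {u : ℝ} (hu : 0 < u)
    (hl : u ^ 2 ≤ lst p) {E : Set ℝ} (hE : MeasurableSet E) (hEt : E ⊆ Ioo 0 p.1) :
    ∫⁻ s in E, II P (wnF P) p s ≤ 3 * volume E ^ (3 / 4 : ℝ) * ENNReal.ofReal ((u ^ 2)⁻¹) *
      (wnF P (lst p) * Ga (aT P.k3 p.1) p.2.2) := by
  have h2 := hP.k2_ge
  have h3 := hP.k3_ge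
  have key : ∀ k : ℕ, 1 ≤ k → k ≤ P.k3 → ∫⁻ s in E, II P (pw k) p s ≤
      3 * volume E ^ (3 / 4 : ℝ) *
        (ENNReal.ofReal ((u ^ 2)⁻¹) * pw k (lst p) * Ga (aT P.k3 p.1) p.2.2) := fun k hk hk' => by
    refine (flight3 hk hk' p (OpsA1.t0_le_one hP hp) E hE hEt).trans
      (mul_le_mul_right (mul_le_mul_left ?_ _) _)
    obtain ⟨j, rfl⟩ : ∃ j, k = j + 1 := ⟨k - 1, by omega⟩
    have h0 : 0 < u ^ 2 := by positivity
    unfold pw
    rw [← ENNReal.ofReal_mul (by positivity), Nat.add_sub_cancel, pow_succ' (lst p),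
      ← mul_assoc]
    refine ENNReal.ofReal_le_ofReal (le_mul_of_one_le_left (pow_nonneg (by linarith) _) ?_)
    rw [← div_eq_inv_mul]
    exact (one_le_div h0).2 hl
  rw [lint_II]
  refine (add_le_add (mul_le_mul_right (key _ (by omega) (by omega)) _)
    (mul_le_mul_right (key _ (by omega) (by omega)) _)).trans (le_of_eq ?_)
  unfold wnF
  ring

theorem cube_mul {u : ℝ} (hu : 0 < u) :
    ENNReal.ofReal (u ^ 3) * ENNReal.ofReal ((u ^ 2)⁻¹) = ENNReal.ofReal u := by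
  rw [← ENNReal.ofReal_mul (by positivity)]
  congr 1
  field_simp

theorem slab_le : ∃ K : ℝ≥0∞, K ≠ ⊤ ∧ ∀ (p : Ph) (u : ℝ), p.1 ∈ Icc (0 : ℝ) 1 → 0 < u →
    volume {s : ℝ | s ∈ Ioo 0 p.1 ∧ fl p s ∈ slabS (u ^ 108)} ^ (3 / 4 : ℝ) *
        (npw (jb p.2.2) 1 + DS p ^ (8 / 9 : ℝ)) ≤ K * ENNReal.ofReal (u ^ 3) * Sg p := by
  obtain ⟨K, hK, h⟩ := slab_time
  refine ⟨5 * (K * 8) ^ (1 / 36 : ℝ), ENNReal.mul_ne_top (by norm_num)
    (ENNReal.rpow_ne_top_of_nonneg (by norm_num) (ENNReal.mul_ne_top hK (by norm_num))),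
    fun p u ht hu => ?_⟩
  set A := volume {s : ℝ | s ∈ Ioo 0 p.1 ∧ fl p s ∈ slabS (u ^ 108)} with hA
  have hA1 : A ≤ 1 := by
    refine (measure_mono (t := Ioo 0 p.1) fun s hs => hs.1).trans ?_
    rw [Real.volume_Ioo, sub_zero]
    exact ENNReal.ofReal_le_one.2 ht.2
  have hj : 0 ≤ jb p.2.2 := by unfold jb; positivity
  have hA2 : A ≤ K * 8 * ENNReal.ofReal (u ^ 3) ^ (36 : ℝ) *
      (ENNReal.ofReal (jb p.2.2) ^ (3 : ℝ) * npw |x1 p.2.2| (1 / 4) ^ (4 : ℝ)) := by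
    refine (h p (u ^ 108) ht.1 (by positivity)).trans ?_
    have e1 : npw |x1 p.2.2| (1 / 4) ^ (4 : ℝ) = npw |x1 p.2.2| 1 := by
      unfold npw
      rw [← ENNReal.rpow_mul]
      norm_num
    have e2 : ENNReal.ofReal ((1 + p.1) ^ 3 * jb p.2.2 ^ 3 * u ^ 108) ≤
        8 * ENNReal.ofReal (u ^ 3) ^ (36 : ℝ) * ENNReal.ofReal (jb p.2.2) ^ (3 : ℝ) := by
      rw [ENNReal.ofReal_rpow_of_nonneg hj (by norm_num),
        ENNReal.ofReal_rpow_of_nonneg (by positivity) (by norm_num), ← ENNReal.ofReal_ofNat,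
        ← ENNReal.ofReal_mul (by norm_num), ← ENNReal.ofReal_mul (by positivity)]
      refine ENNReal.ofReal_le_ofReal ?_
      have h8 : (1 + p.1) ^ 3 ≤ 2 ^ 3 := pow_le_pow_left₀ (by linarith [ht.1]) (by linarith [ht.2]) 3
      have e3 : jb p.2.2 ^ (3 : ℝ) = jb p.2.2 ^ 3 := by
        rw [← Real.rpow_natCast]; norm_num
      have e4 : (u ^ 3) ^ (36 : ℝ) = u ^ 108 := by
        rw [show (36 : ℝ) = ((36 : ℕ) : ℝ) by norm_num, Real.rpow_natCast, ← pow_mul]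
      rw [e3, e4]
      have : 0 ≤ jb p.2.2 ^ 3 * u ^ 108 := by positivity
      generalize u ^ 108 = z at this ⊢
      nlinarith
    rw [e1]
    refine (mul_le_mul_left (mul_le_mul_right e2 K) _).trans (le_of_eq ?_)
    ring
  have hA3 : A ^ (3 / 4 : ℝ) ≤ (K * 8) ^ (1 / 36 : ℝ) * ENNReal.ofReal (u ^ 3) *
      (ENNReal.ofReal (jb p.2.2) ^ (1 / 12 : ℝ) * npw |x1 p.2.2| (1 / 4) ^ (1 / 9 : ℝ)) := by
    calc A ^ (3 / 4 : ℝ) ≤ A ^ (1 / 36 : ℝ) :=
          ENNReal.rpow_le_rpow_of_exponent_ge hA1 (by norm_num)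
      _ ≤ _ := ENNReal.rpow_le_rpow hA2 (by norm_num)
      _ = _ := by
        rw [ENNReal.mul_rpow_of_nonneg _ _ (by norm_num),
          ENNReal.mul_rpow_of_nonneg (K * 8) _ (by norm_num),
          ENNReal.mul_rpow_of_nonneg (_ ^ (3 : ℝ)) _ (by norm_num), ← ENNReal.rpow_mul,
          ← ENNReal.rpow_mul, ← ENNReal.rpow_mul]
        norm_num
  have hN : npw (jb p.2.2) (1 / 2) ≤ 1 :=
    (MB.npw_anti (by norm_num) (BilB.one_le_jb _)).trans (MB.npw_one _).le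
  refine (mul_le_mul_left hA3 _).trans ?_
  rw [mul_assoc]
  refine (mul_le_mul_right ((Wb.core_le p).trans
    (mul_le_mul_right (mul_le_of_le_one_left' hN) _)) _).trans (le_of_eq ?_)
  ring

open Classical in
theorem main : ∃ K : ℝ≥0∞, K ≠ ⊤ ∧ ∀ P : Par, P.Basic → ∀ u ∈ Ioc 0 (2 * P.s1), ∀ p : Ph,
    p.1 ∈ Icc 0 P.t0 → u ^ 2 ≤ lst p → ∀ I : ℝ → ℝ≥0∞,
    (∀ s ∈ Ioo 0 p.1, I s ≤ 2 * Qp (sec (c0 P) (fl p s)) (fun ζ =>
        if ‖ζ - p.2.2‖ < u ∨ u ^ (-(1 / 4 : ℝ)) < ‖ζ - p.2.2‖ then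
          sec (wY P (wnF P)) (fl p s) ζ else 0) p.2.2 ∨
      (p.1 - s < u ^ 4 ∨ |x1 (red (fl p s).2.1)| < u ^ 108) ∧
        I s ≤ 2 * QF (c0 P) (wY P (wnF P)) (fl p s)) →
    ∫⁻ s in Ioo 0 p.1, I s ≤ K * ENNReal.ofReal (P.r0 ^ (1 / 9 : ℝ)) * wY P (wnF P) p := by
  obtain ⟨K₁, hK₁, h₁⟩ := src_c0_trunc
  obtain ⟨K₂, hK₂, h₂⟩ := OpsA1.point
  obtain ⟨K₃, hK₃, h₃⟩ := src_csm
  obtain ⟨K₄, hK₄, h₄⟩ := slab_le
  refine ⟨2 * K₁ + 3 * K₂ + 1536 * K₃ * K₄ + 2560 * K₃, by finiteness,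
    fun P hP u hu p ht hl I hI => ?_⟩
  have ht1 := OpsA1.t0_le_one hP ht
  have hr1 : P.r0 ≤ 1 := by linarith [hP.r0_t0, hP.t0_le]
  have hur : u ≤ P.r0 := by
    have := hu.2
    unfold Par.s1 at this
    linarith [hP.r0_pos]
  obtain ⟨ρ, hρ⟩ : ∃ ρ, ρ = ENNReal.ofReal (P.r0 ^ (1 / 9 : ℝ)) := ⟨_, rfl⟩
  have hρ1 : ENNReal.ofReal (u ^ (1 / 9 : ℝ)) ≤ ρ :=
    hρ ▸ ENNReal.ofReal_le_ofReal (Real.rpow_le_rpow hu.1.le hur (by norm_num))
  have hρ2 : ENNReal.ofReal P.r0 ≤ ρ :=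
    hρ ▸ ENNReal.ofReal_le_ofReal (Real.self_le_rpow_of_le_one hP.r0_pos.le hr1 (by norm_num))
  have hρ3 : ENNReal.ofReal u ≤ ρ := (ENNReal.ofReal_le_ofReal hur).trans hρ2
  obtain ⟨W, hW⟩ : ∃ W, W = wnF P (lst p) * Ga (aT P.k3 p.1) p.2.2 := ⟨_, rfl⟩
  obtain ⟨E₁, hE₁⟩ : ∃ E₁ : Set ℝ, E₁ = Ioo 0 p.1 ∩ Ioo (p.1 - u ^ 4) p.1 := ⟨_, rfl⟩
  obtain ⟨E₂, hE₂⟩ : ∃ E₂ : Set ℝ, E₂ = {s : ℝ | s ∈ Ioo 0 p.1 ∧ fl p s ∈ slabS (u ^ 108)} :=
    ⟨_, rfl⟩
  have m₁ : MeasurableSet E₁ := hE₁ ▸ measurableSet_Ioo.inter measurableSet_Ioo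
  have m₂ : MeasurableSet E₂ :=
    hE₂ ▸ measurableSet_Ioo.inter (PosA.measurable_fl' p (measurableSet_slabS _))
  have mI := measurable_II P (measurable_wnF P) p
  have hN := OpsA1.npw_jb_le_one p.2.2
  have hN' : npw (jb p.2.2) (1 / 2) ≤ 1 :=
    (MB.npw_anti (by norm_num) (BilB.one_le_jb _)).trans (MB.npw_one _).le
  obtain ⟨Z, hZ⟩ : ∃ Z, Z = npw (jb p.2.2) 1 + DS p ^ (8 / 9 : ℝ) := ⟨_, rfl⟩
  have hpt : ∀ s ∈ Ioo 0 p.1, I s ≤ 2 * K₁ * ρ * Sg p * II P (wnF P) p s +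
      K₂ * Sg p * E₁.indicator (II P (wnF P) p) s +
      512 * K₃ * Z * E₂.indicator (II P (wnF P) p) s + 2560 * K₃ * ρ * (W * Sg p) := by
    intro s hs
    have hs1 : s ≤ 1 := hs.2.le.trans ht1.2
    have ha : aT P.k3 s ∈ Icc (1 / 16 : ℝ) (1 / 4) := by
      have := aT_mem hP (t := s) ⟨hs.1.le, hs.2.le.trans ht.2⟩
      exact ⟨by linarith [this.1], this.2⟩
    rcases hI s hs with h | ⟨h | h, h'⟩
    · refine le_add_right (le_add_right (le_add_right (h.trans ?_)))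
      have hm : Measurable fun ζ : R3 =>
          if ‖ζ - p.2.2‖ < u ∨ u ^ (-(1 / 4 : ℝ)) < ‖ζ - p.2.2‖ then
            sec (GS (aT P.k3 s)) (fl p s) ζ else 0 :=
        Measurable.ite ((measurableSet_lt (measurable_id.sub_const _).norm measurable_const).union
          (measurableSet_lt measurable_const (measurable_id.sub_const _).norm))
          (SrcM_meas (measurable_GS _) _) measurable_const
      have e := SrcB.Qp_const (SrcM_meas (measurable_c0 P) (fl p s)) hm 1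
        (wnF P (lst (fl p s))) p.2.2
      simp only [one_mul, mul_ite, mul_zero] at e
      refine (mul_le_mul_right (le_of_eq e) 2).trans ?_
      calc _ ≤ 2 * (wnF P (lst (fl p s)) * (K₁ * ρ * npw (ell (fl p s)) 1 * 1 *
            Ga (aT P.k3 s) p.2.2 * Sg p)) := by
            refine mul_le_mul_right (mul_le_mul_right
              ((h₁ P hP p s hs.1 hs.2.le hs1 _ ha u ⟨hu.1, hur.trans hr1⟩).trans ?_) _) _
            gcongr
        _ = _ := by unfold II; ring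
    · refine le_add_right (le_add_right (le_add_left (h'.trans ?_)))
      rw [indicator_of_mem (hE₁ ▸ ⟨hs, by linarith, hs.2⟩ : s ∈ E₁)]
      refine (h₂ P hP _ p ht s hs).trans ?_
      exact mul_le_mul_left (mul_le_mul_left (mul_le_of_le_one_right' hN) _) _
    · rw [add_assoc]
      refine le_add_left (h'.trans ?_)
      have hmem : s ∈ E₂ := by
        obtain ⟨m, hm⟩ := exists_red_eq (fl p s).2.1
        have h1 : ‖red (fl p s).2.1‖ ≤ 1 := tn_le_one _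
        rw [hE₂]
        refine ⟨hs, m, ?_, hm ▸ h.le⟩
        rw [← hm]
        have : (fl p s).1 = s := rfl
        linarith [hs.1]
      rw [indicator_of_mem hmem, QF_wY P (measurable_c0 P), show (fl p s).1 = s from rfl]
      have e : QF (c0 P) (GS (aT P.k3 s)) (fl p s) = QF (csm P) (GS (aT P.k3 s)) (fl p s) := by
        have : sec (c0 P) (fl p s) = sec (csm P) (fl p s) :=
          funext fun η => (csm_eq_c0 hP (p := (s, (fl p s).2.1, η)) ⟨hs.1.le, hs1⟩).symm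
        unfold QF
        rw [this]
      have h8 : ENNReal.ofReal ((1 + s) ^ 8) ≤ 256 := by
        rw [← ENNReal.ofReal_ofNat]
        refine ENNReal.ofReal_le_ofReal ?_
        have : (1 + s) ^ 8 ≤ 2 ^ 8 := pow_le_pow_left₀ (by linarith [hs.1]) (by linarith) 8
        linarith
      have hfl0 := flight0 (adm_wnF hP) p hs.1.le hs.2.le
      have hind : (slabS (3 * P.r0)).indicator (1 : Ph → ℝ≥0∞) (fl p s) ≤ 1 :=
        indicator_le_self _ _ _
      have hrest : npw (jb p.2.2) 1 + DS p ≤ 5 * Sg p :=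
        (Wb.rest_le p).trans (mul_le_mul_right (mul_le_of_le_one_left' hN') _)
      rw [e]
      refine (mul_le_mul_right (mul_le_mul_right (h₃ P hP p s hs.1 hs.2.le _ ha) _) _).trans ?_
      rw [← hZ]
      calc _ ≤ 2 * (wnF P (lst (fl p s)) * (K₃ * 256 * Ga (aT P.k3 s) p.2.2 *
              (1 * npw (ell (fl p s)) 1 * Z + ρ * (5 * Sg p)))) := by gcongr
        _ = 512 * K₃ * Z * II P (wnF P) p s +
              2560 * K₃ * ρ * (wnF P (lst (fl p s)) * Ga (aT P.k3 s) p.2.2 * Sg p) := by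
            unfold II; ring
        _ ≤ _ := by rw [hW]; gcongr
  have hvol : volume (Ioo (0 : ℝ) p.1) ≤ 1 := by
    rw [Real.volume_Ioo, sub_zero]
    exact ENNReal.ofReal_le_one.2 ht1.2
  have hind : ∀ E : Set ℝ, MeasurableSet E →
      ∫⁻ s in Ioo 0 p.1, E.indicator (II P (wnF P) p) s ≤ ∫⁻ s in E, II P (wnF P) p s :=
    fun E hE => (setLIntegral_le_lintegral _ _).trans_eq (lintegral_indicator hE _)
  have i₀ := full hP ht
  have i₁ : ∫⁻ s in Ioo 0 p.1, E₁.indicator (II P (wnF P) p) s ≤ 3 * ρ * W := by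
    refine (hind _ m₁).trans ((part hP ht hu.1 hl m₁ (hE₁ ▸ inter_subset_left)).trans ?_)
    have v : volume E₁ ^ (3 / 4 : ℝ) ≤ ENNReal.ofReal (u ^ 3) := by
      have v1 : volume E₁ ≤ ENNReal.ofReal (u ^ 4) := by
        rw [hE₁]
        refine (measure_mono inter_subset_right).trans ?_
        rw [Real.volume_Ioo, sub_sub_cancel]
      refine (ENNReal.rpow_le_rpow v1 (by norm_num)).trans (le_of_eq ?_)
      rw [ENNReal.ofReal_rpow_of_nonneg (by positivity) (by norm_num), ← Real.rpow_natCast,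
        ← Real.rpow_mul hu.1.le, ← Real.rpow_natCast]
      norm_num
    rw [← hW, mul_assoc 3]
    exact mul_le_mul_left (mul_le_mul_right
      ((mul_le_mul_left v _).trans ((cube_mul hu.1).trans_le hρ3)) _) _
  have i₂ : Z * ∫⁻ s in Ioo 0 p.1, E₂.indicator (II P (wnF P) p) s ≤
      3 * K₄ * ρ * (W * Sg p) := by
    refine (mul_le_mul_right ((hind _ m₂).trans
      (part hP ht hu.1 hl m₂ (hE₂ ▸ fun s hs => hs.1))) _).trans ?_
    have v := h₄ p u ht1 hu.1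
    rw [← hE₂, ← hZ] at v
    rw [← hW]
    calc _ = 3 * (volume E₂ ^ (3 / 4 : ℝ) * Z) * ENNReal.ofReal ((u ^ 2)⁻¹) * W := by ring
      _ ≤ 3 * (K₄ * ENNReal.ofReal (u ^ 3) * Sg p) * ENNReal.ofReal ((u ^ 2)⁻¹) * W := by gcongr
      _ = 3 * K₄ * (ENNReal.ofReal (u ^ 3) * ENNReal.ofReal ((u ^ 2)⁻¹)) * (W * Sg p) := by ring
      _ ≤ _ := by rw [cube_mul hu.1]; gcongr
  have hwY : wY P (wnF P) p = W * Sg p := by
    rw [hW, mul_assoc]; rfl
  rw [← hW] at i₀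
  refine (setLIntegral_mono' measurableSet_Ioo hpt).trans ?_
  rw [lintegral_add_right _ measurable_const,
    lintegral_add_right _ ((mI.indicator m₂).const_mul _),
    lintegral_add_left (mI.const_mul _), lintegral_const_mul _ mI,
    lintegral_const_mul _ (mI.indicator m₁), lintegral_const_mul _ (mI.indicator m₂),
    setLIntegral_const, mul_assoc _ Z, ← hρ, hwY]
  calc _ ≤ 2 * K₁ * ρ * Sg p * W + K₂ * Sg p * (3 * ρ * W) +
        512 * K₃ * (3 * K₄ * ρ * (W * Sg p)) + 2560 * K₃ * ρ * (W * Sg p) * 1 := by gcongr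
    _ = _ := by ring

theorem ev_small {K : ℝ≥0∞} (hK : K ≠ ⊤) (η : ℝ≥0∞) (hη : 0 < η) :
    ∀ᶠ P in parF, K * ENNReal.ofReal (P.r0 ^ (1 / 9 : ℝ)) ≤ η := by
  have h1 : Tendsto (fun r : ℝ => r ^ (1 / 9 : ℝ)) (𝓝 0) (𝓝 0) := by
    have := (Real.continuousAt_rpow_const 0 (1 / 9) (Or.inr (by norm_num))).tendsto
    rwa [Real.zero_rpow (by norm_num)] at this
  have h3 := ENNReal.Tendsto.const_mul (a := K) (ENNReal.tendsto_ofReal h1) (Or.inr hK)
  rw [ENNReal.ofReal_zero, mul_zero] at h3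
  exact ev_r0 (p := fun P => K * ENNReal.ofReal (P.r0 ^ (1 / 9 : ℝ)) ≤ η)
    fun _ _ _ _ _ _ _ _ _ => (h3.eventually_le_const hη).filter_mono nhdsWithin_le_nhds

end
end Crest.Agent.R68.DFBT
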