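import Crest.Agent.R68.LateA

/-! # Row 68: late phase: bounds for the linearised operator -/

set_option autoImplicit false
open MeasureTheory Set Filter Topology
open scoped ENNReal NNReal
open Crest.AnalysisR.VecCalc3 Crest.AnalysisR.PDE.Boltzmann

namespace Crest.Agent.R68.LateD1
noncomputable section

theorem small {K η : ℝ≥0∞} (hK : K ≠ ⊤) (hη : 0 < η) :
    ∃ x : ℝ, 0 < x ∧ x ≤ 1 ∧ K * ENNReal.ofReal x ≤ η := by
  obtain ⟨n, hn, h⟩ := ENNReal.exists_nnreal_pos_mul_lt hK hη.ne'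
  refine ⟨min n 1, lt_min hn one_pos, min_le_right _ _, le_trans ?_ h.le⟩
  rw [mul_comm]
  exact mul_le_mul_left ((ENNReal.ofReal_le_ofReal (min_le_left _ _)).trans_eq
    ENNReal.ofReal_coe_nnreal) _

theorem jb_Ga {a : ℝ} (ha : 1 / 64 ≤ a) (v : R3) :
    ENNReal.ofReal (jb v) * Ga a v ≤ ENNReal.ofReal (Real.exp 16) := by
  simpa using BilB.jb_pow_Ga_le 1 a ha v

theorem measurable_jb : Measurable fun v : R3 => ENNReal.ofReal (jb v) := by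
  simpa only [pow_one] using BilB.measurable_jb_pow 1

theorem moment (k : ℕ) : ∃ C : ℝ≥0∞, C ≠ ⊤ ∧
    ∫⁻ η, ENNReal.ofReal (jb η ^ k) * Ga (1 / 8) η ≤ C := by
  obtain ⟨C, hC, h⟩ := lint_Ga_slab k
  exact ⟨C, hC, le_trans (lintegral_mono fun η => le_mul_of_one_le_right' le_self_add)
    (h nn norm_nn (1 / 8) (by norm_num) 0 ⟨le_rfl, by norm_num⟩)⟩

theorem gain_le {f : R3 → ℝ≥0∞} (hf : Measurable f) (v : R3) :
    Qp mu f v ≤ 2 * ENNReal.ofReal (Real.pi / (1 / 2)) * ∫⁻ ζ, npw ‖ζ - v‖ 1 * f ζ := by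
  rw [Qp_comm measurable_mu hf, BallA.Qp_eq hf measurable_mu, mul_assoc,
    ← lintegral_add_left_eq_self (fun ζ : R3 => npw ‖ζ - v‖ 1 * f ζ) v,
    ← lintegral_const_mul' _ _ ENNReal.ofReal_ne_top]
  refine mul_le_mul_right (lintegral_mono_ae ?_) _
  filter_upwards [BallA.ae_ne_zero] with p hp
  rw [add_sub_cancel_left, ← mul_assoc, mul_comm]
  exact mul_le_mul_left ((Pl_mono _ (fun q _ => mu_le_Ga _) (BallA.norm_dir hp)).trans
    (BilA.Pl_gauss' (BallA.norm_dir hp) (by norm_num) v)) _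

theorem kernel : ∃ K : ℝ≥0∞, K ≠ ⊤ ∧ ∀ d : PF, Measurable d → ∀ q : Ph,
    KB d q ≤ K * ∫⁻ ζ, (npw ‖ζ - q.2.2‖ 1 + ENNReal.ofReal (jb ζ)) * sec d q ζ := by
  refine ⟨2 * (2 * ENNReal.ofReal (Real.pi / (1 / 2))) + 13 * ENNReal.ofReal (Real.exp 16),
    by finiteness, fun d hd q => ?_⟩
  have hf := measurable_sec hd q
  rw [add_mul, mul_assoc 2]
  refine add_le_add (mul_le_mul_right ((gain_le hf _).trans (mul_le_mul_right
    (lintegral_mono fun ζ => mul_le_mul_left le_self_add _) _)) _) ?_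
  calc _ ≤ Ga (1 / 2) q.2.2 * (13 * ENNReal.ofReal (jb q.2.2) *
        ∫⁻ η, ENNReal.ofReal (jb η) * sec d q η) := mul_le_mul' (mu_le_Ga _) (LL_le_moment _ hf _)
    _ = 13 * (ENNReal.ofReal (jb q.2.2) * Ga (1 / 2) q.2.2) *
        ∫⁻ η, ENNReal.ofReal (jb η) * sec d q η := by ring
    _ ≤ _ := mul_le_mul' (mul_le_mul_right (jb_Ga (by norm_num) _) _)
        (lintegral_mono fun ζ => mul_le_mul_left le_add_self _)

theorem trunc (θ : ℝ≥0∞) (hθ : 0 < θ) : ∃ R : ℝ, 0 ≤ R ∧ ∃ Λ : ℝ≥0∞, Λ ≠ ⊤ ∧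
    ∀ d : PF, Measurable d → ∀ (q : Ph) (ε : ℝ≥0∞), (∀ ζ, sec d q ζ ≤ ε * Ga (1 / 8) ζ) →
      KB d q ≤ θ * ε + Λ * ∫⁻ ζ in {ζ : R3 | ‖ζ‖ ≤ R}, sec d q ζ := by
  obtain ⟨K, hK, h⟩ := kernel
  obtain ⟨C₁, hC₁, h₁⟩ := lint_loc_sing
  obtain ⟨C₂, hC₂, h₂⟩ := moment 2
  have hθ2 : 0 < θ / 2 := ENNReal.half_pos hθ.ne'
  obtain ⟨δ, d0, d1, d2⟩ := small (K := K * C₁) (by finiteness) hθ2
  have hA : npw δ 1 ≠ ⊤ := by rw [PB.npw_pos d0]; exact ENNReal.ofReal_ne_top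
  obtain ⟨x, x0, -, x2⟩ := small (K := K * ((npw δ 1 + 1) * C₂)) (by finiteness) hθ2
  refine ⟨x⁻¹, by positivity, K * (npw δ 1 + ENNReal.ofReal (1 + x⁻¹)), by finiteness,
    fun d hd q ε hε => (h d hd q).trans ?_⟩
  have hf := measurable_sec hd q
  have m1 := BilA.meas_ball q.2.2 δ
  have m2 : MeasurableSet {ζ : R3 | ‖ζ‖ ≤ x⁻¹} := measurableSet_le (by fun_prop) measurable_const
  have m3 : Measurable fun ζ : R3 => npw ‖ζ - q.2.2‖ 1 := BilA.measurable_npw (by fun_prop) 1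
  have m4 := (BilB.measurable_jb_pow 2).fun_mul (measurable_Ga (1 / 8))
  have key : ∀ ζ, (npw ‖ζ - q.2.2‖ 1 + ENNReal.ofReal (jb ζ)) * sec d q ζ ≤
      ε * {η : R3 | ‖η - q.2.2‖ ≤ δ}.indicator (fun η => npw ‖η - q.2.2‖ 1) ζ +
      (ε * ((npw δ 1 + 1) * ENNReal.ofReal x) * (ENNReal.ofReal (jb ζ ^ 2) * Ga (1 / 8) ζ) +
      (npw δ 1 + ENNReal.ofReal (1 + x⁻¹)) * {ζ : R3 | ‖ζ‖ ≤ x⁻¹}.indicator (sec d q) ζ) := by
    intro ζ
    have a1 : npw ‖ζ - q.2.2‖ 1 ≤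
        {η : R3 | ‖η - q.2.2‖ ≤ δ}.indicator (fun η => npw ‖η - q.2.2‖ 1) ζ + npw δ 1 := by
      by_cases hζ : ‖ζ - q.2.2‖ ≤ δ
      · rw [indicator_of_mem (show ζ ∈ {η : R3 | ‖η - q.2.2‖ ≤ δ} from hζ)]
        exact le_self_add
      · exact (PB.npw_anti zero_le_one (not_le.1 hζ).le).trans le_add_self
    refine (mul_le_mul_left (add_le_add_left a1 _) _).trans ?_
    rw [add_assoc, add_mul]
    refine add_le_add ?_ ?_
    · rw [mul_comm]
      exact mul_le_mul_left ((hε ζ).trans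
        (mul_le_of_le_one_right' (BilA.Ga_le_one (by norm_num) ζ))) _
    by_cases hζ : ‖ζ‖ ≤ x⁻¹
    · rw [indicator_of_mem (show ζ ∈ {ζ : R3 | ‖ζ‖ ≤ x⁻¹} from hζ)]
      exact le_trans (mul_le_mul_left (add_le_add_right
        (ENNReal.ofReal_le_ofReal (add_le_add_right hζ 1)) _) _) le_add_self
    · have hj := BilB.one_le_jb ζ
      have b1 : 1 ≤ x * jb ζ := by
        rw [← inv_le_iff_one_le_mul₀' x0]
        exact (not_le.1 hζ).le.trans (le_add_of_nonneg_left zero_le_one)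
      have b2 : ENNReal.ofReal (jb ζ) ≤ ENNReal.ofReal x * ENNReal.ofReal (jb ζ ^ 2) := by
        rw [← ENNReal.ofReal_mul x0.le]
        exact ENNReal.ofReal_le_ofReal (by nlinarith)
      have b3 : npw δ 1 + ENNReal.ofReal (jb ζ) ≤ (npw δ 1 + 1) * ENNReal.ofReal (jb ζ) := by
        rw [add_mul, one_mul]
        exact add_le_add_left (le_mul_of_one_le_right' (ENNReal.one_le_ofReal.2 hj)) _
      refine le_trans ?_ le_self_add
      calc _ ≤ (npw δ 1 + 1) * (ENNReal.ofReal x * ENNReal.ofReal (jb ζ ^ 2)) *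
            (ε * Ga (1 / 8) ζ) := mul_le_mul' (b3.trans (mul_le_mul_right b2 _)) (hε ζ)
        _ = _ := by ring
  have a2 : ∫⁻ η in {η : R3 | ‖η - q.2.2‖ ≤ δ}, npw ‖η - q.2.2‖ 1 ≤ C₁ * ENNReal.ofReal δ :=
    (h₁ q.2.2 1 ⟨zero_le_one, by norm_num⟩ δ ⟨d0, by linarith⟩).trans (mul_le_mul_right
      (ENNReal.ofReal_le_ofReal (Real.rpow_le_self_of_le_one d0.le d1 (by norm_num))) _)
  refine (mul_le_mul_right (lintegral_mono key) _).trans ?_
  rw [lintegral_add_left ((m3.indicator m1).const_mul _), lintegral_add_left (m4.const_mul _),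
    lintegral_const_mul _ (m3.indicator m1), lintegral_const_mul _ m4,
    lintegral_const_mul _ (hf.indicator m2), lintegral_indicator m1, lintegral_indicator m2]
  calc _ ≤ K * (ε * (C₁ * ENNReal.ofReal δ) + (ε * ((npw δ 1 + 1) * ENNReal.ofReal x) * C₂ +
        (npw δ 1 + ENNReal.ofReal (1 + x⁻¹)) * ∫⁻ ζ in {ζ : R3 | ‖ζ‖ ≤ x⁻¹}, sec d q ζ)) := by
        gcongr
    _ = (K * C₁ * ENNReal.ofReal δ + K * ((npw δ 1 + 1) * C₂) * ENNReal.ofReal x) * ε +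
        K * (npw δ 1 + ENNReal.ofReal (1 + x⁻¹)) * ∫⁻ ζ in {ζ : R3 | ‖ζ‖ ≤ x⁻¹}, sec d q ζ := by
        ring
    _ ≤ (θ / 2 + θ / 2) * ε + _ := by gcongr
    _ = _ := by rw [ENNReal.add_halves]

theorem KB_WW : ∃ K : ℝ≥0∞, K ≠ ⊤ ∧ ∀ q : Ph, KB WW q ≤ K * WW q := by
  obtain ⟨C₁, hC₁, h₁⟩ := BilA.pot_main
  obtain ⟨C₂, hC₂, h₂⟩ := moment 1
  simp only [pow_one] at h₂
  refine ⟨2 * (ENNReal.ofReal (2 * Real.pi / (1 / 8)) * C₁) +
    13 * ENNReal.ofReal (Real.exp 16) * C₂, by finiteness, fun q => ?_⟩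
  have hmu : ∀ η, mu η ≤ Ga (1 / 8) η * Ga (3 / 8) η := fun η => by
    rw [← BilA.Ga_add]
    exact (mu_le_Ga η).trans_eq (by norm_num)
  rw [add_mul, mul_assoc 2]
  refine add_le_add (mul_le_mul_right ?_ _) ?_
  · calc _ ≤ Qp (fun η => Ga (1 / 8) η * Ga (3 / 8) η) (Ga (1 / 8)) q.2.2 :=
          QH_mono (H := fun z => mu z.1 * Ga (1 / 8) z.2)
            (H' := fun z => Ga (1 / 8) z.1 * Ga (3 / 8) z.1 * Ga (1 / 8) z.2)
            (fun z => mul_le_mul_left (hmu _) _) _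
      _ ≤ _ := Qp_Ga_gen _ _ (measurable_Ga _) _ (by norm_num)
      _ ≤ ENNReal.ofReal (2 * Real.pi / (1 / 8)) * Ga (1 / 8) q.2.2 * C₁ :=
          mul_le_mul_right (le_trans (lintegral_mono fun η =>
            mul_le_mul' (le_mul_of_one_le_right' le_self_add)
              (le_mul_of_one_le_right' le_self_add)) (h₁ nn q.2.2 norm_nn (3 / 8) (by norm_num))) _
      _ = _ := mul_right_comm _ _ _
  · calc _ ≤ Ga (1 / 8) q.2.2 * Ga (3 / 8) q.2.2 * (13 * ENNReal.ofReal (jb q.2.2) * C₂) :=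
          mul_le_mul' (hmu _)
            ((LL_le_moment _ (measurable_Ga (1 / 8)) _).trans (mul_le_mul_right h₂ _))
      _ = 13 * (ENNReal.ofReal (jb q.2.2) * Ga (3 / 8) q.2.2) * C₂ * Ga (1 / 8) q.2.2 := by ring
      _ ≤ _ := mul_le_mul_left (mul_le_mul_left
          (mul_le_mul_right (jb_Ga (by norm_num) _) _) _) _

theorem lint_damp {c : ℝ} (hc : 0 < c) (a t : ℝ) :
    ∫⁻ s in Ioo a t, ENNReal.ofReal (Real.exp (-(c * (t - s)))) ≤ ENNReal.ofReal c⁻¹ := by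
  have e : ∀ s, Real.exp (-(c * (t - s))) = Real.exp (-(c * t)) * Real.exp (c * s) := fun s => by
    rw [← Real.exp_add]; congr 1; ring
  simp only [e]
  refine (lintegral_mono_set (Ioo_subset_Iio_self.trans Iio_subset_Iic_self)).trans_eq ?_
  rw [← ofReal_integral_eq_lintegral_ofReal ((integrableOn_exp_mul_Iic hc t).const_mul _)
    (Eventually.of_forall fun s => by positivity), integral_const_mul, integral_exp_mul_Iic hc,
    Real.exp_neg, div_eq_mul_inv, inv_mul_cancel_left₀ (Real.exp_pos _).ne']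

theorem KK_WW {ν : ℝ} (hν : 0 < ν) : ∃ K : ℝ≥0∞, K ≠ ⊤ ∧ ∀ (a : ℝ) (p : Ph),
    KK ν a WW p ≤ K * npw (jb p.2.2) 1 * WW p := by
  obtain ⟨K, hK, h⟩ := KB_WW
  refine ⟨K * ENNReal.ofReal ν⁻¹, by finiteness, fun a p => ?_⟩
  have hj := BilB.jb_pos p.2.2
  calc _ ≤ ∫⁻ s in Ioo a p.1, dmp ν p s * (K * WW p) :=
        lintegral_mono fun s => mul_le_mul_right (h (fl p s)) _
    _ = (∫⁻ s in Ioo a p.1, dmp ν p s) * (K * WW p) :=
        lintegral_mul_const' _ _ (ENNReal.mul_ne_top hK ENNReal.ofReal_ne_top)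
    _ ≤ ENNReal.ofReal (ν * jb p.2.2)⁻¹ * (K * WW p) :=
        mul_le_mul_left (lint_damp (mul_pos hν hj) a p.1) _
    _ = _ := by
        rw [PB.npw_pos hj, Real.rpow_neg_one, mul_inv, ENNReal.ofReal_mul (inv_pos.2 hν).le]
        ring

end
end Crest.Agent.R68.LateD1
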