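import Crest.Agent.R68.LateC

/-! # Row 68: the double Duhamel iteration (auxiliary file of `LateD`) -/

set_option autoImplicit false
open MeasureTheory Set Filter Topology
open scoped ENNReal NNReal
open Crest.AnalysisR.VecCalc3 Crest.AnalysisR.PDE.Boltzmann

namespace Crest.Agent.R68.LDG
noncomputable section

/-- the statement of `KB_trunc` -/
def TruncP : Prop := ∀ θ : ℝ≥0∞, 0 < θ → ∃ R : ℝ, 0 ≤ R ∧ ∃ Λ : ℝ≥0∞, Λ ≠ ⊤ ∧
    ∀ d : PF, Measurable d → ∀ (q : Ph) (ε : ℝ≥0∞), (∀ ζ, sec d q ζ ≤ ε * Ga (1 / 8) ζ) →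
      KB d q ≤ θ * ε + Λ * ∫⁻ ζ in {ζ : R3 | ‖ζ‖ ≤ R}, sec d q ζ

/-- exponential kernel -/
def ek (c t s : ℝ) : ℝ≥0∞ := ENNReal.ofReal (Real.exp (-(c * (t - s))))

theorem measurable_ek (c t : ℝ) : Measurable (ek c t) := by
  unfold ek
  fun_prop

theorem ek_ne_top (c t s : ℝ) : ek c t s ≠ ⊤ := ENNReal.ofReal_ne_top

theorem ek_le_one {c t s : ℝ} (hc : 0 ≤ c) (h : s ≤ t) : ek c t s ≤ 1 :=
  ENNReal.ofReal_le_one.2 (Real.exp_le_one_iff.2 (neg_nonpos.2 (mul_nonneg hc (sub_nonneg.2 h))))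

theorem ek_mul (c t s r : ℝ) : ek c t s * ek c s r = ek c t r := by
  unfold ek
  rw [← ENNReal.ofReal_mul (Real.exp_pos _).le, ← Real.exp_add]
  congr 2
  ring

theorem lint_ek {c : ℝ} (hc : 0 < c) (a t : ℝ) :
    ∫⁻ s in Ioo a t, ek c t s ≤ ENNReal.ofReal (1 / c) := by
  have e : ∀ s, Real.exp (-(c * (t - s))) = Real.exp (-(c * t)) * Real.exp (c * s) := fun s => by
    rw [← Real.exp_add]; congr 1; ring
  refine (lintegral_mono_set (t := Iic t) fun s hs => hs.2.le).trans (le_of_eq ?_)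
  unfold ek
  simp only [e]
  rw [← ofReal_integral_eq_lintegral_ofReal ((integrableOn_exp_mul_Iic hc t).const_mul _)
    (.of_forall fun s => by positivity), integral_const_mul, integral_exp_mul_Iic hc,
    ← mul_div_assoc, ← Real.exp_add, neg_add_cancel, Real.exp_zero]

theorem dmp_le {ν : ℝ} (hν : 0 ≤ ν) (p : Ph) {s : ℝ} (hs : s ≤ p.1) :
    dmp ν p s ≤ ek (ν / 2) p.1 s * ek (ν / 2) p.1 s := by
  unfold ek
  rw [← ENNReal.ofReal_mul (Real.exp_pos _).le, ← Real.exp_add]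
  refine ENNReal.ofReal_le_ofReal (Real.exp_le_exp.2 ?_)
  have h1 := OAC.one_le_jb p.2.2
  have h2 := mul_nonneg (mul_nonneg hν (sub_nonneg.2 h1)) (sub_nonneg.2 hs)
  linarith

theorem KB_mono {f g : PF} {q : Ph} (h : ∀ ζ, sec f q ζ ≤ sec g q ζ) : KB f q ≤ KB g q :=
  add_le_add (mul_le_mul_right (SrcB.Qp_mono (fun _ => le_rfl) h _) 2)
    (mul_le_mul_right (LL_mono_ae (.of_forall h) _) _)

theorem KK_mono {ν a : ℝ} {f g : PF} {p : Ph} (h : ∀ q : Ph, q.1 ∈ Ioo a p.1 → f q ≤ g q) :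
    KK ν a f p ≤ KK ν a g p :=
  setLIntegral_mono' measurableSet_Ioo fun _ hs =>
    mul_le_mul_right (KB_mono fun _ => h _ hs) _

theorem WW_le_one (q : Ph) : WW q ≤ 1 :=
  ENNReal.ofReal_le_one.2 (Real.exp_le_one_iff.2 (neg_nonpos.2 (by positivity)))

theorem KB_bdd : ∃ K : ℝ≥0∞, K ≠ ⊤ ∧ ∀ (d : PF) (q : Ph) (ε : ℝ≥0∞),
    (∀ ζ, sec d q ζ ≤ ε * Ga (1 / 8) ζ) → KB d q ≤ K * ε := by
  obtain ⟨K, hK, h⟩ := KB_WW
  refine ⟨K, hK, fun d q ε hd => (KB_mono (g := fun p => ε * WW p) hd).trans ?_⟩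
  rw [posOp_KB.smul ε _ measurable_WW, mul_comm K]
  exact mul_le_mul_right ((h q).trans (mul_le_of_le_one_right' (WW_le_one q))) ε

theorem KK_le_WW {ν a : ℝ} {d : PF} {ε : ℝ≥0∞} (hd : ∀ q : Ph, a < q.1 → d q ≤ ε * WW q) (p : Ph) :
    KK ν a d p ≤ ε * KK ν a WW p := by
  refine (KK_mono (g := fun p => ε * WW p) fun q hq => hd q hq.1).trans ?_
  rw [(posOp_KK ν a).smul ε _ measurable_WW]

/-- one time slice of the inner integral -/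
theorem slice {d : PF} (hd : Measurable d) (hp : Per d) {R R' τ s r : ℝ} (hR : 0 ≤ R) (hτ : 0 < τ)
    (hr : τ ≤ s - r) {c Λ : ℝ≥0∞} (y : R3)
    (h : ∀ ζ, KB d (fl (s, y, ζ) r) ≤
      c + Λ * ∫⁻ η in {η : R3 | ‖η‖ ≤ R'}, sec d (fl (s, y, ζ) r) η) :
    ∫⁻ ζ in {ζ : R3 | ‖ζ‖ ≤ R}, KB d (fl (s, y, ζ) r) ≤
      c * volume {ζ : R3 | ‖ζ‖ ≤ R} + Λ * ENNReal.ofReal ((2 * R + 2 / τ) ^ 3) * n1 d r := by
  have mφ : Measurable fun z : R3 => ∫⁻ η, d (r, z, η) :=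
    (hd.comp (f := fun x : R3 × R3 => (r, x)) measurable_prodMk_left).lintegral_prod_right'
  have h0 : 0 < s - r := hτ.trans_le hr
  have h1 := lint_vel_change _ mφ (fun x m => lintegral_congr fun η => hp r x η m) y (s - r) h0 R hR
  have h2 : ((s - r) ^ 3)⁻¹ * (2 * (s - r) * R + 2) ^ 3 ≤ (2 * R + 2 / τ) ^ 3 := by
    calc _ = (2 * R + 2 / (s - r)) ^ 3 := by field_simp
      _ ≤ _ := by gcongr
  calc _ ≤ ∫⁻ ζ in {ζ : R3 | ‖ζ‖ ≤ R}, (c + Λ * ∫⁻ η, d (r, y - (s - r) • ζ, η)) :=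
        lintegral_mono fun ζ => (h ζ).trans
          (add_le_add le_rfl (mul_le_mul_right (setLIntegral_le_lintegral _ _) Λ))
    _ = c * volume {ζ : R3 | ‖ζ‖ ≤ R} +
          Λ * ∫⁻ ζ in {ζ : R3 | ‖ζ‖ ≤ R}, ∫⁻ η, d (r, y - (s - r) • ζ, η) := by
        rw [lintegral_add_left measurable_const, setLIntegral_const, lintegral_const_mul]
        exact mφ.comp (f := fun ζ : R3 => y - (s - r) • ζ) (by fun_prop)
    _ ≤ _ := by
        rw [mul_assoc]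
        exact add_le_add le_rfl (mul_le_mul_right
          (h1.trans (mul_le_mul_left (ENNReal.ofReal_le_ofReal h2) _)) Λ)

theorem inner (htr : TruncP) {ν : ℝ} (hν : 0 < ν) {R : ℝ} (hR : 0 ≤ R) {θ : ℝ≥0∞} (hθ : 0 < θ) :
    ∃ C : ℝ≥0∞, C ≠ ⊤ ∧ ∀ (a : ℝ) (d : PF), Measurable d → Per d → ∀ ε : ℝ≥0∞,
      (∀ q : Ph, a < q.1 → d q ≤ ε * WW q) → ∀ (s : ℝ) (y : R3),
      ∫⁻ ζ in {ζ : R3 | ‖ζ‖ ≤ R}, KK ν a d (s, y, ζ) ≤
        θ * ε + C * ∫⁻ r in Ioo a s, ek (ν / 2) s r * n1 d r := by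
  obtain ⟨K, hK, hb⟩ := KB_bdd
  obtain ⟨V, hV⟩ : ∃ V, V = volume {ζ : R3 | ‖ζ‖ ≤ R} := ⟨_, rfl⟩
  have hV' : V ≠ ⊤ := by
    rw [hV, show {ζ : R3 | ‖ζ‖ ≤ R} = Metric.closedBall 0 R from
      Set.ext fun _ => mem_closedBall_zero_iff.symm]
    exact measure_closedBall_lt_top.ne
  have h2 := (ENNReal.half_pos hθ.ne').ne'
  obtain ⟨τ, hτ, hτ'⟩ := ENNReal.exists_nnreal_pos_mul_lt (ENNReal.mul_ne_top hK hV') h2
  obtain ⟨δ, hδ, hδ'⟩ := ENNReal.exists_pos_mul_lt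
    (ENNReal.mul_ne_top hV' (ENNReal.ofReal_ne_top (r := 1 / (ν / 2)))) h2
  obtain ⟨R', -, Λ, hΛ, ht⟩ := htr δ hδ
  refine ⟨Λ * ENNReal.ofReal ((2 * R + 2 / τ) ^ 3), ENNReal.mul_ne_top hΛ ENNReal.ofReal_ne_top,
    fun a d hd hp ε hε s y => ?_⟩
  set C := Λ * ENNReal.ofReal ((2 * R + 2 / τ) ^ 3)
  have hν2 : 0 < ν / 2 := half_pos hν
  have mK : Measurable fun x : R3 × ℝ => KB d (fl (s, y, x.1) x.2) :=
    (posOp_KB.meas d hd).comp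
      (measurable_fl.comp (f := fun x : R3 × ℝ => ((s, y, x.1), x.2)) (by fun_prop))
  have mE := measurable_ek (ν / 2) s
  have mN : Measurable fun r => ek (ν / 2) s r * n1 d r := mE.mul (measurable_n1 hd)
  have hpt : ∀ r ∈ Ioo a s,
      ∫⁻ ζ in {ζ : R3 | ‖ζ‖ ≤ R}, ek (ν / 2) s r * KB d (fl (s, y, ζ) r) ≤
        δ * ε * V * ek (ν / 2) s r + (Ioo (s - τ) s).indicator (fun _ => K * ε * V) r +
          C * (ek (ν / 2) s r * n1 d r) := by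
    intro r hr
    have hs : ∀ ζ η, sec d (fl (s, y, ζ) r) η ≤ ε * Ga (1 / 8) η := fun ζ η => hε _ hr.1
    rw [lintegral_const_mul' _ _ (ek_ne_top _ _ _)]
    by_cases hc : s - τ < r
    · rw [indicator_of_mem (show r ∈ Ioo (s - τ) s from ⟨hc, hr.2⟩)]
      refine le_add_right (le_add_left ((mul_le_of_le_one_left' (ek_le_one hν2.le hr.2.le)).trans
        ((lintegral_mono fun ζ => hb d _ ε (hs ζ)).trans (le_of_eq ?_))))
      rw [setLIntegral_const, hV]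
    · have h3 := slice hd hp hR (NNReal.coe_pos.2 hτ) (s := s) (r := r) (by linarith) y
        fun ζ => ht d hd _ ε (hs ζ)
      rw [← hV] at h3
      refine (mul_le_mul_right h3 _).trans ?_
      rw [mul_add, mul_comm _ (δ * ε * V), mul_left_comm _ C]
      exact add_le_add le_self_add le_rfl
  have hind : ∫⁻ r in Ioo a s, (Ioo (s - τ) s).indicator (fun _ => K * ε * V) r ≤
      K * ε * V * τ := by
    refine (setLIntegral_le_lintegral _ _).trans (le_of_eq ?_)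
    rw [lintegral_indicator measurableSet_Ioo, setLIntegral_const, Real.volume_Ioo,
      sub_sub_cancel, ENNReal.ofReal_coe_nnreal]
  calc _ ≤ ∫⁻ ζ in {ζ : R3 | ‖ζ‖ ≤ R}, ∫⁻ r in Ioo a s, ek (ν / 2) s r * KB d (fl (s, y, ζ) r) :=
        lintegral_mono fun ζ => setLIntegral_mono' measurableSet_Ioo fun r hr => mul_le_mul_left
          ((dmp_le hν.le (s, y, ζ) hr.2.le).trans
            (mul_le_of_le_one_left' (ek_le_one hν2.le hr.2.le))) _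
    _ = ∫⁻ r in Ioo a s, ∫⁻ ζ in {ζ : R3 | ‖ζ‖ ≤ R}, ek (ν / 2) s r * KB d (fl (s, y, ζ) r) :=
        lintegral_lintegral_swap ((mE.comp measurable_snd).mul mK).aemeasurable
    _ ≤ _ := setLIntegral_mono' measurableSet_Ioo hpt
    _ ≤ δ * ε * V * ENNReal.ofReal (1 / (ν / 2)) + K * ε * V * τ +
          C * ∫⁻ r in Ioo a s, ek (ν / 2) s r * n1 d r := by
        rw [lintegral_add_right _ (mN.const_mul C), lintegral_add_left (mE.const_mul _),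
          lintegral_const_mul _ mE, lintegral_const_mul _ mN]
        exact add_le_add (add_le_add (mul_le_mul_right (lint_ek hν2 a s) _) hind) le_rfl
    _ = (δ * (V * ENNReal.ofReal (1 / (ν / 2))) + τ * (K * V)) * ε +
          C * ∫⁻ r in Ioo a s, ek (ν / 2) s r * n1 d r := by ring
    _ ≤ (θ / 2 + θ / 2) * ε + C * ∫⁻ r in Ioo a s, ek (ν / 2) s r * n1 d r := by gcongr
    _ = _ := by rw [ENNReal.add_halves]

theorem core (htr : TruncP) {ν : ℝ} (hν : 0 < ν) {K : ℝ≥0∞} (hK : K ≠ ⊤)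
    (hW : ∀ (a : ℝ) (p : Ph), KK ν a WW p ≤ K * WW p) {θ : ℝ≥0∞} (hθ : 0 < θ) :
    ∃ C : ℝ≥0∞, C ≠ ⊤ ∧ ∀ (a : ℝ) (d : PF), Measurable d → Per d → ∀ ε : ℝ≥0∞,
      (∀ q : Ph, a < q.1 → d q ≤ ε * WW q) → ∀ p : Ph,
      KK ν a (KK ν a d) p ≤ θ * ε + C * ∫⁻ r in Ioo a p.1, ek (ν / 2) p.1 r * n1 d r := by
  obtain ⟨M, hM⟩ : ∃ M, M = ENNReal.ofReal (1 / (ν / 2)) := ⟨_, rfl⟩
  have hM' : M ≠ ⊤ := hM ▸ ENNReal.ofReal_ne_top
  have h2 := (ENNReal.half_pos hθ.ne').ne'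
  obtain ⟨δ, hδ, hδ'⟩ := ENNReal.exists_pos_mul_lt (ENNReal.mul_ne_top hK hM') h2
  obtain ⟨R, hR, Λ, hΛ, ht⟩ := htr δ hδ
  obtain ⟨γ, hγ, hγ'⟩ := ENNReal.exists_pos_mul_lt (ENNReal.mul_ne_top hΛ hM') h2
  obtain ⟨C, hC, hin⟩ := inner htr hν hR hγ
  refine ⟨Λ * C * M, by finiteness, fun a d hd hp ε hε p => ?_⟩
  have hν2 : 0 < ν / 2 := half_pos hν
  obtain ⟨J, hJ⟩ : ∃ J, J = ∫⁻ r in Ioo a p.1, ek (ν / 2) p.1 r * n1 d r := ⟨_, rfl⟩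
  have hpt : ∀ s ∈ Ioo a p.1, dmp ν p s * KB (KK ν a d) (fl p s) ≤
      ((δ * K + γ * Λ) * ε + Λ * C * J) * ek (ν / 2) p.1 s := by
    intro s hs
    have h3 := ht _ ((posOp_KK ν a).meas d hd) (fl p s) (K * ε) fun ζ =>
      (KK_le_WW hε _).trans ((mul_le_mul_right (hW a _) ε).trans_eq (mul_left_comm _ _ _ |>.trans
        (mul_assoc _ _ _).symm))
    have h4 := h3.trans (add_le_add le_rfl (mul_le_mul_right (hin a d hd hp ε hε s _) Λ))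
    have h5 : ek (ν / 2) p.1 s * ∫⁻ r in Ioo a s, ek (ν / 2) s r * n1 d r ≤ J := by
      rw [← lintegral_const_mul' _ _ (ek_ne_top _ _ _), hJ]
      refine le_trans (le_of_eq (lintegral_congr fun r => ?_))
        (lintegral_mono_set (Ioo_subset_Ioo_right hs.2.le))
      rw [← ek_mul (ν / 2) p.1 s r, mul_assoc]
    have h6 := ek_le_one hν2.le hs.2.le
    calc _ ≤ ek (ν / 2) p.1 s * ek (ν / 2) p.1 s *
          (δ * (K * ε) + Λ * (γ * ε + C * ∫⁻ r in Ioo a s, ek (ν / 2) s r * n1 d r)) :=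
          mul_le_mul' (dmp_le hν.le p hs.2.le) h4
      _ = (ek (ν / 2) p.1 s * ((δ * K + γ * Λ) * ε) +
            Λ * C * (ek (ν / 2) p.1 s * ∫⁻ r in Ioo a s, ek (ν / 2) s r * n1 d r)) *
            ek (ν / 2) p.1 s := by ring
      _ ≤ (1 * ((δ * K + γ * Λ) * ε) + Λ * C * J) * ek (ν / 2) p.1 s := by gcongr
      _ = _ := by rw [one_mul]
  rw [← hJ]
  calc _ ≤ _ := setLIntegral_mono' measurableSet_Ioo hpt
    _ ≤ ((δ * K + γ * Λ) * ε + Λ * C * J) * M := by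
        rw [lintegral_const_mul _ (measurable_ek _ _), hM]
        exact mul_le_mul_right (lint_ek hν2 a p.1) _
    _ = (δ * (K * M) + γ * (Λ * M)) * ε + Λ * C * M * J := by ring
    _ ≤ (θ / 2 + θ / 2) * ε + Λ * C * M * J := by gcongr
    _ = _ := by rw [ENNReal.add_halves]

theorem guo (htr : TruncP) {ν : ℝ} (hν : 0 < ν)
    (hW : ∃ K : ℝ≥0∞, K ≠ ⊤ ∧ ∀ (a : ℝ) (p : Ph), KK ν a WW p ≤ K * npw (jb p.2.2) 1 * WW p) :
    ∃ K : ℝ≥0∞, K ≠ ⊤ ∧ ∀ θ : ℝ≥0∞, 0 < θ → ∃ C : ℝ≥0∞, C ≠ ⊤ ∧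
    ∀ (a : ℝ) (d : PF), Measurable d → Per d → ∀ ε ε₂ : ℝ≥0∞,
      (∀ q : Ph, a < q.1 → d q ≤ ε * WW q) → ∀ p : Ph,
      (∀ q : Ph, q.1 ∈ Ioo a p.1 → d q ≤ ε₂ * WW q + KK ν a d q) →
      KK ν a d p ≤ (θ * ε + K * ε₂ + C * ∫⁻ s in Ioo a p.1,
        ENNReal.ofReal (Real.exp (-(ν / 2 * (p.1 - s)))) * n1 d s) * WW p := by
  obtain ⟨K, hK, hW⟩ := hW
  have hW' : ∀ (a : ℝ) (p : Ph), KK ν a WW p ≤ K * WW p := fun a p =>
    (hW a p).trans (OBB.mul_npw_le K _ zero_le_one _)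
  refine ⟨K, hK, fun θ hθ => ?_⟩
  obtain ⟨δ, hδ, hδ'⟩ := ENNReal.exists_nnreal_pos_mul_lt hK hθ.ne'
  have hδ0 : (0 : ℝ) < (δ : ℝ)⁻¹ := inv_pos.2 (NNReal.coe_pos.2 hδ)
  obtain ⟨w, hw⟩ : ∃ w, w = ENNReal.ofReal (Real.exp (-(1 / 8 * (δ : ℝ)⁻¹ ^ 2))) := ⟨_, rfl⟩
  have hw0 : w ≠ 0 := hw ▸ (ENNReal.ofReal_pos.2 (Real.exp_pos _)).ne'
  have hw1 : w ≠ ⊤ := hw ▸ ENNReal.ofReal_ne_top
  obtain ⟨C, hC, hc⟩ := core htr hν hK hW' (ENNReal.mul_pos hθ.ne' hw0)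
  refine ⟨C * w⁻¹, ENNReal.mul_ne_top hC (ENNReal.inv_ne_top.2 hw0),
    fun a d hd hp ε ε₂ hε p h2 => ?_⟩
  by_cases hv : (δ : ℝ)⁻¹ ≤ jb p.2.2
  · have h3 : npw (jb p.2.2) 1 ≤ δ := by
      refine (MB.npw_anti zero_le_one hv).trans (le_of_eq ?_)
      rw [SrcA.npw_one_eq hδ0, inv_inv, ENNReal.ofReal_coe_nnreal]
    calc _ ≤ ε * (K * δ * WW p) :=
          (KK_le_WW hε p).trans (mul_le_mul_right ((hW a p).trans (by gcongr)) ε)
      _ = δ * K * ε * WW p := by ring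
      _ ≤ θ * ε * WW p := by gcongr
      _ ≤ _ := mul_le_mul_left (le_add_right le_self_add) _
  · have h3 : w ≤ WW p := by
      rw [hw]
      refine ENNReal.ofReal_le_ofReal (Real.exp_le_exp.2 (neg_le_neg ?_))
      have : ‖p.2.2‖ ≤ (δ : ℝ)⁻¹ := by
        unfold jb at hv
        linarith
      gcongr
    have h4 := hc a d hd hp ε hε p
    have h5 : KK ν a d p ≤ ε₂ * KK ν a WW p + KK ν a (KK ν a d) p := by
      refine (KK_mono (g := (fun q => ε₂ * WW q) + KK ν a d) h2).trans (le_of_eq ?_)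
      rw [(posOp_KK ν a).add _ _ (measurable_WW.const_mul ε₂) ((posOp_KK ν a).meas d hd),
        (posOp_KK ν a).smul ε₂ _ measurable_WW]
      rfl
    obtain ⟨J, hJ⟩ : ∃ J, J = ∫⁻ r in Ioo a p.1, ek (ν / 2) p.1 r * n1 d r := ⟨_, rfl⟩
    show _ ≤ (θ * ε + K * ε₂ + C * w⁻¹ * ∫⁻ r in Ioo a p.1, ek (ν / 2) p.1 r * n1 d r) * WW p
    rw [← hJ] at h4 ⊢
    calc _ ≤ ε₂ * (K * WW p) + (θ * w * ε + C * (w⁻¹ * w) * J) := by
          rw [ENNReal.inv_mul_cancel hw0 hw1, mul_one]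
          exact h5.trans (add_le_add (mul_le_mul_right (hW' a p) _) h4)
      _ ≤ ε₂ * (K * WW p) + (θ * WW p * ε + C * (w⁻¹ * WW p) * J) := by gcongr
      _ = _ := by ring

end
end Crest.Agent.R68.LDG
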