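import Crest.Agent.R68.LateC
import Crest.Agent.R68.LateDAuxG
import Crest.Agent.R68.LateDAux1

/-! # Row 68: late phase: the double Duhamel iteration -/

set_option autoImplicit false
open MeasureTheory Set Filter Topology
open scoped ENNReal NNReal
open Crest.AnalysisR.VecCalc3 Crest.AnalysisR.PDE.Boltzmann

namespace Crest.Agent.R68
noncomputable section

/-- kernel form: `QF muF d = QF d muF`, `QH_eq_p`, `Pl_gauss`, `LL_le_moment`, `μ ⟨v⟩ ≤ 1` -/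
theorem KB_kernel : ∃ K : ℝ≥0∞, K ≠ ⊤ ∧ ∀ d : PF, Measurable d → ∀ q : Ph,
    KB d q ≤ K * ∫⁻ ζ, (npw ‖ζ - q.2.2‖ 1 + ENNReal.ofReal (jb ζ)) * sec d q ζ := LateD1.kernel

/-- truncation, uniformly in `v`: cut `‖ζ - v‖ < δ` and `‖ζ‖ > R` -/
theorem KB_trunc (θ : ℝ≥0∞) (hθ : 0 < θ) : ∃ R : ℝ, 0 ≤ R ∧ ∃ Λ : ℝ≥0∞, Λ ≠ ⊤ ∧
    ∀ d : PF, Measurable d → ∀ (q : Ph) (ε : ℝ≥0∞), (∀ ζ, sec d q ζ ≤ ε * Ga (1 / 8) ζ) →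
      KB d q ≤ θ * ε + Λ * ∫⁻ ζ in {ζ : R3 | ‖ζ‖ ≤ R}, sec d q ζ := LateD1.trunc θ hθ

theorem KK_WW {ν : ℝ} (hν : 0 < ν) : ∃ K : ℝ≥0∞, K ≠ ⊤ ∧ ∀ (a : ℝ) (p : Ph),
    KK ν a WW p ≤ K * npw (jb p.2.2) 1 * WW p := LateD1.KK_WW hν

/-- Guo's double iteration.  `KK` only sees times `> a`.  For `⟨v⟩ ≥ R₁` use `KK_WW`.  For `⟨v⟩ ≤ R₁`
(`WW p ≥ e^{-R₁²/8}`): `KK d ≤ ε₂ KK W + KK (KK d)`, `KK d ≤ K ε W`; truncate the outer `KB` with `KB_trunc`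
(radius `R`, constant `Λ`), then the inner one with a smaller `θ'`, cut the times `s - s' < τ₁`
(`KB d ≤ K ε`), and use `lint_vel_change` in `ζ` for `τ = s - s' ≥ τ₁`
(`τ^{-3}(2τR+2)³ ≤ (2R + 2/τ₁)³`); finally `∫_{s'}^t e^{-ν(t-s)} e^{-ν(s-s')} ds ≤ (2/ν) e^{-ν(t-s')/2}`. -/
theorem guo {ν : ℝ} (hν : 0 < ν) : ∃ K : ℝ≥0∞, K ≠ ⊤ ∧ ∀ θ : ℝ≥0∞, 0 < θ → ∃ C : ℝ≥0∞, C ≠ ⊤ ∧
    ∀ (a : ℝ) (d : PF), Measurable d → Per d → ∀ ε ε₂ : ℝ≥0∞,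
      (∀ q : Ph, a < q.1 → d q ≤ ε * WW q) → ∀ p : Ph,
      (∀ q : Ph, q.1 ∈ Ioo a p.1 → d q ≤ ε₂ * WW q + KK ν a d q) →
      KK ν a d p ≤ (θ * ε + K * ε₂ + C * ∫⁻ s in Ioo a p.1,
        ENNReal.ofReal (Real.exp (-(ν / 2 * (p.1 - s)))) * n1 d s) * WW p :=
  LDG.guo KB_trunc hν (KK_WW hν)

end
end Crest.Agent.R68
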