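import Crest.Agent.R68.LateA

/-! # Row 68: late phase: the integrability hypothesis H3 from the envelope -/

set_option autoImplicit false
open MeasureTheory Set Filter Topology
open scoped ENNReal NNReal
open Crest.AnalysisR.VecCalc3 Crest.AnalysisR.PDE.Boltzmann

namespace Crest.Agent.R68
noncomputable section

/-- `z (1 + log⁺ z)` on `ℝ≥0∞` -/
def zl (z : ℝ≥0∞) : ℝ≥0∞ := z * ENNReal.ofReal (1 + max (Real.log z.toReal) 0)

theorem LH1_logp_mono {x y : ℝ} (hx : 0 ≤ x) (h : x ≤ y) :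
    max (Real.log x) 0 ≤ max (Real.log y) 0 := by
  rcases hx.eq_or_lt with rfl | hx
  · simp
  · exact max_le_max (Real.log_le_log hx h) le_rfl

theorem LH1_zl_top : zl ⊤ = ⊤ := by simp [zl]

theorem LH1_zl_zero : zl 0 = 0 := by simp [zl]

theorem LH1_zl_ne_top {z : ℝ≥0∞} (h : z ≠ ⊤) : zl z ≠ ⊤ :=
  ENNReal.mul_ne_top h ENNReal.ofReal_ne_top

theorem LH1_zl_of_le_one {z : ℝ≥0∞} (h : z ≤ 1) : zl z = z := by
  have h1 : z.toReal ≤ 1 := by simpa using ENNReal.toReal_mono ENNReal.one_ne_top h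
  have h2 : max (Real.log z.toReal) 0 = 0 :=
    max_eq_right (Real.log_nonpos ENNReal.toReal_nonneg h1)
  simp [zl, h2]

/-- `zl` is submultiplicative -/
theorem LH1_zl_mul (a b : ℝ≥0∞) : zl (a * b) ≤ zl a * zl b := by
  have ha := le_max_right (Real.log a.toReal) 0
  have hb := le_max_right (Real.log b.toReal) 0
  have h : max (Real.log (a * b).toReal) 0 ≤
      max (Real.log a.toReal) 0 + max (Real.log b.toReal) 0 := by
    refine max_le ?_ (add_nonneg ha hb)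
    rw [ENNReal.toReal_mul]
    by_cases h1 : a.toReal = 0
    · rw [h1, zero_mul, Real.log_zero]
      positivity
    by_cases h2 : b.toReal = 0
    · rw [h2, mul_zero, Real.log_zero]
      positivity
    rw [Real.log_mul h1 h2]
    exact add_le_add (le_max_left _ _) (le_max_left _ _)
  unfold zl
  rw [mul_mul_mul_comm, ← ENNReal.ofReal_mul (by linarith)]
  refine mul_le_mul_right (ENNReal.ofReal_le_ofReal ?_) _
  nlinarith [mul_nonneg ha hb]

theorem zl_mono : Monotone zl := by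
  intro a b h
  by_cases hb : b = ⊤
  · rw [hb, LH1_zl_top]
    exact le_top
  refine mul_le_mul' h (ENNReal.ofReal_le_ofReal ?_)
  have := LH1_logp_mono ENNReal.toReal_nonneg (ENNReal.toReal_mono hb h)
  linarith

theorem measurable_zl : Measurable zl :=
  measurable_id.mul (ENNReal.measurable_ofReal.comp (measurable_const.add
    ((Real.measurable_log.comp ENNReal.measurable_toReal).max measurable_const)))

theorem LH1_zl_sum {ι : Type*} (s : Finset ι) (a : ι → ℝ≥0∞) :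
    zl (∑ i ∈ s, a i) ≤ zl s.card * ∑ i ∈ s, zl (a i) := by
  rcases s.eq_empty_or_nonempty with rfl | hs
  · simp [LH1_zl_zero]
  obtain ⟨i, hi, hmax⟩ := s.exists_max_image a hs
  have h1 : ∑ j ∈ s, a j ≤ s.card * a i := by
    rw [← nsmul_eq_mul]
    exact Finset.sum_le_card_nsmul _ _ _ hmax
  refine (zl_mono h1).trans ((LH1_zl_mul _ _).trans (mul_le_mul_right ?_ _))
  exact Finset.single_le_sum (f := fun j => zl (a j)) (fun _ _ => zero_le) hi

theorem LH1_zl_le_rpow (z : ℝ≥0∞) : zl z ≤ z + 9 * z ^ (10 / 9 : ℝ) := by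
  by_cases hz : z = ⊤
  · rw [hz, top_add]
    exact le_top
  have h1 : max (Real.log z.toReal) 0 ≤ 9 * z.toReal ^ (1 / 9 : ℝ) := by
    refine max_le ?_ (by positivity)
    have := Real.log_le_rpow_div (x := z.toReal) (ε := 1 / 9) ENNReal.toReal_nonneg (by norm_num)
    linarith
  have h2 : ENNReal.ofReal (1 + max (Real.log z.toReal) 0) ≤ 1 + 9 * z ^ (1 / 9 : ℝ) := by
    refine (ENNReal.ofReal_le_ofReal (add_le_add_right h1 1)).trans (le_of_eq ?_)
    rw [ENNReal.ofReal_add zero_le_one (by positivity), ENNReal.ofReal_mul (by norm_num),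
      ← ENNReal.ofReal_rpow_of_nonneg ENNReal.toReal_nonneg (by norm_num),
      ENNReal.ofReal_toReal hz]
    simp
  refine (mul_le_mul_right h2 z).trans (le_of_eq ?_)
  rw [show (10 / 9 : ℝ) = 1 + 1 / 9 by norm_num,
    ENNReal.rpow_add_of_nonneg _ _ (by norm_num) (by norm_num), ENNReal.rpow_one]
  ring

theorem LH1_zl_npw (x γ : ℝ) : zl (npw x γ) ≤ npw x γ + 9 * npw x (γ * (10 / 9)) := by
  rw [← BilA.npw_rpow]
  exact LH1_zl_le_rpow _

/-- `a + b + c ≤ 3 max`, `log⁺ (3 C z) ≤ log⁺ (3C) + log⁺ z` -/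
theorem zl_le (C : ℝ≥0∞) (hC : C ≠ ⊤) : ∃ K : ℝ≥0∞, K ≠ ⊤ ∧ ∀ a b c : ℝ≥0∞,
    zl (C * (a + b + c)) ≤ K * (zl a + zl b + zl c) := by
  refine ⟨zl C * zl 3, ENNReal.mul_ne_top (LH1_zl_ne_top hC) (LH1_zl_ne_top (by norm_num)),
    fun a b c => (LH1_zl_mul _ _).trans ?_⟩
  rw [mul_assoc]
  refine mul_le_mul_right ?_ _
  have h := LH1_zl_sum Finset.univ ![a, b, c]
  simpa [Fin.sum_univ_three] using h

theorem LH1_lint_sing : ∃ C : ℝ≥0∞, C ≠ ⊤ ∧ ∀ c : R3, ∫⁻ η, zl (sing c η) ≤ C := by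
  obtain ⟨C, hC, h⟩ := lint_loc_sing
  refine ⟨10 * C, ENNReal.mul_ne_top (by norm_num) hC, fun c => ?_⟩
  have hm : ∀ γ, Measurable fun η : R3 => npw ‖η - c‖ γ := fun γ =>
    BilA.measurable_npw (by fun_prop) γ
  have h1 : ∀ η, zl (sing c η) ≤ {η : R3 | ‖η - c‖ ≤ 1}.indicator
      (fun η => npw ‖η - c‖ (3 / 2) + 9 * npw ‖η - c‖ (3 / 2 * (10 / 9))) η := by
    intro η
    unfold sing
    split_ifs with hη
    · rw [indicator_of_mem (by exact hη)]
      exact LH1_zl_npw _ _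
    · rw [LH1_zl_zero]
      exact zero_le
  refine (lintegral_mono h1).trans ?_
  rw [lintegral_indicator (BilA.meas_ball c 1), lintegral_add_left (hm _),
    lintegral_const_mul _ (hm _)]
  have h2 := h c (3 / 2) ⟨by norm_num, by norm_num⟩ 1 ⟨by norm_num, by norm_num⟩
  have h3 := h c (3 / 2 * (10 / 9)) ⟨by norm_num, by norm_num⟩ 1 ⟨by norm_num, by norm_num⟩
  rw [Real.one_rpow, ENNReal.ofReal_one, mul_one] at h2 h3
  refine (add_le_add h2 (mul_le_mul_right h3 _)).trans (le_of_eq ?_)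
  ring

/-- `zl (Ga · Sg) ≤ 10 Ga · Sg^{10/9}`, `Sg ≤ 2 SgA`, power mean inequality, `lint_Ga_slab`,
`lint_loc_sing` (`‖w‖^{-5/3}`). -/
theorem zl_GS (k : ℕ) (T : ℝ) : ∃ K : ℝ≥0∞, K ≠ ⊤ ∧ ∀ q : Ph, q.1 ∈ Icc 0 T →
    ∫⁻ η, ENNReal.ofReal (jb η ^ k) * zl (sec (GS (1 / 8)) q η) ≤ K := by
  obtain ⟨K₁, hK₁, h₁⟩ := zl_le 2 (by norm_num)
  obtain ⟨C₁, hC₁, hslab⟩ := lint_Ga_slab k
  obtain ⟨C₂, hC₂, hsing⟩ := LH1_lint_sing
  set N : ℝ≥0∞ := 500 * ENNReal.ofReal ((1 + T) ^ 3) with hN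
  have hNt : N ≠ ⊤ := ENNReal.mul_ne_top (by norm_num) ENNReal.ofReal_ne_top
  set E : ℝ≥0∞ := ENNReal.ofReal (Real.exp (16 * (k : ℝ) ^ 2)) with hE
  have hEt : E ≠ ⊤ := ENNReal.ofReal_ne_top
  refine ⟨K₁ * (C₁ + 9 * C₁ + E * zl N * (N * C₂)), ENNReal.mul_ne_top hK₁
    (ENNReal.add_ne_top.2 ⟨ENNReal.add_ne_top.2 ⟨hC₁, ENNReal.mul_ne_top (by norm_num) hC₁⟩,
      ENNReal.mul_ne_top (ENNReal.mul_ne_top hEt (LH1_zl_ne_top hNt))
        (ENNReal.mul_ne_top hNt hC₂)⟩), fun q hq => ?_⟩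
  set S := Cs q.1 q.2.1 with hS
  have hcard : (S.card : ℝ≥0∞) ≤ N := by
    refine le_trans le_add_self ((card_Cs_le hq.1 q.2.1).trans (mul_le_mul_right ?_ _))
    exact ENNReal.ofReal_le_ofReal (pow_le_pow_left₀ (by linarith [hq.1]) (by linarith [hq.2]) 3)
  let J : R3 → ℝ≥0∞ := fun η => ENNReal.ofReal (jb η ^ k) * Ga (1 / 8) η
  have hJ : Measurable J := (BilB.measurable_jb_pow k).mul (measurable_Ga _)
  have hpt : ∀ η, ENNReal.ofReal (jb η ^ k) * zl (sec (GS (1 / 8)) q η) ≤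
      K₁ * (J η * (1 + npw |inner ℝ nn η| (1 / 4)) +
        9 * (J η * (1 + npw |inner ℝ nn η| (1 / 4 * (10 / 9)))) +
        E * zl N * ∑ c ∈ S, zl (sing c η)) := by
    intro η
    have e1 : zl (sec (GS (1 / 8)) q η) ≤ Ga (1 / 8) η * zl (Sg (q.1, q.2.1, η)) := by
      have := LH1_zl_mul (Ga (1 / 8) η) (Sg (q.1, q.2.1, η))
      rwa [LH1_zl_of_le_one (BilA.Ga_le_one (by norm_num) η)] at this
    have e2 : zl (Sg (q.1, q.2.1, η)) ≤ K₁ * (1 + zl (npw |inner ℝ nn η| (1 / 4)) +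
        zl (∑ c ∈ S, sing c η)) := by
      have := (zl_mono (Sg_le_SgA hq.1 q.2.1 η)).trans (h₁ _ _ _)
      rwa [LH1_zl_of_le_one le_rfl] at this
    have e3 : zl (∑ c ∈ S, sing c η) ≤ zl N * ∑ c ∈ S, zl (sing c η) :=
      (LH1_zl_sum _ _).trans (mul_le_mul_left (zl_mono hcard) _)
    have e4 : J η ≤ E := BilB.jb_pow_Ga_le k _ (by norm_num) η
    have e5 := LH1_zl_npw |inner ℝ nn η| (1 / 4)
    calc _ ≤ ENNReal.ofReal (jb η ^ k) * (Ga (1 / 8) η * (K₁ *
          (1 + (npw |inner ℝ nn η| (1 / 4) + 9 * npw |inner ℝ nn η| (1 / 4 * (10 / 9))) +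
            zl N * ∑ c ∈ S, zl (sing c η)))) :=
          mul_le_mul_right (e1.trans (mul_le_mul_right (e2.trans (mul_le_mul_right
            (add_le_add (add_le_add_right e5 _) e3) _)) _)) _
      _ = K₁ * (J η * (1 + npw |inner ℝ nn η| (1 / 4)) +
          9 * (J η * npw |inner ℝ nn η| (1 / 4 * (10 / 9))) +
          J η * zl N * ∑ c ∈ S, zl (sing c η)) := by
          simp only [J]
          ring
      _ ≤ _ := mul_le_mul_right (add_le_add (add_le_add_right (mul_le_mul_right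
          (mul_le_mul_right le_add_self _) _) _) (mul_le_mul_left (mul_le_mul_left e4 _) _)) _
  have m1 : ∀ γ, Measurable fun η : R3 => J η * (1 + npw |inner ℝ nn η| γ) := fun γ =>
    hJ.mul (measurable_const.add (BilB.measurable_npw_inner nn γ))
  have m2 : ∀ c, Measurable fun η : R3 => zl (sing c η) := fun c =>
    measurable_zl.comp (BilA.measurable_sing c)
  refine (lintegral_mono hpt).trans ?_
  rw [lintegral_const_mul' _ _ hK₁,
    lintegral_add_left ((m1 _).fun_add ((m1 _).const_mul _)), lintegral_add_left (m1 _),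
    lintegral_const_mul _ (m1 _),
    lintegral_const_mul' _ _ (ENNReal.mul_ne_top hEt (LH1_zl_ne_top hNt)),
    lintegral_finsetSum _ fun c _ => m2 c]
  refine mul_le_mul_right (add_le_add (add_le_add ?_ (mul_le_mul_right ?_ _))
    (mul_le_mul_right ?_ _)) _
  · exact hslab nn norm_nn _ (by norm_num) _ ⟨by norm_num, by norm_num⟩
  · exact hslab nn norm_nn _ (by norm_num) _ ⟨by norm_num, by norm_num⟩
  · refine (Finset.sum_le_card_nsmul _ _ C₂ fun c _ => hsing c).trans ?_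
    rw [nsmul_eq_mul]
    exact mul_le_mul_left hcard _

/-- the spatial singular weight on `[0,T] × cell` -/
def SX (T : ℝ) (z : R3) : ℝ≥0∞ := 1 + ∑ m ∈ img (3 + 2 * T) 0, npw |x1 (z - lat m)| (1 / 4)

theorem LateH2_log {A F r s : ℝ} (hA : 0 < A) (hF0 : 0 ≤ F) (hs : 0 < s) (hsr : s ≤ 2 * r)
    (hF : F ≤ A / r ^ 13) :
    1 + max (Real.log F) 0 ≤ (53 + |Real.log (2 ^ 13 * A)|) * (1 + s ^ (-(1 / 4) : ℝ)) := by
  have h1 : 0 ≤ s ^ (-(1 / 4) : ℝ) := by positivity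
  have h2 := abs_nonneg (Real.log (2 ^ 13 * A))
  have h3 : Real.log s⁻¹ ≤ 4 * s ^ (-(1 / 4) : ℝ) := by
    have := Real.log_le_rpow_div (inv_nonneg.2 hs.le) (show (0 : ℝ) < 1 / 4 by norm_num)
    rw [Real.inv_rpow hs.le, ← Real.rpow_neg hs.le] at this
    linarith
  have h4 : max (Real.log F) 0 ≤ |Real.log (2 ^ 13 * A)| + 52 * s ^ (-(1 / 4) : ℝ) := by
    refine max_le ?_ (by positivity)
    rcases hF0.eq_or_lt with rfl | hF0
    · rw [Real.log_zero]
      positivity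
    · have h5 : F ≤ 2 ^ 13 * A * s⁻¹ ^ 13 := by
        refine hF.trans ?_
        have hr : 0 < r := by linarith
        calc A / r ^ 13 = 2 ^ 13 * A * (2 * r)⁻¹ ^ 13 := by field_simp
          _ ≤ _ := by gcongr
      refine (Real.log_le_log hF0 h5).trans ?_
      rw [Real.log_mul (by positivity) (by positivity), Real.log_pow]
      push_cast
      exact add_le_add (le_abs_self _) (by linarith)
  nlinarith [mul_nonneg h2 h1]

theorem LateH2_pt (k : ℕ) {A : ℝ} (hA : 0 < A) : ∃ K : ℝ≥0∞, K ≠ ⊤ ∧ ∀ P : Par, P.Basic →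
    ∀ (T t : ℝ) (z η : R3) (b : Bool) (j : ℕ) (F : ℝ≥0∞), t ∈ Ioo 0 T → z ∈ cell → j ≤ P.N →
    Lev P b j t (lbl (t, z, η)) η → F ≤ ENNReal.ofReal (A / |x1 (lbl (t, z, η))| ^ 13) →
    ENNReal.ofReal (jb η ^ k) * zl F ≤ K * SX T z * F := by
  refine ⟨ENNReal.ofReal (3 ^ k) * ENNReal.ofReal (53 + |Real.log (2 ^ 13 * A)|),
    ENNReal.mul_ne_top ENNReal.ofReal_ne_top ENNReal.ofReal_ne_top,
    fun P hP T t z η b j F ht hz hj hL hF => ?_⟩
  obtain ⟨m, hm⟩ := exists_red_eq (z - t • η)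
  have e : lbl (t, z, η) + t • η = z - lat m := by
    rw [show lbl (t, z, η) = z - t • η - lat m from hm]
    abel
  have h1 := hL.x1_close hP hj ht.1.le
  obtain ⟨-, h2, h3, -⟩ := hL.small hP hj ht.1.le
  have h4 := abs_pos.2 hL.1
  have hH : cH = 1 / 10 ^ 47 := rfl
  have h5 : m ∈ img (3 + 2 * T) 0 := by
    refine mem_img ?_
    have a1 := norm_add_le (lbl (t, z, η)) (t • η)
    have a2 := norm_sub_le (z - lat m) z
    rw [e, norm_smul, Real.norm_of_nonneg ht.1.le] at a1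
    rw [sub_sub_cancel_left, ← zero_sub] at a2
    linarith [W3B_norm_cell hz, mul_le_mul_of_nonneg_left h3 ht.1.le, ht.2]
  rw [e, hH] at h1
  generalize lbl (t, z, η) = y at h1 h4 hF
  have h6 := abs_sub_abs_le_abs_sub (x1 (z - lat m)) (x1 y)
  have h7 := abs_sub_abs_le_abs_sub (x1 y) (x1 (z - lat m))
  rw [abs_sub_comm] at h7
  have hs : 0 < |x1 (z - lat m)| := by linarith
  have h8 := LateH2_log hA ENNReal.toReal_nonneg hs (r := |x1 y|) (by linarith)
    (ENNReal.toReal_le_of_le_ofReal (by positivity) hF)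
  have h9 : ENNReal.ofReal (1 + max (Real.log F.toReal) 0) ≤
      ENNReal.ofReal (53 + |Real.log (2 ^ 13 * A)|) * SX T z := by
    refine (ENNReal.ofReal_le_ofReal h8).trans ?_
    rw [ENNReal.ofReal_mul (by positivity), ENNReal.ofReal_add zero_le_one (by positivity),
      ENNReal.ofReal_one, ← PB.npw_pos hs]
    exact mul_le_mul_right (add_le_add_right (Finset.single_le_sum
      (f := fun m => npw |x1 (z - lat m)| (1 / 4)) (fun _ _ => zero_le) h5) _) _
  have h10 : ENNReal.ofReal (jb η ^ k) ≤ ENNReal.ofReal (3 ^ k) :=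
    ENNReal.ofReal_le_ofReal (pow_le_pow_left₀ (show 0 ≤ 1 + ‖η‖ by positivity)
      (show 1 + ‖η‖ ≤ 3 by linarith) k)
  calc ENNReal.ofReal (jb η ^ k) * zl F
      ≤ ENNReal.ofReal (3 ^ k) * (F * (ENNReal.ofReal (53 + |Real.log (2 ^ 13 * A)|) * SX T z)) :=
        mul_le_mul' h10 (mul_le_mul_right h9 _)
    _ = _ := by ring

theorem LateH2_zl_zero : zl 0 = 0 := zero_mul _

theorem LateH2_cube {t T : ℝ} (ht : t ∈ Ioo 0 T) (n : ℕ) :
    ENNReal.ofReal ((1 + t) ^ n) ≤ ENNReal.ofReal ((1 + T) ^ n) :=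
  ENNReal.ofReal_le_ofReal (pow_le_pow_left₀ (by linarith [ht.1]) (by linarith [ht.2]) n)

/-- Where `csm (t,z,η) ≠ 0` its label is in level `0`, so with the lift `x̃ = z - lat m`,
`csm ≤ 4 cC/|x1 x̃|^{13}` and `1 + log⁺ ≤ K (1 + |x1 x̃|^{-1/4}) ≤ K SX T z`; `mass_csm`; for `c0 > csm` use
`c0_le_csm_add_Big`, `Big_le`. -/
theorem zl_c0 {P : Par} (hP : P.Basic) (k : ℕ) (T : ℝ) : ∃ K : ℝ≥0∞, K ≠ ⊤ ∧ ∀ q : Ph,
    q.1 ∈ Ioo 0 T → q.2.1 ∈ cell →
    ∫⁻ η, ENNReal.ofReal (jb η ^ k) * zl (sec (c0 P) q η) ≤ K * (1 + npw (ell q) 1) * SX T q.2.1 := by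
  have hC : 0 < cC := by unfold cC; norm_num
  obtain ⟨K₀, hK₀, h₀⟩ := LateH2_pt k (A := 2 * cC) (by positivity)
  obtain ⟨K₁, hK₁, h₁⟩ := mass_csm
  obtain ⟨C, hC', h₂⟩ := Big_le hP
  set B : ℝ≥0∞ := ENNReal.ofReal (3 ^ k) * zl (C * ENNReal.ofReal ((1 + T) ^ 26)) with hB
  have hB' : B ≠ ⊤ := ENNReal.mul_ne_top ENNReal.ofReal_ne_top
    (ENNReal.mul_ne_top (ENNReal.mul_ne_top hC' ENNReal.ofReal_ne_top) ENNReal.ofReal_ne_top)
  refine ⟨K₀ * (K₁ * ENNReal.ofReal ((1 + T) ^ 3)) + B * volume (Metric.closedBall (0 : R3) 2),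
    ENNReal.add_ne_top.2 ⟨ENNReal.mul_ne_top hK₀ (ENNReal.mul_ne_top hK₁ ENNReal.ofReal_ne_top),
      ENNReal.mul_ne_top hB' measure_closedBall_lt_top.ne⟩, ?_⟩
  rintro ⟨t, z, v⟩ ht hz
  have hpt : ∀ η, ENNReal.ofReal (jb η ^ k) * zl (c0 P (t, z, η)) ≤
      K₀ * SX T z * csm P (t, z, η) + (Metric.closedBall (0 : R3) 2).indicator (fun _ => B) η := by
    intro η
    by_cases h0 : c0 P (t, z, η) = 0
    · rw [h0, LateH2_zl_zero, mul_zero]
      exact zero_le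
    obtain ⟨b, -, hb⟩ := Finset.exists_ne_zero_of_sum_ne_zero h0
    by_cases hr : |x1 (lbl (t, z, η))| ≤ P.rstar t
    · rw [show csm P (t, z, η) = c0 P (t, z, η) from if_pos hr]
      refine le_add_right (h₀ P hP T t z η b 0 _ ht hz (Nat.zero_le _)
        (lev_of_cold0 hP hb ht.1.le hr) ?_)
      have h3 : ∀ b' : Bool, cold0 P b' (lbl (t, z, η)) η ≤
          ENNReal.ofReal (cC / |x1 (lbl (t, z, η))| ^ 13) := fun b' => by
        by_cases hb' : cold0 P b' (lbl (t, z, η)) η = 0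
        · exact hb'.trans_le zero_le
        · exact (cold0_small hP hb').2.2.2.2.2
      refine (Finset.sum_le_card_nsmul _ _ _ fun b' _ => h3 b').trans_eq ?_
      rw [Finset.card_univ, Fintype.card_bool, two_nsmul,
        ← ENNReal.ofReal_add (by positivity) (by positivity), ← add_div, two_mul]
    · have h3 : ‖η‖ ≤ 2 := (supp_c0 hP h0).1
      rw [indicator_of_mem (mem_closedBall_zero_iff.2 h3)]
      refine le_add_left (mul_le_mul' (ENNReal.ofReal_le_ofReal (pow_le_pow_left₀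
        (show 0 ≤ 1 + ‖η‖ by positivity) (show 1 + ‖η‖ ≤ 3 by linarith) k)) (zl_mono ?_))
      have h4 := c0_le_csm_add_Big hP (p := (t, z, η)) ht.1.le
      rw [show csm P (t, z, η) = 0 from if_neg hr, zero_add] at h4
      refine h4.trans ((h₂ (t, z, η) ht.1.le).trans (mul_le_of_le_one_right' ?_ |>.trans
        (mul_le_mul_right (LateH2_cube ht 26) _)))
      exact ENNReal.ofReal_le_one.2 (Real.exp_le_one_iff.2 (neg_nonpos.2 (by positivity)))
  have hm : Measurable fun η : R3 => csm P (t, z, η) := (measurable_csm P).comp (by fun_prop)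
  have h5 : ∫⁻ η, csm P (t, z, η) ≤
      K₁ * ENNReal.ofReal ((1 + T) ^ 3) * (1 + npw (ell (t, z, v)) 1) :=
    (h₁ P hP (t, z, v) ht.1).trans (mul_le_mul' (mul_le_mul_right (LateH2_cube ht 3) _)
      (le_add_left (mul_le_of_le_one_left' (indicator_le_self' (fun _ _ => zero_le) _))))
  refine (lintegral_mono hpt).trans ?_
  rw [lintegral_add_left (hm.const_mul _), lintegral_const_mul _ hm,
    lintegral_indicator_const measurableSet_closedBall, add_mul, add_mul]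
  refine add_le_add ((mul_le_mul_right h5 _).trans_eq (by ring)) ?_
  exact (le_mul_of_one_le_right' le_self_add).trans (le_mul_of_one_le_right' le_self_add)

theorem zl_ZZ : ∀ᶠ P in parF, ∀ (k : ℕ) (T : ℝ), ∃ K : ℝ≥0∞, K ≠ ⊤ ∧ ∀ q : Ph,
    q.1 ∈ Ioo 0 T → q.2.1 ∈ cell →
    ∫⁻ η, ENNReal.ofReal (jb η ^ k) * zl (sec (ZZ P) q η) ≤ K * SX T q.2.1 := by
  filter_upwards [ev_basic, mass_ZZ 1 one_pos] with P hP h₁ k T
  have hC : 0 < cC := by unfold cC; norm_num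
  obtain ⟨K₀, hK₀, h₀⟩ := LateH2_pt k (A := 2 * ((P.N + 1) * cC)) (by positivity)
  refine ⟨K₀ * ENNReal.ofReal ((1 + T) ^ 3), ENNReal.mul_ne_top hK₀ ENNReal.ofReal_ne_top, ?_⟩
  rintro ⟨t, z, v⟩ ht hz
  have hpt : ∀ η, ENNReal.ofReal (jb η ^ k) * zl (ZZ P (t, z, η)) ≤
      K₀ * SX T z * ZZ P (t, z, η) := by
    intro η
    by_cases h0 : ZZ P (t, z, η) = 0
    · rw [h0, LateH2_zl_zero, mul_zero]
      exact zero_le
    obtain ⟨b, -, hb⟩ := Finset.exists_ne_zero_of_sum_ne_zero h0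
    obtain ⟨j, hj, hL⟩ := Finset.exists_ne_zero_of_sum_ne_zero hb
    have hL' : Lev P b j t (lbl (t, z, η)) η := by_contra fun hc => hL (if_neg hc)
    have hj' := (Finset.mem_Icc.1 hj).2
    refine h₀ P hP T t z η b j _ ht hz hj' hL' ?_
    have h2 : |x1 (lbl (t, z, η))| ≤ 1 := by
      linarith [(hL'.small hP hj' ht.1.le).1, hP.r0_cs, hP.cs_le]
    have h3 : ∀ b' : Bool, zed0 P b' t (lbl (t, z, η)) η ≤
        ENNReal.ofReal ((P.N + 1) * cC / |x1 (lbl (t, z, η))| ^ 13) := fun b' => by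
      refine (Finset.sum_le_card_nsmul _ _ (ENNReal.ofReal (cC / |x1 (lbl (t, z, η))| ^ 13))
        fun i _ => ?_).trans ?_
      · split_ifs
        · exact ENNReal.ofReal_le_ofReal (div_le_div_of_nonneg_right
            (mul_le_of_le_one_right hC.le (pow_le_one₀ (abs_nonneg _) h2)) (by positivity))
        · exact zero_le
      · rw [Nat.card_Icc, Nat.add_sub_cancel, nsmul_eq_mul, ← ENNReal.ofReal_natCast,
          ← ENNReal.ofReal_mul (Nat.cast_nonneg _), mul_div_assoc]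
        exact ENNReal.ofReal_le_ofReal (mul_le_mul_of_nonneg_right (by linarith) (by positivity))
    refine (Finset.sum_le_card_nsmul _ _ _ fun b' _ => h3 b').trans_eq ?_
    rw [Finset.card_univ, Fintype.card_bool, two_nsmul,
      ← ENNReal.ofReal_add (by positivity) (by positivity), ← add_div, two_mul]
  have hm : Measurable fun η : R3 => ZZ P (t, z, η) := (measurable_ZZ P).comp (by fun_prop)
  have h5 : ∫⁻ η, ZZ P (t, z, η) ≤ ENNReal.ofReal ((1 + T) ^ 3) :=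
    (h₁ (t, z, v) ht.1.le).trans ((one_mul _).trans_le (LateH2_cube ht 3))
  refine (lintegral_mono hpt).trans ?_
  rw [lintegral_const_mul _ hm]
  exact (mul_le_mul_right h5 _).trans_eq (by ring)

theorem LH1_lint_time (T : ℝ) : ∫⁻ t in Ioo (0 : ℝ) T, (1 + npw t (3 / 4)) < ⊤ := by
  rw [lintegral_add_left measurable_const, setLIntegral_const, one_mul]
  refine ENNReal.add_lt_top.2 ⟨measure_Ioo_lt_top, ?_⟩
  have h := PB.lint_k1 (lam := max T 1) (δ := 3 / 4) (by positivity) (by norm_num)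
  refine lt_of_le_of_lt ?_ (h.trans_lt ENNReal.ofReal_lt_top)
  refine le_trans (setLIntegral_mono' measurableSet_Ioo fun t ht => ?_)
    (setLIntegral_le_lintegral (Ioo (0 : ℝ) T) _)
  unfold PB.k1
  rw [abs_of_pos ht.1, if_pos (ht.2.le.trans (le_max_left _ _))]

theorem LH1_lint_tn : ∫⁻ z in cell, npw (tn z) (5 / 2) < ⊤ := by
  obtain ⟨C, hC, h⟩ := lint_loc_sing
  have h1 := h 0 (5 / 2) ⟨by norm_num, by norm_num⟩ 1 ⟨by norm_num, by norm_num⟩
  simp only [sub_zero] at h1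
  have h2 := lint_cell_red (fun x => npw ‖x‖ (5 / 2)) (BilA.measurable_npw measurable_norm _)
  exact (h2.trans h1).trans_lt (ENNReal.mul_lt_top hC.lt_top ENNReal.ofReal_lt_top)

theorem LH1_lint_x1 (c : R3) : ∫⁻ z in cell, npw |x1 (z - c)| (1 / 2) < ⊤ := by
  obtain ⟨C, hC, h⟩ := lint_Ga_slab 0
  have h1 := h nn norm_nn 1 (by norm_num) (1 / 2) ⟨by norm_num, by norm_num⟩
  simp only [pow_zero, ENNReal.ofReal_one, one_mul] at h1
  rw [← lintegral_sub_right_eq_self _ c] at h1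
  have h2 : ∀ z ∈ cell, npw |x1 (z - c)| (1 / 2) ≤ ENNReal.ofReal (Real.exp ((2 + ‖c‖) ^ 2)) *
      (Ga 1 (z - c) * (1 + npw |inner ℝ nn (z - c)| (1 / 2))) := by
    intro z hz
    have h3 : ‖z - c‖ ≤ 2 + ‖c‖ := (norm_sub_le _ _).trans (by linarith [W3B_norm_cell hz])
    have h4 : 1 ≤ ENNReal.ofReal (Real.exp ((2 + ‖c‖) ^ 2)) * Ga 1 (z - c) := by
      unfold Ga
      rw [← ENNReal.ofReal_mul (Real.exp_nonneg _), ← Real.exp_add, ENNReal.one_le_ofReal]
      refine Real.one_le_exp ?_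
      have := pow_le_pow_left₀ (norm_nonneg _) h3 2
      linarith
    rw [← mul_assoc]
    exact le_trans le_add_self (le_mul_of_one_le_left' h4)
  refine (setLIntegral_mono' measurableSet_cell h2).trans_lt ?_
  refine (setLIntegral_le_lintegral _ _).trans_lt ?_
  rw [lintegral_const_mul' _ _ ENNReal.ofReal_ne_top]
  exact ENNReal.mul_lt_top ENNReal.ofReal_lt_top (h1.trans_lt hC.lt_top)

theorem LH1_meas_tn (γ : ℝ) : Measurable fun z : R3 => npw (tn z) γ :=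
  BilA.measurable_npw continuous_tn.measurable γ

theorem LH1_meas_x1 (c : R3) (γ : ℝ) : Measurable fun z : R3 => npw |x1 (z - c)| γ :=
  BilA.measurable_npw (continuous_x1.comp (continuous_id.sub continuous_const)).abs.measurable γ

theorem LH1_measurable_SX (T : ℝ) : Measurable (SX T) :=
  measurable_const.add (Finset.measurable_sum _ fun m _ => LH1_meas_x1 (lat m) _)

theorem LH1_lint_space (T : ℝ) : ∫⁻ z in cell, (1 + npw (tn z) (5 / 4)) * SX T z < ⊤ := by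
  have e1 : ∀ z : R3, npw (tn z) (5 / 4) * npw (tn z) (5 / 4) = npw (tn z) (5 / 2) := fun z => by
    rw [← PB.npw_add _ (by norm_num) (by norm_num)]
    norm_num
  have hpt : ∀ z : R3, (1 + npw (tn z) (5 / 4)) * SX T z ≤ (2 + npw (tn z) (5 / 2)) +
      ∑ m ∈ img (3 + 2 * T) 0, ((2 + npw (tn z) (5 / 2)) + npw |x1 (z - lat m)| (1 / 2)) := by
    intro z
    unfold SX
    rw [mul_add, Finset.mul_sum]
    refine add_le_add ?_ (Finset.sum_le_sum fun m _ => ?_)
    · have := BilB.prod_le_sq (npw (tn z) (5 / 4)) 0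
      rw [e1] at this
      refine le_trans (by rw [add_zero]) (this.trans (le_of_eq ?_))
      ring
    · have := BilB.prod_le_sq (npw (tn z) (5 / 4)) (npw |x1 (z - lat m)| (1 / 4))
      rw [e1, BilB.npw_quarter_sq] at this
      refine (mul_le_mul_right le_add_self _).trans (this.trans (le_of_eq ?_))
      ring
  have m1 : Measurable fun z : R3 => 2 + npw (tn z) (5 / 2) :=
    measurable_const.add (LH1_meas_tn _)
  have f1 : ∫⁻ z in cell, (2 + npw (tn z) (5 / 2)) < ⊤ := by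
    rw [lintegral_add_left measurable_const, setLIntegral_const, volume_cell]
    exact ENNReal.add_lt_top.2 ⟨by norm_num, LH1_lint_tn⟩
  refine (lintegral_mono hpt).trans_lt ?_
  rw [lintegral_add_left m1, lintegral_finsetSum _ fun m _ => m1.fun_add (LH1_meas_x1 _ _)]
  refine ENNReal.add_lt_top.2 ⟨f1, ENNReal.sum_lt_top.2 fun m _ => ?_⟩
  rw [lintegral_add_left m1]
  exact ENNReal.add_lt_top.2 ⟨f1, LH1_lint_x1 _⟩

/-- `ℓ^{-2} ≤ t^{-3/4} tn^{-5/4}`, `tn^{-5/4} SX ≤ tn^{-5/2} + SX²`, `lint_cell_red`, `lint_loc_sing`,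
`∫_{cell} |x1 (z - m)|^{-1/2} < ∞` (`lint_split`). -/
theorem lint_SX (T : ℝ) :
    ∫⁻ z in Ioo (0 : ℝ) T ×ˢ cell, (1 + npw (ell (z.1, z.2, 0)) 1) ^ 2 * SX T z.2
      ∂(volume : Measure (ℝ × R3)) < ⊤ := by
  have hpt : ∀ z ∈ Ioo (0 : ℝ) T ×ˢ cell, (1 + npw (ell (z.1, z.2, 0)) 1) ^ 2 * SX T z.2 ≤
      2 * ((1 + npw z.1 (3 / 4)) * ((1 + npw (tn z.2) (5 / 4)) * SX T z.2)) := by
    intro z hz
    have ht : 0 < z.1 := hz.1.1
    have hl : ell (z.1, z.2, (0 : R3)) = 8 * z.1 + tn z.2 := rfl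
    have e1 : npw (ell (z.1, z.2, (0 : R3))) 1 * npw (ell (z.1, z.2, (0 : R3))) 1 ≤
        npw z.1 (3 / 4) * npw (tn z.2) (5 / 4) := by
      rw [← PB.npw_add _ zero_le_one zero_le_one, show (1 + 1 : ℝ) = 3 / 4 + 5 / 4 by norm_num,
        PB.npw_add _ (by norm_num) (by norm_num), hl]
      refine mul_le_mul' (PB.npw_anti (by norm_num) ?_) (PB.npw_anti (by norm_num) ?_)
      · linarith [tn_nonneg z.2]
      · linarith
    have e2 : 1 + npw z.1 (3 / 4) * npw (tn z.2) (5 / 4) ≤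
        (1 + npw z.1 (3 / 4)) * (1 + npw (tn z.2) (5 / 4)) := by
      have : (1 + npw z.1 (3 / 4)) * (1 + npw (tn z.2) (5 / 4)) =
          1 + npw z.1 (3 / 4) * npw (tn z.2) (5 / 4) + (npw z.1 (3 / 4) + npw (tn z.2) (5 / 4)) := by
        ring
      rw [this]
      exact le_self_add
    have e3 := (add_le_add_right e1 1).trans e2
    have e4 : (1 + npw (ell (z.1, z.2, 0)) 1) ^ 2 ≤
        2 * ((1 + npw z.1 (3 / 4)) * (1 + npw (tn z.2) (5 / 4))) := by
      rw [sq, two_mul]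
      exact (BilB.prod_le_sq _ _).trans (add_le_add e3 e3)
    refine (mul_le_mul_left e4 _).trans (le_of_eq ?_)
    ring
  refine (setLIntegral_mono' (measurableSet_Ioo.prod measurableSet_cell) hpt).trans_lt ?_
  rw [lintegral_const_mul' _ _ (by norm_num), Measure.volume_eq_prod, ← Measure.prod_restrict,
    lintegral_prod_mul (f := fun t : ℝ => 1 + npw t (3 / 4))
      (g := fun z : R3 => (1 + npw (tn z) (5 / 4)) * SX T z)
      (measurable_const.add (PB.measurable_npw _)).aemeasurable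
      ((measurable_const.add (LH1_meas_tn _)).mul (LH1_measurable_SX T)).aemeasurable]
  exact ENNReal.mul_lt_top (by norm_num) (ENNReal.mul_lt_top (LH1_lint_time T) (LH1_lint_space T))

theorem LH3_supp {f : R3 → ℝ≥0∞} (k : ℕ) (h : ∀ η, f η ≠ 0 → ‖η‖ ≤ 2) :
    ∫⁻ η, ENNReal.ofReal (jb η ^ k) * f η ≤ ENNReal.ofReal (3 ^ k) * ∫⁻ η, f η := by
  rw [← lintegral_const_mul' _ _ ENNReal.ofReal_ne_top]
  refine lintegral_mono fun η => ?_
  by_cases h0 : f η = 0
  · rw [h0, mul_zero, mul_zero]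
  · refine mul_le_mul_left (ENNReal.ofReal_le_ofReal
      (pow_le_pow_left₀ (BilB.jb_pos η).le ?_ k)) _
    have := h η h0
    unfold jb
    linarith

theorem LH3_pow {t T : ℝ} (ht : t ∈ Ioo 0 T) (n : ℕ) :
    ENNReal.ofReal ((1 + t) ^ n) ≤ ENNReal.ofReal ((1 + T) ^ n) :=
  ENNReal.ofReal_le_ofReal (pow_le_pow_left₀ (by linarith [ht.1]) (by linarith [ht.2]) n)

theorem LH3_mom : ∀ᶠ P in parF, ∀ (k : ℕ) (T : ℝ), ∃ K : ℝ≥0∞, K ≠ ⊤ ∧ ∀ q : Ph, q.1 ∈ Ioo 0 T →
    ∫⁻ η, ENNReal.ofReal (jb η ^ k) * (sec (c0 P) q η + sec (ZZ P) q η + sec (GS (1 / 8)) q η) ≤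
      K * (1 + npw (ell q) 1) := by
  filter_upwards [ev_basic, mass_ZZ 1 one_pos] with P hP hZ k T
  obtain ⟨K₁, hK₁, h₁⟩ := mass_csm
  obtain ⟨K₂, hK₂, h₂⟩ := Big_le hP
  obtain ⟨K₃, hK₃, h₃⟩ := moment_GS k
  set a : ℝ≥0∞ := ENNReal.ofReal (3 ^ k) with ha
  set b : ℝ≥0∞ := ENNReal.ofReal ((1 + T) ^ 3) with hb
  set c : ℝ≥0∞ := ENNReal.ofReal ((1 + T) ^ 26) with hc
  have ha' : a ≠ ⊤ := ENNReal.ofReal_ne_top
  have hb' : b ≠ ⊤ := ENNReal.ofReal_ne_top
  have hc' : c ≠ ⊤ := ENNReal.ofReal_ne_top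
  refine ⟨a * (K₁ * b) + K₂ * c * (K₃ * b) + a * (1 * b) + K₃ * b, by finiteness, fun q hq => ?_⟩
  have hj : ∀ {G : PF}, Measurable G → Measurable fun η => ENNReal.ofReal (jb η ^ k) * sec G q η :=
    fun hG => (BilB.measurable_jb_pow k).mul (measurable_sec hG q)
  have e1 : ∫⁻ η, ENNReal.ofReal (jb η ^ k) * sec (csm P) q η ≤
      a * (K₁ * b) * (1 + npw (ell q) 1) := by
    refine (LH3_supp k fun η h => (supp_c0 hP (p := (q.1, q.2.1, η)) fun h0 =>
      h (le_antisymm ((csm_le_c0 P _).trans h0.le) zero_le)).1).trans ?_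
    rw [mul_assoc]
    refine mul_le_mul_right ((h₁ P hP q hq.1).trans (mul_le_mul'
      (mul_le_mul_right (LH3_pow hq 3) _) (le_add_left ?_))) _
    exact mul_le_of_le_one_left' (indicator_le_self' (fun _ _ => zero_le) q)
  have e2 : ∫⁻ η, ENNReal.ofReal (jb η ^ k) * sec (Big P) q η ≤ K₂ * c * (K₃ * b) := by
    refine le_trans ?_ (mul_le_mul_right ((h₃ q hq.1.le (1 / 2) (by norm_num)).trans
      (mul_le_mul_right (LH3_pow hq 3) _)) _)
    rw [← lintegral_const_mul' _ _ (ENNReal.mul_ne_top hK₂ hc')]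
    refine lintegral_mono fun η => ?_
    rw [mul_left_comm]
    refine mul_le_mul_right ((h₂ (q.1, q.2.1, η) hq.1.le).trans (mul_le_mul'
      (mul_le_mul_right (LH3_pow hq 26) _) ?_)) _
    exact le_mul_of_one_le_right' (one_le_Sg (q.1, q.2.1, η))
  have e3 : ∫⁻ η, ENNReal.ofReal (jb η ^ k) * sec (ZZ P) q η ≤ a * (1 * b) :=
    (LH3_supp k fun η h => (supp_ZZ hP (p := (q.1, q.2.1, η)) hq.1.le h).1).trans
      (mul_le_mul_right ((hZ q hq.1.le).trans (mul_le_mul_right (LH3_pow hq 3) _)) _)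
  have e4 : ∫⁻ η, ENNReal.ofReal (jb η ^ k) * sec (GS (1 / 8)) q η ≤ K₃ * b :=
    (h₃ q hq.1.le (1 / 8) (by norm_num)).trans (mul_le_mul_right (LH3_pow hq 3) _)
  have e5 : ∫⁻ η, ENNReal.ofReal (jb η ^ k) * sec (c0 P) q η ≤
      a * (K₁ * b) * (1 + npw (ell q) 1) + K₂ * c * (K₃ * b) := by
    refine le_trans ?_ (add_le_add e1 e2)
    rw [← lintegral_add_left (hj (measurable_csm P))]
    refine lintegral_mono fun η => ?_
    rw [← mul_add]
    exact mul_le_mul_right (c0_le_csm_add_Big hP (p := (q.1, q.2.1, η)) hq.1.le) _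
  simp only [mul_add (ENNReal.ofReal _)]
  rw [lintegral_add_right _ (hj (measurable_GS _)),
    lintegral_add_right _ (hj (measurable_ZZ P))]
  refine (add_le_add (add_le_add e5 e3) e4).trans ?_
  simp only [add_mul _ _ (1 + npw (ell q) 1)]
  exact add_le_add (add_le_add (add_le_add le_rfl (le_mul_of_one_le_right' le_self_add))
    (le_mul_of_one_le_right' le_self_add)) (le_mul_of_one_le_right' le_self_add)

theorem ev_H3 : ∀ᶠ P in parF, ∀ (F : PF) (T : ℝ) (C : ℝ≥0∞), C ≠ ⊤ →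
    (∀ p : Ph, p.1 ∈ Ioo 0 T → F p ≤ C * (c0 P p + ZZ P p + GS (1 / 8) p)) → H3 F T := by
  filter_upwards [ev_basic, zl_ZZ, LH3_mom] with P hP hZ hM F T C hC hF k
  obtain ⟨K₀, hK₀, h₀⟩ := zl_le C hC
  obtain ⟨K₁, hK₁, h₁⟩ := zl_c0 hP k T
  obtain ⟨K₂, hK₂, h₂⟩ := hZ k T
  obtain ⟨K₃, hK₃, h₃⟩ := zl_GS k T
  obtain ⟨K₄, hK₄, h₄⟩ := hM k T
  have hK : K₀ * (K₁ + K₂ + K₃) * (1 + C * K₄) ≠ ⊤ := by finiteness
  refine lt_of_le_of_lt ?_ (ENNReal.mul_lt_top hK.lt_top (lint_SX T))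
  rw [← lintegral_const_mul' _ _ hK]
  refine setLIntegral_mono' (measurableSet_Ioo.prod measurableSet_cell) fun z hz => ?_
  set q : Ph := (z.1, z.2, 0) with hq
  have hj : ∀ {G : PF}, Measurable G →
      Measurable fun η => ENNReal.ofReal (jb η ^ k) * zl (sec G q η) :=
    fun hG => (BilB.measurable_jb_pow k).mul (measurable_zl.comp (measurable_sec hG q))
  have hS : 1 ≤ SX T z.2 := le_self_add
  have e1 : ∫⁻ v, F (z.1, z.2, v) *
      ENNReal.ofReal (jb v ^ k * (1 + max (Real.log (F (z.1, z.2, v)).toReal) 0)) ≤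
      K₀ * (K₁ + K₂ + K₃) * ((1 + npw (ell q) 1) * SX T z.2) := by
    calc _ ≤ ∫⁻ v, K₀ * (ENNReal.ofReal (jb v ^ k) * zl (sec (c0 P) q v) +
          ENNReal.ofReal (jb v ^ k) * zl (sec (ZZ P) q v) +
          ENNReal.ofReal (jb v ^ k) * zl (sec (GS (1 / 8)) q v)) := by
          refine lintegral_mono fun v => ?_
          rw [ENNReal.ofReal_mul (pow_nonneg (BilB.jb_pos v).le k), mul_left_comm, ← mul_add,
            ← mul_add, mul_left_comm K₀]
          exact mul_le_mul_right ((zl_mono (hF (z.1, z.2, v) hz.1)).trans (h₀ _ _ _)) _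
      _ ≤ _ := by
          rw [lintegral_const_mul' _ _ hK₀, lintegral_add_right _ (hj (measurable_GS _)),
            lintegral_add_right _ (hj (measurable_ZZ P)), mul_assoc, add_mul, add_mul]
          refine mul_le_mul_right (add_le_add (add_le_add ((h₁ q hz.1 hz.2).trans_eq
            (mul_assoc _ _ _)) ((h₂ q hz.1 hz.2).trans ?_))
            ((h₃ q ⟨hz.1.1.le, hz.1.2.le⟩).trans ?_)) _
          · exact mul_le_mul_right (le_mul_of_one_le_left' le_self_add) _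
          · exact le_mul_of_one_le_right' (one_le_mul le_self_add hS)
  have e2 : 1 + ∫⁻ v, F (z.1, z.2, v) * ENNReal.ofReal (jb v ^ k) ≤
      (1 + C * K₄) * (1 + npw (ell q) 1) := by
    rw [add_mul, one_mul, mul_assoc]
    refine add_le_add le_self_add (le_trans ?_ (mul_le_mul_right (h₄ q hz.1) _))
    rw [← lintegral_const_mul' _ _ hC]
    refine lintegral_mono fun v => ?_
    rw [mul_comm, mul_left_comm]
    exact mul_le_mul_right (hF (z.1, z.2, v) hz.1) _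
  refine (mul_le_mul' e1 e2).trans_eq ?_
  ring

end
end Crest.Agent.R68
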