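import Crest.Agent.R68.LateB
import Crest.Agent.R68.LateD
import Crest.Agent.R68.LateH

/-! # Row 68: late phase: elementary lemmas for the global continuation -/

set_option autoImplicit false
open MeasureTheory Set Filter Topology
open scoped ENNReal NNReal

namespace Crest.Agent.R68.LEG

theorem small {a b e : ℝ≥0∞} (ha : a ≠ ⊤) (hb : 0 < b) (he : 0 < e) :
    ∃ x : ℝ≥0∞, 0 < x ∧ x ≤ e ∧ a * x ≤ b := by
  obtain ⟨x, hx, h⟩ := ENNReal.exists_pos_mul_lt ha hb.ne'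
  refine ⟨min x e, lt_min hx he, min_le_right _ _, le_trans ?_ h.le⟩
  rw [mul_comm]
  exact mul_le_mul_left (min_le_left _ _) _

theorem lint_exp {c : ℝ} (hc : 0 < c) (a t : ℝ) :
    ∫⁻ s in Ioo a t, ENNReal.ofReal (Real.exp (-(c * (t - s)))) ≤ ENNReal.ofReal c⁻¹ := by
  have e : ∀ s : ℝ, Real.exp (-(c * (t - s))) = Real.exp (-(c * t)) * Real.exp (c * s) := fun s => by
    rw [← Real.exp_add]; congr 1; ring
  simp only [e]
  refine (lintegral_mono_set (Ioo_subset_Iio_self.trans Iio_subset_Iic_self)).trans ?_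
  rw [← ofReal_integral_eq_lintegral_ofReal ((integrableOn_exp_mul_Iic hc t).const_mul _)
    (.of_forall fun s => by positivity), integral_const_mul, integral_exp_mul_Iic hc,
    ← mul_div_assoc, ← Real.exp_add, neg_add_cancel, Real.exp_zero, one_div]

/-- The time integral in Guo's estimate. -/
theorem lint_split {c a T τ t : ℝ} (hc : 0 < c) (ht : t ≤ T + τ) {n : ℝ → ℝ≥0∞} {η K : ℝ≥0∞}
    (h1 : ∀ s, a < s → s ≤ T → n s ≤ η) (h2 : ∀ s, a < s → n s ≤ K) :
    ∫⁻ s in Ioo a t, ENNReal.ofReal (Real.exp (-(c * (t - s)))) * n s ≤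
      ENNReal.ofReal c⁻¹ * η + K * ENNReal.ofReal τ := by
  have hm : Measurable fun s : ℝ => ENNReal.ofReal (Real.exp (-(c * (t - s)))) := by fun_prop
  calc _ ≤ ∫⁻ s in Ioo a t, (ENNReal.ofReal (Real.exp (-(c * (t - s)))) * η +
        (Ioo T (T + τ)).indicator (fun _ => K) s) := by
        refine setLIntegral_mono' measurableSet_Ioo fun s hs => ?_
        rcases le_or_gt s T with h | h
        · exact (mul_le_mul_right (h1 s hs.1 h) _).trans le_self_add
        · rw [indicator_of_mem (show s ∈ Ioo T (T + τ) from ⟨h, hs.2.trans_le ht⟩)]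
          refine le_trans ?_ le_add_self
          refine (mul_le_of_le_one_left' (ENNReal.ofReal_le_one.2 (Real.exp_le_one_iff.2 ?_))).trans
            (h2 s hs.1)
          exact neg_nonpos.2 (mul_nonneg hc.le (sub_nonneg.2 hs.2.le))
    _ ≤ _ := by
        rw [lintegral_add_left (hm.mul_const _), lintegral_mul_const _ hm]
        refine add_le_add (mul_le_mul_left (lint_exp hc a t) _) ?_
        refine (setLIntegral_le_lintegral _ _).trans ?_
        rw [lintegral_indicator_const measurableSet_Ioo, Real.volume_Ioo, add_sub_cancel_left]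

/-- The final bookkeeping. -/
theorem budget {K₁ K₂ C ε η₁ x y : ℝ≥0∞} (h1 : (1 + K₂) * K₁ * ε ≤ 8⁻¹)
    (h2 : (1 + K₂) * K₁ * η₁ ≤ 8⁻¹ * ε) (h3 : C * x ≤ 8⁻¹ * ε) (h4 : C * y ≤ 8⁻¹ * ε) :
    K₁ * (η₁ + ε ^ 2) + (8⁻¹ * ε + K₂ * (K₁ * (η₁ + ε ^ 2)) + C * (x + y)) ≤ ε := by
  have h5 := mul_le_mul_left h1 ε
  have h6 : (8 : ℝ≥0∞) * 8⁻¹ = 1 := ENNReal.mul_inv_cancel (by norm_num) (by norm_num)
  calc _ = (1 + K₂) * K₁ * η₁ + (1 + K₂) * K₁ * ε * ε + 8⁻¹ * ε + C * x + C * y := by ring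
    _ ≤ 8⁻¹ * ε + 8⁻¹ * ε + 8⁻¹ * ε + 8⁻¹ * ε + 8⁻¹ * ε :=
        add_le_add (add_le_add (add_le_add (add_le_add h2 h5) le_rfl) h3) h4
    _ = 5 * (8⁻¹ * ε) := by ring
    _ ≤ 8 * (8⁻¹ * ε) := mul_le_mul_left (by norm_num) _
    _ = ε := by rw [← mul_assoc, h6, one_mul]

end Crest.Agent.R68.LEG
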