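import Crest.Agent.R68.LateB
import Crest.Agent.R68.LateD
import Crest.Agent.R68.LateH
import Crest.Agent.R68.LateEAuxG

/-! # Row 68: late phase: global continuation -/

set_option autoImplicit false
open MeasureTheory Set Filter Topology
open scoped ENNReal NNReal
open Crest.AnalysisR.VecCalc3 Crest.AnalysisR.PDE.Boltzmann

namespace Crest.Agent.R68
noncomputable section

/-- bounded part of the distance to the Maxwellian -/
def dW (P : Par) (ν : ℝ) (ε η₁ : ℝ≥0∞) (F : PF) : PF := fun p =>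
  dd (clL P ν ε η₁ F p) (muF p) - Ep P ν η₁ p

theorem E1_sq {ε η : ℝ≥0∞} (hε : ε ≤ 1) (hη : η ≤ 1) : (ε + η) ^ 2 ≤ 3 * (η + ε ^ 2) := by
  have h1 : ε * η ≤ η := mul_le_of_le_one_left' hε
  have h2 : η * η ≤ η := mul_le_of_le_one_left' hη
  calc (ε + η) ^ 2 = ε ^ 2 + 2 * (ε * η) + η * η := by ring
    _ ≤ ε ^ 2 + 2 * η + η := by gcongr
    _ ≤ ε ^ 2 + 2 * η + η + 2 * ε ^ 2 := le_self_add
    _ = _ := by ring

theorem E1_up {D1 D2 G H c cs Z B W kw η ε K1 K2 E h q : ℝ≥0∞} (hD : D1 ≤ D2) (hh : h + η ≤ 1)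
    (hc : c ≤ cs + B) (hB : D1 * B ≤ E * (4 * η) * W) (hq : q ≤ 3 * (4 * η + ε ^ 2)) :
    (c + h * (Z + B) + η * G) * D1 + ((K1 * (4 * η) + η) * W + η * (D2 * G) + kw) +
        ((K2 * q + η) * W + η * (D2 * G) + η * (D1 * Z)) ≤
      D2 * (4 * η * G + H) + D1 * (cs + Z) +
        ((K1 + 1 + 3 * K2 + 2 * E) * (4 * η + ε ^ 2) * W + kw) := by
  have h1 : h ≤ 1 := le_self_add.trans hh
  have h2 : D1 * c ≤ D1 * cs + E * (4 * η) * W :=
    (mul_le_mul' le_rfl hc).trans ((mul_add _ _ _).trans_le (add_le_add le_rfl hB))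
  calc _ = D1 * c + (h + η) * (D1 * Z) + h * (D1 * B) + η * (D1 * G) + K2 * q * W +
        (2 * η * (D2 * G) + (K1 * (4 * η) + 2 * η) * W + kw) := by ring
    _ ≤ D1 * cs + E * (4 * η) * W + 1 * (D1 * Z) + 1 * (E * (4 * η) * W) + η * (D2 * G) +
        K2 * (3 * (4 * η + ε ^ 2)) * W +
        (2 * η * (D2 * G) + (K1 * (4 * η) + 2 * η) * W + kw) := by gcongr
    _ ≤ _ + (η * (D2 * G) + D2 * H + 2 * η * W + (K1 + 1 + 2 * E) * ε ^ 2 * W) := le_self_add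
    _ = _ := by ring

theorem E1_low {D1 D2 G H W kw η ε K1 K2 E : ℝ≥0∞} (hD : D1 ≤ D2) :
    (H + η * G) * D1 + ((K1 * (4 * η) + η) * W + η * (D2 * G) + kw) ≤
      D2 * (4 * η * G + H) + ((K1 + 1 + 3 * K2 + 2 * E) * (4 * η + ε ^ 2) * W + kw) := by
  calc _ ≤ (H + η * G) * D2 + ((K1 * (4 * η) + η) * W + η * (D2 * G) + kw) := by gcongr
    _ ≤ _ + (2 * η * (D2 * G) + 3 * η * W + (K1 + 1) * ε ^ 2 * W +
        (3 * K2 + 2 * E) * (4 * η + ε ^ 2) * W) := le_self_add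
    _ = _ := by ring

/-- One Duhamel step.  `Duh_vs_mu` with `f = clL F`, `ev_handoff`, `c0_le_csm_add_Big`, `ev_Big_small`,
`ddF f muF ≤ min envp (Ep + dW)`, `KK_Ep`, `NN_envp`; the singular terms are absorbed in `Ep`, `Em` because
`4 η ≤ η₁` and `1/2 + η ≤ 1`. -/
theorem late_step {ν : ℝ} (hν : 0 < ν) : ∃ K : ℝ≥0∞, K ≠ ⊤ ∧ ∀ ε η₁ : ℝ≥0∞, ε ≤ 1 → η₁ ≤ 1 →
    0 < η₁ → ∀ᶠ P in parF, ∀ b : ℝ≥0∞, b ≤ 1 → ∀ Fe F : PF, ESol P b 0 Fe → Measurable F →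
      (∀ q : Ph, P.t0 ≤ q.1 → ENNReal.ofReal (ν * jb q.2.2) ≤ LF (clL P ν ε η₁ F) q) →
      (∀ p : Ph, P.t0 ≤ p.1 → F p = Duh P.t0 (clL P ν ε η₁ F) Fe 0 p) → ∀ p : Ph, P.t0 ≤ p.1 →
      F p ≤ muF p + (Ep P ν η₁ p + (K * (η₁ + ε ^ 2) * WW p + KK ν P.t0 (dW P ν ε η₁ F) p)) ∧
      muF p ≤ F p + (Em P ν η₁ p + (K * (η₁ + ε ^ 2) * WW p + KK ν P.t0 (dW P ν ε η₁ F) p)) := by
  obtain ⟨K1, hK1, h1⟩ := KK_Ep hν
  obtain ⟨K2, hK2, h2⟩ := NN_envp hν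
  refine ⟨K1 + 1 + 3 * K2 + 2 * ENNReal.ofReal (Real.exp ν), by finiteness, fun ε η₁ hε hη h0 => ?_⟩
  obtain ⟨η, rfl⟩ : ∃ η, η₁ = 4 * η :=
    ⟨η₁ / 4, (ENNReal.mul_div_cancel (by norm_num) (by norm_num)).symm⟩
  have hη0 : 0 < η := pos_iff_ne_zero.2 fun h => by simp [h] at h0
  have hh : 1 / 2 + η ≤ 1 := by
    have : η ≤ 1 / 2 := by
      rw [ENNReal.le_div_iff_mul_le (by simp) (by simp), mul_comm]
      exact (mul_le_mul' (by norm_num) le_rfl).trans hη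
    exact (add_le_add le_rfl this).trans_eq (ENNReal.add_halves 1)
  filter_upwards [ev_basic, h1 η hη0, h2 η hη0, ev_handoff η hη0, ev_Big_small hν 0 _ h0,
    Lam_clL_ne_top hν.le] with P hP h1 h2 h3 h4 h5 b hb Fe F hFe hF hL hD p hp
  have hp0 : 0 ≤ p.1 := hP.t0_pos.le.trans hp
  have mf := measurable_clL P ν ε (4 * η) hF
  have md : Measurable (ddF (clL P ν ε (4 * η) F) muF) := measurable_dd mf measurable_muF
  have mE := measurable_Ep P ν (4 * η)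
  have mW : Measurable (dW P ν ε (4 * η) F) := md.sub mE
  obtain ⟨a1, a2⟩ := Duh_vs_mu (D := Fe) hν.le mf p hp (fun s hs => hL (fl p s) hs.1.le)
    (h5 ε _ hε hη F p)
  rw [← hD p hp] at a1 a2
  obtain ⟨b1, b2⟩ := h3 b hb Fe hFe p hp
  have c1 : KK ν P.t0 (ddF (clL P ν ε (4 * η) F) muF) p ≤ (K1 * (4 * η) + η) * WW p +
      η * (dec (ν / 2) P.t0 p * GS (1 / 8) p) + KK ν P.t0 (dW P ν ε (4 * η) F) p := by
    refine ((posOp_KK ν P.t0).mono _ _ md (mE.add mW) (fun _ => le_add_tsub) p).trans ?_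
    exact (congrFun ((posOp_KK ν P.t0).add _ _ mE mW) p).trans_le (add_le_add (h1 _ p hp) le_rfl)
  have c2 : NN ν P.t0 (ddF (clL P ν ε (4 * η) F) muF) p ≤ NN ν P.t0 (envp P ν ε (4 * η)) p := by
    have : ddF (clL P ν ε (4 * η) F) muF ≤ envp P ν ε (4 * η) :=
      fun q => (dd_clL_le P ν ε _ F q).trans (min_le_right _ _)
    exact lintegral_mono fun s => mul_le_mul' le_rfl (QF_mono this this _)
  have hD12 : dec ν P.t0 p ≤ dec (ν / 2) P.t0 p :=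
    ENNReal.ofReal_le_ofReal (Real.exp_le_exp.2 (by nlinarith))
  have hB : dec ν P.t0 p * Big P p ≤ ENNReal.ofReal (Real.exp ν) * (4 * η) * WW p := by
    have e1 : dec ν P.t0 p ≤ ENNReal.ofReal (Real.exp ν) *
        ENNReal.ofReal (Real.exp (-(ν * p.1)) * (1 + p.1) ^ 0) := by
      rw [pow_zero, mul_one, ← ENNReal.ofReal_mul (Real.exp_pos _).le, ← Real.exp_add]
      exact ENNReal.ofReal_le_ofReal (Real.exp_le_exp.2 (by nlinarith [hP.t0_le]))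
    have e2 : Ga (1 / 2) p.2.2 ≤ WW p :=
      ENNReal.ofReal_le_ofReal (Real.exp_le_exp.2 (by nlinarith [sq_nonneg ‖p.2.2‖]))
    refine (mul_le_mul' e1 le_rfl).trans ?_
    rw [mul_assoc, mul_assoc]
    exact mul_le_mul' le_rfl ((h4 p hp0).trans (mul_le_mul' le_rfl e2))
  refine ⟨a1.trans (add_le_add le_rfl ?_), a2.trans (add_le_add le_rfl ?_)⟩
  · exact (add_le_add (add_le_add (mul_le_mul' (tsub_le_iff_left.2 b1) le_rfl) c1)
      (c2.trans (h2 ε _ hε hη p hp))).trans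
      (E1_up hD12 hh (c0_le_csm_add_Big hP hp0) hB (E1_sq hε hη))
  · exact (add_le_add (mul_le_mul' (tsub_le_iff_left.2 b2) le_rfl) c1).trans (E1_low hD12)

/-- if the clamp is inactive up to `T` the glued function is a solution on `[0,T]`
(`Duh_congr`, `ESol.mild`, `Mild.glue`, `ev_env_le`, `up_le`, `ev_H3`, `datum_admissible`). -/
theorem late_wsol {ν : ℝ} (hν : 0 ≤ ν) : ∀ᶠ P in parF, ∀ ε η₁ : ℝ≥0∞, ε ≤ 1 → η₁ ≤ 1 →
    ∀ b : ℝ≥0∞, b ≤ 1 → ∀ Fe F : PF, ESol P b 0 Fe → Measurable F → Per F →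
      (∀ p : Ph, p.1 ≤ P.t0 → F p = Fe p) →
      (∀ p : Ph, P.t0 ≤ p.1 → F p = Duh P.t0 (clL P ν ε η₁ F) Fe 0 p) → ∀ T : ℝ, P.t0 ≤ T →
      (∀ p : Ph, p.1 ∈ Ioo P.t0 T → clL P ν ε η₁ F p = F p) → WSol F T := by
  filter_upwards [ev_basic, ev_env_le, ev_H3] with P hP henv hH3 ε η₁ hε hη b hb Fe F hE hF hper
    h1 h2 T hT hcl
  have h0 : 0 ≤ P.t0 := hP.t0_pos.le
  have hz : ∀ x v, F (0, x, v) = F0 P (0, x, v) := fun x v =>
    (h1 (0, x, v) h0).trans (hE.at_zero h0 x v)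
  refine ⟨hF, hper, Mild.glue hF measurable_const h0 (fun p hp => ?_) (fun p hp => ?_),
    hH3 F T 4 (by norm_num) fun p hp => ?_, fun x v => ?_, P.R, ?_⟩
  · rw [h1 p hp.2, hE.mild h0 p hp]
    exact Duh_congr p (fun q hq => (h1 q (hq.2.le.trans hp.2)).symm)
      (fun q hq => (h1 q (hq.le.trans h0)).symm) fun _ _ => rfl
  · rw [h2 p hp.1]
    exact Duh_congr p (fun q hq => hcl q ⟨hq.1, hq.2.trans_le hp.2⟩)
      (fun q hq => (h1 q hq.le).symm) fun _ _ => rfl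
  · rcases le_or_gt p.1 P.t0 with h | h
    · rw [h1 p h]
      exact (hE.le_env p).trans (henv b hb p ⟨hp.1.le, h⟩)
    · rw [← hcl p ⟨h, hp.2⟩]
      refine (clL_le P ν ε η₁ F p).trans ((up_le hν hε hη h.le).trans ?_)
      refine mul_le_mul_right ?_ _
      rw [add_comm]
      exact add_le_add (add_le_add (csm_le_c0 P p) le_rfl) le_rfl
  · rw [hz]
    exact F0_ne_top P _
  · have : rl F 0 = rl (F0 P) 0 := by
      funext x v
      show (F (0, x, v)).toReal = (F0 P (0, x, v)).toReal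
      rw [hz]
    rw [this]
    exact datum_admissible hP

/-- Global continuation.  Choose `ν, e` (`LF_clL_ge`), `K₁` (`late_step`), `K₂` and, for `θ = 1/4`, `C`
(`guo`); `ε ≤ e` with `(1 + K₂) K₁ ε ≤ 1/8`, `η₁ ≤ e` with `(1 + K₂) K₁ η₁ ≤ ε/8`; `K₄` (`n1_envp`),
`τ₂ > 0` with `C K₄ τ₂ ≤ ε/8`, `η₃` with `C (2/ν) η₃ ≤ ε/8`; `l1_le_entropy (η₃/2)` and `ev_entropy_small`.
`dW ≤ ε W` and `dW ≤ K₁(η₁ + ε²) W + KK dW` after `t0` (`dd_clL_le`, `late_step`).  Induction on `j`: if the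
clamp is inactive on `(t0, t0 + jτ₂)`, then `late_wsol` and the entropy give `n1 dW s ≤ η₃` there, so by `guo`
and `late_step` the clamp is inactive (`clL_eq`) on `(t0, t0 + (j+1)τ₂)`. -/
theorem ev_global : ∀ᶠ P in parF, ∀ b : ℝ≥0∞, b ≤ 1 → ∀ Fe : PF, ESol P b 0 Fe →
    ∃ F : PF, (∀ p : Ph, p.1 ≤ P.t0 → F p = Fe p) ∧ ∀ T, 0 < T → WSol F T := by
  obtain ⟨ν, hν, -, e, he, he1, hL⟩ := LF_clL_ge
  obtain ⟨K₁, hK₁, hstep⟩ := late_step hν
  obtain ⟨K₂, hK₂, hguo⟩ := guo hν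
  have h8 : (0 : ℝ≥0∞) < 8⁻¹ := ENNReal.inv_pos.2 (by norm_num)
  obtain ⟨C, hC, hguo⟩ := hguo 8⁻¹ h8
  obtain ⟨K₄, hK₄, hn1⟩ := n1_envp hν
  have hK : (1 + K₂) * K₁ ≠ ⊤ := by finiteness
  obtain ⟨ε, ε0, εe, hε⟩ := LEG.small hK h8 he
  have h8ε : 0 < 8⁻¹ * ε := ENNReal.mul_pos h8.ne' ε0.ne'
  obtain ⟨η₁, η0, ηe, hη⟩ := LEG.small hK h8ε he
  obtain ⟨τ', τ0, τ1, hτ⟩ := LEG.small (a := C * K₄) (by finiteness) h8ε one_pos
  obtain ⟨η₃, η₃0, -, hη₃⟩ := LEG.small (a := C * ENNReal.ofReal (ν / 2)⁻¹ * 2) (by finiteness) h8ε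
    one_pos
  obtain ⟨C₅, hC₅, hent⟩ := l1_le_entropy η₃ η₃0
  obtain ⟨η₅, η₅0, -, hη₅⟩ := LEG.small hC₅ η₃0 one_pos
  have τt : τ' ≠ ⊤ := ne_top_of_le_ne_top ENNReal.one_ne_top τ1
  have τp : 0 < τ'.toReal := ENNReal.toReal_pos τ0.ne' τt
  have ε1 := εe.trans he1
  have η1 := ηe.trans he1
  filter_upwards [hL, hstep ε η₁ ε1 η1 η0, late_wsol hν.le, late_exists hν.le, hn1,
    ev_entropy_small η₅ η₅0, ev_basic] with P hL hstep hw hex hn1 hsm hP b hb Fe hFe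
  obtain ⟨F, hF, hper, h0, hD⟩ := hex ε η₁ ε1 η1 b hb Fe hFe
  have hstep := hstep b hb Fe F hFe hF (hL ε η₁ εe ηe F hF) hD
  have hw := hw ε η₁ ε1 η1 b hb Fe F hFe hF hper h0 hD
  have dm : Measurable (dW P ν ε η₁ F) :=
    (measurable_dd (measurable_clL P ν ε η₁ hF) measurable_muF).sub (measurable_Ep P ν η₁)
  have dp : Per (dW P ν ε η₁ F) := fun t x v m => by
    show dd (clL P ν ε η₁ F _) (muF _) - Ep P ν η₁ _ = dd (clL P ν ε η₁ F _) (muF _) - Ep P ν η₁ _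
    rw [per_clL P ν ε η₁ hper t x v m, per_muF t x v m, per_Ep P ν η₁ t x v m]
  have d1 : ∀ q, dW P ν ε η₁ F q ≤ min (dd (F q) (muF q)) (envp P ν ε η₁ q) := fun q =>
    tsub_le_self.trans (dd_clL_le P ν ε η₁ F q)
  have d2 : ∀ q, dW P ν ε η₁ F q ≤ ε * WW q := fun q =>
    tsub_le_iff_right.2 ((dd_clL_le P ν ε η₁ F q).trans (min_le_right _ _))
  have d3 : ∀ q : Ph, P.t0 ≤ q.1 → dW P ν ε η₁ F q ≤
      K₁ * (η₁ + ε ^ 2) * WW q + KK ν P.t0 (dW P ν ε η₁ F) q := fun q hq =>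
    tsub_le_iff_left.2 (((dd_clL_le P ν ε η₁ F q).trans (min_le_left _ _)).trans
      (dd_le_iff.2 ⟨(hstep q hq).1, (hstep q hq).2.trans
        (add_le_add_right (add_le_add_left (le_self_add : Em P ν η₁ q ≤ Ep P ν η₁ q) _) _)⟩))
  have hz : rl F 0 = rl (F0 P) 0 := by
    funext x v
    show (F (0, x, v)).toReal = (F0 P (0, x, v)).toReal
    rw [h0 _ hP.t0_pos.le, hFe.at_zero hP.t0_pos.le]
  have key : ∀ j : ℕ, ∀ p : Ph, p.1 ∈ Ioo P.t0 (P.t0 + j * τ'.toReal) →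
      clL P ν ε η₁ F p = F p := by
    intro j
    induction j with
    | zero => exact fun p hp => absurd (hp.1.trans hp.2) (by simp)
    | succ j ih =>
      intro p hp
      have hW := hw _ (le_add_of_nonneg_right (by positivity)) ih
      have i1 := LEG.lint_split (a := P.t0) (T := P.t0 + j * τ'.toReal) (τ := τ'.toReal)
        (t := p.1) (n := n1 (dW P ν ε η₁ F)) (η := 2 * η₃) (K := K₄) (half_pos hν)
        (by have := hp.2.le; push_cast at this; linarith)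
        (fun s h1 h2 => by
          refine (lintegral_mono fun x => lintegral_mono fun v =>
            (d1 (s, x, v)).trans (min_le_left _ _)).trans
            ((hent F _ hW s ⟨(hP.t0_pos.trans h1).le, h2⟩).trans ?_)
          rw [hz, two_mul]
          exact add_le_add_right ((mul_le_mul_right hsm _).trans hη₅) _)
        (fun s h1 => (lintegral_mono fun x => lintegral_mono fun v =>
          (d1 (s, x, v)).trans (min_le_right _ _)).trans (hn1 ε η₁ ε1 η1 s h1.le))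
      have i2 : K₁ * (η₁ + ε ^ 2) * WW p + KK ν P.t0 (dW P ν ε η₁ F) p ≤ ε * WW p := by
        refine (add_le_add_right (hguo P.t0 _ dm dp ε _ (fun q _ => d2 q) p
          fun q hq => d3 q hq.1.le) _).trans ?_
        rw [← add_mul]
        refine mul_le_mul_left ((add_le_add_right (add_le_add_right
          (mul_le_mul_right i1 _) _) _).trans (LEG.budget hε hη ?_ ?_)) _
        · rwa [← mul_assoc, ← mul_assoc]
        · rwa [ENNReal.ofReal_toReal τt, ← mul_assoc]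
      obtain ⟨s1, s2⟩ := hstep p hp.1.le
      exact clL_eq P ν ε η₁ F p
        (s1.trans (add_le_add_right ((add_le_add_right i2 _).trans_eq (add_comm _ _)) _))
        (s2.trans (add_le_add_right ((add_le_add_right i2 _).trans_eq (add_comm _ _)) _))
  refine ⟨F, h0, fun T _ => ?_⟩
  obtain ⟨j, hj⟩ := exists_nat_ge (T / τ'.toReal)
  refine (hw _ (le_add_of_nonneg_right (by positivity)) (key j)).mono ?_
  linarith [(div_le_iff₀ τp).1 hj, hP.t0_pos]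

end
end Crest.Agent.R68
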