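import Crest.Agent.R68.Approx
import Crest.Agent.R68.Compact
import Crest.Agent.R68.DFB
import Crest.Agent.R68.LateE

/-! # Row 68: assembly -/

set_option autoImplicit false
open MeasureTheory Set Filter Topology
open scoped ENNReal NNReal
open Crest.AnalysisR.VecCalc3 Crest.AnalysisR.PDE.Boltzmann

namespace Crest.Agent.R68
noncomputable section

/-- two early solutions with different window functionals -/
theorem ev_two_early : ∀ᶠ P in parF, ∃ F1 F2 : PF, ESol P 1 0 F1 ∧ ESol P 1 0 F2 ∧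
    Jw (QF F1 F1) P.top < Jw (QF F2 F2) P.top := by
  obtain ⟨Ka, hKa, hA⟩ := ev_approx
  obtain ⟨c, hc, hL⟩ := Jw_lower
  filter_upwards [ev_basic, ev_base, hA, hL, cpt_subseq Ka hKa, cpt_limit, cpt_Jw,
    Jw_base_small (ENNReal.ofReal (c / 2)) (ENNReal.ofReal_pos.2 (half_pos hc))]
    with P hP ⟨F1, h1⟩ hA hL h2 h3 h4 h5
  obtain ⟨τ, hτ, hτ'⟩ := exists_seq_forall_of_frequently
    ((hA F1 h1).and ((hL F1 h1).and self_mem_nhdsWithin)).frequently
  choose α hα F hF hF1 hW using fun n => (hτ' n).1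
  have hτ0 : Tendsto τ atTop (𝓝 0) := hτ.mono_right nhdsWithin_le_nhds
  have hα0 : Tendsto α atTop (𝓝 0) := by
    refine squeeze_zero (fun n => (hα n).1) (fun n => (hα n).2) ?_
    simpa using (hτ0.pow 1800).const_mul (Ka * P.s1 ^ P.k2)
  obtain ⟨φ, hφ, hlim⟩ := h2 τ α F (fun n => (hτ' n).2.2) hτ0 hα hF
  obtain ⟨F2, hF2, hlim2⟩ := h3 (fun n => τ (φ n)) (fun n => α (φ n)) (fun n => F (φ n))
    (fun n => (hτ' _).2.2) (hα0.comp hφ.tendsto_atTop) (fun n => hF _) hlim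
  refine ⟨F1, F2, h1.mono zero_le_one, hF2, (h5 F1 h1).trans_lt (lt_of_lt_of_le ?_
    (ge_of_tendsto' (h4 _ _ F2 (fun n => hF (φ n)) hF2 hlim2) fun n =>
      (hτ' _).2.1 _ _ (hF _) (hF1 _) (hW _)))⟩
  have hs : 0 < P.s1 ^ P.k2 := pow_pos (div_pos hP.r0_pos (by norm_num)) _
  rw [← ENNReal.ofReal_mul (half_pos hc).le, ENNReal.ofReal_lt_ofReal_iff (mul_pos hc hs)]
  exact mul_lt_mul_of_pos_right (half_lt_self hc) hs

/-- If the real versions agree a.e. on `region` then the window functionals agree.  Let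
`Φ p = 1{(G1 p).toReal ≠ (G2 p).toReal}` (periodic); `lint_eq_zero_of_per`, Tonelli: for a.e. `(t,x)` with
`t > 0` the sections of `Φ` are null; for `t ≤ t0` the sections of `F1`, `F2` are finite a.e.
(`finSec_env`), hence equal a.e., and `Qp_mono_ae` applies. -/
theorem Jw_congr {P : Par} (hP : P.Basic) {F1 F2 G1 G2 : PF} (h1 : ESol P 1 0 F1) (h2 : ESol P 1 0 F2)
    (m1 : Measurable G1) (m2 : Measurable G2) (p1 : Per G1) (p2 : Per G2)
    (e1 : ∀ p : Ph, p.1 ≤ P.t0 → G1 p = F1 p) (e2 : ∀ p : Ph, p.1 ≤ P.t0 → G2 p = F2 p)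
    (h : volume {p : ℝ × R3 × R3 | p ∈ region ∧ rl G1 p.1 p.2.1 p.2.2 ≠ rl G2 p.1 p.2.1 p.2.2} = 0) :
    Jw (QF F1 F1) P.top = Jw (QF F2 F2) P.top := by
  have hS : MeasurableSet {p : Ph | (G1 p).toReal ≠ (G2 p).toReal} :=
    (measurableSet_eq_fun m1.ennreal_toReal m2.ennreal_toReal).compl
  have k1 := lint_eq_zero_of_per ({p : Ph | (G1 p).toReal ≠ (G2 p).toReal}.indicator 1)
    (measurable_one.indicator hS)
    (fun t x v m => by simp only [indicator, mem_ofPred_eq, p1 t x v m, p2 t x v m, Pi.one_apply])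
    (by rw [lintegral_indicator_one hS, Measure.restrict_apply hS, inter_comm]; exact h)
  rw [lintegral_indicator_one hS, Measure.restrict_apply hS] at k1
  have k2 : ∀ᵐ p : Ph, 0 < p.1 → (G1 p).toReal = (G2 p).toReal := by
    filter_upwards [measure_eq_zero_iff_ae_notMem.1 k1] with p hp h0
    by_contra hne
    exact hp ⟨hne, h0, mem_univ _⟩
  have hA := measurePreserving_prodAssoc (volume : Measure ℝ) (volume : Measure R3)
    (volume : Measure R3)
  have k3 := Measure.ae_ae_of_ae_prod (hA.quasiMeasurePreserving.ae k2)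
  have k4 := (Measure.quasiMeasurePreserving_fst.comp
    (hA.symm MeasurableEquiv.prodAssoc).quasiMeasurePreserving).ae k3
  have hm : MeasurableSet {p : Ph | P.top < elN p ∧ elN p ≤ 2 * P.top} := by
    have : Measurable elN := by unfold elN; fun_prop
    exact (measurableSet_lt measurable_const this).inter (measurableSet_le this measurable_const)
  refine setLIntegral_congr_fun_ae hm ?_
  filter_upwards [k4] with p hp hw
  by_cases h0 : 0 < p.1
  · have ht : p.1 ≤ P.t0 := by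
      have h3 : 8 * p.1 + ‖p.2.1‖ ≤ 2 * (P.r0 / 10) := hw.2
      linarith [norm_nonneg p.2.1, hP.r0_t0, hP.r0_pos]
    have k5 : ∀ᵐ η : R3, sec F1 p η = sec F2 p η := by
      filter_upwards [hp, finSec_env P ENNReal.one_ne_top p.1 p.2.1] with η h3 h4
      have h5 : (G1 (p.1, p.2.1, η)).toReal = (G2 (p.1, p.2.1, η)).toReal := h3 h0
      rw [e1 (p.1, p.2.1, η) ht, e2 (p.1, p.2.1, η) ht] at h5
      exact (ENNReal.toReal_eq_toReal_iff' (ne_top_of_le_ne_top h4 (h1.le_env _))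
        (ne_top_of_le_ne_top h4 (h2.le_env _))).1 h5
    have s1 : Measurable (sec F1 p) :=
      h1.meas.comp (measurable_const.prodMk (measurable_const.prodMk measurable_id))
    have s2 : Measurable (sec F2 p) :=
      h2.meas.comp (measurable_const.prodMk (measurable_const.prodMk measurable_id))
    have k6 := k5.mono fun _ h => h.le
    have k7 := k5.mono fun _ h => h.ge
    exact congrArg (· * Xi p) (le_antisymm (Qp_mono_ae s1 s2 s1 s2 k6 k6 _)
      (Qp_mono_ae s2 s1 s2 s1 k7 k7 _))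
  · have k5 : Xi p = 0 := by
      unfold Xi XiA
      rw [if_neg h0, ite_self]
    rw [k5, mul_zero, mul_zero]

theorem main : ∃ R : ℝ, ∃ F₀ : R3 → R3 → ℝ, IsAdmissibleDatum F₀ R ∧
    ∃ F₁ F₂ : ℝ → R3 → R3 → ℝ, IsGlobalSolution F₁ F₀ ∧ IsGlobalSolution F₂ F₀ ∧
      0 < volume {p : ℝ × R3 × R3 | p ∈ region ∧ F₁ p.1 p.2.1 p.2.2 ≠ F₂ p.1 p.2.1 p.2.2} := by
  obtain ⟨P, hP, ⟨F1, F2, h1, h2, hlt⟩, hg⟩ := (ev_basic.and (ev_two_early.and ev_global)).exists
  obtain ⟨G1, e1, w1⟩ := hg 1 le_rfl F1 h1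
  obtain ⟨G2, e2, w2⟩ := hg 1 le_rfl F2 h2
  have z1 : rl G1 0 = rl (F0 P) 0 := by
    funext x v
    simp only [rl]
    rw [e1 _ hP.t0_pos.le, h1.at_zero hP.t0_pos.le]
  have z2 : rl G2 0 = rl (F0 P) 0 := by
    funext x v
    simp only [rl]
    rw [e2 _ hP.t0_pos.le, h2.at_zero hP.t0_pos.le]
  refine ⟨P.R, rl (F0 P) 0, datum_admissible hP, rl G1, rl G2, z1 ▸ isGlobalSolution_of w1,
    z2 ▸ isGlobalSolution_of w2, ?_⟩
  rw [pos_iff_ne_zero]
  intro h
  exact hlt.ne (Jw_congr hP h1 h2 (w1 1 one_pos).meas (w2 1 one_pos).meas (w1 1 one_pos).per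
    (w2 1 one_pos).per e1 e2 h)

end
end Crest.Agent.R68
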