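import Crest.Agent.R68.Frame

/-! # Row 68: the velocity field of the medium -/

set_option autoImplicit false
open MeasureTheory Set Filter Topology
open scoped ENNReal NNReal
open Crest.AnalysisR.VecCalc3 Crest.AnalysisR.PDE.Boltzmann

namespace Crest.Agent.R68
noncomputable section

theorem flow_ca_pos : 0 < ca := by
  unfold ca; positivity

theorem flow_ca_le : ca ≤ 1 / 10 := by
  unfold ca; norm_num

theorem flow_XX_le (b : Bool) (t : ℝ) (x : R3) : ‖XX b t x‖ ≤ MM b t x := le_max_left _ _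

theorem flow_x1_le (b : Bool) (t : ℝ) (x : R3) : |x1 x| + ca * t ≤ MM b t x := le_max_right _ _

theorem flow_XX_sub (b : Bool) (t : ℝ) (x x' : R3) : ‖XX b t x - XX b t x'‖ ≤ ‖x - x'‖ := by
  have : XX b t x - XX b t x' = pr (x - x') := by
    rw [pr_sub, XX, XX]; abel
  rw [this]
  exact norm_pr_le _

theorem flow_norm_sg (b : Bool) : ‖sg b • ee‖ = 1 := by
  rw [norm_smul, norm_ee, Real.norm_eq_abs, abs_sg, mul_one]

theorem flow_norm_sgt (b : Bool) {t : ℝ} (ht : 0 ≤ t) : ‖(sg b * t) • ee‖ = t := by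
  rw [norm_smul, norm_ee, Real.norm_eq_abs, abs_mul, abs_sg, abs_of_nonneg ht, one_mul, mul_one]

theorem x1_XX (b : Bool) (t : ℝ) (x : R3) : x1 (XX b t x) = 0 := by
  rw [XX, x1_sub, x1_pr, x1_smul, x1_ee, mul_zero, sub_zero]

theorem x1_uu (b : Bool) (t : ℝ) (x : R3) : x1 (uu b t x) = 0 := by
  rw [uu, x1_add, x1_smul, x1_smul, x1_ee, x1_XX, mul_zero, mul_zero, add_zero]

theorem MM_nonneg (b : Bool) (t : ℝ) (x : R3) : 0 ≤ MM b t x := by
  exact (norm_nonneg _).trans (flow_XX_le b t x)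

theorem norm_uu_sub_le (b : Bool) (t : ℝ) (x : R3) : ‖uu b t x - sg b • ee‖ ≤ ca := by
  have hc := flow_ca_pos
  have hM := MM_nonneg b t x
  rw [uu, add_sub_cancel_left, norm_smul, Real.norm_of_nonneg (by positivity)]
  rcases hM.eq_or_lt with h | h
  · rw [← h, div_zero, zero_mul]
    exact hc.le
  · rw [div_mul_eq_mul_div, div_le_iff₀ h]
    exact mul_le_mul_of_nonneg_left (flow_XX_le b t x) hc.le

theorem norm_uu_le (b : Bool) (t : ℝ) (x : R3) : ‖uu b t x‖ ≤ 11 / 10 := by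
  have h1 := norm_uu_sub_le b t x
  have h2 := norm_add_le (uu b t x - sg b • ee) (sg b • ee)
  rw [sub_add_cancel, flow_norm_sg] at h2
  linarith [flow_ca_le]

theorem MM_lip (b : Bool) (t : ℝ) (x x' : R3) : |MM b t x - MM b t x'| ≤ ‖x - x'‖ := by
  refine (abs_max_sub_max_le_max _ _ _ _).trans (max_le ?_ ?_)
  · exact (abs_norm_sub_norm_le _ _).trans (flow_XX_sub b t x x')
  · rw [add_sub_add_right_eq_sub]
    refine (abs_abs_sub_abs_le_abs_sub _ _).trans ?_
    rw [← x1_sub]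
    exact abs_x1_le _

/-- `X/M - X'/M' = (X - X')/M + X' (M' - M)/(M M')`, `‖X'‖ ≤ M'` (if `M' = 0` then `X' = 0`). -/
theorem uu_lip (b : Bool) (t : ℝ) (x x' : R3) :
    MM b t x * ‖uu b t x - uu b t x'‖ ≤ 2 * ca * ‖x - x'‖ := by
  have hc := flow_ca_pos
  have hM := MM_nonneg b t x
  have hM' := MM_nonneg b t x'
  have h1 := flow_XX_sub b t x x'
  have h2 := MM_lip b t x x'
  have h3 := flow_XX_le b t x'
  have h0 := norm_nonneg (x - x')
  rcases hM.eq_or_lt with h | h
  · rw [← h, zero_mul]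
    positivity
  have e : MM b t x * ‖uu b t x - uu b t x'‖ = ‖ca • (XX b t x - XX b t x') +
      (ca * (1 - MM b t x / MM b t x')) • XX b t x'‖ := by
    rw [← Real.norm_of_nonneg hM, ← norm_smul, Real.norm_of_nonneg hM]
    congr 1
    have e1 : MM b t x * (ca / MM b t x) = ca := by field_simp
    have e2 : MM b t x * (ca / MM b t x') = ca * (MM b t x / MM b t x') := by ring
    rw [uu, uu, add_sub_add_left_eq_sub, smul_sub, smul_smul, smul_smul, e1, e2]
    module
  rw [e]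
  refine (norm_add_le _ _).trans ?_
  rw [norm_smul, norm_smul, norm_mul, Real.norm_of_nonneg hc.le, Real.norm_eq_abs]
  have h4 : |1 - MM b t x / MM b t x'| * ‖XX b t x'‖ ≤ ‖x - x'‖ := by
    rcases hM'.eq_or_lt with h' | h'
    · have : ‖XX b t x'‖ = 0 := le_antisymm (h' ▸ h3) (norm_nonneg _)
      rw [this, mul_zero]
      exact h0
    · refine (mul_le_mul_of_nonneg_left h3 (abs_nonneg _)).trans ?_
      rw [← abs_of_pos h', ← abs_mul, abs_of_pos h', sub_mul, div_mul_cancel₀ _ h'.ne', one_mul,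
        abs_sub_comm]
      exact h2
  nlinarith [mul_le_mul_of_nonneg_left h1 hc.le, mul_le_mul_of_nonneg_left h4 hc.le]

theorem flow_x1_move (b : Bool) (s d : ℝ) (x : R3) : x1 (x + d • uu b s x) = x1 x := by
  rw [x1_add, x1_smul, x1_uu, mul_zero, add_zero]

theorem flow_XX_move (b : Bool) (s d : ℝ) (x : R3) :
    XX b (s + d) (x + d • uu b s x) = (1 + d * (ca / MM b s x)) • XX b s x := by
  rw [XX, pr_add, pr_smul, pr_of_x1_eq_zero (x1_uu b s x), uu]
  generalize ca / MM b s x = c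
  rw [XX]
  module

/-- the medium moves freely -/
theorem MM_flow (b : Bool) {s t : ℝ} (hs : 0 ≤ s) (hst : s ≤ t) (x : R3) :
    MM b t (x + (t - s) • uu b s x) = MM b s x + ca * (t - s) := by
  have hc := flow_ca_pos
  have hM := MM_nonneg b s x
  have hd : 0 ≤ t - s := sub_nonneg.2 hst
  have h1 := flow_XX_le b s x
  have h2 := flow_x1_le b s x
  have e := flow_XX_move b s (t - s) x
  rw [add_sub_cancel] at e
  rw [MM, e, flow_x1_move, norm_smul, Real.norm_of_nonneg (by positivity)]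
  rcases hM.eq_or_lt with h | h
  · have h3 : ‖XX b s x‖ = 0 := le_antisymm (h ▸ h1) (norm_nonneg _)
    have h4 := abs_nonneg (x1 x)
    have h5 := mul_nonneg hc.le hs
    rw [h3, mul_zero, max_eq_right (by nlinarith), ← h]
    linarith
  · have h3 : (1 + (t - s) * (ca / MM b s x)) * MM b s x = MM b s x + ca * (t - s) := by
      field_simp
    have h4 : (1 + (t - s) * (ca / MM b s x)) * ‖XX b s x‖ ≤ MM b s x + ca * (t - s) :=
      h3 ▸ mul_le_mul_of_nonneg_left h1 (by positivity)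
    refine le_antisymm (max_le h4 (by linarith)) ?_
    rcases max_choice ‖XX b s x‖ (|x1 x| + ca * s) with h5 | h5
    · refine le_max_of_le_left ?_
      rw [← h3, ← h5]
      rfl
    · refine le_max_of_le_right ?_
      have : MM b s x = |x1 x| + ca * s := h5
      linarith

theorem uu_flow (b : Bool) {s t : ℝ} (hs : 0 ≤ s) (hst : s ≤ t) (x : R3) :
    uu b t (x + (t - s) • uu b s x) = uu b s x := by
  have hc := flow_ca_pos
  have hM := MM_nonneg b s x
  have hd : 0 ≤ t - s := sub_nonneg.2 hst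
  have e := flow_XX_move b s (t - s) x
  rw [add_sub_cancel] at e
  rw [uu, e, MM_flow b hs hst, uu, smul_smul]
  rcases hM.eq_or_lt with h | h
  · have h3 : XX b s x = 0 := norm_le_zero_iff.1 (h ▸ flow_XX_le b s x)
    rw [h3, smul_zero, smul_zero]
  · congr 2
    have : 0 < MM b s x + ca * (t - s) := by positivity
    field_simp

/-- backward flow to time `0` -/
theorem MM_back (b : Bool) {t : ℝ} (ht : 0 ≤ t) (x : R3) :
    MM b 0 (x - t • uu b t x) = MM b t x - ca * t := by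
  have hc := flow_ca_pos
  have hM := MM_nonneg b t x
  have h1 := flow_XX_le b t x
  have h2 := flow_x1_le b t x
  have h4 := abs_nonneg (x1 x)
  have h5 := mul_nonneg hc.le ht
  have e := flow_XX_move b t (-t) x
  have e' := flow_x1_move b t (-t) x
  rw [add_neg_cancel] at e
  rw [neg_smul, ← sub_eq_add_neg] at e e'
  rw [MM, e, e', norm_smul, mul_zero, add_zero]
  rcases hM.eq_or_lt with h | h
  · have h3 : ‖XX b t x‖ = 0 := le_antisymm (h ▸ h1) (norm_nonneg _)
    rw [h3, mul_zero, max_eq_right h4]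
    linarith
  · have h3 : (1 + -t * (ca / MM b t x)) * MM b t x = MM b t x - ca * t := by
      field_simp
      ring
    have h6 : 0 ≤ 1 + -t * (ca / MM b t x) :=
      nonneg_of_mul_nonneg_left (h3 ▸ by linarith) h
    rw [Real.norm_of_nonneg h6]
    have h7 : (1 + -t * (ca / MM b t x)) * ‖XX b t x‖ ≤ MM b t x - ca * t :=
      h3 ▸ mul_le_mul_of_nonneg_left h1 h6
    refine le_antisymm (max_le h7 (by linarith)) ?_
    rcases max_choice ‖XX b t x‖ (|x1 x| + ca * t) with h8 | h8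
    · refine le_max_of_le_left ?_
      rw [← h3, ← h8]
      rfl
    · refine le_max_of_le_right ?_
      have : MM b t x = |x1 x| + ca * t := h8
      linarith

theorem uu_back (b : Bool) {t : ℝ} (ht : 0 ≤ t) (x : R3) (hx : x1 x ≠ 0) :
    uu b 0 (x - t • uu b t x) = uu b t x := by
  have hc := flow_ca_pos
  have h2 := flow_x1_le b t x
  have h4 := abs_pos.2 hx
  have h5 := mul_nonneg hc.le ht
  have e := flow_XX_move b t (-t) x
  rw [add_neg_cancel, neg_smul, ← sub_eq_add_neg] at e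
  rw [uu, e, MM_back b ht, uu, smul_smul]
  congr 2
  have h6 : MM b t x - ca * t ≠ 0 := by linarith
  have h7 : MM b t x ≠ 0 := by linarith
  field_simp
  ring

/-- `w_t = w_s + u(t, x_s + (t-s) u_s) - u(t, x_s + (t-s) v)` and `MM b t · ≥ ca t`. -/
theorem ww_flight (b : Bool) {s t : ℝ} (hs : 0 ≤ s) (hst : s ≤ t) (y v : R3) :
    ‖ww b t y v‖ ≤ 3 * ‖ww b s y v‖ := by
  have hc := flow_ca_pos
  rcases (hs.trans hst).eq_or_lt with h | h
  · have : s = t := le_antisymm hst (h ▸ hs)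
    rw [this]
    linarith [norm_nonneg (ww b t y v)]
  have h1 := uu_flow b hs hst (y + s • v)
  have h2 := uu_lip b t (y + s • v + (t - s) • uu b s (y + s • v)) (y + t • v)
  have h3 := flow_x1_le b t (y + s • v + (t - s) • uu b s (y + s • v))
  have h4 := abs_nonneg (x1 (y + s • v + (t - s) • uu b s (y + s • v)))
  have e1 : y + s • v + (t - s) • uu b s (y + s • v) - (y + t • v) = (-(t - s)) • ww b s y v := by
    rw [ww]
    module
  rw [e1, h1, norm_smul, norm_neg, Real.norm_of_nonneg (sub_nonneg.2 hst)] at h2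
  have e2 : ww b t y v = ww b s y v + (uu b s (y + s • v) - uu b t (y + t • v)) := by
    rw [ww, ww]
    abel
  have h5 : ca * t * ‖uu b s (y + s • v) - uu b t (y + t • v)‖ ≤ ca * t * (2 * ‖ww b s y v‖) := by
    refine (mul_le_mul_of_nonneg_right (by linarith) (norm_nonneg _)).trans (h2.trans ?_)
    nlinarith [mul_nonneg (mul_nonneg hc.le hs) (norm_nonneg (ww b s y v))]
  have h6 := le_of_mul_le_mul_left h5 (mul_pos hc h)
  rw [e2]
  linarith [norm_add_le (ww b s y v) (uu b s (y + s • v) - uu b t (y + t • v))]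

theorem ww_zero (b : Bool) (y v : R3) : ww b 0 y v = v - uu b 0 y := by
  rw [ww, zero_smul, add_zero]

theorem abs_x1_le_ww (b : Bool) (t : ℝ) (y v : R3) : |x1 v| ≤ ‖ww b t y v‖ := by
  have : x1 (ww b t y v) = x1 v := by rw [ww, x1_sub, x1_uu, sub_zero]
  rw [← this]
  exact abs_x1_le _

theorem norm_le_ww (b : Bool) (t : ℝ) (y v : R3) : ‖v‖ ≤ ‖ww b t y v‖ + 11 / 10 := by
  have h := norm_add_le (ww b t y v) (uu b t (y + t • v))
  rw [ww, sub_add_cancel, ← ww] at h
  linarith [norm_uu_le b t (y + t • v)]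

theorem ell_le_MM (b : Bool) {t : ℝ} (ht : 0 ≤ t) (x : R3) : ca * (8 * t + ‖x‖) ≤ 11 * MM b t x := by
  have hc := flow_ca_pos
  have hc' := flow_ca_le
  have h1 := flow_XX_le b t x
  have h2 := flow_x1_le b t x
  have h3 := norm_le_x1_add_pr x
  have h4 := norm_add_le (XX b t x) ((sg b * t) • ee)
  rw [flow_norm_sgt b ht, XX, sub_add_cancel, ← XX] at h4
  have h5 := abs_nonneg (x1 x)
  have h6 := norm_nonneg (XX b t x)
  have h7 := mul_nonneg hc.le ht
  have h8 : ca * ‖x‖ ≤ ca * (|x1 x| + (‖XX b t x‖ + t)) :=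
    mul_le_mul_of_nonneg_left (by linarith) hc.le
  nlinarith

theorem MM_le_ell (b : Bool) {t : ℝ} (ht : 0 ≤ t) (x : R3) : MM b t x ≤ 8 * t + ‖x‖ := by
  have hc := flow_ca_pos
  have hc' := flow_ca_le
  refine max_le ?_ ?_
  · have h := norm_sub_le (pr x) ((sg b * t) • ee)
    rw [flow_norm_sgt b ht, ← XX] at h
    linarith [norm_pr_le x]
  · nlinarith [abs_x1_le x]

/-- tangential squeezing: for `τ ⟂ nn, XX b t x`, `y = x - t η`, `m = MM b 0 y`,
`⟪τ, η - u(t,x)⟫ (m + ca t) = ⟪τ, η - u(0,y)⟫ m`. -/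
theorem tangent_squeeze (b : Bool) {t : ℝ} (ht : 0 ≤ t) (x η τ : R3) (h1 : x1 τ = 0)
    (h2 : inner ℝ τ (XX b t x) = (0 : ℝ)) (hy : x1 (x - t • η) ≠ 0) :
    inner ℝ τ (η - uu b t x) * (MM b 0 (x - t • η) + ca * t) =
      inner ℝ τ (η - uu b 0 (x - t • η)) * MM b 0 (x - t • η) := by
  have hm : MM b 0 (x - t • η) ≠ 0 := by
    have h3 := flow_x1_le b 0 (x - t • η)
    have h4 := abs_pos.2 hy
    linarith
  have hp : ∀ z : R3, inner ℝ τ (pr z) = (inner ℝ τ z : ℝ) := by
    intro z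
    have : inner ℝ τ nn = (0 : ℝ) := by rw [real_inner_comm]; exact h1
    rw [pr, inner_sub_right, inner_smul_right, this, mul_zero, sub_zero]
  have h3 : inner ℝ τ x = sg b * t * (inner ℝ τ ee : ℝ) := by
    rw [XX, inner_sub_right, inner_smul_right, hp] at h2
    linarith
  rw [uu, uu, inner_sub_right, inner_sub_right, inner_add_right, inner_add_right, inner_smul_right,
    inner_smul_right, inner_smul_right, h2, XX, inner_sub_right, hp, inner_sub_right,
    inner_smul_right, inner_smul_right, h3]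
  field_simp
  ring

theorem flow_cont_XX (b : Bool) : Continuous (fun z : ℝ × R3 => XX b z.1 z.2) :=
  (continuous_pr.comp continuous_snd).sub
    ((continuous_const.mul continuous_fst).smul continuous_const)

theorem flow_cont_MM (b : Bool) : Continuous (fun z : ℝ × R3 => MM b z.1 z.2) :=
  (flow_cont_XX b).norm.max
    ((continuous_x1.comp continuous_snd).abs.add (continuous_const.mul continuous_fst))

theorem measurable_uu (b : Bool) : Measurable (fun z : ℝ × R3 => uu b z.1 z.2) := by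
  exact (measurable_const.add ((measurable_const.div (flow_cont_MM b).measurable).smul
    (flow_cont_XX b).measurable))

theorem measurable_MM (b : Bool) : Measurable (fun z : ℝ × R3 => MM b z.1 z.2) := by
  exact (flow_cont_MM b).measurable

theorem measurable_ww (b : Bool) : Measurable (fun z : ℝ × R3 × R3 => ww b z.1 z.2.1 z.2.2) := by
  have h : Measurable (fun z : ℝ × R3 × R3 => ((z.1, z.2.1 + z.1 • z.2.2) : ℝ × R3)) := by
    fun_prop
  have h1 := (measurable_uu b).comp h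
  have h2 : Measurable (fun z : ℝ × R3 × R3 => uu b z.1 (z.2.1 + z.1 • z.2.2)) := by
    simpa only [Function.comp_def] using h1
  unfold ww
  exact measurable_snd.snd.sub h2

/-- link between the local peculiar velocity at an occupied lift and the singular weight at a later
time.  `p = (t,x,v)`, `y = lbl p`, `x̃ = x - (t-s) v - lat m = y + s v + lat m'`.  If `‖v‖ ≥ 4` use
`‖w‖ ≥ ‖v‖ - 11/10`.  If `m' = 0` and `‖y‖ ≤ 1/4`, `w = ww b s y v` and `ww_flight`.  Otherwise
`s w = (x̃ - s u) - (y + lat m')` up to sign has norm `≥ 1/4 - 1/20` (`half_le_norm_red_add`). -/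
theorem wlink : ∃ K : ℝ≥0∞, K ≠ ⊤ ∧ ∀ (b : Bool) (p : Ph) (s : ℝ) (m : Fin 3 → ℤ), 0 ≤ s → s ≤ p.1 →
    ‖((fl p s).2.1 - lat m) - s • uu b s ((fl p s).2.1 - lat m)‖ ≤ 1 / 20 →
    ∀ γ ∈ Icc (1 : ℝ) (3 / 2),
      npw ‖p.2.2 - uu b s ((fl p s).2.1 - lat m)‖ γ ≤
        K * ENNReal.ofReal ((1 + s) ^ 2) * (npw (jb p.2.2) 1 + DS p ^ (2 * γ / 3)) := by
  have hdef : ∀ x γ : ℝ, npw x γ = ENNReal.ofReal x ^ (-γ) := fun _ _ => rfl
  have hone : ∀ γ : ℝ, npw 1 γ = 1 := fun γ => by rw [hdef, ENNReal.ofReal_one, ENNReal.one_rpow]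
  have scale : ∀ x y c γ : ℝ, 1 ≤ c → 0 ≤ γ → γ ≤ 2 → y ≤ c * x →
      npw x γ ≤ ENNReal.ofReal (c ^ 2) * npw y γ := by
    intro x y c γ hc h0 h2 h
    have hc1 : 1 ≤ ENNReal.ofReal c := ENNReal.one_le_ofReal.2 hc
    have hc0 : ENNReal.ofReal c ≠ 0 := (zero_lt_one.trans_le hc1).ne'
    have e : npw x γ = ENNReal.ofReal c ^ γ * npw (c * x) γ := by
      rw [hdef, hdef, ENNReal.ofReal_mul (by linarith),
        ENNReal.mul_rpow_of_ne_top ENNReal.ofReal_ne_top ENNReal.ofReal_ne_top, ← mul_assoc,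
        ← ENNReal.rpow_add _ _ hc0 ENNReal.ofReal_ne_top, add_neg_cancel, ENNReal.rpow_zero, one_mul]
    rw [e]
    refine mul_le_mul' ?_ ?_
    · rw [ENNReal.ofReal_pow (by linarith), ← ENNReal.rpow_natCast]
      exact ENNReal.rpow_le_rpow_of_exponent_le hc1 (by exact_mod_cast h2)
    · rw [hdef, hdef, ENNReal.rpow_neg, ENNReal.rpow_neg]
      exact ENNReal.inv_le_inv.2 (ENNReal.rpow_le_rpow (ENNReal.ofReal_le_ofReal h) h0)
  refine ⟨ENNReal.ofReal 625, ENNReal.ofReal_ne_top, fun b p s m hs hst h γ hγ => ?_⟩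
  obtain ⟨m₀, hm₀⟩ := exists_red_eq (p.2.1 - p.1 • p.2.2)
  have hx : (fl p s).2.1 - lat m = lbl p + s • p.2.2 + lat (m₀ + -m) := by
    show p.2.1 - (p.1 - s) • p.2.2 - lat m = red (p.2.1 - p.1 • p.2.2) + s • p.2.2 + _
    rw [hm₀, lat_add, lat_neg, sub_smul]
    abel
  have hu := norm_uu_le b s ((fl p s).2.1 - lat m)
  have hγ0 : 0 ≤ γ := zero_le_one.trans hγ.1
  have hγ2 : γ ≤ 2 := hγ.2.trans (by norm_num)
  have hjb : jb p.2.2 = 1 + ‖p.2.2‖ := rfl
  have hs2 : 1 ≤ (1 + s) ^ 2 := one_le_pow₀ (by linarith)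
  have hK : ∀ c : ℝ, c ≤ 625 → ENNReal.ofReal c ≤
      ENNReal.ofReal 625 * ENNReal.ofReal ((1 + s) ^ 2) := fun c hc => by
    rw [← ENNReal.ofReal_mul (by norm_num)]
    exact ENNReal.ofReal_le_ofReal (by nlinarith)
  set u := uu b s ((fl p s).2.1 - lat m) with hudef
  rcases le_or_gt 4 ‖p.2.2‖ with hv | hv
  · have h1 := norm_sub_norm_le p.2.2 u
    calc npw ‖p.2.2 - u‖ γ ≤ npw ‖p.2.2 - u‖ 1 := by
          rw [hdef, hdef]
          exact ENNReal.rpow_le_rpow_of_exponent_le (ENNReal.one_le_ofReal.2 (by linarith))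
            (neg_le_neg hγ.1)
      _ ≤ ENNReal.ofReal (2 ^ 2) * npw (jb p.2.2) 1 :=
          scale _ _ 2 1 (by norm_num) zero_le_one (by norm_num) (by rw [hjb]; linarith)
      _ ≤ _ := mul_le_mul' (hK _ (by norm_num)) le_self_add
  have far : 1 ≤ 5 * (1 + s) * ‖p.2.2 - u‖ → npw ‖p.2.2 - u‖ γ ≤
      ENNReal.ofReal 625 * ENNReal.ofReal ((1 + s) ^ 2) *
        (npw (jb p.2.2) 1 + DS p ^ (2 * γ / 3)) := by
    intro h1
    have h2 := scale 1 (jb p.2.2) 5 1 (by norm_num) zero_le_one (by norm_num) (by rw [hjb]; linarith)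
    have h3 := scale _ _ _ γ (by linarith) hγ0 hγ2 h1
    rw [hone] at h2 h3
    refine h3.trans ((mul_le_mul_right h2 _).trans ?_)
    rw [← mul_assoc, ← ENNReal.ofReal_mul (by positivity), ← ENNReal.ofReal_mul (by norm_num)]
    exact mul_le_mul' (ENNReal.ofReal_le_ofReal (le_of_eq (by ring))) le_self_add
  have hw0 := norm_nonneg (p.2.2 - u)
  by_cases hc : m₀ + -m = 0 ∧ ‖lbl p‖ ≤ 1 / 4
  · have hw : p.2.2 - u = ww b s (lbl p) p.2.2 := by
      rw [hudef, hx, hc.1, lat_zero, add_zero]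
      rfl
    have h3 := ww_flight b hs hst (lbl p) p.2.2
    rw [← hw] at h3
    rcases le_or_gt ‖ww b p.1 (lbl p) p.2.2‖ 1 with h4 | h4
    · have h5 : npw ‖ww b p.1 (lbl p) p.2.2‖ (3 / 2) ≤ DS p := by
        have e : DD b p = npw ‖ww b p.1 (lbl p) p.2.2‖ (3 / 2) := if_pos ⟨hc.2, h4⟩
        rw [← e]
        exact Finset.single_le_sum (f := fun b => DD b p) (fun _ _ => zero_le) (Finset.mem_univ b)
      have h6 : npw ‖ww b p.1 (lbl p) p.2.2‖ γ ≤ DS p ^ (2 * γ / 3) := by
        refine le_trans (le_of_eq ?_) (ENNReal.rpow_le_rpow h5 (by positivity))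
        rw [hdef, hdef, ← ENNReal.rpow_mul]
        congr 1
        ring
      exact (scale _ _ 3 γ (by norm_num) hγ0 hγ2 h3).trans
        (mul_le_mul' (hK _ (by norm_num)) (h6.trans le_add_self))
    · exact far (by nlinarith)
  · have h1 : 1 / 4 ≤ ‖lbl p + lat (m₀ + -m)‖ := by
      by_cases h0 : m₀ + -m = 0
      · rw [h0, lat_zero, add_zero]
        exact (not_le.1 fun h => hc ⟨h0, h⟩).le
      · exact le_trans (by norm_num) (half_le_norm_red_add h0)
    have h2 : lbl p + lat (m₀ + -m) = ((fl p s).2.1 - lat m - s • u) - s • (p.2.2 - u) := by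
      rw [hx, smul_sub]
      abel
    have h3 := norm_sub_le ((fl p s).2.1 - lat m - s • u) (s • (p.2.2 - u))
    rw [← h2, norm_smul, Real.norm_of_nonneg hs] at h3
    exact far (by nlinarith)

end
end Crest.Agent.R68
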