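import Crest.Agent.R68.Med

/-! # Row 68: the measure of the inner lanes -/

set_option autoImplicit false
open MeasureTheory Set

namespace Crest.Agent.R68.LaneM
noncomputable section

/-- the left end of the period `k` (for real `k`: a point inside the period) -/
def PP (b : Bool) (k : ℝ) : ℝ := Real.exp (cH * (k + if b then 0 else 1 / 2))

theorem cH_pos : 0 < cH := by unfold cH; positivity

theorem cH_le : cH ≤ 1 / 100 := by unfold cH; norm_num

theorem PP_pos (b : Bool) (k : ℝ) : 0 < PP b k := Real.exp_pos _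

theorem PP_add (b : Bool) (k s : ℝ) : PP b (k + s) = PP b k * Real.exp (cH * s) := by
  rw [PP, PP, ← Real.exp_add]
  congr 1
  ring

theorem PP_mono (b : Bool) {k s : ℝ} (h : k ≤ s) : PP b k ≤ PP b s :=
  Real.exp_le_exp.2 (by nlinarith [cH_pos])

theorem PP_lt (b : Bool) {k s : ℝ} (h : k < s) : PP b k < PP b s :=
  Real.exp_lt_exp.2 (by nlinarith [cH_pos])

/-- the logarithmic coordinate -/
def LL (b : Bool) (x : ℝ) : ℝ := Real.log x / cH - if b then 0 else 1 / 2

theorem PP_LL (b : Bool) {x : ℝ} (hx : 0 < x) : PP b (LL b x) = x := by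
  rw [PP, LL, sub_add_cancel, mul_div_cancel₀ _ cH_pos.ne', Real.exp_log hx]

theorem exp_cH_le : Real.exp cH ≤ 1 + 9 / 8 * cH := by
  have h := Real.exp_bound_div_one_sub_of_interval cH_pos.le (by linarith [cH_le])
  refine h.trans ?_
  rw [div_le_iff₀ (by linarith [cH_le])]
  nlinarith [cH_pos, cH_le]

theorem laneIn_of_mem (b : Bool) (k : ℤ) {x : ℝ}
    (hx : x ∈ Icc (PP b (k + 1 / 16)) (PP b (k + 3 / 16))) : laneIn b x := by
  have h0 : 0 < x := (PP_pos _ _).trans_le hx.1
  have h1 : (k : ℝ) + 1 / 16 ≤ LL b x := by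
    by_contra h
    have := PP_lt b (not_le.1 h)
    rw [PP_LL b h0] at this
    linarith [hx.1]
  have h2 : LL b x ≤ (k : ℝ) + 3 / 16 := by
    by_contra h
    have := PP_lt b (not_le.1 h)
    rw [PP_LL b h0] at this
    linarith [hx.2]
  have h3 : phase b x = LL b x - k := by
    rw [phase, abs_of_pos h0]
    exact Int.fract_eq_iff.2 ⟨by linarith, by linarith, k, by rw [LL]; ring⟩
  exact ⟨h0.ne', by linarith, by linarith⟩

theorem inner_len (b : Bool) (k : ℝ) :
    (PP b (k + 1) - PP b k) / 9 ≤ PP b (k + 3 / 16) - PP b (k + 1 / 16) := by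
  have h1 : PP b (k + 3 / 16) = PP b (k + 1 / 16) * Real.exp (cH * (1 / 8)) := by
    rw [← PP_add]
    congr 1
    ring
  have h2 := Real.add_one_le_exp (cH * (1 / 8))
  have h3 := PP_mono b (show k ≤ k + 1 / 16 by linarith)
  have h4 := PP_pos b k
  have h5 := exp_cH_le
  rw [h1, PP_add b k 1, mul_one]
  nlinarith [mul_le_mul_of_nonneg_left h5 h4.le, mul_le_mul_of_nonneg_left h2 (h4.le.trans h3),
    mul_le_mul_of_nonneg_right h3 cH_pos.le]

theorem periods (b : Bool) (k : ℤ) (n : ℕ) : ENNReal.ofReal ((PP b (k + n) - PP b k) / 9) ≤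
    volume {x : ℝ | x ∈ Icc (PP b k) (PP b (k + n)) ∧ laneIn b x} := by
  induction n with
  | zero => simp
  | succ n ih =>
    have hn : (0 : ℝ) ≤ n := n.cast_nonneg
    have h1 := inner_len b (k + n)
    have h2 := PP_mono b (show (k : ℝ) ≤ k + n by linarith)
    have h3 := PP_mono b (show (k : ℝ) + n ≤ k + n + 1 by linarith)
    have h4 := PP_lt b (show (k : ℝ) + n < k + n + 1 / 16 by linarith)
    have h5 := PP_mono b (show (k : ℝ) + n + 3 / 16 ≤ k + n + 1 by linarith)
    push_cast
    rw [← add_assoc]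
    calc ENNReal.ofReal ((PP b (k + n + 1) - PP b k) / 9)
        ≤ ENNReal.ofReal ((PP b (k + n) - PP b k) / 9) +
          ENNReal.ofReal (PP b (k + n + 3 / 16) - PP b (k + n + 1 / 16)) :=
          (ENNReal.ofReal_le_ofReal (by linarith)).trans ENNReal.ofReal_add_le
      _ ≤ volume ({x : ℝ | x ∈ Icc (PP b k) (PP b (k + n)) ∧ laneIn b x} ∪
          Icc (PP b (k + n + 1 / 16)) (PP b (k + n + 3 / 16))) := by
          rw [measure_union (disjoint_left.2 fun x hx hx' => by linarith [hx.1.2, hx'.1])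
            measurableSet_Icc, Real.volume_Icc]
          gcongr
      _ ≤ _ := by
          refine measure_mono ?_
          rintro x (hx | hx)
          · exact ⟨⟨hx.1.1, hx.1.2.trans h3⟩, hx.2⟩
          · refine ⟨⟨by linarith [hx.1], hx.2.trans h5⟩, laneIn_of_mem b (k + n) ?_⟩
            push_cast
            exact hx

theorem pos_case (b : Bool) {a c : ℝ} (ha : 0 < a) (hac : a ≤ c) :
    ENNReal.ofReal ((c - a - 3 * cH * c) / 9) ≤ volume {x : ℝ | x ∈ Icc a c ∧ laneIn b x} := by
  have hc : 0 < c := ha.trans_le hac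
  set k := ⌈LL b a⌉ with hk
  set m := ⌊LL b c⌋ with hm
  have h1 : a ≤ PP b k := (PP_LL b ha).ge.trans (PP_mono b (Int.le_ceil _))
  have h2 : PP b m ≤ c := (PP_mono b (Int.floor_le _)).trans (PP_LL b hc).le
  have h3 : PP b k ≤ a * Real.exp cH := by
    have := PP_mono b (Int.ceil_lt_add_one (LL b a)).le
    rwa [PP_add, PP_LL b ha, mul_one] at this
  have h4 : c ≤ PP b m * Real.exp cH := by
    have := PP_mono b (Int.lt_floor_add_one (LL b c)).le
    rwa [PP_add, PP_LL b hc, mul_one] at this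
  have h5 := exp_cH_le
  have h6 := PP_pos b m
  have h7 : c - a - 3 * cH * c ≤ PP b m - PP b k := by
    nlinarith [mul_le_mul_of_nonneg_left h5 h6.le, mul_le_mul_of_nonneg_left h5 ha.le,
      mul_le_mul_of_nonneg_left h2 cH_pos.le, mul_le_mul_of_nonneg_left hac cH_pos.le,
      mul_pos cH_pos hc]
  rcases le_total m k with h | h
  · have := PP_mono b (show (m : ℝ) ≤ k by exact_mod_cast h)
    rw [ENNReal.ofReal_of_nonpos (by linarith)]
    exact zero_le
  · obtain ⟨n, hn⟩ := Int.le.dest h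
    have h8 := periods b k n
    have h9 : (k : ℝ) + n = m := by exact_mod_cast hn
    rw [h9] at h8
    refine (ENNReal.ofReal_le_ofReal (by linarith)).trans (h8.trans (measure_mono ?_))
    exact fun x hx => ⟨⟨h1.trans hx.1.1, hx.1.2.trans h2⟩, hx.2⟩

theorem laneIn_neg {b : Bool} {x : ℝ} (h : laneIn b (-x)) : laneIn b x := by
  simpa [laneIn, phase] using h

theorem lane_measure (b : Bool) {l A B : ℝ} (hl : 0 < l) (hA : |A| ≤ 2 * l) (hB : |B| ≤ 2 * l)
    (hAB : 100 * cθ' * l ≤ B - A) :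
    ENNReal.ofReal ((B - A) / 40) ≤
      volume {ξ : ℝ | ξ ∈ Icc A B ∧ 2 * cθ' * l ≤ |ξ| ∧ laneIn b ξ} := by
  have hθ : cθ' = 10 * cH := by unfold cθ' cH; norm_num
  have hH := mul_pos cH_pos hl
  have hA' := abs_le.1 hA
  have hB' := abs_le.1 hB
  rw [hθ] at hAB ⊢
  have hd : 0 < 2 * (10 * cH) * l := by linarith
  rcases le_total (-A) B with h | h
  · have h1 : 48 / 100 * (B - A) ≤ B - max A (2 * (10 * cH) * l) := by
      rcases le_total A (2 * (10 * cH) * l) with h' | h'
      · rw [max_eq_right h']; linarith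
      · rw [max_eq_left h']; linarith
    have h2 := pos_case b (a := max A (2 * (10 * cH) * l)) (c := B) (lt_max_of_lt_right hd)
      (by linarith)
    refine (ENNReal.ofReal_le_ofReal ?_).trans (h2.trans (measure_mono ?_))
    · linarith [mul_le_mul_of_nonneg_left hB'.2 cH_pos.le]
    · exact fun x hx => ⟨⟨(le_max_left _ _).trans hx.1.1, hx.1.2⟩,
        ((le_max_right _ _).trans hx.1.1).trans (le_abs_self x), hx.2⟩
  · have h1 : 48 / 100 * (B - A) ≤ -A - max (-B) (2 * (10 * cH) * l) := by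
      rcases le_total (-B) (2 * (10 * cH) * l) with h' | h'
      · rw [max_eq_right h']; linarith
      · rw [max_eq_left h']; linarith
    have h2 := pos_case b (a := max (-B) (2 * (10 * cH) * l)) (c := -A) (lt_max_of_lt_right hd)
      (by linarith)
    rw [← Measure.measure_preimage_neg] at h2
    refine (ENNReal.ofReal_le_ofReal ?_).trans (h2.trans (measure_mono ?_))
    · linarith [mul_le_mul_of_nonneg_left hA'.1 cH_pos.le]
    · exact fun x hx => ⟨⟨neg_le_neg_iff.1 hx.1.2, neg_le_neg_iff.1 ((le_max_left _ _).trans hx.1.1)⟩,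
        ((le_max_right _ _).trans hx.1.1).trans (neg_le_abs x), laneIn_neg hx.2⟩

end
end Crest.Agent.R68.LaneM
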