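import Crest.Agent.R68.Frame
import Crest.Agent.R68.LanesAuxB

/-! # Row 68: lanes -/

set_option autoImplicit false
open MeasureTheory Set Filter Topology
open scoped ENNReal NNReal
open Crest.AnalysisR.VecCalc3 Crest.AnalysisR.PDE.Boltzmann

namespace Crest.Agent.R68
noncomputable section

theorem lanes_cH_pos : 0 < cH := by unfold cH; positivity

theorem lanes_cH_le : cH ≤ 1 := by unfold cH; norm_num

theorem lanes_log {ξ ξ' δ : ℝ} (hξ : ξ ≠ 0) (hδ : 0 ≤ δ) (hδ' : δ ≤ 1 / 2)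
    (h : |ξ' - ξ| ≤ δ * |ξ|) : ξ' ≠ 0 ∧ |(Real.log |ξ'| - Real.log |ξ|)| ≤ 2 * δ := by
  have h0 : 0 < |ξ| := abs_pos.2 hξ
  have h1 := abs_le.1 ((abs_abs_sub_abs_le_abs_sub ξ' ξ).trans h)
  have h2 : 0 < |ξ'| := by nlinarith [h1.1]
  refine ⟨abs_pos.1 h2, abs_le.2 ⟨?_, ?_⟩⟩
  · have h3 := Real.log_le_sub_one_of_pos (div_pos h0 h2)
    rw [Real.log_div h0.ne' h2.ne'] at h3
    have h4 : |ξ| / |ξ'| ≤ 1 + 2 * δ := by
      rw [div_le_iff₀ h2]
      have h5 : (1 - δ) * |ξ| ≤ |ξ'| := by linarith [h1.1]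
      have h6 : 1 ≤ (1 + 2 * δ) * (1 - δ) := by nlinarith
      calc |ξ| ≤ (1 + 2 * δ) * (1 - δ) * |ξ| := le_mul_of_one_le_left h0.le h6
        _ = (1 + 2 * δ) * ((1 - δ) * |ξ|) := by ring
        _ ≤ _ := mul_le_mul_of_nonneg_left h5 (by linarith)
    linarith
  · have h3 := Real.log_le_sub_one_of_pos (div_pos h2 h0)
    rw [Real.log_div h2.ne' h0.ne'] at h3
    have h4 : |ξ'| / |ξ| ≤ 1 + δ := by
      rw [div_le_iff₀ h0]
      linarith [h1.2]
    linarith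

theorem lanes_log_div {ξ ξ' c : ℝ} (hξ : ξ ≠ 0) (hc : 0 ≤ c) (hc' : c ≤ 1 / 2)
    (h : |ξ' - ξ| ≤ cH * c * |ξ|) :
    ξ' ≠ 0 ∧ |Real.log |ξ'| / cH - Real.log |ξ| / cH| ≤ 2 * c := by
  have h0 := lanes_cH_pos
  obtain ⟨h1, h2⟩ := lanes_log hξ (mul_nonneg h0.le hc)
    ((mul_le_of_le_one_left hc lanes_cH_le).trans hc') h
  refine ⟨h1, ?_⟩
  rw [← sub_div, abs_div, abs_of_pos h0, div_le_iff₀ h0]
  linarith

theorem lanes_measurable_phase (b : Bool) : Measurable (phase b) := by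
  unfold phase
  exact measurable_fract.comp
    (((Real.measurable_log.comp continuous_abs.measurable).div_const _).sub_const _)

theorem lane_sep {b b' : Bool} (hb : b ≠ b') {ξ ξ' : ℝ} (h : lane b ξ) (h' : lane b' ξ') :
    cH / 10 * |ξ| ≤ |ξ - ξ'| := by
  by_contra hlt
  obtain ⟨-, h1⟩ := lanes_log_div (ξ' := ξ') (c := 1 / 10) h.1 (by norm_num) (by norm_num)
    (by rw [abs_sub_comm]; linarith [not_le.1 hlt])
  obtain ⟨h2, h3⟩ := abs_le.1 h1
  have h4 := h.2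
  have h5 := h'.2
  unfold phase at h4 h5
  have key : ∀ {A A' : ℝ}, Int.fract (A - 0) ≤ 1 / 4 → Int.fract (A' - 1 / 2) ≤ 1 / 4 →
      -(2 * (1 / 10)) ≤ A' - A → A' - A ≤ 2 * (1 / 10) → False := by
    intro A A' k1 k2 k3 k4
    have e1 := Int.floor_add_fract (A - 0)
    have e2 := Int.floor_add_fract (A' - 1 / 2)
    have p1 := Int.fract_nonneg (A - 0)
    have p2 := Int.fract_nonneg (A' - 1 / 2)
    have q1 : ((⌊A' - 1 / 2⌋ : ℤ) : ℝ) < (⌊A - 0⌋ : ℤ) := by linarith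
    have q2 : ((⌊A - 0⌋ : ℤ) : ℝ) < ((⌊A' - 1 / 2⌋ + 1 : ℤ) : ℝ) := by push_cast; linarith
    have q3 := Int.cast_lt.1 q1
    have q4 := Int.cast_lt.1 q2
    omega
  cases b <;> cases b'
  · exact hb rfl
  · exact key h5 h4 (by linarith) (by linarith)
  · exact key h4 h5 h2 h3
  · exact hb rfl

theorem lane_of_laneIn {b : Bool} {ξ ξ' : ℝ} (h : laneIn b ξ) (hd : |ξ' - ξ| ≤ cH / 100 * |ξ|) :
    lane b ξ' := by
  obtain ⟨h0, h1⟩ := lanes_log_div (ξ' := ξ') (c := 1 / 100) h.1 (by norm_num) (by norm_num)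
    (by linarith)
  obtain ⟨h2, h3⟩ := abs_le.1 h1
  obtain ⟨-, h4, h5⟩ := h
  refine ⟨h0, ?_⟩
  have h6 : phase b ξ' = phase b ξ + (Real.log |ξ'| / cH - Real.log |ξ| / cH) := by
    refine Int.fract_eq_iff.2 ⟨by linarith, by linarith,
      ⌊Real.log |ξ| / cH - if b then 0 else 1 / 2⌋, ?_⟩
    have := Int.floor_add_fract (Real.log |ξ| / cH - if b then 0 else 1 / 2)
    unfold phase
    linarith
  linarith

theorem measurableSet_lane (b : Bool) : MeasurableSet {ξ : ℝ | lane b ξ} := by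
  exact (measurableSet_singleton (0 : ℝ)).compl.inter
    (measurableSet_le (lanes_measurable_phase b) measurable_const)

theorem measurableSet_laneIn (b : Bool) : MeasurableSet {ξ : ℝ | laneIn b ξ} := by
  exact (measurableSet_singleton (0 : ℝ)).compl.inter
    ((measurableSet_le measurable_const (lanes_measurable_phase b)).inter
      (measurableSet_le (lanes_measurable_phase b) measurable_const))

theorem measurableSet_SS (r0 : ℝ) (b : Bool) : MeasurableSet (SS r0 b) := by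
  have h1 : Measurable x1 := continuous_x1.measurable
  have h2 : Measurable fun y => |x1 y| := continuous_x1.abs.measurable
  exact (h1 (measurableSet_lane b)).inter ((measurableSet_le h2 measurable_const).inter
    (measurableSet_le continuous_pr.norm.measurable (h2.const_mul _)))

theorem SS_nonempty {r0 : ℝ} (h : 0 < r0) (b : Bool) : (SS r0 b).Nonempty := by
  have h0 := lanes_cH_pos
  set s : ℝ := if b then 0 else 1 / 2 with hs
  have hs1 : s ≤ 1 := by rw [hs]; split_ifs <;> norm_num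
  set k : ℤ := ⌊Real.log r0 / cH⌋ - 1 with hk
  set ξ : ℝ := Real.exp (cH * (k + s)) with hξ
  have hp : 0 < ξ := Real.exp_pos _
  have hx : x1 (ξ • nn) = ξ := by rw [x1_smul, x1_nn, mul_one]
  refine ⟨ξ • nn, ⟨by rw [hx]; exact hp.ne', ?_⟩, ?_, ?_⟩
  · rw [hx, phase, abs_of_pos hp, hξ, Real.log_exp, mul_div_cancel_left₀ _ h0.ne', ← hs,
      add_sub_cancel_right, Int.fract_intCast]
    norm_num
  · rw [hx, abs_of_pos hp, hξ, ← Real.exp_log h, Real.exp_le_exp, mul_comm, ← le_div_iff₀ h0, hk]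
    have := Int.floor_le (Real.log r0 / cH)
    push_cast
    linarith
  · rw [pr, hx, sub_self, norm_zero]
    unfold cK
    positivity

theorem norm_le_of_mem_SS {r0 : ℝ} {b : Bool} {y : R3} (h : y ∈ SS r0 b) :
    ‖y‖ ≤ 2 * cK * |x1 y| := by
  have h1 := norm_le_x1_add_pr y
  have h2 := h.2.2
  have h3 : |x1 y| ≤ cK * |x1 y| := le_mul_of_one_le_left (abs_nonneg _) (by unfold cK; norm_num)
  linarith

/-- `[A,B]` minus `(-2θ'ℓ, 2θ'ℓ)` contains an interval of constant sign of length `≥ 0.48 (B-A)`; on each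
full period `[e^{hk}, e^{h(k+1)}]` (shifted) the inner lane `[e^{h(k+1/16)}, e^{h(k+3/16)}]` has relative
length `≥ 1/9`, and the two partial periods have length `≤ 2 (e^h - 1) 2ℓ ≤ (B - A)/100`. -/
theorem lane_measure (b : Bool) {l A B : ℝ} (hl : 0 < l) (hA : |A| ≤ 2 * l) (hB : |B| ≤ 2 * l)
    (hAB : 100 * cθ' * l ≤ B - A) :
    ENNReal.ofReal ((B - A) / 40) ≤ volume {ξ : ℝ | ξ ∈ Icc A B ∧ 2 * cθ' * l ≤ |ξ| ∧ laneIn b ξ} := by
  exact LaneM.lane_measure b hl hA hB hAB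

/-- time spent in slabs: at most `(2ϱ'+1)³` lattice points `m` with `‖x - lat m‖ ≤ ϱ' = 1 + 2t + t‖v‖`
matter, and for each of them `{s : |x₁ - (t-s) v₁ - m₁| ≤ ϱ}` is an interval of length `2ϱ/|v₁|`. -/
theorem slab_time : ∃ K : ℝ≥0∞, K ≠ ⊤ ∧ ∀ (p : Ph) (ϱ : ℝ), 0 ≤ p.1 → 0 < ϱ →
    volume {s : ℝ | s ∈ Ioo 0 p.1 ∧ fl p s ∈ slabS ϱ} ≤
      K * ENNReal.ofReal ((1 + p.1) ^ 3 * jb p.2.2 ^ 3 * ϱ) * npw |x1 p.2.2| 1 := by
  refine ⟨128, by norm_num, ?_⟩
  rintro ⟨t, x, v⟩ ϱ ht hϱ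
  simp only at ht ⊢
  have hv0 := norm_nonneg v
  have hj : jb v = 1 + ‖v‖ := rfl
  have hA : 0 < (1 + t) ^ 3 * jb v ^ 3 * ϱ := by rw [hj]; positivity
  by_cases hv : x1 v = 0
  · have h1 : npw |x1 v| 1 = ⊤ := by simp [npw, hv, ENNReal.rpow_neg_one]
    rw [h1, ENNReal.mul_top (mul_ne_zero (by norm_num) (ENNReal.ofReal_pos.2 hA).ne')]
    exact le_top
  have hv1 : 0 < |x1 v| := abs_pos.2 hv
  have hsub : {s : ℝ | s ∈ Ioo 0 t ∧ fl (t, x, v) s ∈ slabS ϱ} ⊆
      ⋃ m ∈ img (1 + 2 * t + t * ‖v‖) x,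
        Metric.closedBall (t - x1 (x - lat m) / x1 v) (ϱ / |x1 v|) := by
    rintro s ⟨hs, m, h1, h2⟩
    simp only [fl] at h1 h2
    have e : x - (t - s) • v - lat m = (x - lat m) - (t - s) • v := by abel
    rw [e] at h1 h2
    refine mem_iUnion₂.2 ⟨m, mem_img ?_, ?_⟩
    · have h3 := norm_add_le (x - lat m - (t - s) • v) ((t - s) • v)
      rw [sub_add_cancel, norm_smul, Real.norm_of_nonneg (by linarith [hs.2])] at h3
      have h4 : (t - s) * ‖v‖ ≤ t * ‖v‖ := mul_le_mul_of_nonneg_right (by linarith [hs.1]) hv0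
      linarith [hs.2]
    · rw [x1_sub, x1_smul] at h2
      rw [Metric.mem_closedBall, Real.dist_eq, le_div_iff₀ hv1, ← abs_mul]
      have e2 : (s - (t - x1 (x - lat m) / x1 v)) * x1 v = x1 (x - lat m) - (t - s) * x1 v := by
        field_simp
        ring
      rwa [e2]
  have hcard : ((img (1 + 2 * t + t * ‖v‖) x).card : ℝ) ≤ (4 * ((1 + t) * jb v)) ^ 3 := by
    refine (card_img_le (by positivity) x).trans (pow_le_pow_left₀ (by positivity) ?_ 3)
    rw [hj]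
    nlinarith [mul_nonneg ht hv0]
  calc _ ≤ _ := measure_mono hsub
    _ ≤ ∑ m ∈ img (1 + 2 * t + t * ‖v‖) x,
        volume (Metric.closedBall (t - x1 (x - lat m) / x1 v) (ϱ / |x1 v|)) :=
        measure_biUnion_finset_le _ _
    _ = ENNReal.ofReal ((img (1 + 2 * t + t * ‖v‖) x).card * (2 * (ϱ / |x1 v|))) := by
        simp only [Real.volume_closedBall]
        rw [Finset.sum_const, nsmul_eq_mul, ENNReal.ofReal_mul (Nat.cast_nonneg _),
          ENNReal.ofReal_natCast]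
    _ ≤ ENNReal.ofReal (128 * ((1 + t) ^ 3 * jb v ^ 3 * ϱ) * |x1 v|⁻¹) := by
        refine ENNReal.ofReal_le_ofReal
          ((mul_le_mul_of_nonneg_right hcard (by positivity)).trans (le_of_eq ?_))
        ring
    _ = _ := by
        rw [ENNReal.ofReal_mul (by positivity), ENNReal.ofReal_mul (by norm_num),
          ENNReal.ofReal_ofNat, npw, ENNReal.rpow_neg_one, ENNReal.ofReal_inv_of_pos hv1]

theorem measurableSet_slabS (ϱ : ℝ) : MeasurableSet (slabS ϱ) := by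
  have e : slabS ϱ = ⋃ m : Fin 3 → ℤ,
      {p : Ph | ‖p.2.1 - lat m‖ ≤ 1 + 2 * p.1} ∩ {p : Ph | |x1 (p.2.1 - lat m)| ≤ ϱ} := by
    ext p
    simp only [slabS, mem_ofPred_eq, mem_iUnion, mem_inter_iff]
  rw [e]
  refine MeasurableSet.iUnion fun m => IsClosed.measurableSet (IsClosed.inter ?_ ?_)
  · exact isClosed_le (by fun_prop) (by fun_prop)
  · exact isClosed_le (continuous_x1.comp (by fun_prop)).abs continuous_const

end
end Crest.Agent.R68
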