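import Crest.Agent.R68.Core

/-! # Row 68: one-dimensional lemmas, part B (absolutely continuous primitives) -/

set_option autoImplicit false
open MeasureTheory Set Filter Topology
open scoped ENNReal NNReal

namespace Crest.Agent.R68.OneDB
noncomputable section

theorem ac_ftc {G g : ℝ → ℝ} {a b : ℝ} (hab : a ≤ b) (hG : AbsolutelyContinuousOnInterval G a b)
    (hd : ∀ᵐ x, x ∈ uIcc a b → HasDerivAt G (g x) x) :
    IntegrableOn g (Ioo a b) ∧ G b = G a + ∫ s in Ioo a b, g s := by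
  have h1 : deriv G =ᵐ[volume.restrict (Ioo a b)] g := by
    rw [EventuallyEq, ae_restrict_iff' measurableSet_Ioo]
    filter_upwards [hd] with x hx hx'
    exact (hx (by rw [uIcc_of_le hab]; exact Ioo_subset_Icc_self hx')).deriv
  refine ⟨((intervalIntegrable_iff_integrableOn_Ioo_of_le hab).1
    hG.intervalIntegrable_deriv).congr_fun_ae h1, ?_⟩
  rw [← integral_congr_ae h1, ← integral_Ioc_eq_integral_Ioo, ← intervalIntegral.integral_of_le hab,
    hG.integral_deriv_eq_sub]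
  ring

theorem lip_of_deriv {β β' : ℝ → ℝ} (hβ : ∀ z, HasDerivAt β (β' z) z) (hβ' : Continuous β')
    (c d : ℝ) : ∃ K : ℝ≥0, LipschitzOnWith K β (Icc c d) := by
  have : ContDiff ℝ 1 β := by
    rw [contDiff_one_iff_deriv]
    exact ⟨fun z => (hβ z).differentiableAt, by
      rw [show deriv β = β' from funext fun z => (hβ z).deriv]; exact hβ'⟩
  exact this.contDiffOn.exists_lipschitzOnWith (by decide) (convex_Icc _ _) isCompact_Icc

theorem ac_comp {F β β' : ℝ → ℝ} {a b : ℝ} (hF : AbsolutelyContinuousOnInterval F a b)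
    (hβ : ∀ z, HasDerivAt β (β' z) z) (hβ' : Continuous β') :
    AbsolutelyContinuousOnInterval (fun x => β (F x)) a b := by
  obtain ⟨C, hC⟩ := hF.exists_bound
  obtain ⟨K, hK⟩ := lip_of_deriv hβ hβ' (-C) C
  unfold AbsolutelyContinuousOnInterval at hF ⊢
  refine squeeze_zero' ?_ ?_ (by simpa using hF.const_mul (K : ℝ))
  · exact Eventually.of_forall fun _ => Finset.sum_nonneg fun _ _ => dist_nonneg
  rw [eventually_inf_principal]
  refine Eventually.of_forall fun E hE => ?_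
  rw [Finset.mul_sum]
  exact Finset.sum_le_sum fun i hi =>
    hK.dist_le_mul _ (abs_le.1 (hC _ (hE.1 i hi).1)) _ (abs_le.1 (hC _ (hE.1 i hi).2))

theorem prim_spec {h : ℝ → ℝ} {a b : ℝ} (hab : a ≤ b) (hh : IntegrableOn h (Ioo a b)) (f0 : ℝ) :
    AbsolutelyContinuousOnInterval (fun x => f0 + ∫ s in a..x, h s) a b ∧
      ∀ᵐ x, x ∈ uIcc a b → HasDerivAt (fun x => f0 + ∫ s in a..x, h s) (h x) x := by
  have hi := (intervalIntegrable_iff_integrableOn_Ioo_of_le hab).2 hh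
  refine ⟨((LipschitzWith.const f0).lipschitzOnWith.absolutelyContinuousOnInterval).fun_add
    (hi.absolutelyContinuousOnInterval_intervalIntegral left_mem_uIcc), ?_⟩
  filter_upwards [hi.ae_hasDerivAt_integral] with x hx hx'
  exact (hx hx' a left_mem_uIcc).const_add f0

theorem prim_eq {f h : ℝ → ℝ} {a b f0 : ℝ} (hf : ∀ t ∈ Icc a b, f t = f0 + ∫ s in Ioo a t, h s)
    {t : ℝ} (ht : t ∈ Icc a b) : f t = f0 + ∫ s in a..t, h s := by
  rw [hf t ht, intervalIntegral.integral_of_le ht.1, integral_Ioc_eq_integral_Ioo]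

theorem chain_gen (f h : ℝ → ℝ) (f0 a b : ℝ) (hab : a ≤ b) (hh : IntegrableOn h (Ioo a b))
    (hf : ∀ t ∈ Icc a b, f t = f0 + ∫ s in Ioo a t, h s) (β β' : ℝ → ℝ)
    (hβ : ∀ z, HasDerivAt β (β' z) z) (hβ' : Continuous β') :
    IntegrableOn (fun s => β' (f s) * h s) (Ioo a b) ∧
      β (f b) = β f0 + ∫ s in Ioo a b, β' (f s) * h s := by
  obtain ⟨h1, h2⟩ := prim_spec hab hh f0
  obtain ⟨h3, h4⟩ := ac_ftc (g := fun x => β' (f0 + ∫ s in a..x, h s) * h x) hab (ac_comp h1 hβ hβ')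
    (h2.mono fun x hx hx' => (hβ _).comp x (hx hx'))
  have e : EqOn (fun x => β' (f0 + ∫ s in a..x, h s) * h x) (fun s => β' (f s) * h s) (Ioo a b) :=
    fun x hx => by simp only [prim_eq hf (Ioo_subset_Icc_self hx)]
  refine ⟨h3.congr_fun e measurableSet_Ioo, ?_⟩
  rw [← setIntegral_congr_fun measurableSet_Ioo e, prim_eq hf (right_mem_Icc.2 hab), h4]
  simp

theorem chain_rule_ac (f h : ℝ → ℝ) (f0 T : ℝ) (hh : IntegrableOn h (Ioo 0 T))
    (hf : ∀ t ∈ Icc 0 T, f t = f0 + ∫ s in Ioo 0 t, h s) (β β' : ℝ → ℝ)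
    (hβ : ∀ z, HasDerivAt β (β' z) z) (hβ' : Continuous β') :
    ∀ t ∈ Icc 0 T, IntegrableOn (fun s => β' (f s) * h s) (Ioo 0 t) ∧
      β (f t) = β f0 + ∫ s in Ioo 0 t, β' (f s) * h s := fun t ht =>
  chain_gen f h f0 0 t ht.1 (hh.mono_set (Ioo_subset_Ioo_right ht.2))
    (fun s hs => hf s ⟨hs.1, hs.2.trans ht.2⟩) β β' hβ hβ'

theorem product_rule_ac (f h : ℝ → ℝ) (f0 T : ℝ) (hh : IntegrableOn h (Ioo 0 T))
    (hf : ∀ t ∈ Icc 0 T, f t = f0 + ∫ s in Ioo 0 t, h s) (φ φ' : ℝ → ℝ)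
    (hφ : ∀ z, HasDerivAt φ (φ' z) z) (hφ' : Continuous φ') :
    ∀ t ∈ Icc 0 T, IntegrableOn (fun s => f s * φ' s + h s * φ s) (Ioo 0 t) ∧
      f t * φ t = f0 * φ 0 + ∫ s in Ioo 0 t, (f s * φ' s + h s * φ s) := by
  intro t ht
  obtain ⟨h1, h2⟩ := prim_spec ht.1 (hh.mono_set (Ioo_subset_Ioo_right ht.2)) f0
  have h0 : AbsolutelyContinuousOnInterval φ 0 t :=
    ac_comp (LipschitzWith.id.lipschitzOnWith.absolutelyContinuousOnInterval) hφ hφ'
  obtain ⟨h3, h4⟩ := ac_ftc (g := fun x => (f0 + ∫ s in (0 : ℝ)..x, h s) * φ' x + h x * φ x) ht.1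
    (h1.fun_mul h0) (h2.mono fun x hx hx' => by
      rw [add_comm]
      exact (hx hx').fun_mul (hφ x))
  have e : EqOn (fun x => (f0 + ∫ s in (0 : ℝ)..x, h s) * φ' x + h x * φ x)
      (fun s => f s * φ' s + h s * φ s) (Ioo 0 t) :=
    fun x hx => by simp only [prim_eq hf ⟨hx.1.le, hx.2.le.trans ht.2⟩]
  refine ⟨h3.congr_fun e measurableSet_Ioo, ?_⟩
  rw [← setIntegral_congr_fun measurableSet_Ioo e, prim_eq hf ht, h4]
  simp

theorem ex_zero' : ex 0 = 1 := by simp [ex]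

theorem measurable_ex' : Measurable ex :=
  Measurable.ite (measurableSet_singleton ⊤) measurable_const
    (ENNReal.measurable_toReal.neg.exp.ennreal_ofReal)

theorem lint_L_ex (L : ℝ → ℝ≥0∞) (hL : Measurable L) (s t : ℝ)
    (hfin : ∫⁻ τ in Ioo s t, L τ ≠ ⊤) :
    (∫⁻ τ in Ioo s t, L τ * ex (∫⁻ σ in Ioo s τ, L σ)) + ex (∫⁻ τ in Ioo s t, L τ) = 1 := by
  rcases le_or_gt t s with hst | hst
  · simp [Ioo_eq_empty_of_le hst, ex_zero']
  have hfin' : ∀ τ, τ ≤ t → ∫⁻ σ in Ioo s τ, L σ ≠ ⊤ := fun τ hτ =>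
    ne_top_of_le_ne_top hfin (lintegral_mono_set (Ioo_subset_Ioo_right hτ))
  obtain ⟨h1, h2⟩ := chain_gen (fun τ => (∫⁻ σ in Ioo s τ, L σ).toReal) (fun τ => (L τ).toReal) 0 s t
    hst.le (integrable_toReal_of_lintegral_ne_top hL.aemeasurable hfin)
    (fun τ hτ => by
      rw [zero_add, integral_toReal hL.aemeasurable (ae_lt_top hL (hfin' τ hτ.2))])
    (fun z => -Real.exp (-z)) (fun z => Real.exp (-z))
    (fun z => by simpa using ((hasDerivAt_neg z).exp).fun_neg) (by fun_prop)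
  have h3 : ∫⁻ τ in Ioo s t, L τ * ex (∫⁻ σ in Ioo s τ, L σ) =
      ENNReal.ofReal (∫ τ in Ioo s t, Real.exp (-(∫⁻ σ in Ioo s τ, L σ).toReal) * (L τ).toReal) := by
    rw [ofReal_integral_eq_lintegral_ofReal h1 (Eventually.of_forall fun τ => by positivity)]
    refine lintegral_congr_ae ?_
    filter_upwards [ae_lt_top hL hfin, ae_restrict_mem measurableSet_Ioo] with τ hτ hτ'
    rw [ex, if_neg (hfin' τ hτ'.2.le), ENNReal.ofReal_mul (Real.exp_pos _).le,
      ENNReal.ofReal_toReal hτ.ne, mul_comm]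
  rw [h3, ex, if_neg hfin, ← ENNReal.ofReal_add (integral_nonneg fun τ => by positivity)
    (Real.exp_pos _).le, ← ENNReal.ofReal_one]
  congr 1
  simp only [neg_zero, Real.exp_zero] at h2
  linarith

theorem measurable_lam {L : ℝ → ℝ≥0∞} (hL : Measurable L) :
    Measurable fun z : ℝ × ℝ => ∫⁻ τ in Ioo z.1 z.2, L τ := by
  have e : (fun z : ℝ × ℝ => ∫⁻ τ in Ioo z.1 z.2, L τ) = fun z : ℝ × ℝ =>
      ∫⁻ τ, {w : (ℝ × ℝ) × ℝ | w.1.1 < w.2 ∧ w.2 < w.1.2}.indicator (fun w => L w.2) (z, τ) := by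
    funext z
    rw [← lintegral_indicator measurableSet_Ioo]
    rfl
  rw [e]
  refine Measurable.lintegral_prod_right' ((hL.comp measurable_snd).indicator ?_)
  exact (measurableSet_lt measurable_fst.fst measurable_snd).inter
    (measurableSet_lt measurable_snd measurable_fst.snd)

/-- Tonelli on a triangle -/
theorem lint_triangle {K : ℝ → ℝ → ℝ≥0∞} (hK : Measurable fun z : ℝ × ℝ => K z.1 z.2) (a b : ℝ) :
    ∫⁻ s in Ioo a b, ∫⁻ r in Ioo a s, K s r = ∫⁻ r in Ioo a b, ∫⁻ s in Ioo r b, K s r := by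
  have hm : Measurable fun z : ℝ × ℝ => {z : ℝ × ℝ | z.2 < z.1}.indicator (fun z => K z.1 z.2) z :=
    hK.indicator (measurableSet_lt measurable_snd measurable_fst)
  have h1 : ∫⁻ s in Ioo a b, ∫⁻ r in Ioo a s, K s r = ∫⁻ s in Ioo a b, ∫⁻ r in Ioo a b,
      {z : ℝ × ℝ | z.2 < z.1}.indicator (fun z => K z.1 z.2) (s, r) := by
    refine setLIntegral_congr_fun measurableSet_Ioo fun s hs => ?_
    have e : Ioo a s = Iio s ∩ Ioo a b := by
      ext r
      exact ⟨fun h => ⟨h.2, h.1, h.2.trans hs.2⟩, fun h => ⟨h.2.1, h.1⟩⟩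
    rw [e, ← Measure.restrict_restrict measurableSet_Iio, ← lintegral_indicator measurableSet_Iio]
    rfl
  have h2 : ∫⁻ r in Ioo a b, ∫⁻ s in Ioo r b, K s r = ∫⁻ r in Ioo a b, ∫⁻ s in Ioo a b,
      {z : ℝ × ℝ | z.2 < z.1}.indicator (fun z => K z.1 z.2) (s, r) := by
    refine setLIntegral_congr_fun measurableSet_Ioo fun r hr => ?_
    have e : Ioo r b = Ioi r ∩ Ioo a b := by
      ext s
      exact ⟨fun h => ⟨h.1, hr.1.trans h.1, h.2⟩, fun h => ⟨h.1, h.2.2⟩⟩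
    rw [e, ← Measure.restrict_restrict measurableSet_Ioi, ← lintegral_indicator measurableSet_Ioi]
    rfl
  rw [h1, h2]
  exact lintegral_lintegral_swap hm.aemeasurable

theorem mild_linear (f L q : ℝ → ℝ≥0∞) (hL : Measurable L) (hq : Measurable q) (f0 : ℝ≥0∞) (T : ℝ)
    (hfin : ∫⁻ τ in Ioo 0 T, L τ ≠ ⊤)
    (h : ∀ t ∈ Icc 0 T, f t = f0 * ex (∫⁻ τ in Ioo 0 t, L τ) +
      ∫⁻ s in Ioo 0 t, ex (∫⁻ τ in Ioo s t, L τ) * q s) :
    ∀ t ∈ Icc 0 T, f t + ∫⁻ s in Ioo 0 t, f s * L s = f0 + ∫⁻ s in Ioo 0 t, q s := by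
  intro t ht
  have hE : Measurable fun z : ℝ × ℝ => ex (∫⁻ τ in Ioo z.1 z.2, L τ) :=
    measurable_ex'.comp (measurable_lam hL)
  have hfin' : ∀ r, 0 ≤ r → ∫⁻ σ in Ioo r t, L σ ≠ ⊤ := fun r hr =>
    ne_top_of_le_ne_top hfin (lintegral_mono_set (Ioo_subset_Ioo hr ht.2))
  have m0 : Measurable fun s => L s * ex (∫⁻ τ in Ioo 0 s, L τ) :=
    hL.mul (hE.comp (measurable_const.prodMk measurable_id))
  have m1 : Measurable fun z : ℝ × ℝ => q z.2 * (L z.1 * ex (∫⁻ τ in Ioo z.2 z.1, L τ)) :=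
    (hq.comp measurable_snd).mul ((hL.comp measurable_fst).mul (hE.comp measurable_swap))
  have m2 : ∀ s, Measurable fun r => ex (∫⁻ τ in Ioo r s, L τ) * q r := fun s =>
    (hE.comp (measurable_id.prodMk measurable_const)).mul hq
  have h1 : ∫⁻ s in Ioo 0 t, f s * L s = f0 * (∫⁻ s in Ioo 0 t, L s * ex (∫⁻ τ in Ioo 0 s, L τ)) +
      ∫⁻ r in Ioo 0 t, q r * ∫⁻ s in Ioo r t, L s * ex (∫⁻ τ in Ioo r s, L τ) := by
    have e1 : ∀ r, q r * ∫⁻ s in Ioo r t, L s * ex (∫⁻ τ in Ioo r s, L τ) =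
        ∫⁻ s in Ioo r t, q r * (L s * ex (∫⁻ τ in Ioo r s, L τ)) := fun r =>
      (lintegral_const_mul _ (hL.mul (hE.comp (measurable_const.prodMk measurable_id)))).symm
    simp only [e1]
    rw [← lint_triangle (K := fun s r => q r * (L s * ex (∫⁻ τ in Ioo r s, L τ))) m1,
      ← lintegral_const_mul _ m0, ← lintegral_add_left (m0.const_mul _)]
    refine setLIntegral_congr_fun measurableSet_Ioo fun s hs => ?_
    rw [h s ⟨hs.1.le, hs.2.le.trans ht.2⟩, add_mul, ← lintegral_mul_const _ (m2 s)]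
    congr 1
    · ring
    · exact lintegral_congr fun r => by ring
  rw [h1, h t ht, add_add_add_comm, ← mul_add, add_comm (ex _), lint_L_ex L hL 0 t (hfin' 0 le_rfl),
    mul_one, ← lintegral_add_left (m2 t)]
  congr 1
  refine setLIntegral_congr_fun measurableSet_Ioo fun r hr => ?_
  rw [mul_comm, ← mul_add, add_comm, lint_L_ex L hL r t (hfin' r hr.1.le), mul_one]

end
end Crest.Agent.R68.OneDB
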