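import Crest.Agent.R68.Core
import Crest.Agent.R68.OneDB

/-! # Row 68: one-dimensional lemmas -/

set_option autoImplicit false
open MeasureTheory Set Filter Topology
open scoped ENNReal NNReal
open Crest.AnalysisR.VecCalc3 Crest.AnalysisR.PDE.Boltzmann

namespace Crest.Agent.R68
noncomputable section

theorem ex_zero : ex 0 = 1 := by
  simp [ex]

theorem ex_le_one (a : ℝ≥0∞) : ex a ≤ 1 := by
  unfold ex
  split_ifs
  · exact zero_le_one
  · rw [ENNReal.ofReal_le_one]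
    exact Real.exp_le_one_iff.2 (neg_nonpos.2 ENNReal.toReal_nonneg)

theorem ex_anti : Antitone ex := by
  intro a b hab
  unfold ex
  by_cases hb : b = ⊤
  · simp [hb]
  · have ha : a ≠ ⊤ := ne_top_of_le_ne_top hb hab
    rw [if_neg ha, if_neg hb]
    exact ENNReal.ofReal_le_ofReal
      (Real.exp_le_exp.2 (neg_le_neg (ENNReal.toReal_mono hb hab)))

theorem ex_add (a b : ℝ≥0∞) : ex (a + b) = ex a * ex b := by
  unfold ex
  by_cases ha : a = ⊤
  · simp [ha]
  by_cases hb : b = ⊤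
  · simp [hb]
  rw [if_neg ha, if_neg hb, if_neg (ENNReal.add_ne_top.2 ⟨ha, hb⟩), ENNReal.toReal_add ha hb,
    neg_add, Real.exp_add, ENNReal.ofReal_mul (Real.exp_pos _).le]

theorem measurable_ex : Measurable ex := by
  exact ex_anti.measurable

theorem ex_ofReal {x : ℝ} (hx : 0 ≤ x) : ex (ENNReal.ofReal x) = ENNReal.ofReal (Real.exp (-x)) := by
  unfold ex
  rw [if_neg ENNReal.ofReal_ne_top, ENNReal.toReal_ofReal hx]

theorem one_le_ex_add (a : ℝ≥0∞) : 1 ≤ ex a + a := by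
  by_cases ha : a = ⊤
  · simp [ha]
  have h : a = ENNReal.ofReal a.toReal := (ENNReal.ofReal_toReal ha).symm
  have h0 : 0 ≤ a.toReal := ENNReal.toReal_nonneg
  rw [h, ex_ofReal h0, ← ENNReal.ofReal_add (Real.exp_pos _).le h0, ← ENNReal.ofReal_one]
  apply ENNReal.ofReal_le_ofReal
  have := Real.add_one_le_exp (-a.toReal)
  linarith

theorem dd_ex_le (a b : ℝ≥0∞) : dd (ex a) (ex b) ≤ dd a b := by
  have key : ∀ x y c : ℝ≥0∞, y ≤ x + c → ex x ≤ ex y + c := by
    intro x y c h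
    calc ex x = ex x * 1 := (mul_one _).symm
      _ ≤ ex x * (ex c + c) := by gcongr; exact one_le_ex_add c
      _ = ex (x + c) + ex x * c := by rw [mul_add, ex_add]
      _ ≤ ex y + 1 * c := by
        gcongr
        · exact ex_anti h
        · exact ex_le_one x
      _ = ex y + c := by rw [one_mul]
  have h1 : a ≤ b + dd a b := tsub_le_iff_left.1 (le_max_left _ _)
  have h2 : b ≤ a + dd a b := tsub_le_iff_left.1 (le_max_right _ _)
  exact max_le (tsub_le_iff_left.2 (key _ _ _ h2)) (tsub_le_iff_left.2 (key _ _ _ h1))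

theorem dd_comm (a b : ℝ≥0∞) : dd a b = dd b a := by
  exact max_comm _ _

theorem dd_self (a : ℝ≥0∞) : dd a a = 0 := by
  simp [dd]

theorem dd_triangle (a b c : ℝ≥0∞) : dd a c ≤ dd a b + dd b c := by
  refine max_le ?_ ?_
  · exact tsub_le_tsub_add_tsub.trans (add_le_add (le_max_left _ _) (le_max_left _ _))
  · calc c - a ≤ (c - b) + (b - a) := tsub_le_tsub_add_tsub
      _ ≤ dd b c + dd a b := add_le_add (le_max_right _ _) (le_max_right _ _)
      _ = dd a b + dd b c := add_comm _ _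

theorem dd_le_iff {a b c : ℝ≥0∞} : dd a b ≤ c ↔ a ≤ b + c ∧ b ≤ a + c := by
  unfold dd
  rw [max_le_iff, tsub_le_iff_left, tsub_le_iff_left]

theorem eq_of_dd_eq_zero {a b : ℝ≥0∞} (h : dd a b = 0) : a = b := by
  have := dd_le_iff.1 h.le
  simp only [add_zero] at this
  exact le_antisymm this.1 this.2

theorem dd_add_le (a b c d : ℝ≥0∞) : dd (a + b) (c + d) ≤ dd a c + dd b d := by
  have h1 := dd_le_iff.1 (le_refl (dd a c))
  have h2 := dd_le_iff.1 (le_refl (dd b d))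
  refine dd_le_iff.2 ⟨?_, ?_⟩
  · calc a + b ≤ (c + dd a c) + (d + dd b d) := add_le_add h1.1 h2.1
      _ = c + d + (dd a c + dd b d) := by ring
  · calc c + d ≤ (a + dd a c) + (b + dd b d) := add_le_add h1.2 h2.2
      _ = a + b + (dd a c + dd b d) := by ring

theorem dd_mul_le (a b c d : ℝ≥0∞) : dd (a * b) (c * d) ≤ a * dd b d + dd a c * d := by
  have h1 := dd_le_iff.1 (le_refl (dd a c))
  have h2 := dd_le_iff.1 (le_refl (dd b d))
  refine dd_le_iff.2 ⟨?_, ?_⟩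
  · calc a * b ≤ a * (d + dd b d) := by gcongr; exact h2.1
      _ = a * d + a * dd b d := by ring
      _ ≤ (c + dd a c) * d + a * dd b d := by gcongr; exact h1.1
      _ = c * d + (a * dd b d + dd a c * d) := by ring
  · calc c * d ≤ (a + dd a c) * d := by gcongr; exact h1.2
      _ = a * d + dd a c * d := by ring
      _ ≤ a * (b + dd b d) + dd a c * d := by gcongr; exact h2.2
      _ = a * b + (a * dd b d + dd a c * d) := by ring

theorem dd_min_le (a b e : ℝ≥0∞) : dd (min a e) (min b e) ≤ min (dd a b) e := by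
  have key : ∀ x y c : ℝ≥0∞, x ≤ y + c → min x e ≤ min y e + c := by
    intro x y c h
    rcases le_total y e with hy | hy
    · rw [min_eq_left hy]; exact (min_le_left _ _).trans h
    · rw [min_eq_right hy]; exact (min_le_right _ _).trans le_self_add
  have h1 := dd_le_iff.1 (le_refl (dd a b))
  refine le_min (dd_le_iff.2 ⟨key _ _ _ h1.1, key _ _ _ h1.2⟩) (dd_le_iff.2 ⟨?_, ?_⟩)
  · exact (min_le_right _ _).trans le_add_self
  · exact (min_le_right _ _).trans le_add_self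

theorem dd_clamp_le (a b l e : ℝ≥0∞) :
    dd (max l (min a e)) (max l (min b e)) ≤ min (dd a b) e := by
  have key : ∀ x y c : ℝ≥0∞, x ≤ y + c → max l x ≤ max l y + c := by
    intro x y c h
    refine max_le ((le_max_left _ _).trans le_self_add) (h.trans ?_)
    gcongr
    exact le_max_right _ _
  have h1 := dd_le_iff.1 (dd_min_le a b e)
  exact dd_le_iff.2 ⟨key _ _ _ h1.1, key _ _ _ h1.2⟩

theorem dd_le_max (a b : ℝ≥0∞) : dd a b ≤ max a b := by
  exact max_le_max tsub_le_self tsub_le_self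

theorem dd_lintegral_le {α : Type*} [MeasurableSpace α] (μ : Measure α) (f g : α → ℝ≥0∞)
    (hf : Measurable f) (hg : Measurable g) :
    dd (∫⁻ x, f x ∂μ) (∫⁻ x, g x ∂μ) ≤ ∫⁻ x, dd (f x) (g x) ∂μ := by
  refine dd_le_iff.2 ⟨?_, ?_⟩
  · rw [← lintegral_add_left hg]
    exact lintegral_mono fun x => (dd_le_iff.1 (le_refl (dd (f x) (g x)))).1
  · rw [← lintegral_add_left hf]
    exact lintegral_mono fun x => (dd_le_iff.1 (le_refl (dd (f x) (g x)))).2

theorem measurable_dd {α : Type*} [MeasurableSpace α] {f g : α → ℝ≥0∞} (hf : Measurable f)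
    (hg : Measurable g) : Measurable (fun x => dd (f x) (g x)) := by
  exact (hf.sub hg).max (hg.sub hf)

theorem tendsto_of_dd {u : ℕ → ℝ≥0∞} {a : ℝ≥0∞} (h : Tendsto (fun n => dd (u n) a) atTop (𝓝 0)) :
    Tendsto u atTop (𝓝 a) := by
  by_cases ha : a = ⊤
  · have h1 : ∀ᶠ n in atTop, dd (u n) a ≤ 1 :=
      (h.eventually (ge_mem_nhds (zero_lt_one' ℝ≥0∞))).mono fun n hn => hn
    refine tendsto_const_nhds.congr' (h1.mono fun n hn => ?_)
    have h2 := (dd_le_iff.1 hn).2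
    rw [ha, top_le_iff, ENNReal.add_eq_top] at h2
    rcases h2 with h2 | h2
    · rw [ha]; exact h2.symm
    · exact absurd h2 ENNReal.one_ne_top
  · rw [ENNReal.tendsto_nhds ha]
    intro ε hε
    have h1 : ∀ᶠ n in atTop, dd (u n) a ≤ ε := (h.eventually (ge_mem_nhds hε)).mono fun n hn => hn
    refine h1.mono fun n hn => ?_
    have h2 := dd_le_iff.1 hn
    exact ⟨tsub_le_iff_right.2 h2.2, h2.1⟩

/-- `∫ L e^{-∫L} = 1 - e^{-∫L}`.  Either via `AbsolutelyContinuousOnInterval.integral_deriv_eq_sub`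
(`Λ(τ) = ∫_s^τ L.toReal` is AC with derivative `L` a.e.), or via `e^{-a} = ∫_a^∞ e^{-u} du`, Tonelli and
`∫ L 1{Λ ≤ u} = min u Λ(t)`. -/
theorem lint_L_ex (L : ℝ → ℝ≥0∞) (hL : Measurable L) (s t : ℝ)
    (hfin : ∫⁻ τ in Ioo s t, L τ ≠ ⊤) :
    (∫⁻ τ in Ioo s t, L τ * ex (∫⁻ σ in Ioo s τ, L σ)) + ex (∫⁻ τ in Ioo s t, L τ) = 1 :=
  OneDB.lint_L_ex L hL s t hfin

/-- from the exponential (mild) form to the linear form: multiply by `L`, Tonelli, `lint_L_ex`. -/
theorem mild_linear (f L q : ℝ → ℝ≥0∞) (hL : Measurable L) (hq : Measurable q) (f0 : ℝ≥0∞) (T : ℝ)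
    (hfin : ∫⁻ τ in Ioo 0 T, L τ ≠ ⊤)
    (h : ∀ t ∈ Icc 0 T, f t = f0 * ex (∫⁻ τ in Ioo 0 t, L τ) +
      ∫⁻ s in Ioo 0 t, ex (∫⁻ τ in Ioo s t, L τ) * q s) :
    ∀ t ∈ Icc 0 T, f t + ∫⁻ s in Ioo 0 t, f s * L s = f0 + ∫⁻ s in Ioo 0 t, q s :=
  OneDB.mild_linear f L q hL hq f0 T hfin h

/-- chain rule for primitives of integrable functions (AC functions:
`IntervalIntegrable.absolutelyContinuousOnInterval_intervalIntegral`, `ae_hasDerivAt_integral`,
composition with a Lipschitz function on a compact interval). -/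
theorem chain_rule_ac (f h : ℝ → ℝ) (f0 T : ℝ) (hh : IntegrableOn h (Ioo 0 T))
    (hf : ∀ t ∈ Icc 0 T, f t = f0 + ∫ s in Ioo 0 t, h s) (β β' : ℝ → ℝ)
    (hβ : ∀ z, HasDerivAt β (β' z) z) (hβ' : Continuous β') :
    ∀ t ∈ Icc 0 T, IntegrableOn (fun s => β' (f s) * h s) (Ioo 0 t) ∧
      β (f t) = β f0 + ∫ s in Ioo 0 t, β' (f s) * h s :=
  OneDB.chain_rule_ac f h f0 T hh hf β β' hβ hβ'

theorem product_rule_ac (f h : ℝ → ℝ) (f0 T : ℝ) (hh : IntegrableOn h (Ioo 0 T))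
    (hf : ∀ t ∈ Icc 0 T, f t = f0 + ∫ s in Ioo 0 t, h s) (φ φ' : ℝ → ℝ)
    (hφ : ∀ z, HasDerivAt φ (φ' z) z) (hφ' : Continuous φ') :
    ∀ t ∈ Icc 0 T, IntegrableOn (fun s => f s * φ' s + h s * φ s) (Ioo 0 t) ∧
      f t * φ t = f0 * φ 0 + ∫ s in Ioo 0 t, (f s * φ' s + h s * φ s) :=
  OneDB.product_rule_ac f h f0 T hh hf φ φ' hφ hφ'

end
end Crest.Agent.R68
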