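import Crest.Agent.R68.MedBasicAuxB
import Crest.Agent.R68.Flow
import Crest.Agent.R68.Lanes
import Crest.Agent.R68.OneD

/-! # Row 68: measurability, periodicity and elementary properties of the weights -/

set_option autoImplicit false
open MeasureTheory Set Filter Topology
open scoped ENNReal NNReal
open Crest.AnalysisR.VecCalc3 Crest.AnalysisR.PDE.Boltzmann

namespace Crest.Agent.R68
noncomputable section

theorem mba_npw {α : Type*} [MeasurableSpace α] {g : α → ℝ} (hg : Measurable g) (γ : ℝ) :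
    Measurable fun a => npw (g a) γ :=
  hg.ennreal_ofReal.pow_const _

theorem mba_x1 : Measurable x1 := continuous_x1.measurable

theorem mba_tn : Measurable tn := continuous_tn.measurable

theorem mba_v : Measurable fun p : Ph => p.2.2 := measurable_snd.comp measurable_snd

theorem mba_x : Measurable fun p : Ph => p.2.1 := measurable_fst.comp measurable_snd

theorem mba_foot : Measurable fun p : Ph => p.2.1 - p.1 • p.2.2 := by fun_prop

theorem mba_rstar (P : Par) : Measurable P.rstar := by
  unfold Par.rstar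
  fun_prop

theorem mba_mu : Measurable mu := by
  unfold mu maxwellian
  fun_prop

theorem mba_Ga {α : Type*} [MeasurableSpace α] {a : α → ℝ} {v : α → R3} (ha : Measurable a)
    (hv : Measurable v) : Measurable fun z => Ga (a z) (v z) := by
  unfold Ga
  fun_prop

theorem mba_foot_fl (p : Ph) (s : ℝ) :
    (fl p s).2.1 - (fl p s).1 • (fl p s).2.2 = p.2.1 - p.1 • p.2.2 := by
  simp only [fl, sub_smul]
  abel

theorem mba_tn_lat (x : R3) (m : Fin 3 → ℤ) : tn (x + lat m) = tn x := by
  unfold tn
  rw [red_add_lat]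

theorem mba_tn_lat' (t : ℝ) (x v : R3) (m : Fin 3 → ℤ) :
    tn (x + lat m - t • v) = tn (x - t • v) := by
  rw [add_sub_right_comm, mba_tn_lat]

theorem measurable_lbl : Measurable lbl := by
  exact measurable_red.comp mba_foot

theorem lbl_fl (p : Ph) (s : ℝ) : lbl (fl p s) = lbl p := by
  unfold lbl
  rw [mba_foot_fl]

theorem lbl_lat (t : ℝ) (x v : R3) (m : Fin 3 → ℤ) : lbl (t, x + lat m, v) = lbl (t, x, v) := by
  simp only [lbl]
  rw [add_sub_right_comm, red_add_lat]

theorem measurable_cold0 (P : Par) (b : Bool) :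
    Measurable (fun z : R3 × R3 => cold0 P b z.1 z.2) := by
  have h1 : Measurable fun z : R3 × R3 => x1 z.1 := mba_x1.comp measurable_fst
  have h2 : Measurable fun z : R3 × R3 => uu b 0 z.1 :=
    (measurable_uu b).comp (f := fun z : R3 × R3 => ((0 : ℝ), z.1))
      (measurable_const.prodMk measurable_fst)
  have h3 : Measurable fun z : R3 × R3 => MM b 0 z.1 :=
    (measurable_MM b).comp (f := fun z : R3 × R3 => ((0 : ℝ), z.1))
      (measurable_const.prodMk measurable_fst)
  unfold cold0
  refine Measurable.ite ?_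
    (measurable_const.div (h3.mul (h1.pow_const 12))).ennreal_ofReal measurable_const
  exact ((measurableSet_SS P.r0 b).preimage measurable_fst).inter
    (measurableSet_le (measurable_snd.sub h2).norm (h1.pow_const 4))

theorem measurable_zed0 (P : Par) (b : Bool) :
    Measurable (fun z : ℝ × R3 × R3 => zed0 P b z.1 z.2.1 z.2.2) := by
  have hy : Measurable fun z : ℝ × R3 × R3 => z.2.1 := mba_x
  have h1 : Measurable fun z : ℝ × R3 × R3 => x1 z.2.1 := mba_x1.comp hy
  unfold zed0
  refine Finset.measurable_sum _ fun j _ => Measurable.ite ?_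
    (((h1.abs.pow_const _).const_mul _).div (h1.abs.pow_const 13)).ennreal_ofReal measurable_const
  refine (h1 (measurableSet_singleton 0)).compl.inter
    ((measurableSet_le h1.abs ((mba_rstar P).comp measurable_fst)).inter
      ((measurableSet_le ((Metric.continuous_infDist_pt _).measurable.comp hy) ?_).inter
        (measurableSet_le (measurable_ww b).norm ((h1.pow_const 4).const_mul _))))
  exact ((measurable_fst.const_add 1).mul_const _).mul (h1.pow_const 4)

theorem measurable_c0 (P : Par) : Measurable (c0 P) := by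
  exact Finset.measurable_sum _ fun b _ =>
    (measurable_cold0 P b).comp (f := fun p : Ph => (lbl p, p.2.2)) (measurable_lbl.prodMk mba_v)
theorem measurable_csm (P : Par) : Measurable (csm P) := by
  unfold csm
  exact Measurable.ite
    (measurableSet_le (mba_x1.comp measurable_lbl).abs ((mba_rstar P).comp measurable_fst))
    (measurable_c0 P) measurable_const
theorem measurable_ZZ (P : Par) : Measurable (ZZ P) := by
  exact Finset.measurable_sum _ fun b _ =>
    (measurable_zed0 P b).comp (f := fun p : Ph => (p.1, lbl p, p.2.2))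
      (measurable_fst.prodMk (measurable_lbl.prodMk mba_v))
theorem measurable_DS : Measurable DS := by
  refine Finset.measurable_sum _ fun b _ => ?_
  have h : Measurable fun p : Ph => ‖ww b p.1 (lbl p) p.2.2‖ :=
    ((measurable_ww b).comp (f := fun p : Ph => (p.1, lbl p, p.2.2))
      (measurable_fst.prodMk (measurable_lbl.prodMk mba_v))).norm
  unfold DD
  exact Measurable.ite ((measurableSet_le measurable_lbl.norm measurable_const).inter
    (measurableSet_le h measurable_const)) (mba_npw h _) measurable_const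
theorem measurable_Sg : Measurable Sg := by
  exact (measurable_const.add (mba_npw (mba_x1.comp mba_v).abs _)).add measurable_DS
theorem measurable_GS (a : ℝ) : Measurable (GS a) := by
  exact (mba_Ga measurable_const mba_v).mul measurable_Sg
theorem measurable_ell : Measurable ell := by
  exact (measurable_fst.const_mul 8).add (mba_tn.comp mba_x)
theorem measurable_elN : Measurable elN := by
  exact (measurable_fst.const_mul 8).add mba_x.norm
theorem measurable_lst : Measurable lst := by
  exact (measurable_fst.pow_const _).add (mba_tn.comp mba_x)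
theorem measurable_Big (P : Par) : Measurable (Big P) := by
  have h : Measurable fun p : Ph => P.rstar p.1 := (mba_rstar P).comp measurable_fst
  unfold Big
  exact Measurable.ite ((measurableSet_lt h measurable_const).inter
    (measurableSet_le mba_v.norm measurable_const))
    (measurable_const.div (h.pow_const 13)).ennreal_ofReal measurable_const
theorem measurable_leak (P : Par) : Measurable (leak P) := by
  unfold leak
  exact Measurable.ite (measurableSet_le mba_v.norm measurable_const)
    ((measurable_const.min measurable_ell).pow_const _).ennreal_ofReal measurable_const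
theorem measurable_YY (P : Par) : Measurable (YY P) := by
  have h : Measurable fun p : Ph => aT P.k3 p.1 := by
    unfold aT
    fun_prop
  exact (mba_Ga h mba_v).mul measurable_Sg
theorem measurable_wY (P : Par) {ω : ℝ → ℝ≥0∞} (hω : Measurable ω) : Measurable (wY P ω) := by
  exact (hω.comp measurable_lst).mul (measurable_YY P)
theorem measurable_pw (k : ℕ) : Measurable (pw k) := by
  exact (measurable_id.pow_const k).ennreal_ofReal
theorem measurable_wbF (P : Par) : Measurable (wbF P) := by
  exact (((measurable_id.div_const _).min measurable_const).pow_const _).ennreal_ofReal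
theorem measurable_wnF (P : Par) : Measurable (wnF P) := by
  exact ((measurable_pw _).const_mul _).add ((measurable_pw _).const_mul _)
theorem measurable_omF (P : Par) (b : ℝ≥0∞) : Measurable (omF P b) := by
  exact ((measurable_wbF P).const_mul _).add ((measurable_wnF P).const_mul _)
theorem measurable_g0 (P : Par) : Measurable (g0 P) := by
  unfold g0
  exact Measurable.ite ((measurableSet_lt mba_v.norm measurable_const).inter
    (measurableSet_lt measurable_const (mba_tn.comp mba_foot))) (mba_mu.comp mba_v) measurable_const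
theorem measurable_F0 (P : Par) : Measurable (F0 P) := by
  exact (measurable_c0 P).add (measurable_g0 P)
theorem measurable_Hl (P : Par) : Measurable (Hl P) := by
  unfold Hl
  exact Measurable.ite (measurableSet_le (mba_tn.comp mba_foot) measurable_const)
    (mba_mu.comp mba_v) measurable_const
theorem measurable_cZ (P : Par) : Measurable (cZ P) := by
  exact (measurable_c0 P).add (measurable_ZZ P)
theorem measurable_sZ (P : Par) : Measurable (sZ P) := by
  exact (measurable_csm P).add (measurable_ZZ P)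
theorem measurable_env (P : Par) (b : ℝ≥0∞) : Measurable (env P b) := by
  exact ((measurable_c0 P).add (measurable_ZZ P)).add (measurable_wY P (measurable_omF P b))
theorem measurable_Gh (P : Par) (b : ℝ≥0∞) : Measurable (Gh P b) := by
  exact ((measurable_fst.sqrt.ennreal_ofReal.mul (measurable_c0 P)).add (measurable_ZZ P)).add
    (measurable_wY P (measurable_omF P b))
theorem measurable_cut (P : Par) {f : PF} (hf : Measurable f) : Measurable (cut P f) := by
  unfold cut
  exact Measurable.ite (measurableSet_Icc.preimage measurable_fst) hf measurable_const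
theorem measurable_seed (τ α : ℝ) : Measurable (seed τ α) := by
  unfold seed
  exact Measurable.ite ((measurableSet_Icc.preimage measurable_fst).inter
    ((measurableSet_le (mba_tn.comp mba_x) measurable_const).inter
      (measurableSet_le (mba_v.sub_const nn).norm measurable_const))) measurable_const measurable_const
theorem measurable_XiA : Measurable XiA := by
  unfold XiA
  exact Measurable.ite (measurableSet_lt measurable_const measurable_fst)
    (measurable_elN.pow_const _).inv.ennreal_ofReal measurable_const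
theorem measurable_Xi : Measurable Xi := by
  have h : MeasurableSet {v : R3 | good v} :=
    measurableSet_le ((measurable_norm.const_add 1).const_mul cθ) mba_x1.abs
  unfold Xi
  exact Measurable.ite (h.preimage mba_v) measurable_XiA measurable_const
theorem measurableSet_good : MeasurableSet {v : R3 | good v} := by
  exact measurableSet_le ((measurable_norm.const_add 1).const_mul cθ) mba_x1.abs

theorem per_c0 (P : Par) : Per (c0 P) := by
  intro t x v m
  simp only [c0, lbl_lat]
theorem per_csm (P : Par) : Per (csm P) := by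
  intro t x v m
  simp only [csm, lbl_lat, per_c0 P t x v m]
theorem per_ZZ (P : Par) : Per (ZZ P) := by
  intro t x v m
  simp only [ZZ, lbl_lat]
theorem per_Sg : Per Sg := by
  intro t x v m
  simp only [Sg, DS, DD, lbl_lat]
theorem per_GS (a : ℝ) : Per (GS a) := by
  intro t x v m
  simp only [GS, per_Sg t x v m]
theorem per_wY (P : Par) (ω : ℝ → ℝ≥0∞) : Per (wY P ω) := by
  intro t x v m
  simp only [wY, YY, lst, mba_tn_lat, per_Sg t x v m]
theorem per_g0 (P : Par) : Per (g0 P) := by
  intro t x v m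
  simp only [g0, mba_tn_lat']
theorem per_F0 (P : Par) : Per (F0 P) := by
  intro t x v m
  simp only [F0, per_c0 P t x v m, per_g0 P t x v m]
theorem per_Hl (P : Par) : Per (Hl P) := by
  intro t x v m
  simp only [Hl, mba_tn_lat']
theorem per_env (P : Par) (b : ℝ≥0∞) : Per (env P b) := by
  intro t x v m
  simp only [env, per_c0 P t x v m, per_ZZ P t x v m, per_wY P (omF P b) t x v m]
theorem per_cut (P : Par) {f : PF} (hf : Per f) : Per (cut P f) := by
  intro t x v m
  simp only [cut, hf t x v m]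
theorem per_seed (τ α : ℝ) : Per (seed τ α) := by
  intro t x v m
  simp only [seed, mba_tn_lat]

theorem c0_fl (P : Par) (p : Ph) (s : ℝ) : c0 P (fl p s) = c0 P p := by
  unfold c0
  rw [lbl_fl]
  rfl
theorem g0_fl (P : Par) (p : Ph) (s : ℝ) : g0 P (fl p s) = g0 P p := by
  unfold g0
  rw [mba_foot_fl]
  rfl
theorem F0_fl (P : Par) (p : Ph) (s : ℝ) : F0 P (fl p s) = F0 P p := by
  unfold F0
  rw [c0_fl, g0_fl]
theorem Hl_fl (P : Par) (p : Ph) (s : ℝ) : Hl P (fl p s) = Hl P p := by
  unfold Hl
  rw [mba_foot_fl]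
  rfl

theorem c0_ne_top (P : Par) (p : Ph) : c0 P p ≠ ⊤ := by
  refine ENNReal.sum_ne_top.2 fun b _ => ?_
  unfold cold0
  split_ifs
  · exact ENNReal.ofReal_ne_top
  · exact ENNReal.zero_ne_top
theorem ZZ_ne_top (P : Par) (p : Ph) : ZZ P p ≠ ⊤ := by
  refine ENNReal.sum_ne_top.2 fun b _ => ENNReal.sum_ne_top.2 fun j _ => ?_
  split_ifs
  · exact ENNReal.ofReal_ne_top
  · exact ENNReal.zero_ne_top
theorem one_le_Sg (p : Ph) : 1 ≤ Sg p := by
  unfold Sg
  rw [add_assoc]
  exact le_self_add
theorem csm_le_c0 (P : Par) : csm P ≤ c0 P := by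
  intro p
  unfold csm
  split_ifs
  · exact le_rfl
  · exact zero_le

theorem DS_eq_zero_or (p : Ph) : DS p = 0 ∨ (1 ≤ DS p ∧ ‖p.2.2‖ ≤ 3) := by
  rw [MB.DS_eq]
  rcases MB.DD_eq_zero_or true p with h | h
  · rw [h, zero_add]
    exact MB.DD_eq_zero_or false p
  · exact Or.inr ⟨h.1.trans le_self_add, h.2⟩

/-- `ww_flight` -/
theorem Sg_fl_le (p : Ph) {s : ℝ} (hs : 0 ≤ s) (hst : s ≤ p.1) : Sg (fl p s) ≤ 12 * Sg p :=
  MB.Sg_fl_le p hs hst (lbl_fl p s)

theorem Sg_le_SgA {t : ℝ} (ht : 0 ≤ t) (z ζ : R3) : Sg (t, z, ζ) ≤ 2 * SgA nn (Cs t z) ζ := by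
  rw [MB.Sg_eq, MB.DS_eq, show SgA nn (Cs t z) ζ = 1 + npw |x1 ζ| (1 / 4) + ∑ c ∈ Cs t z, sing c ζ
    from rfl, mul_add _ (_ + _), two_mul, two_mul]
  exact add_le_add le_self_add (add_le_add (MB.DD_le_sum ht z ζ _) (MB.DD_le_sum ht z ζ _))

theorem card_Cs_le {t : ℝ} (ht : 0 ≤ t) (z : R3) :
    (1 : ℝ≥0∞) + (Cs t z).card ≤ 500 * ENNReal.ofReal ((1 + t) ^ 3) :=
  MB.card_Cs_le ht z

/-- the singular set of a section is contained in a plane and countably many points
(for any real `t`: `ww = 0` forces `ζ = uu b t (z - lat m)` for some `m`). -/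
theorem finSec_Sg : FinSec Sg := MB.finSec_Sg

theorem finSec_env (P : Par) {b : ℝ≥0∞} (hb : b ≠ ⊤) : FinSec (env P b) := fun s z =>
  (finSec_Sg s z).mono fun _ h => ENNReal.add_ne_top.2
    ⟨ENNReal.add_ne_top.2 ⟨c0_ne_top P _, ZZ_ne_top P _⟩, MB.wY_ne_top P hb h⟩

theorem finSec_Gh (P : Par) {b : ℝ≥0∞} (hb : b ≠ ⊤) : FinSec (Gh P b) := fun s z =>
  (finSec_Sg s z).mono fun _ h => ENNReal.add_ne_top.2
    ⟨ENNReal.add_ne_top.2 ⟨ENNReal.mul_ne_top ENNReal.ofReal_ne_top (c0_ne_top P _), ZZ_ne_top P _⟩,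
      MB.wY_ne_top P hb h⟩

theorem lst_nonneg {p : Ph} (h : 0 ≤ p.1) : 0 ≤ lst p :=
  add_nonneg (Real.rpow_nonneg h _) (tn_nonneg _)
theorem lst_pos {p : Ph} (h : 0 < p.1) : 0 < lst p :=
  add_pos_of_pos_of_nonneg (Real.rpow_pos_of_pos h _) (tn_nonneg _)
theorem lst_le_two {p : Ph} (h : p.1 ∈ Icc (0 : ℝ) 1) : lst p ≤ 2 :=
  (add_le_add (Real.rpow_le_one h.1 h.2 (by norm_num)) (tn_le_one _)).trans_eq one_add_one_eq_two
theorem ell_le_lst {p : Ph} (h : p.1 ∈ Icc (0 : ℝ) 1) : ell p ≤ 8 * lst p := by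
  show 8 * p.1 + tn p.2.1 ≤ 8 * (p.1 ^ (3 / 4 : ℝ) + tn p.2.1)
  linarith [MB.le_rpow h.1 h.2, tn_nonneg p.2.1]
theorem lst_le_elN {p : Ph} (h : 0 ≤ p.1) (h1 : elN p ≤ 1) : lst p ≤ 2 * elN p ^ (3 / 4 : ℝ) := by
  have e : elN p = 8 * p.1 + ‖p.2.1‖ := rfl
  have h2 := norm_nonneg p.2.1
  have h3 : p.1 ^ (3 / 4 : ℝ) ≤ elN p ^ (3 / 4 : ℝ) :=
    Real.rpow_le_rpow h (by linarith) (by norm_num)
  show p.1 ^ (3 / 4 : ℝ) + tn p.2.1 ≤ _
  linarith [MB.le_rpow (x := elN p) (by linarith) h1, tn_le_norm p.2.1]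
theorem ell_eq_elN {p : Ph} (h : 0 ≤ p.1) (h1 : elN p < 1 / 2) : ell p = elN p := by
  have e : elN p = 8 * p.1 + ‖p.2.1‖ := rfl
  show 8 * p.1 + ‖red p.2.1‖ = _
  rw [red_eq_self (by linarith), e]

theorem adm_pw {K k : ℕ} (h : k ≤ K) : Adm K (pw k) := MB.adm_pw h
theorem adm_wbF {P : Par} (hP : P.Basic) : Adm P.k3 (wbF P) := MB.adm_wbF hP.d0_pos
theorem adm_wnF {P : Par} (hP : P.Basic) : Adm P.k3 (wnF P) :=
  MB.adm_add (MB.adm_mul (adm_pw (by have := hP.k3_ge; omega)) _)
    (MB.adm_mul (adm_pw (by have := hP.k3_ge; omega)) _)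
theorem adm_omF {P : Par} (hP : P.Basic) (b : ℝ≥0∞) : Adm P.k3 (omF P b) :=
  MB.adm_add (MB.adm_mul (adm_wbF hP) 2) (MB.adm_mul (adm_wnF hP) b)
theorem wbF_le_one {P : Par} (hP : P.Basic) {u : ℝ} (hu : 0 ≤ u) : wbF P u ≤ 1 :=
  ENNReal.ofReal_le_one.2 (pow_le_one₀ (le_min (div_nonneg hu hP.d0_pos.le) zero_le_one)
    (min_le_right _ _))
theorem wbF_pos {P : Par} (hP : P.Basic) {u : ℝ} (hu : 0 < u) : 0 < wbF P u :=
  ENNReal.ofReal_pos.2 (pow_pos (lt_min (div_pos hu hP.d0_pos) zero_lt_one) _)
theorem wnF_pos {P : Par} (hP : P.Basic) {u : ℝ} (hu : 0 < u) : 0 < wnF P u :=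
  (ENNReal.mul_pos (ENNReal.ofReal_pos.2 (pow_pos (MB.s1_pos hP.r0_pos) _)).ne'
    (ENNReal.ofReal_pos.2 (pow_pos hu _)).ne').trans_le (le_add_self.trans_eq (MB.wnF_eq P u).symm)

theorem ev_wnF_le (η : ℝ≥0∞) (hη : 0 < η) : ∀ᶠ P in parF, ∀ u ∈ Icc (0 : ℝ) 2, wnF P u ≤ η :=
  MB.ev_wnF_le η hη

/-- below `2 s₁` the background is negligible -/
theorem ev_wbF_le (η : ℝ≥0∞) (hη : 0 < η) :
    ∀ᶠ P in parF, ∀ u ∈ Icc (0 : ℝ) (2 * P.s1), wbF P u ≤ η * wnF P u :=
  MB.ev_wbF_le η hη

theorem wbF_le_wnF {P : Par} (hP : P.Basic) :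
    ∃ C : ℝ≥0∞, C ≠ ⊤ ∧ ∀ u ∈ Icc (0 : ℝ) 2, wbF P u ≤ C * wnF P u :=
  ⟨_, ENNReal.ofReal_ne_top, fun _ hu => MB.wbF_le (n := P.k3 - P.k2) hP.d0_pos hP.r0_pos
    (by have := hP.k3_ge; omega) hu.1 hu.2⟩

theorem aT_mem {P : Par} (hP : P.Basic) {t : ℝ} (ht : t ∈ Icc 0 P.t0) :
    aT P.k3 t ∈ Icc (3 / 16 : ℝ) (1 / 4) := by
  have h0 : (0 : ℝ) ≤ 16 * (P.k3 : ℝ) := by positivity
  have h1 := mul_le_mul_of_nonneg_left (Real.sqrt_le_sqrt ht.2) h0
  have h2 := mul_nonneg h0 (Real.sqrt_nonneg t)
  have e : aT P.k3 t = 1 / 4 - 16 * (P.k3 : ℝ) * √t := rfl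
  exact ⟨by linarith [hP.t0_small], by linarith⟩

end
end Crest.Agent.R68
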