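import Crest.Agent.R68.FlightB
import Crest.Agent.R68.MedBasic
import Crest.Agent.R68.Bil

/-! # Row 68: flight lemmas -/

set_option autoImplicit false
open MeasureTheory Set Filter Topology
open scoped ENNReal NNReal
open Crest.AnalysisR.VecCalc3 Crest.AnalysisR.PDE.Boltzmann

namespace Crest.Agent.R68
noncomputable section

theorem fA_root {t : ℝ} (ht : 0 ≤ t) :
    0 ≤ t ^ (1 / 4 : ℝ) ∧ t = (t ^ (1 / 4 : ℝ)) ^ 4 ∧ t ^ (3 / 4 : ℝ) = (t ^ (1 / 4 : ℝ)) ^ 3 ∧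
      √t = (t ^ (1 / 4 : ℝ)) ^ 2 := by
  refine ⟨Real.rpow_nonneg ht _, ?_, ?_, ?_⟩
  · rw [← Real.rpow_natCast, ← Real.rpow_mul ht]; norm_num
  · rw [← Real.rpow_natCast, ← Real.rpow_mul ht]; norm_num
  · rw [← Real.rpow_natCast, ← Real.rpow_mul ht, Real.sqrt_eq_rpow]; norm_num

theorem fA_lst_fl (p : Ph) {s : ℝ} (hst : s ≤ p.1) :
    lst (fl p s) ≤ s ^ (3 / 4 : ℝ) + tn p.2.1 + (p.1 - s) * ‖p.2.2‖ := by
  have h := tn_add_le p.2.1 (-((p.1 - s) • p.2.2))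
  rw [norm_neg, norm_smul, Real.norm_of_nonneg (sub_nonneg.2 hst), ← sub_eq_add_neg] at h
  simp only [lst, fl]
  linarith

theorem fA_Ga (K : ℕ) (s t : ℝ) (v : R3) :
    Ga (aT K s) v = ENNReal.ofReal (Real.exp (-(16 * K * (√t - √s) * ‖v‖ ^ 2))) * Ga (aT K t) v := by
  unfold Ga aT
  rw [← ENNReal.ofReal_mul (Real.exp_pos _).le, ← Real.exp_add]
  congr 2
  ring

theorem fA_slow {K : ℕ} {ω : ℝ → ℝ≥0∞} (hω : Adm K ω) (p : Ph) {s : ℝ} (hs : 0 ≤ s)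
    (hst : s ≤ p.1) (hv : ‖p.2.2‖ * p.1 ^ (1 / 4 : ℝ) ≤ 1 / 4) :
    ω (lst (fl p s)) * Ga (aT K s) p.2.2 ≤ ω (lst p) * Ga (aT K p.1) p.2.2 := by
  have ht : 0 ≤ p.1 := hs.trans hst
  have h1 : lst (fl p s) ≤ lst p := by
    rcases ht.eq_or_lt with h0 | h0
    · have : s = p.1 := le_antisymm hst (h0 ▸ hs)
      rw [this, fl_self]
    refine (fA_lst_fl p hst).trans ?_
    have hrq : s ^ (1 / 4 : ℝ) ≤ p.1 ^ (1 / 4 : ℝ) := Real.rpow_le_rpow hs hst (by norm_num)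
    have hq : 0 < p.1 ^ (1 / 4 : ℝ) := Real.rpow_pos_of_pos h0 _
    obtain ⟨hr0, hr4, hr3, -⟩ := fA_root hs
    obtain ⟨-, hq4, hq3, -⟩ := fA_root ht
    simp only [lst]
    rw [hr3, hq3]
    generalize s ^ (1 / 4 : ℝ) = r at *
    generalize p.1 ^ (1 / 4 : ℝ) = q at *
    have h2 : (p.1 - s) * ‖p.2.2‖ * q ≤ (q ^ 3 - r ^ 3) * q := by
      have h3 : (p.1 - s) * (‖p.2.2‖ * q) ≤ (p.1 - s) * (1 / 4) :=
        mul_le_mul_of_nonneg_left hv (sub_nonneg.2 hst)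
      have h4 : 0 ≤ (q - r) * (3 * q ^ 3 + 3 * q ^ 2 * r + 2 * q * r ^ 2 + (q - r) * r ^ 2) := by
        have : 0 ≤ q - r := sub_nonneg.2 hrq
        positivity
      rw [hq4, hr4] at h3 ⊢
      nlinarith
    have := le_of_mul_le_mul_right h2 hq
    linarith
  refine mul_le_mul' (hω.2.1 (lst_nonneg (p := fl p s) hs) (lst_nonneg ht) h1) ?_
  rw [fA_Ga K s p.1]
  refine mul_le_of_le_one_left' ?_
  rw [ENNReal.ofReal_le_one, Real.exp_le_one_iff, neg_nonpos]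
  have : 0 ≤ √p.1 - √s := sub_nonneg.2 (Real.sqrt_le_sqrt hst)
  positivity

theorem fA_fast {K : ℕ} {ω : ℝ → ℝ≥0∞} (hω : Adm K ω) (p : Ph) {s : ℝ} (hs : 0 ≤ s)
    (hst : s ≤ p.1) (hv : 1 / 4 < ‖p.2.2‖ * p.1 ^ (1 / 4 : ℝ)) :
    ω (lst (fl p s)) * Ga (aT K s) p.2.2 ≤
      ENNReal.ofReal (Real.exp (-(8 * K * ‖p.2.2‖ ^ 2 * (√p.1 - √s)))) *
        (ω (lst p) * Ga (aT K p.1) p.2.2) := by
  have ht : 0 ≤ p.1 := hs.trans hst
  have hrq : s ^ (1 / 4 : ℝ) ≤ p.1 ^ (1 / 4 : ℝ) := Real.rpow_le_rpow hs hst (by norm_num)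
  obtain ⟨hr0, hr4, hr3, hr2⟩ := fA_root hs
  obtain ⟨hq0, hq4, hq3, hq2⟩ := fA_root ht
  have hn := norm_nonneg p.2.2
  have hd : 0 ≤ √p.1 - √s := sub_nonneg.2 (Real.sqrt_le_sqrt hst)
  have hy : 0 ≤ 8 * ‖p.2.2‖ ^ 2 * (√p.1 - √s) := by positivity
  have h1 : lst (fl p s) ≤ (1 + 8 * ‖p.2.2‖ ^ 2 * (√p.1 - √s)) * lst p := by
    refine (fA_lst_fl p hst).trans ?_
    have htn := tn_nonneg p.2.1
    simp only [lst]
    rw [hr3, hq3]
    rw [hq2, hr2] at hy hd ⊢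
    generalize s ^ (1 / 4 : ℝ) = r at *
    generalize p.1 ^ (1 / 4 : ℝ) = q at *
    have h3 : r ^ 3 ≤ q ^ 3 := pow_le_pow_left₀ hr0 hrq 3
    have h4 : (p.1 - s) * ‖p.2.2‖ ≤ 8 * ‖p.2.2‖ ^ 2 * (q ^ 2 - r ^ 2) * q ^ 3 := by
      have h5 : 0 ≤ (q ^ 2 - r ^ 2) * ‖p.2.2‖ := by positivity
      have h6 : q ^ 2 + r ^ 2 ≤ 8 * (‖p.2.2‖ * q) * q ^ 2 := by nlinarith [sq_nonneg q]
      have h7 := mul_le_mul_of_nonneg_left h6 h5
      rw [hq4, hr4]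
      nlinarith
    nlinarith [mul_nonneg hy htn]
  have h2 : ω (lst (fl p s)) ≤
      ENNReal.ofReal (Real.exp (8 * K * ‖p.2.2‖ ^ 2 * (√p.1 - √s))) * ω (lst p) := by
    have hL := lst_nonneg ht
    refine (hω.2.1 (lst_nonneg (p := fl p s) hs) (mul_nonneg (by linarith) hL) h1).trans ?_
    refine (hω.2.2 _ hL _ (by linarith)).trans (mul_le_mul_left (ENNReal.ofReal_le_ofReal ?_) _)
    calc (1 + 8 * ‖p.2.2‖ ^ 2 * (√p.1 - √s)) ^ K
        ≤ Real.exp (8 * ‖p.2.2‖ ^ 2 * (√p.1 - √s)) ^ K :=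
          pow_le_pow_left₀ (by linarith) (by linarith [Real.add_one_le_exp (8 * ‖p.2.2‖ ^ 2 * (√p.1 - √s))]) K
      _ = _ := by rw [← Real.exp_nat_mul]; congr 1; ring
  rw [fA_Ga K s p.1]
  refine (mul_le_mul_left h2 _).trans (le_of_eq ?_)
  rw [mul_mul_mul_comm, ← ENNReal.ofReal_mul (Real.exp_pos _).le, ← Real.exp_add]
  congr 3
  ring

theorem fA_lint_deriv {a b : ℝ} (hab : a ≤ b) {g g' : ℝ → ℝ} (hc : ContinuousOn g (Icc a b))
    (hd : ∀ x ∈ Ioo a b, HasDerivAt g (g' x) x) (h0 : ∀ x ∈ Ioo a b, 0 ≤ g' x) :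
    ∫⁻ x in Ioo a b, ENNReal.ofReal (g' x) = ENNReal.ofReal (g b - g a) := by
  have hi : IntegrableOn g' (Ioc a b) := intervalIntegral.integrableOn_deriv_of_nonneg hc hd h0
  have h1 := intervalIntegral.integral_eq_sub_of_hasDerivAt_of_le hab hc hd
    ((intervalIntegrable_iff_integrableOn_Ioc_of_le hab).2 hi)
  rw [← h1, intervalIntegral.integral_of_le hab, integral_Ioc_eq_integral_Ioo,
    ofReal_integral_eq_lintegral_ofReal (hi.mono_set Ioo_subset_Ioc_self)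
      ((ae_restrict_iff' measurableSet_Ioo).2 (Eventually.of_forall h0))]

theorem fA_npw_half {s : ℝ} (hs : 0 < s) : npw s (1 / 2) = ENNReal.ofReal (1 / √s) := by
  unfold npw
  rw [ENNReal.ofReal_rpow_of_pos hs, Real.rpow_neg hs.le, Real.sqrt_eq_rpow, one_div (s ^ _)]

theorem fA_seed_le {τ α : ℝ} (hτ : 0 < τ) (p : Ph) (C : ℝ≥0∞) {β : ℝ}
    (h : ∀ s ∈ Ioo 0 p.1, s ∈ Icc τ (2 * τ) → ‖p.2.2 - nn‖ ≤ 1 / 4 →
      ENNReal.ofReal (α / τ) ≤ ENNReal.ofReal (β / τ) * C) :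
    Ia 0 (seed τ α) p ≤ ENNReal.ofReal β * C := by
  calc Ia 0 (seed τ α) p
      ≤ ∫⁻ s in Ioo 0 p.1, (Icc τ (2 * τ)).indicator (fun _ => ENNReal.ofReal (β / τ) * C) s := by
        refine setLIntegral_mono' measurableSet_Ioo fun s hs => ?_
        unfold seed
        split_ifs with h1
        · rw [indicator_of_mem (show s ∈ Icc τ (2 * τ) from h1.1)]
          exact h s hs h1.1 h1.2.2
        · exact zero_le
    _ ≤ ∫⁻ s, (Icc τ (2 * τ)).indicator (fun _ => ENNReal.ofReal (β / τ) * C) s :=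
        setLIntegral_le_lintegral _ _
    _ = ENNReal.ofReal β * C := by
        rw [lintegral_indicator_const measurableSet_Icc, Real.volume_Icc, mul_right_comm,
          ← ENNReal.ofReal_mul' (by linarith)]
        congr 2
        field_simp
        ring

/-- (F0) Write `L = lst p`, `s ≤ t`.  `lst (fl p s) ≤ s^{3/4} + tn x + (t-s)‖v‖` (`tn_add_le`).
Slow case `‖v‖ ≤ t^{-1/4}/4`: concavity gives `t^{3/4} - s^{3/4} ≥ (3/4)(t-s) t^{-1/4}`, so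
`lst (fl p s) ≤ L - (t-s) t^{-1/4}/2`.  Fast case: `lst (fl p s) ≤ L (1 + (t-s)‖v‖ t^{-3/4})`, so
`ω ≤ exp (K (t-s)‖v‖ t^{-3/4}) ω L`, while `16K(√t - √s)‖v‖² ≥ 8K(t-s) t^{-1/2}‖v‖² ≥ 2K(t-s)‖v‖t^{-3/4}`. -/
theorem flight0 {K : ℕ} {ω : ℝ → ℝ≥0∞} (hω : Adm K ω) (p : Ph) {s : ℝ} (hs : 0 ≤ s) (hst : s ≤ p.1) :
    ω (lst (fl p s)) * Ga (aT K s) p.2.2 ≤ ω (lst p) * Ga (aT K p.1) p.2.2 := by
  rcases le_or_gt (‖p.2.2‖ * p.1 ^ (1 / 4 : ℝ)) (1 / 4) with hv | hv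
  · exact fA_slow hω p hs hst hv
  · refine (fA_fast hω p hs hst hv).trans (mul_le_of_le_one_left' ?_)
    rw [ENNReal.ofReal_le_one, Real.exp_le_one_iff, neg_nonpos]
    have : 0 ≤ √p.1 - √s := sub_nonneg.2 (Real.sqrt_le_sqrt hst)
    positivity

theorem inv_ell_le {q : Ph} (h : q.1 ∈ Ioc (0 : ℝ) 1) :
    npw (ell q) 1 * ENNReal.ofReal (lst q) ≤ npw q.1 (1 / 4) := by
  have htn := tn_nonneg q.2.1
  have h0 := h.1
  have he : 0 < ell q := by unfold ell; linarith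
  have hq : 0 < q.1 ^ (1 / 4 : ℝ) := Real.rpow_pos_of_pos h0 _
  have hq1 : q.1 ^ (1 / 4 : ℝ) ≤ 1 := Real.rpow_le_one h0.le h.2 (by norm_num)
  obtain ⟨-, hq4, hq3, -⟩ := fA_root h0.le
  unfold npw
  rw [ENNReal.ofReal_rpow_of_pos he, ENNReal.ofReal_rpow_of_pos h0,
    ← ENNReal.ofReal_mul (Real.rpow_nonneg he.le _), Real.rpow_neg he.le, Real.rpow_neg h0.le,
    Real.rpow_one]
  refine ENNReal.ofReal_le_ofReal ?_
  rw [inv_mul_eq_div, inv_eq_one_div, div_le_div_iff₀ he hq]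
  simp only [lst, ell]
  rw [hq3]
  nlinarith [mul_le_mul_of_nonneg_left hq1 htn]

/-- (F1) `ℓ_s⁻¹ lst_s^k ≤ s^{-1/4} lst_s^{k-1}`; split `s ≥ t/2`, `s < t/2`.  Slow case: integrate
`(L - (t-s)t^{-1/4}/2)^{k-1}`, and `z (1 - z/4)^{k-1} ≤ 4/k`.  Fast case: the net factor is at most
`exp(-K(t-s)/(4t))`. -/
theorem flight1 {K k : ℕ} (hk : 2 ≤ k) (hkK : k ≤ K) (p : Ph) (ht : p.1 ∈ Icc (0 : ℝ) 1) :
    ∫⁻ s in Ioo 0 p.1, npw (ell (fl p s)) 1 * (pw k (lst (fl p s)) * Ga (aT K s) p.2.2) ≤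
      ENNReal.ofReal (100 / k) * (pw k (lst p) * Ga (aT K p.1) p.2.2) :=
  FlightB.flight1 hk hkK p ht

/-- (F2) slow case `⟨v⟩ ≤ (5/4) t^{-1/4}`; fast case: net factor `exp(-4K(t-s)t^{-1/2}‖v‖²)`,
`⟨v⟩ ≤ 5‖v‖`. -/
theorem flight2 {K : ℕ} (hK : 1 ≤ K) {ω : ℝ → ℝ≥0∞} (hω : Adm K ω) (p : Ph)
    (ht : p.1 ∈ Icc (0 : ℝ) 1) :
    ∫⁻ s in Ioo 0 p.1, ENNReal.ofReal (jb p.2.2) * npw s (1 / 2) *
        (ω (lst (fl p s)) * Ga (aT K s) p.2.2) ≤
      ENNReal.ofReal (100 * p.1 ^ (1 / 4 : ℝ)) * (ω (lst p) * Ga (aT K p.1) p.2.2) := by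
  rcases ht.1.eq_or_lt with h0 | h0
  · rw [← h0]; simp
  have hq : 0 < p.1 ^ (1 / 4 : ℝ) := Real.rpow_pos_of_pos h0 _
  have hq1 : p.1 ^ (1 / 4 : ℝ) ≤ 1 := Real.rpow_le_one h0.le ht.2 (by norm_num)
  obtain ⟨-, hq4, hq3, hq2⟩ := fA_root h0.le
  have hn := norm_nonneg p.2.2
  have hjb : 0 ≤ jb p.2.2 := by unfold jb; linarith
  rcases le_or_gt (‖p.2.2‖ * p.1 ^ (1 / 4 : ℝ)) (1 / 4) with hv | hv
  · have hI : ∫⁻ s in Ioo 0 p.1, ENNReal.ofReal (jb p.2.2 * (1 / √s)) =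
        ENNReal.ofReal (jb p.2.2 * (2 * √p.1) - jb p.2.2 * (2 * √0)) := by
      refine fA_lint_deriv (g := fun s => jb p.2.2 * (2 * √s)) h0.le (by fun_prop)
        (fun s hs => ?_) (fun s _ => by positivity)
      have h1 := ((Real.hasDerivAt_sqrt hs.1.ne').const_mul 2).const_mul (jb p.2.2)
      have h2 := Real.sqrt_pos.2 hs.1
      refine h1.congr_deriv ?_
      field_simp
    calc _ ≤ ∫⁻ s in Ioo 0 p.1, ENNReal.ofReal (jb p.2.2 * (1 / √s)) *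
          (ω (lst p) * Ga (aT K p.1) p.2.2) := by
          refine setLIntegral_mono' measurableSet_Ioo fun s hs => ?_
          rw [fA_npw_half hs.1, ← ENNReal.ofReal_mul hjb]
          exact mul_le_mul_right (fA_slow hω p hs.1.le hs.2.le hv) _
      _ = ENNReal.ofReal (jb p.2.2 * (2 * √p.1) - jb p.2.2 * (2 * √0)) *
          (ω (lst p) * Ga (aT K p.1) p.2.2) := by
          rw [lintegral_mul_const _ (by fun_prop), hI]
      _ ≤ _ := by
          refine mul_le_mul_left (ENNReal.ofReal_le_ofReal ?_) _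
          rw [Real.sqrt_zero, hq2]
          unfold jb
          nlinarith
  · have hn0 : 0 < ‖p.2.2‖ := by
      rcases hn.eq_or_lt with h | h
      · rw [← h] at hv; linarith
      · exact h
    have hK' : (1 : ℝ) ≤ K := by exact_mod_cast hK
    obtain ⟨c, hc⟩ : ∃ c : ℝ, c = 8 * K * ‖p.2.2‖ ^ 2 := ⟨_, rfl⟩
    have hc0 : 0 < c := by rw [hc]; positivity
    have hI : ∫⁻ s in Ioo 0 p.1,
        ENNReal.ofReal (jb p.2.2 * (1 / √s) * Real.exp (-(c * (√p.1 - √s)))) =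
        ENNReal.ofReal (jb p.2.2 * (2 / c) * Real.exp (-(c * (√p.1 - √p.1))) -
          jb p.2.2 * (2 / c) * Real.exp (-(c * (√p.1 - √0)))) := by
      refine fA_lint_deriv (g := fun s => jb p.2.2 * (2 / c) * Real.exp (-(c * (√p.1 - √s))))
        h0.le (by fun_prop) (fun s hs => ?_) (fun s _ => by positivity)
      have h1 := (((((Real.hasDerivAt_sqrt hs.1.ne').const_sub (√p.1)).const_mul c).neg).exp).const_mul
        (jb p.2.2 * (2 / c))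
      have h2 := Real.sqrt_pos.2 hs.1
      refine h1.congr_deriv ?_
      simp only [Pi.neg_apply]
      field_simp
    calc _ ≤ ∫⁻ s in Ioo 0 p.1,
          ENNReal.ofReal (jb p.2.2 * (1 / √s) * Real.exp (-(c * (√p.1 - √s)))) *
          (ω (lst p) * Ga (aT K p.1) p.2.2) := by
          refine setLIntegral_mono' measurableSet_Ioo fun s hs => ?_
          rw [fA_npw_half hs.1, ← ENNReal.ofReal_mul hjb, ENNReal.ofReal_mul (p := jb p.2.2 * (1 / √s))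
            (by positivity), mul_assoc (ENNReal.ofReal (jb p.2.2 * (1 / √s))), hc]
          exact mul_le_mul_right (fA_fast hω p hs.1.le hs.2.le hv) _
      _ = ENNReal.ofReal (jb p.2.2 * (2 / c) * Real.exp (-(c * (√p.1 - √p.1))) -
          jb p.2.2 * (2 / c) * Real.exp (-(c * (√p.1 - √0)))) *
          (ω (lst p) * Ga (aT K p.1) p.2.2) := by
          rw [lintegral_mul_const _ (by fun_prop), hI]
      _ ≤ _ := by
          refine mul_le_mul_left (ENNReal.ofReal_le_ofReal ?_) _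
          rw [sub_self, mul_zero, neg_zero, Real.exp_zero, mul_one]
          have h1 : 0 ≤ jb p.2.2 * (2 / c) * Real.exp (-(c * (√p.1 - √0))) := by positivity
          have h2 : jb p.2.2 * (2 / c) ≤ 100 * p.1 ^ (1 / 4 : ℝ) := by
            rw [← mul_div_assoc, div_le_iff₀ hc0, hc]
            unfold jb
            have h3 : 1 / 4 < ‖p.2.2‖ := by nlinarith
            have h4 : ‖p.2.2‖ * (1 / 4) ≤ ‖p.2.2‖ * (‖p.2.2‖ * p.1 ^ (1 / 4 : ℝ)) :=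
              mul_le_mul_of_nonneg_left hv.le hn
            have h5 : 1 * (‖p.2.2‖ * (‖p.2.2‖ * p.1 ^ (1 / 4 : ℝ))) ≤
                K * (‖p.2.2‖ * (‖p.2.2‖ * p.1 ^ (1 / 4 : ℝ))) :=
              mul_le_mul_of_nonneg_right hK' (by positivity)
            nlinarith
          linarith

/-- (F3) small sets of times: `flight0` for `pw (k-1)` and `∫_E s^{-1/4} ≤ (4/3)|E|^{3/4}`. -/
theorem flight3 {K k : ℕ} (hk : 1 ≤ k) (hkK : k ≤ K) (p : Ph) (ht : p.1 ∈ Icc (0 : ℝ) 1)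
    (E : Set ℝ) (hE : MeasurableSet E) (hEt : E ⊆ Ioo 0 p.1) :
    ∫⁻ s in E, npw (ell (fl p s)) 1 * (pw k (lst (fl p s)) * Ga (aT K s) p.2.2) ≤
      3 * volume E ^ (3 / 4 : ℝ) * (pw (k - 1) (lst p) * Ga (aT K p.1) p.2.2) :=
  FlightB.flight3 hk hkK p ht E hE hEt

/-- (F4) the part of the flight below scale `δ`: apply `flight1` at the last time `t'` with
`lst (fl p t') ≤ δ` (closed set, `continuous_tn`) if `lst p > δ`. -/
theorem flight4 {K : ℕ} (hK : 2 ≤ K) {δ : ℝ} (hδ : 0 < δ) (p : Ph) (ht : p.1 ∈ Icc (0 : ℝ) 1) :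
    ∫⁻ s in Ioo 0 p.1, (if lst (fl p s) ≤ δ then
        npw (ell (fl p s)) 1 * (ENNReal.ofReal ((lst (fl p s) / δ) ^ K) * Ga (aT K s) p.2.2) else 0) ≤
      ENNReal.ofReal (100 / K) * (ENNReal.ofReal (min (lst p / δ) 1 ^ K) * Ga (aT K p.1) p.2.2) :=
  FlightB.flight4 hK hδ p ht

/-- `flight0` with `s = 0` -/
theorem g0_le {P : Par} (hP : P.Basic) (p : Ph) (ht : 0 ≤ p.1) : g0 P p ≤ wY P (wbF P) p := by
  unfold g0
  split_ifs with h
  · have h1 := flight0 (adm_wbF hP) p le_rfl ht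
    have h2 : wbF P (lst (fl p 0)) = 1 := by
      have h3 : lst (fl p 0) = tn (p.2.1 - p.1 • p.2.2) := by
        simp [lst, fl]
      unfold wbF
      rw [h3, min_eq_right ((one_le_div hP.d0_pos).2 h.2.le), one_pow, ENNReal.ofReal_one]
    rw [h2, one_mul] at h1
    have h4 : mu p.2.2 ≤ Ga (aT P.k3 0) p.2.2 := by
      unfold mu Ga aT maxwellian
      refine ENNReal.ofReal_le_ofReal ?_
      have h5 : (2 * Real.pi) ^ (-(3 / 2 : ℝ)) ≤ 1 :=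
        Real.rpow_le_one_of_one_le_of_nonpos (by linarith [Real.pi_gt_three]) (by norm_num)
      refine (mul_le_of_le_one_left (Real.exp_pos _).le h5).trans (Real.exp_le_exp.2 ?_)
      rw [Real.sqrt_zero]
      nlinarith [sq_nonneg ‖p.2.2‖]
    refine (h4.trans h1).trans ?_
    unfold wY YY
    exact mul_le_mul_right (le_mul_of_one_le_right' (one_le_Sg p)) _
  · exact zero_le

/-- majorant of the seeds -/
theorem Ia_seed_le {P : Par} (hP : P.Basic) {τ c : ℝ} (hτ : 0 < τ) (hc : 0 ≤ c) {α : ℝ}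
    (hα : α ≤ c * P.s1 ^ P.k2 * τ ^ 1800) (p : Ph) (ht : p.1 ∈ Icc 0 P.t0) :
    Ia 0 (seed τ α) p ≤ ENNReal.ofReal (3 * c) * (wnF P (lst p) * Ga (aT P.k3 p.1) p.2.2) := by
  refine fA_seed_le hτ p _ fun s hs hsτ hv => ?_
  refine le_trans ?_ (mul_le_mul_right (flight0 (adm_wnF hP) p hs.1.le hs.2.le) _)
  have hs1 : 0 ≤ P.s1 ^ P.k2 := by
    have := hP.r0_pos
    unfold Par.s1
    positivity
  have h1 : ENNReal.ofReal (P.s1 ^ P.k2 * τ ^ 1800) ≤ wnF P (lst (fl p s)) := by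
    unfold wnF pw
    refine le_trans ?_ le_self_add
    rw [ENNReal.ofReal_mul hs1]
    refine mul_le_mul_right (ENNReal.ofReal_le_ofReal ?_) _
    have h2 : s ^ (3 / 4 : ℝ) ≤ lst (fl p s) := by
      have := tn_nonneg (fl p s).2.1
      have h3 : (fl p s).1 = s := rfl
      unfold lst
      rw [h3]
      linarith
    calc τ ^ 1800 ≤ s ^ 1800 := pow_le_pow_left₀ hτ.le hsτ.1 _
      _ = (s ^ (3 / 4 : ℝ)) ^ 2400 := by
          rw [← Real.rpow_natCast, ← Real.rpow_natCast, ← Real.rpow_mul hs.1.le]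
          norm_num
      _ ≤ _ := pow_le_pow_left₀ (Real.rpow_nonneg hs.1.le _) h2 _
  have h2 : ENNReal.ofReal (1 / 3) ≤ Ga (aT P.k3 s) p.2.2 := by
    unfold Ga
    refine ENNReal.ofReal_le_ofReal ?_
    have h3 : ‖nn‖ ≤ 1 := by
      unfold nn dir
      rw [norm_smul, norm_inv, norm_norm]
      exact inv_mul_le_one_of_le₀ le_rfl (norm_nonneg _)
    have h4 : ‖p.2.2‖ ≤ 5 / 4 := by
      have := norm_add_le (p.2.2 - nn) nn
      rw [sub_add_cancel] at this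
      linarith
    have h5 : ‖p.2.2‖ ^ 2 ≤ (5 / 4) ^ 2 := pow_le_pow_left₀ (norm_nonneg _) h4 2
    have h6 : aT P.k3 s ≤ 1 / 4 := by
      unfold aT
      have : 0 ≤ 16 * (P.k3 : ℝ) * √s := by positivity
      linarith
    have h7 := mul_le_mul_of_nonneg_right h6 (sq_nonneg ‖p.2.2‖)
    linarith [Real.add_one_le_exp (-(aT P.k3 s * ‖p.2.2‖ ^ 2))]
  refine le_trans ?_ (mul_le_mul_right (mul_le_mul' h1 h2) _)
  rw [← ENNReal.ofReal_mul (by positivity), ← ENNReal.ofReal_mul (by positivity)]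
  refine ENNReal.ofReal_le_ofReal ?_
  calc α / τ ≤ c * P.s1 ^ P.k2 * τ ^ 1800 / τ := div_le_div_of_nonneg_right hα hτ.le
    _ = _ := by
      generalize τ ^ 1800 = z
      ring

theorem Ia_seed_le' {τ α : ℝ} (hτ : 0 < τ) (p : Ph) : Ia 0 (seed τ α) p ≤ ENNReal.ofReal α := by
  have h := fA_seed_le (α := α) (β := α) hτ p 1 fun _ _ _ _ => by rw [mul_one]
  rwa [mul_one] at h

theorem seed_mono {τ α α' : ℝ} (hτ : 0 < τ) (h : α ≤ α') : seed τ α ≤ seed τ α' := by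
  intro p
  unfold seed
  split_ifs
  · exact ENNReal.ofReal_le_ofReal (div_le_div_of_nonneg_right h hτ.le)
  · exact le_rfl

theorem ddF_seed {τ α α' : ℝ} (hτ : 0 < τ) (h : 0 ≤ α) (h' : 0 ≤ α') :
    ddF (seed τ α) (seed τ α') = seed τ |α - α'| := by
  funext p
  unfold ddF seed
  split_ifs
  · unfold dd
    rw [← ENNReal.ofReal_sub _ (by positivity), ← ENNReal.ofReal_sub _ (by positivity),
      ← ENNReal.ofReal_max, ← sub_div, ← sub_div, max_div_div_right hτ.le, abs_eq_max_neg, neg_sub]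
  · exact dd_self 0

end
end Crest.Agent.R68
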