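import Crest.Agent.R68.Core

/-! # Row 68: the torus, elementary part (proofs for `Torus.lean`) -/

set_option autoImplicit false
open MeasureTheory Set Filter Topology
open scoped ENNReal NNReal
open Crest.AnalysisR.VecCalc3 Crest.AnalysisR.PDE.Boltzmann

namespace Crest.Agent.R68.TA
noncomputable section

@[simp] theorem lat_apply (m : Fin 3 → ℤ) (i : Fin 3) : lat m i = (m i : ℝ) := rfl
@[simp] theorem red_apply (x : R3) (i : Fin 3) : red x i = x i - (round (x i) : ℝ) := rfl

theorem abs_apply_le (x : R3) (i : Fin 3) : |x i| ≤ ‖x‖ := by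
  simpa using PiLp.norm_apply_le x i

theorem norm_le_of_abs_le {x y : R3} (h : ∀ i, |x i| ≤ |y i|) : ‖x‖ ≤ ‖y‖ := by
  rw [EuclideanSpace.norm_eq, EuclideanSpace.norm_eq]
  refine Real.sqrt_le_sqrt (Finset.sum_le_sum fun i _ => ?_)
  exact pow_le_pow_left₀ (norm_nonneg _) (by simpa using h i) 2

theorem measurable_round : Measurable (round : ℝ → ℤ) := by
  have : (round : ℝ → ℤ) = fun x => ⌊x + 1 / 2⌋ := funext round_eq
  rw [this]
  exact Int.measurable_floor.comp (measurable_id.add_const _)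

theorem measurable_red : Measurable red := by
  unfold red
  refine (PiLp.continuous_toLp 2 _).measurable.comp (measurable_pi_lambda _ fun i => ?_)
  have hi : Measurable fun x : R3 => x i := by fun_prop
  exact hi.sub ((measurable_of_countable (fun n : ℤ => (n : ℝ))).comp (measurable_round.comp hi))

theorem red_add_lat (x : R3) (m : Fin 3 → ℤ) : red (x + lat m) = red x := by
  ext i
  simp [round_add_intCast]

theorem red_eq (x : R3) : red x = x - lat fun i => round (x i) := by
  ext i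
  simp

theorem lat_add (m m' : Fin 3 → ℤ) : lat (m + m') = lat m + lat m' := by
  ext i
  simp

theorem lat_neg (m : Fin 3 → ℤ) : lat (-m) = -lat m := by
  ext i
  simp

theorem lat_zero : lat 0 = 0 := by
  ext i
  simp

theorem one_le_norm_lat {m : Fin 3 → ℤ} (hm : m ≠ 0) : 1 ≤ ‖lat m‖ := by
  obtain ⟨i, hi⟩ := Function.ne_iff.1 hm
  refine le_trans ?_ (abs_apply_le (lat m) i)
  have h1 : (1 : ℝ) ≤ |(m i : ℝ)| := by exact_mod_cast Int.one_le_abs hi
  exact h1

theorem tn_le_norm_sub (x : R3) (m : Fin 3 → ℤ) : tn x ≤ ‖x - lat m‖ :=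
  norm_le_of_abs_le fun i => by simpa using round_le (x i) (m i)

theorem tn_le_norm (x : R3) : tn x ≤ ‖x‖ := by
  simpa [lat_zero] using tn_le_norm_sub x 0

theorem tn_le_one (x : R3) : tn x ≤ 1 := by
  rw [tn, EuclideanSpace.norm_eq, Real.sqrt_le_one, Fin.sum_univ_three]
  have h : ∀ i, ‖red x i‖ ^ 2 ≤ (1 / 2) ^ 2 := fun i =>
    pow_le_pow_left₀ (norm_nonneg _) (by simpa using abs_sub_round (x i)) 2
  linarith [h 0, h 1, h 2]

theorem tn_add_le (x z : R3) : tn (x + z) ≤ tn x + ‖z‖ := by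
  refine (tn_le_norm_sub (x + z) fun i => round (x i)).trans ?_
  rw [tn, red_eq, add_sub_right_comm]
  exact norm_add_le _ _

theorem continuous_tn : Continuous tn := by
  refine LipschitzWith.continuous (K := 1) (LipschitzWith.of_le_add fun x y => ?_)
  have := tn_add_le y (x - y)
  rwa [add_sub_cancel, ← dist_eq_norm] at this

theorem red_eq_self {x : R3} (hx : ‖x‖ < 1 / 2) : red x = x := by
  ext i
  have h := abs_lt.1 ((abs_apply_le x i).trans_lt hx)
  have : round (x i) = 0 := round_eq_zero_iff.2 ⟨h.1.le, h.2⟩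
  simp [this]

theorem red_eq_of_short {x : R3} {m : Fin 3 → ℤ} (hx : ‖x - lat m‖ < 1 / 2) :
    red x = x - lat m := by
  rw [← red_eq_self hx, sub_eq_add_neg, ← lat_neg, red_add_lat]

theorem half_le_norm_red_add {x : R3} {m : Fin 3 → ℤ} (hm : m ≠ 0) :
    1 / 2 ≤ ‖red x + lat m‖ := by
  obtain ⟨i, hi⟩ := Function.ne_iff.1 hm
  refine le_trans ?_ (abs_apply_le (red x + lat m) i)
  have h1 : (1 : ℝ) ≤ |(m i : ℝ)| := by exact_mod_cast Int.one_le_abs hi
  have h2 := abs_sub_round (x i)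
  have h3 := abs_sub (x i - round (x i) + m i) (x i - round (x i))
  rw [add_sub_cancel_left] at h3
  simp only [PiLp.add_apply, red_apply, lat_apply]
  linarith

theorem mem_img {ϱ : ℝ} {x : R3} {m : Fin 3 → ℤ} (h : ‖x - lat m‖ ≤ ϱ) : m ∈ img ϱ x := by
  refine Fintype.mem_piFinset.2 fun i => ?_
  have h1 := abs_le.1 ((abs_apply_le (x - lat m) i).trans h)
  simp only [PiLp.sub_apply, lat_apply] at h1
  rw [Finset.mem_Icc, Int.ceil_le, Int.le_floor]
  constructor <;> linarith [h1.1, h1.2]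

theorem card_img_le {ϱ : ℝ} (hϱ : 0 ≤ ϱ) (x : R3) : ((img ϱ x).card : ℝ) ≤ (2 * ϱ + 1) ^ 3 := by
  have h : ∀ i, ((Finset.Icc ⌈x i - ϱ⌉ ⌊x i + ϱ⌋).card : ℝ) ≤ 2 * ϱ + 1 := fun i => by
    rw [Int.card_Icc]
    rcases le_total 0 (⌊x i + ϱ⌋ + 1 - ⌈x i - ϱ⌉) with h0 | h0
    · have : (((⌊x i + ϱ⌋ + 1 - ⌈x i - ϱ⌉).toNat : ℕ) : ℝ) =
          ((⌊x i + ϱ⌋ + 1 - ⌈x i - ϱ⌉ : ℤ) : ℝ) := by
        exact_mod_cast congrArg (fun z : ℤ => (z : ℝ)) (Int.toNat_of_nonneg h0)
      rw [this]
      push_cast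
      linarith [Int.floor_le (x i + ϱ), Int.le_ceil (x i - ϱ)]
    · rw [Int.toNat_of_nonpos h0, Nat.cast_zero]
      positivity
  rw [img, Fintype.card_piFinset, Nat.cast_prod]
  refine (Finset.prod_le_prod (fun i _ => Nat.cast_nonneg _) fun i _ => h i).trans_eq ?_
  simp

theorem cell_eq : cell = (WithLp.ofLp : R3 → (Fin 3 → ℝ)) ⁻¹'
    Set.pi univ fun _ => Ico (0 : ℝ) 1 := by
  ext x
  simp [cell]

theorem measurableSet_cell : MeasurableSet cell := by
  rw [cell_eq]
  exact (PiLp.continuous_ofLp 2 _).measurable (MeasurableSet.univ_pi fun _ => measurableSet_Ico)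

theorem volume_cell : volume cell = 1 := by
  rw [cell_eq, (PiLp.volume_preserving_ofLp (Fin 3)).measure_preimage
    (MeasurableSet.univ_pi fun _ => measurableSet_Ico).nullMeasurableSet, Real.volume_pi_Ico]
  simp

theorem lat_single (i : Fin 3) : lat (Pi.single i 1) = EuclideanSpace.single i 1 := by
  ext j
  by_cases h : j = i
  · subst h; simp
  · simp [h]

theorem isPeriodic3_of_per {F : PF} (hF : Per F) (t : ℝ) (v : R3) :
    IsPeriodic3 (fun x => F (t, x, v)) := fun x i => by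
  simp only
  rw [← lat_single, hF]

theorem lat_periodic {α : Type*} {f : R3 → α} (hf : IsPeriodic3 f) (x : R3)
    (m : Fin 3 → ℤ) : f (x + lat m) = f x := by
  have h : ∀ (i : Fin 3) (n : ℤ), Function.Periodic f (n • EuclideanSpace.single i (1 : ℝ)) :=
    fun i n => Function.Periodic.zsmul (fun y => hf y i) n
  have e : lat m = m 0 • EuclideanSpace.single 0 (1 : ℝ) + m 1 • EuclideanSpace.single 1 (1 : ℝ) +
      m 2 • EuclideanSpace.single 2 (1 : ℝ) := by
    ext j
    fin_cases j <;> simp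
  rw [e]
  exact (((h 0 _).add_period (h 1 _)).add_period (h 2 _)) x

theorem lint_affine (φ : R3 → ℝ≥0∞) (hφ : Measurable φ) (x : R3) (τ : ℝ) (hτ : 0 < τ) :
    ∫⁻ ζ, φ (x - τ • ζ) = ENNReal.ofReal ((τ ^ 3)⁻¹) * ∫⁻ z, φ z := by
  have h1 : Measurable fun z : R3 => φ (x - z) := hφ.comp (measurable_id.const_sub x)
  have h2 := lintegral_map (μ := (volume : Measure R3)) h1 (measurable_const_smul τ)
  rw [← h2, Measure.map_addHaar_smul volume hτ.ne', lintegral_smul_measure,
    lintegral_sub_left_eq_self φ x, finrank_euclideanSpace_fin, abs_of_pos (by positivity),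
    smul_eq_mul]

theorem fl_fl (p : Ph) (s τ : ℝ) : fl (fl p s) τ = fl p τ := by
  simp only [fl, Prod.mk.injEq, true_and, and_true]
  module

theorem fl_self (p : Ph) : fl p p.1 = p := by
  simp [fl]

theorem fl_ch (q : R3 × R3) (t s : ℝ) : fl (ch q t) s = ch q s := by
  simp only [fl, ch, Prod.mk.injEq, true_and, and_true]
  module

theorem measurable_fl : Measurable (fun x : Ph × ℝ => fl x.1 x.2) := by
  unfold fl
  fun_prop

theorem measurable_ch : Measurable (fun x : (R3 × R3) × ℝ => ch x.1 x.2) := by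
  unfold ch
  fun_prop

/-- shears preserve the volume -/
theorem lint_shear (g : R3 × R3 → ℝ≥0∞) (hg : Measurable g) (c : ℝ) :
    ∫⁻ q : R3 × R3, g (q.1 - c • q.2, q.2) = ∫⁻ q, g q := by
  have h1 : Measurable fun q : R3 × R3 => g (q.1 - c • q.2, q.2) := hg.comp (by fun_prop)
  rw [Measure.volume_eq_prod, lintegral_prod_symm _ h1.aemeasurable,
    lintegral_prod_symm _ hg.aemeasurable]
  refine lintegral_congr fun v => ?_
  exact lintegral_sub_right_eq_self (fun x => g (x, v)) (c • v)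

/-- the involution `(p, s) ↦ (fl p s, p.1)` preserves the volume -/
theorem lint_swap (H : Ph × ℝ → ℝ≥0∞) (hH : Measurable H) :
    ∫⁻ p : Ph, ∫⁻ s : ℝ, H (fl p s, p.1) = ∫⁻ q : Ph, ∫⁻ t : ℝ, H (q, t) := by
  have hG : Measurable fun x : Ph × ℝ => H (fl x.1 x.2, x.1.1) :=
    hH.comp (measurable_fl.prodMk (measurable_fst.comp measurable_fst))
  have e1 : ∀ G : Ph × ℝ → ℝ≥0∞, Measurable G →
      ∫⁻ p : Ph, ∫⁻ s : ℝ, G (p, s) = ∫⁻ t : ℝ, ∫⁻ s : ℝ, ∫⁻ q : R3 × R3, G ((t, q), s) := by
    intro G hG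
    rw [Measure.volume_eq_prod, lintegral_prod _ hG.lintegral_prod_right'.aemeasurable]
    refine lintegral_congr fun t => ?_
    exact lintegral_lintegral_swap (f := fun (q : R3 × R3) (s : ℝ) => G ((t, q), s))
      (hG.comp (by fun_prop : Measurable fun y : (R3 × R3) × ℝ =>
        (((t, y.1) : Ph), y.2))).aemeasurable
  rw [e1 _ hG, e1 _ hH]
  have e2 : ∀ t s : ℝ, ∫⁻ q : R3 × R3, H (fl (t, q) s, t) = ∫⁻ q : R3 × R3, H ((s, q), t) :=
    fun t s => lint_shear (fun q => H ((s, q), t)) (hH.comp (by fun_prop)) (t - s)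
  simp only [e2]
  refine lintegral_lintegral_swap (f := fun (t s : ℝ) => ∫⁻ q : R3 × R3, H ((s, q), t)) ?_
  have : Measurable fun y : (ℝ × ℝ) × (R3 × R3) => H ((y.1.2, y.2), y.1.1) :=
    hH.comp (by fun_prop)
  exact this.lintegral_prod_right'.aemeasurable

theorem lint_Ia_mul (a : ℝ) (f φ : PF) (hf : Measurable f) (hφ : Measurable φ) :
    ∫⁻ p, Ia a f p * φ p =
      ∫⁻ q in Ioi a ×ˢ (univ : Set (R3 × R3)), f q * ∫⁻ t in Ioi q.1, φ (fl q t) := by
  set S : Set (Ph × ℝ) := {x | a < x.1.1 ∧ x.1.1 < x.2} with hS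
  have hSm : MeasurableSet S :=
    (measurableSet_lt measurable_const (measurable_fst.comp measurable_fst)).inter
      (measurableSet_lt (measurable_fst.comp measurable_fst) measurable_snd)
  have hH : Measurable (S.indicator fun x : Ph × ℝ => f x.1 * φ (fl x.1 x.2)) :=
    ((hf.comp measurable_fst).mul (hφ.comp measurable_fl)).indicator hSm
  have h := lint_swap _ hH
  have hfl : ∀ p : Ph, Measurable fun s => fl p s := fun p =>
    measurable_fl.comp (measurable_const.prodMk measurable_id)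
  rw [← lintegral_indicator (measurableSet_Ioi.prod MeasurableSet.univ)]
  refine (lintegral_congr fun p => ?_).trans (h.trans (lintegral_congr fun q => Eq.symm ?_))
  · have h1 : Measurable fun s => f (fl p s) := hf.comp (hfl p)
    rw [Ia, ← lintegral_mul_const _ h1, ← lintegral_indicator measurableSet_Ioo]
    refine lintegral_congr fun s => ?_
    by_cases hs : s ∈ Ioo a p.1
    · rw [indicator_of_mem hs, indicator_of_mem (show (fl p s, p.1) ∈ S from hs), fl_fl, fl_self]
    · rw [indicator_of_notMem hs, indicator_of_notMem (show (fl p s, p.1) ∉ S from hs)]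
  · have h1 : Measurable fun s => φ (fl q s) := hφ.comp (hfl q)
    by_cases hq : a < q.1
    · rw [indicator_of_mem (show q ∈ Ioi a ×ˢ (univ : Set (R3 × R3)) from ⟨hq, trivial⟩),
        ← lintegral_const_mul _ h1, ← lintegral_indicator measurableSet_Ioi]
      refine lintegral_congr fun t => ?_
      by_cases ht : t ∈ Ioi q.1
      · rw [indicator_of_mem ht, indicator_of_mem (show (q, t) ∈ S from ⟨hq, ht⟩)]
      · rw [indicator_of_notMem ht, indicator_of_notMem (show (q, t) ∉ S from fun h => ht h.2)]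
    · rw [indicator_of_notMem (show q ∉ Ioi a ×ˢ (univ : Set (R3 × R3)) from fun h => hq h.1)]
      refine (lintegral_eq_zero_of_ae_eq_zero (Eventually.of_forall fun t => ?_)).symm
      exact indicator_of_notMem (show (q, t) ∉ S from fun h => hq h.1) _

end
end Crest.Agent.R68.TA
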