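import Crest.Agent.R68.Core

/-! # Row 68: unfolding of integrals over `ℝ³` on the period cell -/

set_option autoImplicit false
open MeasureTheory Set Filter Topology
open scoped ENNReal NNReal
open Crest.AnalysisR.VecCalc3 Crest.AnalysisR.PDE.Boltzmann

namespace Crest.Agent.R68.TorusB
noncomputable section

theorem meas_cell : MeasurableSet cell := by
  have : cell = ⋂ i : Fin 3, (fun x : R3 => x i) ⁻¹' Ico 0 1 := by
    ext x
    rw [mem_iInter]
    rfl
  rw [this]
  exact MeasurableSet.iInter fun i => measurableSet_Ico.preimage (by fun_prop)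

theorem add_lat_mem_cell {x : R3} {m : Fin 3 → ℤ} : x + lat m ∈ cell ↔ m = fun i => -⌊x i⌋ := by
  rw [funext_iff]
  refine forall_congr' fun i => ?_
  change x i + (m i : ℝ) ∈ Ico (0 : ℝ) 1 ↔ _
  rw [eq_neg_iff_add_eq_zero, add_comm (m i), ← Int.floor_add_intCast, Int.floor_eq_zero_iff]

/-- the translates of the cell tile the space -/
theorem tsum_cell (x : R3) : ∑' m, cell.indicator (1 : R3 → ℝ≥0∞) (x + lat m) = 1 := by
  rw [tsum_eq_single (fun i => -⌊x i⌋) fun m hm =>
    indicator_of_notMem (fun h => hm (add_lat_mem_cell.1 h)) _,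
    indicator_of_mem (add_lat_mem_cell.2 rfl), Pi.one_apply]

theorem lat_neg' (m : Fin 3 → ℤ) : lat (-m) = -lat m := by
  ext i
  exact Int.cast_neg (m i)

theorem unfold_cell (ψ : R3 → ℝ≥0∞) (hψ : Measurable ψ) :
    ∫⁻ x, ψ x = ∑' m, ∫⁻ x in cell, ψ (x + lat m) := by
  have hm : ∀ z : R3, Measurable fun x => cell.indicator (1 : R3 → ℝ≥0∞) (x + z) * ψ x := fun z =>
    ((measurable_one.indicator meas_cell).comp (measurable_add_const z)).mul hψ
  calc ∫⁻ x, ψ x = ∫⁻ x, ∑' m, cell.indicator (1 : R3 → ℝ≥0∞) (x + lat m) * ψ x := by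
        refine lintegral_congr fun x => ?_
        rw [ENNReal.tsum_mul_right, tsum_cell, one_mul]
    _ = ∑' m, ∫⁻ x, cell.indicator (1 : R3 → ℝ≥0∞) (x + lat m) * ψ x :=
        lintegral_tsum fun m => (hm _).aemeasurable
    _ = ∑' m, ∫⁻ x, cell.indicator (1 : R3 → ℝ≥0∞) (x + lat (-m)) * ψ x :=
        ((Equiv.neg (Fin 3 → ℤ)).tsum_eq _).symm
    _ = _ := by
        refine tsum_congr fun m => ?_
        rw [← lintegral_add_right_eq_self _ (lat m), ← lintegral_indicator meas_cell]
        refine lintegral_congr fun x => ?_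
        rw [lat_neg', add_neg_cancel_right]
        by_cases hx : x ∈ cell
        · rw [indicator_of_mem hx, indicator_of_mem hx, Pi.one_apply, one_mul]
        · rw [indicator_of_notMem hx, indicator_of_notMem hx, zero_mul]

/-- a weight against a periodic function -/
theorem unfold_mul (w φ : R3 → ℝ≥0∞) (hw : Measurable w) (hφ : Measurable φ)
    (hp : ∀ x m, φ (x + lat m) = φ x) :
    ∫⁻ x, w x * φ x = ∫⁻ x in cell, (∑' m, w (x + lat m)) * φ x := by
  have h1 : Measurable fun x => w x * φ x := hw.mul hφ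
  have h2 : ∀ m, Measurable fun x => w (x + lat m) * φ (x + lat m) := fun m =>
    h1.comp (measurable_add_const (lat m))
  rw [unfold_cell _ h1, ← lintegral_tsum fun m => (h2 m).aemeasurable]
  refine lintegral_congr fun x => ?_
  rw [← ENNReal.tsum_mul_right]
  exact tsum_congr fun m => congrArg _ (hp x m)

theorem setLint_eq {S : Set R3} (hS : MeasurableSet S) (φ : R3 → ℝ≥0∞) :
    ∫⁻ x in S, φ x = ∫⁻ x, S.indicator (1 : R3 → ℝ≥0∞) x * φ x := by
  rw [← lintegral_indicator hS]
  refine lintegral_congr fun x => ?_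
  by_cases hx : x ∈ S
  · rw [indicator_of_mem hx, indicator_of_mem hx, Pi.one_apply, one_mul]
  · rw [indicator_of_notMem hx, indicator_of_notMem hx, zero_mul]

/-- the integral of a periodic function over a set -/
theorem unfold_set {S : Set R3} (hS : MeasurableSet S) (φ : R3 → ℝ≥0∞) (hφ : Measurable φ)
    (hp : ∀ x m, φ (x + lat m) = φ x) :
    ∫⁻ x in S, φ x = ∫⁻ x in cell, (∑' m, S.indicator (1 : R3 → ℝ≥0∞) (x + lat m)) * φ x := by
  rw [setLint_eq hS, unfold_mul _ φ (measurable_one.indicator hS) hφ hp]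

theorem cell_shift (φ : R3 → ℝ≥0∞) (hφ : Measurable φ) (hp : ∀ x m, φ (x + lat m) = φ x) (z : R3) :
    ∫⁻ x in cell, φ (x + z) = ∫⁻ x in cell, φ x := by
  rw [setLint_eq meas_cell, ← lintegral_add_right_eq_self _ (-z)]
  simp only [neg_add_cancel_right]
  rw [unfold_mul (fun x => cell.indicator (1 : R3 → ℝ≥0∞) (x + -z)) φ
    ((measurable_one.indicator meas_cell).comp (measurable_add_const _)) hφ hp]
  refine lintegral_congr fun x => ?_
  simp only [add_right_comm x _ (-z)]
  rw [tsum_cell, one_mul]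

theorem cell_ch (Φ : PF) (hΦ : Measurable Φ) (hp : Per Φ) (t : ℝ) :
    ∫⁻ q in cell ×ˢ (univ : Set R3), Φ (ch q t) =
      ∫⁻ q in cell ×ˢ (univ : Set R3), Φ (t, q.1, q.2) := by
  have h1 : Measurable fun q : R3 × R3 => Φ (ch q t) := hΦ.comp (by unfold ch; fun_prop)
  have h2 : Measurable fun q : R3 × R3 => Φ (t, q.1, q.2) := hΦ.comp (by fun_prop)
  rw [Measure.volume_eq_prod, setLIntegral_prod_symm _ h1.aemeasurable,
    setLIntegral_prod_symm _ h2.aemeasurable]
  refine lintegral_congr fun v => ?_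
  exact cell_shift (fun x => Φ (t, x, v)) (hΦ.comp (by fun_prop)) (fun x m => hp t x v m) (t • v)

theorem strip_ch (Φ : PF) (hΦ : Measurable Φ) (hp : Per Φ) (a b : ℝ) :
    ∫⁻ q in cell ×ˢ (univ : Set R3), ∫⁻ s in Ioo a b, Φ (ch q s) =
      ∫⁻ p in Ioo a b ×ˢ (cell ×ˢ (univ : Set R3)), Φ p := by
  have h1 : Measurable (Function.uncurry fun (q : R3 × R3) (s : ℝ) => Φ (ch q s)) :=
    hΦ.comp (f := fun x : (R3 × R3) × ℝ => ch x.1 x.2) (by unfold ch; fun_prop)
  rw [lintegral_lintegral_swap h1.aemeasurable, Measure.volume_eq_prod ℝ,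
    setLIntegral_prod _ hΦ.aemeasurable]
  exact lintegral_congr fun s => cell_ch Φ hΦ hp s

theorem eq_zero_of_per (Φ : PF) (hΦ : Measurable Φ) (hp : Per Φ)
    (h : ∫⁻ p in region, Φ p = 0) : ∫⁻ p in Ioi (0 : ℝ) ×ˢ (univ : Set (R3 × R3)), Φ p = 0 := by
  unfold region at h
  rw [Measure.volume_eq_prod ℝ, setLIntegral_prod _ hΦ.aemeasurable] at h ⊢
  rw [lintegral_eq_zero_iff hΦ.lintegral_prod_right'] at h ⊢
  filter_upwards [h] with t ht
  have h1 : Measurable fun q : R3 × R3 => Φ (t, q) := hΦ.comp (by fun_prop)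
  rw [Measure.volume_eq_prod, setLIntegral_prod _ h1.aemeasurable] at ht
  rw [Measure.restrict_univ, Measure.volume_eq_prod, lintegral_prod _ h1.aemeasurable,
    unfold_cell _ h1.lintegral_prod_right', Pi.zero_apply, ENNReal.tsum_eq_zero]
  intro m
  rw [Measure.restrict_univ] at ht
  refine Eq.trans (lintegral_congr fun x => lintegral_congr fun v => ?_) ht
  exact hp t x v m

end
end Crest.Agent.R68.TorusB
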