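import Crest.Agent.R68.Core
import Crest.Agent.R68.TorusAuxB
import Crest.Agent.R68.TorusA

/-! # Row 68: the torus -/

set_option autoImplicit false
open MeasureTheory Set Filter Topology
open scoped ENNReal NNReal
open Crest.AnalysisR.VecCalc3 Crest.AnalysisR.PDE.Boltzmann

namespace Crest.Agent.R68
noncomputable section

theorem measurable_red : Measurable red :=
  TA.measurable_red

theorem red_add_lat (x : R3) (m : Fin 3 → ℤ) : red (x + lat m) = red x :=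
  TA.red_add_lat x m

theorem exists_red_eq (x : R3) : ∃ m : Fin 3 → ℤ, red x = x - lat m :=
  ⟨_, TA.red_eq x⟩

theorem lat_add (m m' : Fin 3 → ℤ) : lat (m + m') = lat m + lat m' :=
  TA.lat_add m m'

theorem lat_neg (m : Fin 3 → ℤ) : lat (-m) = -lat m :=
  TA.lat_neg m

theorem lat_zero : lat 0 = 0 :=
  TA.lat_zero

theorem one_le_norm_lat {m : Fin 3 → ℤ} (hm : m ≠ 0) : 1 ≤ ‖lat m‖ :=
  TA.one_le_norm_lat hm

theorem tn_le_norm_sub (x : R3) (m : Fin 3 → ℤ) : tn x ≤ ‖x - lat m‖ :=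
  TA.tn_le_norm_sub x m

theorem tn_le_norm (x : R3) : tn x ≤ ‖x‖ :=
  TA.tn_le_norm x

theorem tn_le_one (x : R3) : tn x ≤ 1 :=
  TA.tn_le_one x

theorem tn_nonneg (x : R3) : 0 ≤ tn x := norm_nonneg _

theorem tn_add_le (x z : R3) : tn (x + z) ≤ tn x + ‖z‖ :=
  TA.tn_add_le x z

theorem continuous_tn : Continuous tn :=
  TA.continuous_tn

theorem red_eq_self {x : R3} (hx : ‖x‖ < 1 / 2) : red x = x :=
  TA.red_eq_self hx

/-- if some lift is short, it is the canonical one -/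
theorem red_eq_of_short {x : R3} {m : Fin 3 → ℤ} (hx : ‖x - lat m‖ < 1 / 2) : red x = x - lat m :=
  TA.red_eq_of_short hx

/-- a lift different from the canonical one is long -/
theorem half_le_norm_red_add {x : R3} {m : Fin 3 → ℤ} (hm : m ≠ 0) : 1 / 2 ≤ ‖red x + lat m‖ :=
  TA.half_le_norm_red_add hm

theorem mem_img {ϱ : ℝ} {x : R3} {m : Fin 3 → ℤ} (h : ‖x - lat m‖ ≤ ϱ) : m ∈ img ϱ x :=
  TA.mem_img h

theorem card_img_le {ϱ : ℝ} (hϱ : 0 ≤ ϱ) (x : R3) : ((img ϱ x).card : ℝ) ≤ (2 * ϱ + 1) ^ 3 :=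
  TA.card_img_le hϱ x

theorem measurableSet_cell : MeasurableSet cell :=
  TA.measurableSet_cell

theorem volume_cell : volume cell = 1 :=
  TA.volume_cell

theorem Per.isPeriodic3 {F : PF} (hF : Per F) (t : ℝ) (v : R3) :
    IsPeriodic3 (fun x => F (t, x, v)) :=
  TA.isPeriodic3_of_per hF t v

theorem lat_periodic_of_isPeriodic3 {α : Type*} {f : R3 → α} (hf : IsPeriodic3 f) (x : R3)
    (m : Fin 3 → ℤ) : f (x + lat m) = f x :=
  TA.lat_periodic hf x m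

/-- `cell` is a fundamental domain (`ZSpan.isAddFundamentalDomain`, or direct tiling). -/
theorem lint_cell_shift (φ : R3 → ℝ≥0∞) (hφ : Measurable φ)
    (hp : ∀ x m, φ (x + lat m) = φ x) (z : R3) :
    ∫⁻ x in cell, φ (x + z) = ∫⁻ x in cell, φ x := by
  exact TorusB.cell_shift φ hφ hp z

theorem lint_ball_le_cell (φ : R3 → ℝ≥0∞) (hφ : Measurable φ)
    (hp : ∀ x m, φ (x + lat m) = φ x) (c : R3) (ϱ : ℝ) (hϱ : 0 ≤ ϱ) :
    ∫⁻ x in {x : R3 | ‖x - c‖ ≤ ϱ}, φ x ≤ ENNReal.ofReal ((2 * ϱ + 2) ^ 3) * ∫⁻ x in cell, φ x := by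
  have hS : MeasurableSet {x : R3 | ‖x - c‖ ≤ ϱ} :=
    measurableSet_le (measurable_id.sub_const c).norm measurable_const
  rw [TorusB.unfold_set hS φ hφ hp, ← lintegral_const_mul _ hφ]
  refine lintegral_mono fun x => mul_le_mul_left ?_ _
  rw [tsum_eq_sum (s := img ϱ (c - x)) fun m hm => indicator_of_notMem (fun h => hm (mem_img (by
    rw [← norm_neg, neg_sub, ← sub_add, sub_add_eq_add_sub, add_comm]
    exact h))) _]
  refine le_trans (Finset.sum_le_card_nsmul _ _ (1 : ℝ≥0∞) fun m _ => ?_) ?_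
  · exact indicator_apply_le' (fun _ => le_rfl) fun _ => zero_le
  rw [nsmul_eq_mul, mul_one, ← ENNReal.ofReal_natCast]
  exact ENNReal.ofReal_le_ofReal ((card_img_le hϱ _).trans
    (pow_le_pow_left₀ (by positivity) (by linarith) 3))

/-- the change of variables `ζ ↦ x - τ ζ` -/
theorem lint_affine (φ : R3 → ℝ≥0∞) (hφ : Measurable φ) (x : R3) (τ : ℝ) (hτ : 0 < τ) :
    ∫⁻ ζ, φ (x - τ • ζ) = ENNReal.ofReal ((τ ^ 3)⁻¹) * ∫⁻ z, φ z :=
  TA.lint_affine φ hφ x τ hτ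

theorem lint_vel_change (φ : R3 → ℝ≥0∞) (hφ : Measurable φ)
    (hp : ∀ x m, φ (x + lat m) = φ x) (x : R3) (τ : ℝ) (hτ : 0 < τ) (R : ℝ) (hR : 0 ≤ R) :
    ∫⁻ ζ in {ζ : R3 | ‖ζ‖ ≤ R}, φ (x - τ • ζ) ≤
      ENNReal.ofReal ((τ ^ 3)⁻¹ * (2 * τ * R + 2) ^ 3) * ∫⁻ x in cell, φ x := by
  have hS : MeasurableSet {z : R3 | ‖z - x‖ ≤ τ * R} :=
    measurableSet_le (measurable_id.sub_const x).norm measurable_const
  have hS' : MeasurableSet {ζ : R3 | ‖ζ‖ ≤ R} := measurableSet_le measurable_norm measurable_const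
  have h1 : ∫⁻ ζ in {ζ : R3 | ‖ζ‖ ≤ R}, φ (x - τ • ζ) =
      ∫⁻ ζ, {z : R3 | ‖z - x‖ ≤ τ * R}.indicator φ (x - τ • ζ) := by
    rw [← lintegral_indicator hS']
    refine lintegral_congr fun ζ => ?_
    have h2 : x - τ • ζ ∈ {z : R3 | ‖z - x‖ ≤ τ * R} ↔ ζ ∈ {ζ : R3 | ‖ζ‖ ≤ R} := by
      rw [mem_ofPred_eq, mem_ofPred_eq, sub_sub_cancel_left, norm_neg, norm_smul,
        Real.norm_of_nonneg hτ.le, mul_le_mul_iff_right₀ hτ]
    by_cases hζ : ζ ∈ {ζ : R3 | ‖ζ‖ ≤ R}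
    · rw [indicator_of_mem hζ, indicator_of_mem (h2.2 hζ)]
    · rw [indicator_of_notMem hζ, indicator_of_notMem (mt h2.1 hζ)]
  rw [h1, lint_affine _ (hφ.indicator hS) x τ hτ, lintegral_indicator hS,
    ENNReal.ofReal_mul (by positivity), mul_assoc, mul_assoc 2 τ R]
  exact mul_le_mul_right (lint_ball_le_cell φ hφ hp x (τ * R) (by positivity)) _

theorem lint_cell_red (φ : R3 → ℝ≥0∞) (hφ : Measurable φ) :
    ∫⁻ x in cell, φ (red x) ≤ ∫⁻ x in {x : R3 | ‖x‖ ≤ 1}, φ x := by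
  have hS : MeasurableSet {x : R3 | red x = x} := measurableSet_eq_fun measurable_red measurable_id
  have h1 : ∫⁻ x in {x : R3 | red x = x}, φ (red x) = ∫⁻ x in {x : R3 | red x = x}, φ x :=
    setLIntegral_congr_fun hS fun x hx => congrArg φ hx
  have h2 : {x : R3 | red x = x} ⊆ {x : R3 | ‖x‖ ≤ 1} := fun x hx => by
    have h3 : ‖red x‖ ≤ 1 := tn_le_one x
    rwa [show red x = x from hx] at h3
  refine le_trans ?_ (h1.trans_le (lintegral_mono_set h2))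
  rw [TorusB.unfold_set hS (fun x => φ (red x)) (hφ.comp measurable_red)
    fun x m => congrArg φ (red_add_lat x m)]
  refine lintegral_mono fun x => le_mul_of_one_le_left zero_le ?_
  obtain ⟨m, hm⟩ := exists_red_eq x
  refine le_trans ?_ (ENNReal.le_tsum (-m))
  have h3 : x + lat (-m) ∈ {x : R3 | red x = x} := by
    rw [mem_ofPred_eq, red_add_lat, hm, lat_neg, sub_eq_add_neg]
  rw [indicator_of_mem h3, Pi.one_apply]

/-- a periodic function vanishing a.e. on the period region vanishes a.e. -/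
theorem lint_eq_zero_of_per (Φ : PF) (hΦ : Measurable Φ) (hp : Per Φ)
    (h : ∫⁻ p in region, Φ p = 0) : ∫⁻ p in Ioi (0 : ℝ) ×ˢ (univ : Set (R3 × R3)), Φ p = 0 := by
  exact TorusB.eq_zero_of_per Φ hΦ hp h

/-- shifting along characteristics preserves integrals over a period -/
theorem lint_cell_ch (Φ : PF) (hΦ : Measurable Φ) (hp : Per Φ) (t : ℝ) :
    ∫⁻ q in cell ×ˢ (univ : Set R3), Φ (ch q t) = ∫⁻ q in cell ×ˢ (univ : Set R3), Φ (t, q.1, q.2) := by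
  exact TorusB.cell_ch Φ hΦ hp t

theorem lint_strip_ch (Φ : PF) (hΦ : Measurable Φ) (hp : Per Φ) (a b : ℝ) :
    ∫⁻ q in cell ×ˢ (univ : Set R3), ∫⁻ s in Ioo a b, Φ (ch q s) =
      ∫⁻ p in Ioo a b ×ˢ (cell ×ˢ (univ : Set R3)), Φ p := by
  exact TorusB.strip_ch Φ hΦ hp a b

theorem fl_fl (p : Ph) (s τ : ℝ) : fl (fl p s) τ = fl p τ :=
  TA.fl_fl p s τ

theorem fl_self (p : Ph) : fl p p.1 = p :=
  TA.fl_self p

theorem fl_ch (q : R3 × R3) (t s : ℝ) : fl (ch q t) s = ch q s :=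
  TA.fl_ch q t s

theorem measurable_fl : Measurable (fun x : Ph × ℝ => fl x.1 x.2) :=
  TA.measurable_fl

theorem measurable_ch : Measurable (fun x : (R3 × R3) × ℝ => ch x.1 x.2) :=
  TA.measurable_ch

/-- Tonelli along forward flights on the whole space: births at `q` observed at later times. -/
theorem lint_Ia_mul (a : ℝ) (f φ : PF) (hf : Measurable f) (hφ : Measurable φ) :
    ∫⁻ p, Ia a f p * φ p =
      ∫⁻ q in Ioi a ×ˢ (univ : Set (R3 × R3)), f q * ∫⁻ t in Ioi q.1, φ (fl q t) :=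
  TA.lint_Ia_mul a f φ hf hφ

end
end Crest.Agent.R68
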