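import Crest.Agent.R68.Med
import Crest.Agent.R68.Torus

/-! # Row 68: flight lemmas, part 2 (auxiliary file) -/

set_option autoImplicit false
open MeasureTheory Set Filter Topology
open scoped ENNReal NNReal
open Crest.AnalysisR.VecCalc3 Crest.AnalysisR.PDE.Boltzmann

namespace Crest.Agent.R68
namespace FlightB
noncomputable section

/-- the elementary inequality behind all flight estimates (`t = τ⁴`, `s = σ⁴`) -/
theorem core {σ τ a b w : ℝ} (hσ : 0 ≤ σ) (hστ : σ ≤ τ) (hτ : 0 < τ) (ha : 0 ≤ a) (hw : 0 ≤ w)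
    (hb : b ≤ a + (τ ^ 4 - σ ^ 4) * w) :
    σ ^ 3 + b ≤ (τ ^ 3 + a) *
      Real.exp (16 * (τ ^ 2 - σ ^ 2) * w ^ 2 - (τ ^ 4 - σ ^ 4) / (4 * τ * (τ ^ 3 + a))) := by
  set L := τ ^ 3 + a with hL
  set d := τ ^ 4 - σ ^ 4 with hd
  have hτ3 : 0 < τ ^ 3 := by positivity
  have hLpos : 0 < L := by positivity
  have hd0 : 0 ≤ d := sub_nonneg.2 (pow_le_pow_left₀ hσ hστ 4)
  have he0 : 0 ≤ τ ^ 2 - σ ^ 2 := sub_nonneg.2 (pow_le_pow_left₀ hσ hστ 2)
  refine le_trans ?_ (mul_le_mul_of_nonneg_left (Real.add_one_le_exp _) hLpos.le)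
  have h1 : L * (16 * (τ ^ 2 - σ ^ 2) * w ^ 2 - d / (4 * τ * L) + 1) =
      L + L * (16 * (τ ^ 2 - σ ^ 2) * w ^ 2) - d / (4 * τ) := by
    field_simp
    ring
  rw [h1]
  have h2 : τ ^ 3 * (16 * (τ ^ 2 - σ ^ 2) * w ^ 2) ≤ L * (16 * (τ ^ 2 - σ ^ 2) * w ^ 2) :=
    mul_le_mul_of_nonneg_right (by linarith) (by positivity)
  have h3 : σ ^ 3 + d * w + d / (4 * τ) ≤ τ ^ 3 + τ ^ 3 * (16 * (τ ^ 2 - σ ^ 2) * w ^ 2) := by
    have h4 : 3 / 4 * d ≤ τ ^ 4 - τ * σ ^ 3 := by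
      have : 0 ≤ (τ - σ) ^ 2 * (τ ^ 2 + 2 * τ * σ + 3 * σ ^ 2) := by positivity
      nlinarith
    have h5 : d ≤ 2 * τ ^ 2 * (τ ^ 2 - σ ^ 2) := by
      have : 0 ≤ (τ ^ 2 - σ ^ 2) ^ 2 := sq_nonneg _
      nlinarith
    have h6 : 8 * τ ^ 2 * w ^ 2 * d ≤ 8 * τ ^ 2 * w ^ 2 * (2 * τ ^ 2 * (τ ^ 2 - σ ^ 2)) :=
      mul_le_mul_of_nonneg_left h5 (by positivity)
    have h7 : d * (τ * w) ≤ d * (1 / 2 + 8 * (τ * w) ^ 2) :=
      mul_le_mul_of_nonneg_left (by nlinarith [sq_nonneg (τ * w - 1 / 16)]) hd0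
    refine le_of_mul_le_mul_left ?_ hτ
    have h8 : τ * (σ ^ 3 + d * w + d / (4 * τ)) = τ * σ ^ 3 + d * (τ * w) + d / 4 := by
      field_simp
    rw [h8]
    nlinarith
  linarith

theorem rpow_q {t : ℝ} (ht : 0 ≤ t) (n : ℕ) : (t ^ (1 / 4 : ℝ)) ^ n = t ^ ((n : ℝ) / 4) := by
  rw [← Real.rpow_natCast, ← Real.rpow_mul ht]
  congr 1
  ring

theorem q4 {t : ℝ} (ht : 0 ≤ t) : (t ^ (1 / 4 : ℝ)) ^ 4 = t := by
  rw [rpow_q ht]; norm_num

theorem q3 {t : ℝ} (ht : 0 ≤ t) : (t ^ (1 / 4 : ℝ)) ^ 3 = t ^ (3 / 4 : ℝ) := by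
  rw [rpow_q ht]; norm_num

theorem q2 {t : ℝ} (ht : 0 ≤ t) : (t ^ (1 / 4 : ℝ)) ^ 2 = √t := by
  rw [rpow_q ht, Real.sqrt_eq_rpow]; norm_num

theorem lst_nonneg' {p : Ph} (h : 0 ≤ p.1) : 0 ≤ lst p :=
  add_nonneg (Real.rpow_nonneg h _) (tn_nonneg _)

theorem lst_pos' {p : Ph} (h : 0 < p.1) : 0 < lst p :=
  add_pos_of_pos_of_nonneg (Real.rpow_pos_of_pos h _) (tn_nonneg _)

/-- pointwise decay along a flight -/
theorem key {K m : ℕ} (hm : m ≤ K) (p : Ph) (ht : 0 < p.1) {s : ℝ} (hs : 0 ≤ s) (hst : s ≤ p.1) :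
    lst (fl p s) ^ m * Real.exp (-(aT K s * ‖p.2.2‖ ^ 2)) ≤
      lst p ^ m * Real.exp (-(aT K p.1 * ‖p.2.2‖ ^ 2)) *
        Real.exp (-(m / (4 * p.1 ^ (1 / 4 : ℝ) * lst p) * (p.1 - s))) := by
  obtain ⟨t, x, v⟩ := p
  simp only at ht hst ⊢
  have hτ : 0 < t ^ (1 / 4 : ℝ) := Real.rpow_pos_of_pos ht _
  have hσ : 0 ≤ s ^ (1 / 4 : ℝ) := Real.rpow_nonneg hs _
  have hστ : s ^ (1 / 4 : ℝ) ≤ t ^ (1 / 4 : ℝ) := Real.rpow_le_rpow hs hst (by norm_num)
  have hb : tn (x - (t - s) • v) ≤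
      tn x + ((t ^ (1 / 4 : ℝ)) ^ 4 - (s ^ (1 / 4 : ℝ)) ^ 4) * ‖v‖ := by
    rw [q4 ht.le, q4 hs, sub_eq_add_neg x]
    refine (tn_add_le _ _).trans (le_of_eq ?_)
    rw [norm_neg, norm_smul, Real.norm_of_nonneg (sub_nonneg.2 hst)]
  have h := core hσ hστ hτ (tn_nonneg x) (norm_nonneg v) hb
  rw [q3 ht.le, q3 hs, q2 ht.le, q2 hs, q4 ht.le, q4 hs] at h
  have hL1 : lst (fl (t, x, v) s) = s ^ (3 / 4 : ℝ) + tn (x - (t - s) • v) := rfl
  have hL2 : lst (t, x, v) = t ^ (3 / 4 : ℝ) + tn x := rfl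
  rw [← hL1, ← hL2] at h
  have h0 : 0 ≤ lst (fl (t, x, v) s) := lst_nonneg' hs
  have hLp : 0 < lst (t, x, v) := lst_pos' ht
  have h1 := pow_le_pow_left₀ h0 h m
  rw [mul_pow, ← Real.exp_nat_mul] at h1
  refine (mul_le_mul_of_nonneg_right h1 (Real.exp_pos _).le).trans ?_
  rw [mul_assoc (lst (t, x, v) ^ m), mul_assoc (lst (t, x, v) ^ m), ← Real.exp_add, ← Real.exp_add]
  refine mul_le_mul_of_nonneg_left (Real.exp_le_exp.2 ?_) (pow_nonneg hLp.le _)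
  have hsq : 0 ≤ √t - √s := sub_nonneg.2 (Real.sqrt_le_sqrt hst)
  have hmK : (m : ℝ) ≤ K := by exact_mod_cast hm
  have h2 : (m : ℝ) * (16 * (√t - √s) * ‖v‖ ^ 2) ≤ K * (16 * (√t - √s) * ‖v‖ ^ 2) :=
    mul_le_mul_of_nonneg_right hmK (by positivity)
  have h3 : (m : ℝ) * ((t - s) / (4 * t ^ (1 / 4 : ℝ) * lst (t, x, v))) =
      m / (4 * t ^ (1 / 4 : ℝ) * lst (t, x, v)) * (t - s) := by ring
  unfold aT
  nlinarith

theorem npw_pos {x : ℝ} (hx : 0 < x) (γ : ℝ) : npw x γ = ENNReal.ofReal (x ^ (-γ)) := by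
  unfold npw
  rw [ENNReal.ofReal_rpow_of_pos hx]

/-- `ℓ⁻¹ lst ≤ s^{-1/4}` -/
theorem inv_ell {q : Ph} (h0 : 0 < q.1) (h1 : q.1 ≤ 1) :
    (ell q) ^ (-1 : ℝ) * lst q ≤ q.1 ^ (-(1 / 4) : ℝ) := by
  have hσ : 0 < q.1 ^ (1 / 4 : ℝ) := Real.rpow_pos_of_pos h0 _
  have hσ1 : q.1 ^ (1 / 4 : ℝ) ≤ 1 := Real.rpow_le_one h0.le h1 (by norm_num)
  have hl : 0 < ell q := add_pos_of_pos_of_nonneg (by positivity) (tn_nonneg _)
  rw [Real.rpow_neg_one, Real.rpow_neg h0.le, inv_mul_le_iff₀ hl, ← div_eq_mul_inv,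
    le_div_iff₀ hσ]
  unfold ell lst
  rw [← q3 h0.le]
  have h4 := q4 h0.le
  set σ := q.1 ^ (1 / 4 : ℝ)
  have := tn_nonneg q.2.1
  nlinarith [mul_le_mul_of_nonneg_left hσ1 this]

/-- pointwise bound of the integrand -/
theorem integrand_le {K k : ℕ} (hk : 1 ≤ k) (hkK : k ≤ K) (p : Ph) (ht : p.1 ≤ 1) {s : ℝ}
    (hs : s ∈ Ioo 0 p.1) :
    npw (ell (fl p s)) 1 * (pw k (lst (fl p s)) * Ga (aT K s) p.2.2) ≤
      ENNReal.ofReal (s ^ (-(1 / 4) : ℝ) *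
        Real.exp (-((k - 1 : ℕ) / (4 * p.1 ^ (1 / 4 : ℝ) * lst p) * (p.1 - s)))) *
      (pw (k - 1) (lst p) * Ga (aT K p.1) p.2.2) := by
  have hp : 0 < p.1 := hs.1.trans hs.2
  have hl : 0 < ell (fl p s) :=
    add_pos_of_pos_of_nonneg (by have := hs.1; simp only [fl]; positivity) (tn_nonneg _)
  have hL : 0 < lst (fl p s) := lst_pos' hs.1
  have hLp : 0 < lst p := lst_pos' hp
  have h1 := key (K := K) (m := k - 1) (by omega) p hp hs.1.le hs.2.le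
  have h2 : (ell (fl p s)) ^ (-1 : ℝ) * lst (fl p s) ≤ s ^ (-(1 / 4) : ℝ) :=
    inv_ell (q := fl p s) hs.1 (hs.2.le.trans ht)
  have hs4 : 0 < s ^ (-(1 / 4) : ℝ) := Real.rpow_pos_of_pos hs.1 _
  rw [npw_pos hl]
  unfold pw Ga
  rw [← ENNReal.ofReal_mul (by positivity), ← ENNReal.ofReal_mul (by positivity),
    ← ENNReal.ofReal_mul (by positivity), ← ENNReal.ofReal_mul (by positivity)]
  refine ENNReal.ofReal_le_ofReal ?_
  have h3 : lst (fl p s) ^ k = lst (fl p s) * lst (fl p s) ^ (k - 1) := by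
    rw [← pow_succ']; congr 1; omega
  calc ell (fl p s) ^ (-1 : ℝ) * (lst (fl p s) ^ k * Real.exp (-(aT K s * ‖p.2.2‖ ^ 2)))
      = (ell (fl p s) ^ (-1 : ℝ) * lst (fl p s)) *
          (lst (fl p s) ^ (k - 1) * Real.exp (-(aT K s * ‖p.2.2‖ ^ 2))) := by rw [h3]; ring
    _ ≤ s ^ (-(1 / 4) : ℝ) * (lst p ^ (k - 1) * Real.exp (-(aT K p.1 * ‖p.2.2‖ ^ 2)) *
        Real.exp (-((k - 1 : ℕ) / (4 * p.1 ^ (1 / 4 : ℝ) * lst p) * (p.1 - s)))) :=
        mul_le_mul h2 h1 (by positivity) hs4.le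
    _ = _ := by ring

theorem lint_rpow {e : ℝ} (he : 0 ≤ e) :
    ∫⁻ s in Ioo 0 e, ENNReal.ofReal (s ^ (-(1 / 4) : ℝ)) = ENNReal.ofReal (4 / 3 * e ^ (3 / 4 : ℝ)) := by
  have hi : IntervalIntegrable (fun s : ℝ => s ^ (-(1 / 4) : ℝ)) volume 0 e :=
    intervalIntegral.intervalIntegrable_rpow' (by norm_num)
  rw [← ofReal_integral_eq_lintegral_ofReal]
  · rw [← integral_Ioc_eq_integral_Ioo, ← intervalIntegral.integral_of_le he,
      integral_rpow (Or.inl (by norm_num)), Real.zero_rpow (by norm_num)]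
    congr 1
    norm_num
    ring
  · exact (intervalIntegrable_iff_integrableOn_Ioo_of_le he).1 hi
  · filter_upwards [ae_restrict_mem measurableSet_Ioo] with s hs
    exact Real.rpow_nonneg hs.1.le _

theorem lint_exp {t l : ℝ} (ht : 0 ≤ t) (hl : 0 < l) :
    ∫⁻ s in Ioo 0 t, ENNReal.ofReal (Real.exp (-(l * (t - s)))) ≤ ENNReal.ofReal (1 / l) := by
  have hc : Continuous fun s : ℝ => Real.exp (-(l * (t - s))) := by fun_prop
  rw [← ofReal_integral_eq_lintegral_ofReal]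
  · refine ENNReal.ofReal_le_ofReal ?_
    rw [← integral_Ioc_eq_integral_Ioo, ← intervalIntegral.integral_of_le ht]
    have hd : ∀ s ∈ uIcc 0 t, HasDerivAt (fun s : ℝ => Real.exp (-(l * (t - s))) / l)
        (Real.exp (-(l * (t - s)))) s := by
      intro s _
      have h1 : HasDerivAt (fun s : ℝ => -(l * (t - s))) l s := by
        have := (((hasDerivAt_id' s).const_sub t).const_mul l).fun_neg
        rwa [mul_neg, neg_neg, mul_one] at this
      have h2 := (h1.exp).div_const l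
      rwa [mul_div_assoc, div_self hl.ne', mul_one] at h2
    rw [intervalIntegral.integral_eq_sub_of_hasDerivAt hd (hc.intervalIntegrable _ _)]
    have : 0 ≤ Real.exp (-(l * (t - 0))) / l := by positivity
    simp only [sub_self, mul_zero, neg_zero, Real.exp_zero]
    linarith
  · exact (intervalIntegrable_iff_integrableOn_Ioo_of_le ht).1 (hc.intervalIntegrable _ _)
  · exact .of_forall fun s => (Real.exp_pos _).le

/-- the damped singular integral -/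
theorem lint_damped {t l : ℝ} (ht : 0 < t) (hl : 0 < l) :
    ∫⁻ s in Ioo 0 t, ENNReal.ofReal (s ^ (-(1 / 4) : ℝ) * Real.exp (-(l * (t - s)))) ≤
      ENNReal.ofReal (5 / (t ^ (1 / 4 : ℝ) * l)) := by
  have hτ : 0 < t ^ (1 / 4 : ℝ) := Real.rpow_pos_of_pos ht _
  have hpt : ∀ s ∈ Ioo 0 t, ENNReal.ofReal (s ^ (-(1 / 4) : ℝ) * Real.exp (-(l * (t - s)))) ≤
      ENNReal.ofReal (2 / t ^ (1 / 4 : ℝ)) * ENNReal.ofReal (Real.exp (-(l * (t - s)))) +
        ENNReal.ofReal (2 / (l * t)) * ENNReal.ofReal (s ^ (-(1 / 4) : ℝ)) := by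
    intro s hs
    have hs4 : 0 < s ^ (-(1 / 4) : ℝ) := Real.rpow_pos_of_pos hs.1 _
    rcases le_total (t / 2) s with h | h
    · refine le_trans ?_ le_self_add
      rw [← ENNReal.ofReal_mul (by positivity)]
      refine ENNReal.ofReal_le_ofReal (mul_le_mul_of_nonneg_right ?_ (Real.exp_pos _).le)
      have hσ : 0 < s ^ (1 / 4 : ℝ) := Real.rpow_pos_of_pos hs.1 _
      rw [Real.rpow_neg hs.1.le, ← one_div, div_le_div_iff₀ hσ hτ, one_mul]
      refine (pow_le_pow_iff_left₀ hτ.le (by positivity) (n := 4) (by norm_num)).1 ?_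
      rw [mul_pow, q4 ht.le, q4 hs.1.le]
      linarith
    · refine le_trans ?_ le_add_self
      rw [← ENNReal.ofReal_mul (by positivity), mul_comm]
      refine ENNReal.ofReal_le_ofReal (mul_le_mul_of_nonneg_right ?_ hs4.le)
      have h1 : l * t / 2 ≤ Real.exp (l * (t - s)) := by
        have := Real.add_one_le_exp (l * (t - s))
        nlinarith
      rw [Real.exp_neg, ← one_div, div_le_div_iff₀ (Real.exp_pos _) (by positivity)]
      linarith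
  refine (setLIntegral_mono' measurableSet_Ioo hpt).trans ?_
  rw [lintegral_add_left (by fun_prop), lintegral_const_mul _ (by fun_prop),
    lintegral_const_mul _ (by fun_prop), lint_rpow ht.le]
  refine (add_le_add_left (mul_le_mul_right (lint_exp ht.le hl) _) _).trans ?_
  rw [← ENNReal.ofReal_mul (by positivity), ← ENNReal.ofReal_mul (by positivity),
    ← ENNReal.ofReal_add (by positivity) (by positivity)]
  refine ENNReal.ofReal_le_ofReal ?_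
  rw [← q3 ht.le]
  have h4 := q4 ht.le
  set τ := t ^ (1 / 4 : ℝ)
  rw [← h4]
  have : 2 / τ * (1 / l) + 2 / (l * τ ^ 4) * (4 / 3 * τ ^ 3) = (14 / 3) / (τ * l) := by
    field_simp
    ring
  rw [this]
  gcongr
  norm_num

theorem flight1 {K k : ℕ} (hk : 2 ≤ k) (hkK : k ≤ K) (p : Ph) (ht : p.1 ∈ Icc (0 : ℝ) 1) :
    ∫⁻ s in Ioo 0 p.1, npw (ell (fl p s)) 1 * (pw k (lst (fl p s)) * Ga (aT K s) p.2.2) ≤
      ENNReal.ofReal (100 / k) * (pw k (lst p) * Ga (aT K p.1) p.2.2) := by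
  rcases ht.1.eq_or_lt with h0 | h0
  · rw [← h0]; simp
  have hτ : 0 < p.1 ^ (1 / 4 : ℝ) := Real.rpow_pos_of_pos h0 _
  have hL : 0 < lst p := lst_pos' h0
  have hk1 : (0 : ℝ) < (k - 1 : ℕ) := by
    have : 0 < k - 1 := by omega
    exact_mod_cast this
  have hk2 : (k : ℝ) ≤ 2 * (k - 1 : ℕ) := by
    have : k ≤ 2 * (k - 1) := by omega
    exact_mod_cast this
  have hk0 : (0 : ℝ) < k := by
    have : 0 < k := by omega
    exact_mod_cast this
  refine (setLIntegral_mono' measurableSet_Ioo fun s hs =>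
    integrand_le (by omega) hkK p ht.2 hs).trans ?_
  rw [lintegral_mul_const _ (by fun_prop)]
  refine (mul_le_mul_left (lint_damped h0 (by positivity)) _).trans ?_
  rw [← mul_assoc, ← mul_assoc]
  refine mul_le_mul_left ?_ _
  unfold pw
  rw [← ENNReal.ofReal_mul (by positivity), ← ENNReal.ofReal_mul (by positivity)]
  refine ENNReal.ofReal_le_ofReal ?_
  have h3 : lst p ^ k = lst p * lst p ^ (k - 1) := by
    rw [← pow_succ']; congr 1; omega
  rw [h3, ← mul_assoc]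
  refine mul_le_mul_of_nonneg_right ?_ (by positivity)
  have h4 : 5 / (p.1 ^ (1 / 4 : ℝ) * (((k - 1 : ℕ) : ℝ) / (4 * p.1 ^ (1 / 4 : ℝ) * lst p))) =
      20 / ((k - 1 : ℕ) : ℝ) * lst p := by
    field_simp
    ring
  rw [h4]
  refine mul_le_mul_of_nonneg_right ?_ hL.le
  rw [div_le_div_iff₀ hk1 hk0]
  linarith

/-- `∫_E s^{-1/4} ≤ 3 |E|^{3/4}` -/
theorem lint_set {t : ℝ} (E : Set ℝ) (hE : MeasurableSet E) (hEt : E ⊆ Ioo 0 t) :
    ∫⁻ s in E, ENNReal.ofReal (s ^ (-(1 / 4) : ℝ)) ≤ 3 * volume E ^ (3 / 4 : ℝ) := by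
  have hfin : volume E ≠ ⊤ := ((measure_mono hEt).trans_lt (by simp)).ne
  by_cases h0 : volume E = 0
  · rw [setLIntegral_measure_zero _ _ h0]; exact zero_le
  set e := (volume E).toReal with he
  have hepos : 0 < e := ENNReal.toReal_pos h0 hfin
  have hE' : volume E = ENNReal.ofReal e := (ENNReal.ofReal_toReal hfin).symm
  have hpt : ∀ s ∈ E, ENNReal.ofReal (s ^ (-(1 / 4) : ℝ)) ≤
      ENNReal.ofReal (e ^ (-(1 / 4) : ℝ)) +
        (Ioo 0 e).indicator (fun s => ENNReal.ofReal (s ^ (-(1 / 4) : ℝ))) s := by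
    intro s hs
    rcases lt_or_ge s e with h | h
    · rw [indicator_of_mem (show s ∈ Ioo 0 e from ⟨(hEt hs).1, h⟩)]
      exact le_add_self
    · exact le_trans (ENNReal.ofReal_le_ofReal
        (Real.rpow_le_rpow_of_nonpos hepos h (by norm_num))) le_self_add
  refine (setLIntegral_mono' hE hpt).trans ?_
  rw [lintegral_add_left measurable_const, setLIntegral_const]
  refine (add_le_add_right (setLIntegral_le_lintegral _ _) _).trans ?_
  rw [lintegral_indicator measurableSet_Ioo, lint_rpow hepos.le, hE',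
    ENNReal.ofReal_rpow_of_pos hepos, ← ENNReal.ofReal_mul (by positivity),
    ← ENNReal.ofReal_add (by positivity) (by positivity), ← ENNReal.ofReal_ofNat 3,
    ← ENNReal.ofReal_mul (by norm_num)]
  refine ENNReal.ofReal_le_ofReal ?_
  have h1 : e ^ (-(1 / 4) : ℝ) * e = e ^ (3 / 4 : ℝ) := by
    rw [← Real.rpow_add_one hepos.ne']; norm_num
  have h2 : 0 < e ^ (3 / 4 : ℝ) := Real.rpow_pos_of_pos hepos _
  rw [h1]
  linarith

theorem flight3 {K k : ℕ} (hk : 1 ≤ k) (hkK : k ≤ K) (p : Ph) (ht : p.1 ∈ Icc (0 : ℝ) 1)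
    (E : Set ℝ) (hE : MeasurableSet E) (hEt : E ⊆ Ioo 0 p.1) :
    ∫⁻ s in E, npw (ell (fl p s)) 1 * (pw k (lst (fl p s)) * Ga (aT K s) p.2.2) ≤
      3 * volume E ^ (3 / 4 : ℝ) * (pw (k - 1) (lst p) * Ga (aT K p.1) p.2.2) := by
  have hpt : ∀ s ∈ E, npw (ell (fl p s)) 1 * (pw k (lst (fl p s)) * Ga (aT K s) p.2.2) ≤
      ENNReal.ofReal (s ^ (-(1 / 4) : ℝ)) * (pw (k - 1) (lst p) * Ga (aT K p.1) p.2.2) := by
    intro s hs
    have hs' := hEt hs
    have hp : 0 < p.1 := hs'.1.trans hs'.2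
    have hτ : 0 < p.1 ^ (1 / 4 : ℝ) := Real.rpow_pos_of_pos hp _
    have hL : 0 < lst p := lst_pos' hp
    have hd : 0 ≤ p.1 - s := sub_nonneg.2 hs'.2.le
    refine (integrand_le hk hkK p ht.2 hs').trans (mul_le_mul_left (ENNReal.ofReal_le_ofReal ?_) _)
    refine mul_le_of_le_one_right (Real.rpow_nonneg hs'.1.le _) (Real.exp_le_one_iff.2 ?_)
    rw [neg_nonpos]
    positivity
  refine (setLIntegral_mono' hE hpt).trans ?_
  rw [lintegral_mul_const _ (by fun_prop)]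
  exact mul_le_mul_left (lint_set E hE hEt) _

/-- `flight1` with the normalised amplitude -/
theorem flight1' {K : ℕ} (hK : 2 ≤ K) {δ : ℝ} (hδ : 0 < δ) (p : Ph) (ht : p.1 ∈ Icc (0 : ℝ) 1) :
    ∫⁻ s in Ioo 0 p.1,
        npw (ell (fl p s)) 1 * (ENNReal.ofReal ((lst (fl p s) / δ) ^ K) * Ga (aT K s) p.2.2) ≤
      ENNReal.ofReal (100 / K) * (ENNReal.ofReal ((lst p / δ) ^ K) * Ga (aT K p.1) p.2.2) := by
  have h1 : ∀ u : ℝ, ENNReal.ofReal ((u / δ) ^ K) = ENNReal.ofReal ((δ ^ K)⁻¹) * pw K u := by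
    intro u
    unfold pw
    rw [← ENNReal.ofReal_mul (by positivity), div_pow, div_eq_inv_mul]
  simp only [h1]
  have h2 : ∀ a b c d : ℝ≥0∞, a * (b * c * d) = b * (a * (c * d)) := fun a b c d => by ring
  simp only [h2]
  rw [lintegral_const_mul' _ _ ENNReal.ofReal_ne_top]
  exact mul_le_mul_right (flight1 hK le_rfl p ht) _

theorem Ga_mono (K : ℕ) {s t : ℝ} (h : s ≤ t) (v : R3) : Ga (aT K s) v ≤ Ga (aT K t) v := by
  unfold Ga aT
  refine ENNReal.ofReal_le_ofReal (Real.exp_le_exp.2 (neg_le_neg ?_))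
  refine mul_le_mul_of_nonneg_right ?_ (by positivity)
  have := Real.sqrt_le_sqrt h
  have hK : (0 : ℝ) ≤ K := Nat.cast_nonneg _
  nlinarith

theorem continuous_lst_fl (p : Ph) : Continuous fun s => lst (fl p s) := by
  unfold lst fl
  refine (Real.continuous_rpow_const (by norm_num)).add (continuous_tn.comp ?_)
  fun_prop

theorem flight4 {K : ℕ} (hK : 2 ≤ K) {δ : ℝ} (hδ : 0 < δ) (p : Ph) (ht : p.1 ∈ Icc (0 : ℝ) 1) :
    ∫⁻ s in Ioo 0 p.1, (if lst (fl p s) ≤ δ then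
        npw (ell (fl p s)) 1 * (ENNReal.ofReal ((lst (fl p s) / δ) ^ K) * Ga (aT K s) p.2.2) else 0) ≤
      ENNReal.ofReal (100 / K) * (ENNReal.ofReal (min (lst p / δ) 1 ^ K) * Ga (aT K p.1) p.2.2) := by
  rcases le_total (lst p / δ) 1 with h | h
  · rw [min_eq_left h]
    refine le_trans (lintegral_mono fun s => ?_) (flight1' hK hδ p ht)
    split_ifs
    · exact le_rfl
    · exact zero_le
  rw [min_eq_right h]
  set S : Set ℝ := Icc 0 p.1 ∩ {s | lst (fl p s) ≤ δ} with hS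
  have hSc : IsCompact S :=
    isCompact_Icc.inter_right (isClosed_le (continuous_lst_fl p) continuous_const)
  rcases S.eq_empty_or_nonempty with hne | hne
  · rw [setLIntegral_congr_fun measurableSet_Ioo (g := fun _ => 0)]
    · simp
    · intro s hs
      refine if_neg fun h' => ?_
      have : s ∈ S := ⟨Ioo_subset_Icc_self hs, h'⟩
      rw [hne] at this
      exact this
  obtain ⟨t', ht', hmax⟩ := hSc.exists_isGreatest hne
  have h1 := flight1' hK hδ (fl p t') ⟨ht'.1.1, ht'.1.2.trans ht.2⟩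
  simp only [fl_fl] at h1
  have e1 : (fl p t').1 = t' := rfl
  have e2 : (fl p t').2.2 = p.2.2 := rfl
  rw [e1, e2, ← setLIntegral_congr Ioo_ae_eq_Ioc.symm] at h1
  calc _ ≤ ∫⁻ s in Ioo 0 p.1, (Ioc 0 t').indicator (fun s => npw (ell (fl p s)) 1 *
        (ENNReal.ofReal ((lst (fl p s) / δ) ^ K) * Ga (aT K s) p.2.2)) s := by
        refine setLIntegral_mono' measurableSet_Ioo fun s hs => ?_
        split_ifs with h'
        · rw [indicator_of_mem (show s ∈ Ioc 0 t' from ⟨hs.1, hmax ⟨Ioo_subset_Icc_self hs, h'⟩⟩)]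
        · exact zero_le
    _ ≤ _ := setLIntegral_le_lintegral _ _
    _ = _ := lintegral_indicator measurableSet_Ioc _
    _ ≤ _ := h1
    _ ≤ _ := by
        refine mul_le_mul_right (mul_le_mul' (ENNReal.ofReal_le_ofReal ?_) (Ga_mono K ht'.1.2 _)) _
        exact pow_le_pow_left₀ (div_nonneg (lst_nonneg' ht'.1.1) hδ.le) ((div_le_one hδ).2 ht'.2) _

end
end FlightB
end Crest.Agent.R68
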