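import Crest.Agent.R68.Med
import Crest.Agent.R68.Torus

/-! # Row 68: the frame, the Diophantine property, basic parameter inequalities -/

set_option autoImplicit false
open MeasureTheory Set Filter Topology
open scoped ENNReal NNReal
open Crest.AnalysisR.VecCalc3 Crest.AnalysisR.PDE.Boltzmann

namespace Crest.Agent.R68
noncomputable section

namespace FrameAux

theorem norm_dir {p : R3} (hp : p ≠ 0) : ‖dir p‖ = 1 := by
  rw [dir, norm_smul, norm_inv, norm_norm, inv_mul_cancel₀ (norm_ne_zero_iff.2 hp)]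

theorem vn_ne : (WithLp.toLp 2 ![1, al, al ^ 2] : R3) ≠ 0 := fun h => by
  simpa using congrArg (fun x : R3 => x 0) h

theorem ve_ne : (WithLp.toLp 2 ![al, -1, 0] : R3) ≠ 0 := fun h => by
  simpa using congrArg (fun x : R3 => x 1) h

theorem al_pos : 0 < al := Real.rpow_pos_of_pos two_pos _

theorem al_cube : al ^ 3 = 2 := by
  rw [al, ← Real.rpow_natCast, ← Real.rpow_mul zero_le_two]
  norm_num

theorem al_le : al ≤ 2 :=
  le_of_pow_le_pow_left₀ three_ne_zero zero_le_two (by rw [al_cube]; norm_num)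

theorem one_le_al : 1 ≤ al :=
  le_of_pow_le_pow_left₀ three_ne_zero al_pos.le (by rw [al_cube]; norm_num)

theorem step {a b c : ℤ} (h : a ^ 3 + 2 * b ^ 3 + 4 * c ^ 3 - 6 * a * b * c = 0) :
    ∃ a', a = 2 * a' ∧ b ^ 3 + 2 * c ^ 3 + 4 * a' ^ 3 - 6 * b * c * a' = 0 := by
  have h1 : (2 : ℤ) ∣ a ^ 3 := ⟨3 * a * b * c - b ^ 3 - 2 * c ^ 3, by linarith⟩
  obtain ⟨a', rfl⟩ := Int.prime_two.dvd_of_dvd_pow h1
  exact ⟨a', rfl, by linarith⟩

theorem descent (n : ℕ) : ∀ a b c : ℤ, a.natAbs + b.natAbs + c.natAbs ≤ n →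
    a ^ 3 + 2 * b ^ 3 + 4 * c ^ 3 - 6 * a * b * c = 0 → a = 0 ∧ b = 0 ∧ c = 0 := by
  induction n with
  | zero => intro a b c h _; omega
  | succ n ih =>
    intro a b c h h0
    obtain ⟨a', rfl, h1⟩ := step h0
    obtain ⟨b', rfl, h2⟩ := step h1
    obtain ⟨c', rfl, h3⟩ := step h2
    have := ih a' b' c' (by omega) h3
    omega

theorem ev_le {f : ℝ → ℝ} (hf : Continuous f) {c : ℝ} (h : f 0 < c) :
    ∀ᶠ x in 𝓝[>] (0 : ℝ), f x ≤ c :=
  ((hf.tendsto 0).eventually_le_const h).filter_mono nhdsWithin_le_nhds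

theorem ev_pos : ∀ᶠ x in 𝓝[>] (0 : ℝ), 0 < x := self_mem_nhdsWithin

end FrameAux

open FrameAux

theorem norm_nn : ‖nn‖ = 1 := norm_dir vn_ne

theorem norm_ee : ‖ee‖ = 1 := norm_dir ve_ne

theorem inner_nn_ee : inner ℝ nn ee = (0 : ℝ) := by
  rw [nn, ee, dir, dir, real_inner_smul_left, real_inner_smul_right]
  simp [PiLp.inner_apply, Fin.sum_univ_three]

/-- With `α³ = 2`: `(a + bα + cα²) · q = a³ + 2b³ + 4c³ - 6abc`, where
`q = a² + α²b² + α⁴c² - αab - α²ac - 2bc` (so `|q| ≤ 12 ‖m‖²`); the integer on the right is nonzero unless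
`a = b = c = 0` (infinite descent modulo `2`). -/
theorem dioph : ∃ c : ℝ, 0 < c ∧ ∀ m : Fin 3 → ℤ, m ≠ 0 → c ≤ |x1 (lat m)| * ‖lat m‖ ^ 2 := by
  have hv := norm_pos_iff.2 vn_ne
  refine ⟨‖(WithLp.toLp 2 ![1, al, al ^ 2] : R3)‖⁻¹ * (1 / 32), by positivity, fun m hm => ?_⟩
  have h1 : x1 (lat m) = ‖(WithLp.toLp 2 ![1, al, al ^ 2] : R3)‖⁻¹ *
      (m 0 + m 1 * al + m 2 * al ^ 2) := by
    rw [x1, nn, dir, real_inner_smul_left]
    simp [PiLp.inner_apply, Fin.sum_univ_three, lat]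
  have h2 : ‖lat m‖ ^ 2 = (m 0 : ℝ) ^ 2 + (m 1 : ℝ) ^ 2 + (m 2 : ℝ) ^ 2 := by
    rw [EuclideanSpace.real_norm_sq_eq, Fin.sum_univ_three]
    rfl
  have h3 : m 0 ^ 3 + 2 * m 1 ^ 3 + 4 * m 2 ^ 3 - 6 * m 0 * m 1 * m 2 ≠ 0 := fun h => by
    obtain ⟨e0, e1, e2⟩ := descent _ _ _ _ le_rfl h
    refine hm (funext fun i => ?_)
    fin_cases i
    exacts [e0, e1, e2]
  have h4 : (1 : ℝ) ≤ |(m 0 : ℝ) ^ 3 + 2 * (m 1 : ℝ) ^ 3 + 4 * (m 2 : ℝ) ^ 3 -
      6 * (m 0 : ℝ) * m 1 * m 2| := by exact_mod_cast Int.one_le_abs h3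
  rw [h1, h2, abs_mul, abs_of_pos (inv_pos.2 hv), mul_assoc]
  refine mul_le_mul_of_nonneg_left ?_ (inv_pos.2 hv).le
  generalize (m 0 : ℝ) = a at h4 ⊢
  generalize (m 1 : ℝ) = b at h4 ⊢
  generalize (m 2 : ℝ) = c at h4 ⊢
  have e : a ^ 3 + 2 * b ^ 3 + 4 * c ^ 3 - 6 * a * b * c = (a + b * al + c * al ^ 2) *
      (a ^ 2 + (b * al) ^ 2 + (c * al ^ 2) ^ 2 - a * (b * al) - a * (c * al ^ 2) -
        b * al * (c * al ^ 2)) := by
    linear_combination (-b ^ 3 - c ^ 3 * (al ^ 3 + 2) + 3 * a * b * c) * al_cube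
  have h5 : al ^ 2 ≤ 16 := (pow_le_pow_left₀ al_pos.le al_le 2).trans (by norm_num)
  have h6 : (al ^ 2) ^ 2 ≤ 16 :=
    (pow_le_pow_left₀ (by positivity) (pow_le_pow_left₀ al_pos.le al_le 2) 2).trans (by norm_num)
  have h7 : (b * al) ^ 2 ≤ 16 * b ^ 2 := by rw [mul_pow]; nlinarith [sq_nonneg b]
  have h8 : (c * al ^ 2) ^ 2 ≤ 16 * c ^ 2 := by rw [mul_pow]; nlinarith [sq_nonneg c]
  rw [e, abs_mul] at h4
  generalize b * al = y at h4 h7 ⊢
  generalize c * al ^ 2 = z at h4 h8 ⊢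
  have h9 : |a ^ 2 + y ^ 2 + z ^ 2 - a * y - a * z - y * z| ≤ 32 * (a ^ 2 + b ^ 2 + c ^ 2) := by
    rw [abs_le]
    constructor <;>
      nlinarith [sq_nonneg (a - y), sq_nonneg (a - z), sq_nonneg (y - z), sq_nonneg (a + y),
        sq_nonneg (a + z), sq_nonneg (y + z), sq_nonneg a, sq_nonneg b, sq_nonneg c]
  have := h4.trans (mul_le_mul_of_nonneg_left h9 (abs_nonneg _))
  linarith

theorem ev_basic : ∀ᶠ P in parF, P.Basic := by
  have hK : (0 : ℝ) < cH / 10 ^ 4 := by unfold cH; positivity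
  filter_upwards [ev_k2 (eventually_ge_atTop 4000),
    ev_k3 (p := fun k2 k3 => 4 * k2 + 10000 ≤ k3) fun _ => eventually_ge_atTop _,
    ev_cs (p := fun _ k3 cs => 0 < cs ∧ cs ≤ 1 / 100 ∧ 8 ^ (k3 + 20 + 2) * cs ^ 3 ≤ cH / 10 ^ 4)
      fun _ _ => ev_pos.and ((ev_le continuous_id (by norm_num)).and
        (ev_le (by fun_prop) (by simpa using hK))),
    ev_t0 (p := fun _ k3 _ t => 0 < t ∧ t ≤ 1 / 100 ∧ 16 * (k3 : ℝ) * √t ≤ 1 / 16)
      fun _ _ _ _ => ev_pos.and ((ev_le continuous_id (by norm_num)).and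
        (ev_le (by fun_prop) (by simp))),
    ev_d0 (p := fun _ _ _ _ d => 0 < d ∧ d ≤ 1 / 100)
      fun _ _ _ _ _ _ => ev_pos.and (ev_le continuous_id (by norm_num)),
    ev_R (eventually_gt_atTop 2),
    ev_r0 (p := fun P => 0 < P.r0 ∧ cK * P.r0 ≤ 1 / 1000 ∧ 100 * P.r0 ≤ P.cs ∧
        10 * cK * P.r0 ≤ P.d0 ∧ P.r0 ≤ P.t0)
      fun _ _ _ _ _ _ h1 h2 h3 => ev_pos.and ((ev_le (by fun_prop) (by simp)).and
        ((ev_le (by fun_prop) (by simpa using h1)).and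
          ((ev_le (by fun_prop) (by simpa using h3)).and (ev_le continuous_id h2))))]
    with P h1 h2 h3 h4 h5 h6 h7
  exact ⟨h1, h2, h3.1, h3.2.1, h3.2.2, h4.1, h4.2.1, h4.2.2, h5.1, h5.2, h6, h7.1, h7.2.1, h7.2.2.1,
    h7.2.2.2.1, h7.2.2.2.2⟩

theorem x1_add (x y : R3) : x1 (x + y) = x1 x + x1 y := inner_add_right _ _ _

theorem x1_sub (x y : R3) : x1 (x - y) = x1 x - x1 y := inner_sub_right _ _ _

theorem x1_smul (c : ℝ) (x : R3) : x1 (c • x) = c * x1 x := real_inner_smul_right _ _ _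

theorem abs_x1_le (x : R3) : |x1 x| ≤ ‖x‖ := by
  simpa [norm_nn, x1] using abs_real_inner_le_norm nn x

theorem x1_pr (x : R3) : x1 (pr x) = 0 := by
  have : x1 nn = 1 := by rw [x1, real_inner_self_eq_norm_sq, norm_nn, one_pow]
  rw [pr, x1_sub, x1_smul, this, mul_one, sub_self]

theorem x1_ee : x1 ee = 0 := inner_nn_ee

theorem x1_nn : x1 nn = 1 := by
  rw [x1, real_inner_self_eq_norm_sq, norm_nn, one_pow]

theorem pr_add (x y : R3) : pr (x + y) = pr x + pr y := by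
  simp only [pr, x1_add]
  module

theorem pr_sub (x y : R3) : pr (x - y) = pr x - pr y := by
  simp only [pr, x1_sub]
  module

theorem pr_smul (c : ℝ) (x : R3) : pr (c • x) = c • pr x := by
  simp only [pr, x1_smul]
  module

theorem pr_of_x1_eq_zero {x : R3} (h : x1 x = 0) : pr x = x := by
  rw [pr, h, zero_smul, sub_zero]

theorem FrameAux.norm_sq_eq' (x : R3) : ‖x‖ ^ 2 = x1 x ^ 2 + ‖pr x‖ ^ 2 := by
  rw [pr, norm_sub_sq_real, norm_smul, norm_nn, real_inner_smul_right, real_inner_comm,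
    Real.norm_eq_abs, mul_one, sq_abs, x1]
  ring

theorem norm_pr_le (x : R3) : ‖pr x‖ ≤ ‖x‖ :=
  le_of_pow_le_pow_left₀ two_ne_zero (norm_nonneg _) (by
    rw [norm_sq_eq' x]
    exact le_add_of_nonneg_left (sq_nonneg _))

theorem norm_sq_eq (x : R3) : ‖x‖ ^ 2 = x1 x ^ 2 + ‖pr x‖ ^ 2 := norm_sq_eq' x

theorem norm_le_x1_add_pr (x : R3) : ‖x‖ ≤ |x1 x| + ‖pr x‖ := by
  have := norm_add_le (x1 x • nn) (pr x)
  rwa [norm_smul, norm_nn, mul_one, pr, add_sub_cancel, Real.norm_eq_abs, ← pr] at this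

theorem continuous_x1 : Continuous x1 := continuous_const.inner continuous_id

theorem continuous_pr : Continuous pr := continuous_id.sub (continuous_x1.smul continuous_const)

/-- a unit vector orthogonal to `nn` and to a given vector (dimension three) -/
theorem exists_tangent (X : R3) : ∃ τ : R3, ‖τ‖ = 1 ∧ x1 τ = 0 ∧ inner ℝ τ X = (0 : ℝ) := by
  have h1 : Module.finrank ℝ (Submodule.span ℝ (Set.range ![nn, X])) ≤ 2 :=
    (finrank_range_le_card (R := ℝ) ![nn, X]).trans (Fintype.card_fin 2).le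
  have h2 := Submodule.finrank_add_finrank_orthogonal (Submodule.span ℝ (Set.range ![nn, X]))
  rw [finrank_euclideanSpace_fin] at h2
  obtain ⟨v, hv, h0⟩ := Submodule.exists_mem_ne_zero_of_ne_bot
    (p := (Submodule.span ℝ (Set.range ![nn, X]))ᗮ) fun h => by
      rw [h, finrank_bot] at h2
      omega
  refine ⟨dir v, norm_dir h0, ?_, ?_⟩
  · rw [dir, x1_smul, x1, hv nn (Submodule.subset_span ⟨0, rfl⟩), mul_zero]
  · rw [dir, real_inner_smul_left, real_inner_comm, hv X (Submodule.subset_span ⟨1, rfl⟩), mul_zero]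

theorem sg_sq (b : Bool) : sg b * sg b = 1 := by
  cases b <;> simp [sg]

theorem abs_sg (b : Bool) : |sg b| = 1 := by
  cases b <;> simp [sg]

end
end Crest.Agent.R68
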