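import Crest.Agent.R68.Lanes
import Crest.Agent.R68.Flow

/-! # Row 68: time spent in the core of a stream -/

set_option autoImplicit false
open MeasureTheory Set Filter Topology
open scoped ENNReal NNReal
open Crest.AnalysisR.VecCalc3 Crest.AnalysisR.PDE.Boltzmann

namespace Crest.Agent.R68.GrowthB
noncomputable section

theorem affine (b : Bool) {l a c α d : ℝ} (hl : 0 < l) (hc : c ≠ 0) (hd : 0 ≤ d)
    (h1 : |a + c * α| ≤ 2 * l) (h2 : |a + c * (α + d)| ≤ 2 * l) (h3 : 100 * cθ' * l ≤ |c| * d) :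
    ENNReal.ofReal (d / 40) ≤ volume {τ : ℝ | τ ∈ Icc α (α + d) ∧ 2 * cθ' * l ≤ |a + c * τ| ∧
      laneIn b (a + c * τ)} := by
  have key : ∀ A B : ℝ, |A| ≤ 2 * l → |B| ≤ 2 * l → B - A = |c| * d →
      (∀ τ, a + c * τ ∈ Icc A B → τ ∈ Icc α (α + d)) →
      ENNReal.ofReal (d / 40) ≤ volume {τ : ℝ | τ ∈ Icc α (α + d) ∧ 2 * cθ' * l ≤ |a + c * τ| ∧
        laneIn b (a + c * τ)} := by
    intro A B hA hB hAB h
    have h4 := lane_measure b hl hA hB (hAB ▸ h3)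
    rw [← measure_preimage_add volume a] at h4
    have h5 := mul_le_mul_right h4 (ENNReal.ofReal |c⁻¹|)
    rw [← Real.volume_preimage_mul_left hc, ← ENNReal.ofReal_mul (abs_nonneg _), hAB, abs_inv,
      mul_div_assoc, inv_mul_cancel_left₀ (abs_ne_zero.2 hc)] at h5
    exact h5.trans (measure_mono fun τ hτ => ⟨h τ hτ.1, hτ.2⟩)
  rcases lt_or_gt_of_ne hc with h | h
  · refine key _ _ h2 h1 (by rw [abs_of_neg h]; ring) fun τ hτ => ⟨?_, ?_⟩
    · nlinarith [hτ.2]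
    · nlinarith [hτ.1]
  · refine key _ _ h1 h2 (by rw [abs_of_pos h]; ring) fun τ hτ => ⟨?_, ?_⟩
    · nlinarith [hτ.1]
    · nlinarith [hτ.2]

theorem exists_stream (v : R3) : ∃ b : Bool, jb v / 2 ≤ ‖v - sg b • ee‖ := by
  have key : ∀ b : Bool, sg b * inner ℝ v ee ≤ 0 → jb v / 2 ≤ ‖v - sg b • ee‖ := by
    intro b hb
    have h1 := norm_sub_sq_real v (sg b • ee)
    rw [flow_norm_sg, real_inner_smul_right] at h1
    refine abs_le_of_sq_le_sq' ?_ (norm_nonneg _) |>.2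
    unfold jb
    nlinarith [sq_nonneg (‖v‖ - 1), norm_nonneg v]
  rcases le_total (inner ℝ v ee : ℝ) 0 with h | h
  · exact ⟨true, key true (by simpa [sg] using h)⟩
  · exact ⟨false, key false (by simpa [sg] using h)⟩

theorem norm_le_MM (b : Bool) {t : ℝ} (ht : 0 ≤ t) (x : R3) :
    ‖x - t • sg b • ee‖ ≤ 2 * MM b t x := by
  have h1 := norm_le_x1_add_pr (x - t • sg b • ee)
  rw [x1_sub, x1_smul, x1_smul, x1_ee, mul_zero, mul_zero, sub_zero, pr_sub, pr_smul, pr_smul,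
    pr_of_x1_eq_zero x1_ee, smul_smul, mul_comm t] at h1
  have h2 := flow_XX_le b t x
  have h3 := flow_x1_le b t x
  have h4 := mul_nonneg flow_ca_pos.le ht
  unfold XX at h2
  rw [smul_smul, mul_comm t]
  linarith

theorem core (s : ℝ) (x v : R3) (hs : 0 < s) (hg : good v) {l Δ : ℝ} (hl : l = 8 * s + ‖x‖)
    (hΔ : Δ * jb v = l / 10 ^ 6) : ∃ b : Bool,
    (∀ τ x, jb v / 4 ≤ ‖v - uu b τ x‖) ∧
    ENNReal.ofReal (Δ / 110) ≤ volume {τ : ℝ | τ ∈ Ioo s (s + Δ) ∧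
      cθ' * (2 * l) ≤ |x1 (x - (s - τ) • v)| ∧ laneIn b (x1 (x - (s - τ) • v)) ∧
        2 * ca * τ ≤ MM b τ (x - (s - τ) • v)} := by
  obtain ⟨b, hb⟩ := exists_stream v
  have hx := norm_nonneg x
  have hv := norm_nonneg v
  have hJ : jb v = 1 + ‖v‖ := rfl
  have hl0 : 0 < l := by linarith
  have hΔ0 : 0 < Δ := (mul_pos_iff_of_pos_right (show 0 < jb v by linarith)).1 (by rw [hΔ]; positivity)
  have ha : ca = 1 / 10 ^ 8 := rfl
  have hΔ1 : Δ + Δ * ‖v‖ = l / 10 ^ 6 := by rw [← hΔ, hJ]; ring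
  have hΔ2 := mul_nonneg hΔ0.le hv
  refine ⟨b, fun τ y => ?_, ?_⟩
  · have h1 := norm_uu_sub_le b τ y
    have h2 := norm_sub_le_norm_sub_add_norm_sub v (uu b τ y) (sg b • ee)
    rw [ha] at h1
    linarith
  have hg' : cθ * jb v ≤ |x1 v| := hg
  have hc : x1 v ≠ 0 := by
    refine abs_pos.1 (lt_of_lt_of_le (mul_pos ?_ (by linarith)) hg')
    unfold cθ
    positivity
  have e : ∀ τ, x1 (x - (s - τ) • v) = (x1 x - s * x1 v) + x1 v * τ := fun τ => by
    rw [x1_sub, x1_smul]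
    ring
  have hb2 : ∀ τ ∈ Icc s (s + Δ), |(x1 x - s * x1 v) + x1 v * τ| ≤ 2 * l := by
    intro τ hτ
    rw [← e]
    refine (abs_x1_le _).trans ((norm_sub_le _ _).trans ?_)
    rw [norm_smul, Real.norm_of_nonpos (by linarith [hτ.1])]
    have := mul_le_mul_of_nonneg_right (show -(s - τ) ≤ Δ by linarith [hτ.2]) hv
    linarith
  have key : ∀ α, s < α → α + 37 / 100 * Δ < s + Δ → (∀ τ ∈ Icc α (α + 37 / 100 * Δ),
      ca * l ≤ ‖x - (s - τ) • v - τ • sg b • ee‖) →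
      ENNReal.ofReal (Δ / 110) ≤ volume {τ : ℝ | τ ∈ Ioo s (s + Δ) ∧
        cθ' * (2 * l) ≤ |x1 (x - (s - τ) • v)| ∧ laneIn b (x1 (x - (s - τ) • v)) ∧
          2 * ca * τ ≤ MM b τ (x - (s - τ) • v)} := by
    intro α h1 h2 h3
    have h4 := affine b (a := x1 x - s * x1 v) (α := α) (d := 37 / 100 * Δ) hl0 hc (by positivity)
      (hb2 _ ⟨h1.le, by linarith⟩) (hb2 _ ⟨by linarith, h2.le⟩) (by
        have h5 := mul_le_mul_of_nonneg_right hg' hΔ0.le
        rw [mul_assoc, mul_comm (jb v), hΔ] at h5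
        unfold cθ at h5
        unfold cθ'
        linarith)
    refine le_trans (ENNReal.ofReal_le_ofReal (by linarith)) (h4.trans (measure_mono fun τ hτ => ?_))
    obtain ⟨h5, h6, h7⟩ := hτ
    refine ⟨⟨by linarith [h5.1], by linarith [h5.2]⟩, by rw [e]; linarith, by rwa [e], ?_⟩
    have h8 := (h3 τ h5).trans (norm_le_MM b (by linarith [h5.1]) _)
    rw [ha] at h8 ⊢
    linarith [h5.2]
  by_cases h : ∀ τ ∈ Icc (s + Δ / 200) (s + Δ / 200 + 37 / 100 * Δ),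
      ca * l ≤ ‖x - (s - τ) • v - τ • sg b • ee‖
  · exact key _ (by linarith) (by linarith) h
  push Not at h
  obtain ⟨τ₁, h1, h2⟩ := h
  refine key (s + 5 / 8 * Δ) (by linarith) (by linarith) fun τ hτ => ?_
  have h3 : x - (s - τ) • v - τ • sg b • ee - (x - (s - τ₁) • v - τ₁ • sg b • ee) =
      (τ - τ₁) • (v - sg b • ee) := by module
  have h4 := norm_sub_le (x - (s - τ) • v - τ • sg b • ee) (x - (s - τ₁) • v - τ₁ • sg b • ee)
  have h5 : Δ / 4 ≤ τ - τ₁ := by linarith [hτ.1, h1.2]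
  rw [h3, norm_smul, Real.norm_of_nonneg (by linarith)] at h4
  have h6 := mul_le_mul h5 hb (by linarith) (by linarith)
  rw [ha] at h2 ⊢
  linarith

end
end Crest.Agent.R68.GrowthB
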