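import Crest.Agent.R68.Base
import Crest.Agent.R68.GrowthAuxB

/-! # Row 68: growth of the good births -/

set_option autoImplicit false
open MeasureTheory Set Filter Topology
open scoped ENNReal NNReal
open Crest.AnalysisR.VecCalc3 Crest.AnalysisR.PDE.Boltzmann

namespace Crest.Agent.R68
noncomputable section

/-- (G1) With `g = η - ζ`: `η' = η - ⟪g,w⟫ w`, `‖η'‖ ≤ 2 + ‖g‖`; if `η'` is not good then
`|⟪g,w⟫| |x1 w| < cθ (3 + ‖g‖) + cθ ≤ 5 cθ ‖g‖/cd`, so `|⟪ĝ,w⟫| ≤ s` or `|x1 w| ≤ s` with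
`s = √(5 cθ/cd) ≤ 1/1000`; `sphere_band` twice, `ab_le`, `lint_abs_inner`, `one_le_cz`. -/
theorem good_offspring (η ζ : R3) (h1 : ‖η‖ ≤ 2) (h2 : |x1 η| ≤ cθ) (h3 : cd ≤ ‖η - ζ‖) :
    19 / 20 * (cz * ENNReal.ofReal ‖η - ζ‖) ≤
      ∫⁻ w, ab η ζ w * {v | good v}.indicator 1 (postVel η ζ w) ∂sphereMeasure := by
  have hG : 0 < ‖η - ζ‖ := lt_of_lt_of_le (by unfold cd; positivity) h3
  set B : Set R3 := {w | |inner ℝ (‖η - ζ‖⁻¹ • (η - ζ)) w| ≤ (1 / 1000 : ℝ)} ∪
    {w | |inner ℝ nn w| ≤ (1 / 1000 : ℝ)} with hB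
  have hBm : MeasurableSet B :=
    (measurableSet_le (by fun_prop) measurable_const).union
      (measurableSet_le (by fun_prop) measurable_const)
  have hμ : sphereMeasure B ≤ 1 / 20 := by
    refine (measure_union_le _ _).trans ((add_le_add
      (sphere_band _ (norm_smul_inv_norm (norm_pos_iff.1 hG)) _ (by norm_num))
      (sphere_band _ norm_nn _ (by norm_num))).trans ?_)
    rw [← ENNReal.ofReal_add (by norm_num) (by norm_num), ← ENNReal.ofReal_one,
      ← ENNReal.ofReal_ofNat, ← ENNReal.ofReal_div_of_pos (by norm_num)]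
    exact ENNReal.ofReal_le_ofReal (by norm_num)
  have key : ∀ᵐ w ∂sphereMeasure, ENNReal.ofReal |inner ℝ (η - ζ) w| ≤
      B.indicator (fun _ => ENNReal.ofReal ‖η - ζ‖) w +
        ab η ζ w * {v | good v}.indicator 1 (postVel η ζ w) := by
    filter_upwards [ae_norm_one] with w hw
    by_cases hg : good (postVel η ζ w)
    · rw [indicator_of_mem (show postVel η ζ w ∈ {v | good v} from hg), Pi.one_apply, mul_one]
      exact le_add_self
    refine le_trans ?_ le_self_add
    by_cases hw' : w ∈ B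
    · rw [indicator_of_mem hw']
      exact ab_le η ζ w hw
    exfalso
    simp only [hB, mem_union, mem_ofPred_eq, not_or, not_le, real_inner_smul_left, abs_mul,
      abs_inv, abs_norm] at hw'
    obtain ⟨a1, a2⟩ := hw'
    rw [inv_mul_eq_div, lt_div_iff₀ hG] at a1
    have a3 : |inner ℝ (η - ζ) w| ≤ ‖η - ζ‖ := by
      simpa [hw] using abs_real_inner_le_norm (η - ζ) w
    have a4 : ‖postVel η ζ w‖ ≤ 2 + ‖η - ζ‖ := by
      refine (norm_sub_le _ _).trans ?_
      rw [norm_smul, hw, mul_one, Real.norm_eq_abs]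
      linarith
    have a5 : |inner ℝ (η - ζ) w| * |inner ℝ nn w| ≤ |x1 η| + |x1 (postVel η ζ w)| := by
      rw [← abs_mul]
      refine le_trans (le_of_eq ?_) (abs_sub _ _)
      simp only [x1, postVel, inner_sub_right, real_inner_smul_right, sub_sub_cancel]
    have a6 : 1 / 1000 * ‖η - ζ‖ * (1 / 1000) ≤ |inner ℝ (η - ζ) w| * |inner ℝ nn w| :=
      mul_le_mul a1.le a2.le (by norm_num) (abs_nonneg _)
    unfold good jb at hg
    unfold cθ at hg h2
    unfold cd at h3
    linarith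
  have h4 := lintegral_mono_ae key
  rw [lint_abs_inner, lintegral_add_left (measurable_const.indicator hBm),
    lintegral_indicator_const hBm] at h4
  have h5 : ENNReal.ofReal ‖η - ζ‖ * sphereMeasure B ≤ 1 / 20 * (cz * ENNReal.ofReal ‖η - ζ‖) := by
    rw [mul_comm]
    exact mul_le_mul' hμ (le_mul_of_one_le_left' one_le_cz)
  have h6 : (1 / 20 : ℝ≥0∞) * (cz * ENNReal.ofReal ‖η - ζ‖) ≠ ⊤ :=
    ENNReal.mul_ne_top (by simp) (ENNReal.mul_ne_top (ne_top_of_le_ne_top (by simp) cz_le)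
      ENNReal.ofReal_ne_top)
  refine (ENNReal.add_le_add_iff_left h6).1 (le_trans (le_of_eq ?_) (h4.trans (by gcongr)))
  rw [← add_mul, ← ENNReal.add_div, show (1 + 19 : ℝ≥0∞) = 20 by norm_num,
    ENNReal.div_self (by norm_num) (by simp), one_mul]

/-- `ex (∫ L) ≥ ex (1/50) ex (∫ Lf)` and `lint_L_ex` -/
theorem depth_1d (L Lf Lr : ℝ → ℝ≥0∞) (hf : Measurable Lf) (hr : Measurable Lr) {s t : ℝ}
    (hL : ∀ τ ∈ Ioo s t, L τ ≤ Lf τ + Lr τ) (h1 : ∫⁻ τ in Ioo s t, Lr τ ≤ 1 / 50)
    (h2 : 5 ≤ ∫⁻ τ in Ioo s t, Lf τ) (h3 : ∫⁻ τ in Ioo s t, Lf τ ≠ ⊤) :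
    19 / 20 ≤ ∫⁻ τ in Ioo s t, ex (∫⁻ σ in Ioo s τ, L σ) * Lf τ := by
  have e1 : (1 / 50 : ℝ≥0∞) = ENNReal.ofReal (1 / 50) := by
    rw [ENNReal.ofReal_div_of_pos (by norm_num), ENNReal.ofReal_one, ENNReal.ofReal_ofNat]
  have hE : ENNReal.ofReal (49 / 50) ≤ ex (1 / 50) := by
    rw [e1, ex_ofReal (by norm_num)]
    exact ENNReal.ofReal_le_ofReal (by linarith [Real.add_one_le_exp (-(1 / 50 : ℝ))])
  have hT : ex (∫⁻ τ in Ioo s t, Lf τ) ≤ ENNReal.ofReal (1 / 40) := by
    refine (ex_anti h2).trans ?_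
    rw [← ENNReal.ofReal_ofNat, ex_ofReal (by norm_num)]
    refine ENNReal.ofReal_le_ofReal ?_
    have h4 := Real.quadratic_le_exp_of_nonneg (x := 5 / 2) (by norm_num)
    rw [Real.exp_neg, one_div, show (5 : ℝ) = 5 / 2 + 5 / 2 by norm_num, Real.exp_add]
    exact inv_anti₀ (by norm_num) (by nlinarith)
  have hA : ENNReal.ofReal (39 / 40) ≤ ∫⁻ τ in Ioo s t, Lf τ * ex (∫⁻ σ in Ioo s τ, Lf σ) := by
    refine (ENNReal.add_le_add_iff_right (ENNReal.ofReal_ne_top (r := 1 / 40))).1 ?_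
    rw [← ENNReal.ofReal_add (by norm_num) (by norm_num),
      show (39 / 40 + 1 / 40 : ℝ) = 1 by norm_num, ENNReal.ofReal_one, ← lint_L_ex Lf hf s t h3]
    gcongr
  calc (19 / 20 : ℝ≥0∞) = ENNReal.ofReal (19 / 20) := by
        rw [ENNReal.ofReal_div_of_pos (by norm_num), ENNReal.ofReal_ofNat, ENNReal.ofReal_ofNat]
    _ ≤ ENNReal.ofReal (49 / 50) * ENNReal.ofReal (39 / 40) := by
        rw [← ENNReal.ofReal_mul (by norm_num)]
        exact ENNReal.ofReal_le_ofReal (by norm_num)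
    _ ≤ ex (1 / 50) * ∫⁻ τ in Ioo s t, Lf τ * ex (∫⁻ σ in Ioo s τ, Lf σ) := mul_le_mul' hE hA
    _ = ∫⁻ τ in Ioo s t, ex (1 / 50) * (Lf τ * ex (∫⁻ σ in Ioo s τ, Lf σ)) :=
        (lintegral_const_mul' _ _ (ne_top_of_le_ne_top ENNReal.one_ne_top (ex_le_one _))).symm
    _ ≤ _ := by
        refine setLIntegral_mono' measurableSet_Ioo fun τ hτ => ?_
        rw [mul_comm (Lf τ), ← mul_assoc, ← ex_add]
        refine mul_le_mul' (ex_anti ?_) le_rfl
        have hs : Ioo s τ ⊆ Ioo s t := Ioo_subset_Ioo_right hτ.2.le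
        calc ∫⁻ σ in Ioo s τ, L σ ≤ ∫⁻ σ in Ioo s τ, (Lf σ + Lr σ) :=
              setLIntegral_mono' measurableSet_Ioo fun σ hσ => hL σ (hs hσ)
          _ = (∫⁻ σ in Ioo s τ, Lr σ) + ∫⁻ σ in Ioo s τ, Lf σ := by
              rw [lintegral_add_left hf, add_comm]
          _ ≤ _ := add_le_add ((lintegral_mono_set hs).trans h1) le_rfl

/-- weighted version of `lint_Ia_mul` -/
theorem lint_Iw_mul (a : ℝ) (k : Ph → ℝ → ℝ≥0∞) (hk : Measurable (fun x : Ph × ℝ => k x.1 x.2))
    (f φ : PF) (hf : Measurable f) (hφ : Measurable φ) :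
    ∫⁻ p, (∫⁻ s in Ioo a p.1, k p s * f (fl p s)) * φ p =
      ∫⁻ q in Ioi a ×ˢ (univ : Set (R3 × R3)), f q * ∫⁻ t in Ioi q.1, k (fl q t) q.1 * φ (fl q t) := by
  set S : Set (Ph × ℝ) := {x | a < x.1.1 ∧ x.1.1 < x.2} with hS
  have hSm : MeasurableSet S :=
    (measurableSet_lt measurable_const (measurable_fst.comp measurable_fst)).inter
      (measurableSet_lt (measurable_fst.comp measurable_fst) measurable_snd)
  have hK : Measurable fun x : Ph × ℝ => k (fl x.1 x.2) x.1.1 * φ (fl x.1 x.2) :=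
    (hk.comp (f := fun x : Ph × ℝ => (fl x.1 x.2, x.1.1))
      (measurable_fl.prodMk measurable_fst.fst)).mul (hφ.comp measurable_fl)
  have hH : Measurable
      (S.indicator fun x : Ph × ℝ => f x.1 * (k (fl x.1 x.2) x.1.1 * φ (fl x.1 x.2))) :=
    ((hf.comp measurable_fst).mul hK).indicator hSm
  have h := TA.lint_swap _ hH
  have hfl : ∀ p : Ph, Measurable fun s => fl p s := fun p =>
    measurable_fl.comp (measurable_const.prodMk measurable_id)
  rw [← lintegral_indicator (measurableSet_Ioi.prod MeasurableSet.univ)]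
  refine (lintegral_congr fun p => ?_).trans (h.trans (lintegral_congr fun q => Eq.symm ?_))
  · have h1 : Measurable fun s => k p s * f (fl p s) :=
      (hk.comp (f := fun s : ℝ => (p, s)) measurable_prodMk_left).mul (hf.comp (hfl p))
    rw [← lintegral_mul_const _ h1, ← lintegral_indicator measurableSet_Ioo]
    refine lintegral_congr fun s => ?_
    by_cases hs : s ∈ Ioo a p.1
    · rw [indicator_of_mem hs, indicator_of_mem (show (fl p s, p.1) ∈ S from hs), fl_fl, fl_self,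
        mul_left_comm, mul_assoc]
      rfl
    · rw [indicator_of_notMem hs, indicator_of_notMem (show (fl p s, p.1) ∉ S from hs)]
  · have h1 : Measurable fun t => k (fl q t) q.1 * φ (fl q t) :=
      hK.comp (f := fun t : ℝ => (q, t)) measurable_prodMk_left
    by_cases hq : a < q.1
    · rw [indicator_of_mem (show q ∈ Ioi a ×ˢ (univ : Set (R3 × R3)) from ⟨hq, trivial⟩),
        ← lintegral_const_mul _ h1, ← lintegral_indicator measurableSet_Ioi]
      refine lintegral_congr fun t => ?_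
      by_cases ht : t ∈ Ioi q.1
      · rw [indicator_of_mem ht, indicator_of_mem (show (q, t) ∈ S from ⟨hq, ht⟩)]
      · rw [indicator_of_notMem ht, indicator_of_notMem (show (q, t) ∉ S from fun h => ht h.2)]
    · rw [indicator_of_notMem (show q ∉ Ioi a ×ˢ (univ : Set (R3 × R3)) from fun h => hq h.1)]
      refine (lintegral_eq_zero_of_ae_eq_zero (Eventually.of_forall fun t => ?_)).symm
      exact indicator_of_notMem (show (q, t) ∉ S from fun h => hq h.1) _

/-- duration of one growth step -/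
def dlt (q : Ph) : ℝ := cM * elN q / (cC * jb q.2.2)

/-- frequency of fast collisions with `c` -/
def Lfast (c : PF) : PF := fun q =>
  cz * ∫⁻ η, if cd ≤ ‖η - q.2.2‖ then ENNReal.ofReal ‖η - q.2.2‖ * sec c q η else 0

theorem measurable_Lfast {c : PF} (hc : Measurable c) : Measurable (Lfast c) := by
  have h1 : Measurable fun x : Ph × R3 => ‖x.2 - x.1.2.2‖ := by fun_prop
  have h2 : Measurable fun x : Ph × R3 =>
      if cd ≤ ‖x.2 - x.1.2.2‖ then ENNReal.ofReal ‖x.2 - x.1.2.2‖ * sec c x.1 x.2 else 0 :=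
    Measurable.ite (measurableSet_le measurable_const h1) (h1.ennreal_ofReal.mul
      (hc.comp (f := fun x : Ph × R3 => (x.1.1, x.1.2.1, x.2)) (by fun_prop))) measurable_const
  exact (h2.lintegral_prod_right' (ν := (volume : Measure R3))).const_mul _

theorem elN_fl {q : Ph} (hq : 0 < q.1) {τ : ℝ} (hτ : τ ∈ Icc q.1 (q.1 + dlt q)) :
    elN q / 2 ≤ elN (fl q τ) ∧ elN (fl q τ) ≤ (1 + 9 / 10 ^ 6) * elN q := by
  have hv := norm_nonneg q.2.2
  have hx := norm_nonneg q.2.1
  have e0 : elN q = 8 * q.1 + ‖q.2.1‖ := rfl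
  have e1 : elN (fl q τ) = 8 * τ + ‖q.2.1 - (q.1 - τ) • q.2.2‖ := rfl
  have h0 : 0 ≤ τ - q.1 := sub_nonneg.2 hτ.1
  have h1 : (τ - q.1) * (1 + ‖q.2.2‖) ≤ elN q / 10 ^ 6 := by
    have h2 : τ - q.1 ≤ dlt q := by linarith [hτ.2]
    rw [dlt, le_div_iff₀ (by unfold cC jb; positivity)] at h2
    unfold cC cM jb at h2
    linarith
  have h2 : ‖(q.1 - τ) • q.2.2‖ = (τ - q.1) * ‖q.2.2‖ := by
    rw [norm_smul, Real.norm_eq_abs, abs_sub_comm, abs_of_nonneg h0]
  have h3 := norm_sub_le q.2.1 ((q.1 - τ) • q.2.2)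
  have h4 := norm_sub_norm_le q.2.1 ((q.1 - τ) • q.2.2)
  have h5 := mul_nonneg h0 hv
  constructor <;> linarith

/-- (G2a) Let `ℓ = elN q`, `Δ = dlt q`, `H_b = {τ | ‖XX b τ x_τ‖ ≤ 2 ca τ}` (convex: `XX b τ x_τ` is affine in
`τ` with velocity `p_b = pr v - sg b • ee`; disjoint for `τ > 0` as `‖XX true - XX false‖ = 2τ`).
Case `|x1 v| ≥ max 1 ‖pr v‖`: both streams have relative speed `≥ |x1 v| ≥ ⟨v⟩/4`; choose `b` with the
midpoint `∉ H_b`, then `H_b` misses one half of the interval.  Otherwise choose `b` with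
`‖p_b‖ ≥ max 1 ‖pr v‖ ≥ ⟨v⟩/3`; `H_b ∩ [s, s+Δ]` has diameter `≤ ca ℓ/‖p_b‖ ≤ Δ/4`, so it misses the first or the
last `3Δ/8`.  On that interval `I`, `x1 x_τ` is affine with slope `x1 v`, `|x1 v| |I| ≥ 100 cθ' ℓ`;
`lane_measure` (with `l = ℓ`) and the affine change of variables. -/
theorem core_time (q : Ph) (hq : 0 < q.1) (hg : good q.2.2) : ∃ b : Bool,
    (∀ τ x, jb q.2.2 / 4 ≤ ‖q.2.2 - uu b τ x‖) ∧
    ENNReal.ofReal (dlt q / 110) ≤ volume {τ : ℝ | τ ∈ Ioo q.1 (q.1 + dlt q) ∧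
      cθ' * (2 * elN q) ≤ |x1 (fl q τ).2.1| ∧ laneIn b (x1 (fl q τ).2.1) ∧
        2 * ca * τ ≤ MM b τ (fl q τ).2.1} := by
  refine GrowthB.core q.1 q.2.1 q.2.2 hq hg rfl ?_
  have h : jb q.2.2 ≠ 0 := by unfold jb; positivity
  unfold dlt cM cC
  field_simp

/-- the fast collision frequency in the core of a lane -/
theorem G3_Lfast_ge {P : Par} (hP : P.Basic) (b : Bool) (p : Ph) {l : ℝ} (h0 : 0 ≤ p.1)
    (hl : elN p ≤ l) (hl' : l ≤ P.r0 / 2) (hl0 : 0 < l) (h1 : cθ' * l ≤ |x1 p.2.1|)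
    (h2 : laneIn b (x1 p.2.1)) (h4 : 2 * ca * p.1 ≤ MM b p.1 p.2.1)
    (hv : jb p.2.2 / 4 ≤ ‖p.2.2 - uu b p.1 p.2.1‖) :
    ENNReal.ofReal (jb p.2.2 * cC / (1280 * l)) ≤ Lfast (c0 P) p := by
  obtain ⟨t, x, v⟩ := p
  simp only [elN] at h0 hl h1 h2 h4 hv ⊢
  have hr : P.r0 ≤ 1 / 10000 := by linarith [hP.r0_cs, hP.cs_le]
  have hx := norm_nonneg x
  have h3 : |x1 x| ≤ P.r0 / 2 := (abs_x1_le x).trans (by linarith)
  have hj : 1 ≤ jb v := le_add_of_nonneg_right (norm_nonneg v)
  have hξ : x1 x ≠ 0 := h2.1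
  have h5 : x1 x ^ 4 ≤ 1 / 10 := by
    have : |x1 x| ^ 4 ≤ (1 / 2) ^ 4 := pow_le_pow_left₀ (abs_nonneg _) (by linarith) 4
    rw [Even.pow_abs (by norm_num)] at this
    linarith
  have hC : (0 : ℝ) < cC := by unfold cC; positivity
  have key : ∀ η ∈ {η : R3 | ‖η - uu b t x‖ ≤ x1 x ^ 4 / 8},
      ENNReal.ofReal (jb v / 5 * (cC / (2 * l * x1 x ^ 12))) ≤
        if cd ≤ ‖η - v‖ then ENNReal.ofReal ‖η - v‖ * sec (c0 P) (t, x, v) η else 0 := by
    intro η hη
    have hη' : ‖η - uu b t x‖ ≤ x1 x ^ 4 / 8 := hη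
    obtain ⟨a1, a2⟩ := cold0_ge hP b (t := t) ⟨h0, by linarith⟩ x η hl h1 h2 h3 h4 hη'
    have a3 : jb v / 5 ≤ ‖η - v‖ := by
      have := norm_sub_le_norm_sub_add_norm_sub v η (uu b t x)
      rw [norm_sub_rev v η] at this
      linarith
    rw [if_pos (le_trans (by unfold cd; linarith) a3), ENNReal.ofReal_mul (by positivity)]
    refine mul_le_mul' (ENNReal.ofReal_le_ofReal a3) (a1.trans ?_)
    have e : lbl (t, x, η) = x - t • η := red_eq_self (by linarith)
    simp only [sec, c0, e]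
    exact Finset.single_le_sum (f := fun b => cold0 P b (x - t • η) η) (fun _ _ => zero_le)
      (Finset.mem_univ b)
  have hm : MeasurableSet {η : R3 | ‖η - uu b t x‖ ≤ x1 x ^ 4 / 8} :=
    measurableSet_le (by fun_prop) measurable_const
  have k2 := (setLIntegral_mono' hm key).trans (setLIntegral_le_lintegral (μ := volume) _ _)
  rw [setLIntegral_const] at k2
  refine le_trans ?_ (le_mul_of_one_le_of_le one_le_cz
    ((mul_le_mul' le_rfl (vol_ball_ge _ _ (by positivity))).trans k2))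
  rw [← ENNReal.ofReal_mul (by positivity)]
  refine ENNReal.ofReal_le_ofReal (le_of_eq ?_)
  field_simp
  norm_num

/-- (G2) `core_time`, `cold0_ge` with `l = 2 elN q`, `vol_ball_ge`, `red_eq_self`:
`(⟨v⟩/5) · cC/(512 ℓ) · Δ/110 = cM/281600 ≥ 6`. -/
theorem fast_depth {P : Par} (hP : P.Basic) (q : Ph) (hq : 0 < q.1) (ht : elN q ≤ P.top)
    (hg : good q.2.2) : 6 ≤ ∫⁻ τ in Ioo q.1 (q.1 + dlt q), Lfast (c0 P) (fl q τ) := by
  obtain ⟨b, hv, hA⟩ := core_time q hq hg
  have hl : 0 < elN q := add_pos_of_pos_of_nonneg (by linarith) (norm_nonneg _)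
  have hr := hP.r0_pos
  have hj : 1 ≤ jb q.2.2 := le_add_of_nonneg_right (norm_nonneg _)
  have hC : (0 : ℝ) < cC := by unfold cC; positivity
  have hm : Measurable fun τ => Lfast (c0 P) (fl q τ) :=
    (measurable_Lfast (measurable_c0 P)).comp (measurable_fl.comp (f := fun s => (q, s)) measurable_prodMk_left)
  refine le_trans ?_ (lintegral_mono_set (s := {τ : ℝ | τ ∈ Ioo q.1 (q.1 + dlt q) ∧
    cθ' * (2 * elN q) ≤ |x1 (fl q τ).2.1| ∧ laneIn b (x1 (fl q τ).2.1) ∧
      2 * ca * τ ≤ MM b τ (fl q τ).2.1}) fun τ h => h.1)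
  refine le_trans ?_ (setLIntegral_mono (f := fun _ =>
    ENNReal.ofReal (jb q.2.2 * cC / (1280 * (2 * elN q)))) hm fun τ h => ?_)
  · rw [setLIntegral_const]
    refine le_trans ?_ (mul_le_mul' le_rfl hA)
    rw [← ENNReal.ofReal_mul (by positivity), ← ENNReal.ofReal_ofNat 6]
    refine ENNReal.ofReal_le_ofReal ?_
    have e : jb q.2.2 * cC / (1280 * (2 * elN q)) * (dlt q / 110) = cM / 281600 := by
      unfold dlt
      field_simp
      ring
    rw [e, cM]
    norm_num
  · obtain ⟨h1, h2, h3, h4⟩ := h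
    have h5 := (elN_fl hq (Ioo_subset_Icc_self h1)).2
    unfold Par.top at ht
    exact G3_Lfast_ge hP b (fl q τ) (hq.trans h1.1).le (by linarith) (by linarith) (by linarith)
      h2 h3 h4 (hv _ _)

/-- the depleted medium -/
def cp (P : Par) (F : PF) : PF := cut P (fun p => c0 P p * ex (Lam F p 0))

/-- weighted good offspring rate of a particle at `p` -/
def Psi (P : Par) (F : PF) : PF := fun p =>
  ∫⁻ η, (if cd ≤ ‖η - p.2.2‖ then sec (cp P F) p η else 0) *
    ∫⁻ w, ab η p.2.2 w *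
      (if elN p ≤ 2 * P.top then Xi (p.1, p.2.1, postVel η p.2.2 w) else 0) ∂sphereMeasure

theorem measurable_cp (P : Par) {F : PF} (hF : Measurable F) : Measurable (cp P F) :=
  measurable_cut P ((measurable_c0 P).mul (measurable_ex.comp
    ((measurable_Lam hF).comp (f := fun p : Ph => (p, (0 : ℝ))) measurable_prodMk_right)))

theorem measurable_Psi (P : Par) {F : PF} (hF : Measurable F) : Measurable (Psi P F) := by
  have hm : Measurable fun y : (Ph × R3) × R3 => ((y.1.2, y.1.1.2.2, y.2) : R3 × R3 × R3) := by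
    fun_prop
  have h1 : Measurable fun y : (Ph × R3) × R3 => ab y.1.2 y.1.1.2.2 y.2 *
      (if elN y.1.1 ≤ 2 * P.top then Xi (y.1.1.1, y.1.1.2.1, postVel y.1.2 y.1.1.2.2 y.2) else 0) :=
    (measurable_ab.comp hm).mul (Measurable.ite
      (measurableSet_le (measurable_elN.comp measurable_fst.fst) measurable_const)
      (measurable_Xi.comp (measurable_fst.fst.fst.prodMk
        (measurable_fst.fst.snd.fst.prodMk (measurable_postVel.comp hm)))) measurable_const)
  have h2 : Measurable fun x : Ph × R3 => if cd ≤ ‖x.2 - x.1.2.2‖ then sec (cp P F) x.1 x.2 else 0 :=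
    Measurable.ite (measurableSet_le measurable_const (by fun_prop))
      ((measurable_cp P hF).comp (f := fun x : Ph × R3 => (x.1.1, x.1.2.1, x.2)) (by fun_prop))
      measurable_const
  exact (h2.mul (h1.lintegral_prod_right' (ν := sphereMeasure))).lintegral_prod_right'
    (ν := (volume : Measure R3))

theorem os_jb_pos (v : R3) : 0 < jb v := by
  unfold jb
  positivity

theorem os_elN_pos {q : Ph} (hq : 0 < q.1) : 0 < elN q := by
  unfold elN
  positivity

theorem os_dlt_mul (q : Ph) : dlt q * jb q.2.2 = elN q / 10 ^ 6 := by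
  have := os_jb_pos q.2.2
  unfold dlt cM cC
  field_simp

theorem os_dlt_pos {q : Ph} (hq : 0 < q.1) : 0 < dlt q := by
  have := os_jb_pos q.2.2
  have := os_elN_pos hq
  unfold dlt cM cC
  positivity

/-- elementary facts on the points of one step -/
theorem os_pt {P : Par} (hP : P.Basic) {q : Ph} (hq : 0 < q.1) (ht : elN q ≤ P.top) {τ : ℝ}
    (hτ : τ ∈ Ioo q.1 (q.1 + dlt q)) :
    0 < τ ∧ τ ≤ P.t0 ∧ elN (fl q τ) ≤ 2 * P.top ∧
      ∫⁻ η, sec (c0 P) (fl q τ) η ≤ ENNReal.ofReal (2 * cK2 / elN q) := by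
  obtain ⟨h1, h2⟩ := elN_fl hq (Ioo_subset_Icc_self hτ)
  have h0 := os_elN_pos hq
  have hτ0 : 0 < τ := hq.trans hτ.1
  have h3 : elN (fl q τ) ≤ 2 * P.top := by linarith
  have h4 : 8 * τ ≤ elN (fl q τ) := le_add_of_nonneg_right (norm_nonneg _)
  have h5 : P.top = P.r0 / 10 := rfl
  have h6 := hP.r0_t0
  have h7 := hP.t0_le
  have h8 := hP.r0_pos
  refine ⟨hτ0, by linarith, h3, (mass_c0 hP (fl q τ) ⟨hτ0, by change τ ≤ _; linarith⟩).trans ?_⟩
  rw [ell_eq_elN hτ0.le (by linarith)]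
  refine ENNReal.ofReal_le_ofReal ?_
  have hc : 0 < cK2 := by unfold cK2; positivity
  rw [div_le_div_iff₀ (by linarith) h0]
  nlinarith

theorem os_cp_le (P : Par) (F : PF) : cp P F ≤ c0 P := fun p => by
  unfold cp cut
  split_ifs
  · exact mul_le_of_le_one_right' (ex_le_one _)
  · exact zero_le

theorem os_meas {c : PF} (hc : Measurable c) (p : Ph) : Measurable fun η : R3 =>
    if cd ≤ ‖η - p.2.2‖ then ENNReal.ofReal ‖η - p.2.2‖ * sec c p η else 0 :=
  Measurable.ite (measurableSet_le measurable_const (measurable_id.sub_const _).norm)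
    ((measurable_id.sub_const _).norm.ennreal_ofReal.mul (measurable_sec hc p)) measurable_const

theorem os_LF_le {c : PF} (hc : Measurable c) (p : Ph) :
    LF c p ≤ Lfast c p + 13 * (ENNReal.ofReal cd * ∫⁻ η, sec c p η) := by
  rw [LF, LL_eq _ (measurable_sec hc p), Lfast]
  refine le_trans ?_ (add_le_add le_rfl (mul_le_mul_left cz_le _))
  rw [← mul_add, ← lintegral_const_mul _ (measurable_sec hc p), ← lintegral_add_left (os_meas hc p)]
  refine mul_le_mul_right (lintegral_mono fun η => ?_) _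
  rw [norm_sub_rev]
  split_ifs with h
  · exact le_self_add
  · rw [zero_add]
    exact mul_le_mul_left (ENNReal.ofReal_le_ofReal (not_le.1 h).le) _

theorem os_Lfast_le {P : Par} (hP : P.Basic) (F : PF) (p : Ph) :
    Lfast (cp P F) p ≤ 13 * (ENNReal.ofReal (2 + ‖p.2.2‖) * ∫⁻ η, sec (c0 P) p η) := by
  rw [Lfast, ← lintegral_const_mul _ (measurable_sec (measurable_c0 P) p)]
  refine mul_le_mul' cz_le (lintegral_mono fun η => ?_)
  split_ifs
  · by_cases h0 : sec (c0 P) p η = 0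
    · have : sec (cp P F) p η = 0 := le_antisymm ((os_cp_le P F _).trans h0.le) zero_le
      rw [this, mul_zero]
      exact zero_le
    · have h1 : ‖η‖ ≤ 2 := (supp_c0 hP h0).1
      exact mul_le_mul' (ENNReal.ofReal_le_ofReal ((norm_sub_le _ _).trans (by linarith)))
        (os_cp_le P F _)
  · exact zero_le

theorem os_Psi_ge {P : Par} (hP : P.Basic) {F : PF} (hF : Measurable F) {p : Ph} (hp : 0 < p.1)
    (ht : elN p ≤ 2 * P.top) :
    ENNReal.ofReal ((elN p ^ 3600)⁻¹) * (19 / 20) * Lfast (cp P F) p ≤ Psi P F p := by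
  have hcz : cz ≠ ⊤ := ne_top_of_le_ne_top (by norm_num) cz_le
  rw [Lfast, ← mul_assoc, ← lintegral_const_mul _ (os_meas (measurable_cp P hF) p), Psi]
  refine lintegral_mono fun η => ?_
  split_ifs with h
  · by_cases h0 : sec (cp P F) p η = 0
    · rw [h0, mul_zero, mul_zero]
      exact zero_le
    · have h1 := supp_c0 hP (p := (p.1, p.2.1, η)) fun h2 =>
        h0 (le_antisymm ((os_cp_le P F _).trans h2.le) zero_le)
      have hθ : 0 < cθ := by unfold cθ; positivity
      have h2 := good_offspring η p.2.2 h1.1 (h1.2.trans (by linarith)) h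
      have e : ∀ w : R3, ab η p.2.2 w * Xi (p.1, p.2.1, postVel η p.2.2 w) =
          ENNReal.ofReal ((elN p ^ 3600)⁻¹) *
            (ab η p.2.2 w * {v | good v}.indicator 1 (postVel η p.2.2 w)) := fun w => by
        unfold Xi XiA
        by_cases hg : good (postVel η p.2.2 w)
        · rw [if_pos hg, if_pos hp, indicator_of_mem (by exact hg), Pi.one_apply, mul_one, mul_comm]
          rfl
        · rw [if_neg hg, indicator_of_notMem (by exact hg), mul_zero, mul_zero]
      simp only [e]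
      rw [lintegral_const_mul' _ _ ENNReal.ofReal_ne_top]
      calc _ = sec (cp P F) p η * (ENNReal.ofReal ((elN p ^ 3600)⁻¹) *
            (19 / 20 * (cz * ENNReal.ofReal ‖η - p.2.2‖))) := by ring
        _ ≤ _ := mul_le_mul_right (mul_le_mul_right h2 _) _
  · rw [mul_zero]
    exact zero_le

theorem os_pow : (1 + 9 / 10 ^ 6 : ℝ) ^ 3600 ≤ 21 / 20 := by
  have h1 : (1 + 9 / 10 ^ 6 : ℝ) ^ 3600 ≤ Real.exp (9 / 10 ^ 6) ^ 3600 :=
    pow_le_pow_left₀ (by positivity) (by linarith [Real.add_one_le_exp (9 / 10 ^ 6)]) _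
  rw [← Real.exp_nat_mul] at h1
  refine h1.trans ((Real.exp_bound_div_one_sub_of_interval (by norm_num) (by norm_num)).trans ?_)
  norm_num

theorem os_weight {q : Ph} (hq : 0 < q.1) {τ : ℝ} (hτ : τ ∈ Icc q.1 (q.1 + dlt q)) :
    ENNReal.ofReal (20 / 21) * ENNReal.ofReal ((elN q ^ 3600)⁻¹) ≤
      ENNReal.ofReal ((elN (fl q τ) ^ 3600)⁻¹) := by
  obtain ⟨h1, h2⟩ := elN_fl hq hτ
  have h0 := os_elN_pos hq
  have h3 : 0 < elN (fl q τ) := by linarith
  rw [← ENNReal.ofReal_mul (by norm_num)]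
  refine ENNReal.ofReal_le_ofReal ?_
  have h4 : elN (fl q τ) ^ 3600 ≤ 21 / 20 * elN q ^ 3600 :=
    (pow_le_pow_left₀ h3.le h2 _).trans (by
      rw [mul_pow]
      exact mul_le_mul_of_nonneg_right os_pow (pow_pos h0 _).le)
  refine le_trans (le_of_eq ?_) (inv_anti₀ (pow_pos h3 _) h4)
  rw [mul_inv]
  norm_num

theorem os_cp_ge {P : Par} (hP : P.Basic) {b : ℝ≥0∞} {β F : PF} (h : ESol P b β F)
    (hL : ∀ p : Ph, p.1 ∈ Icc 0 P.t0 → c0 P p ≠ 0 →
      Lam (env P b) p 0 ≤ ENNReal.ofReal (1 / 6) * ENNReal.ofReal √p.1) {p : Ph}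
    (hp : p.1 ∈ Icc 0 P.t0) : ENNReal.ofReal (5 / 6) * Lfast (c0 P) p ≤ Lfast (cp P F) p := by
  rw [Lfast, Lfast, mul_left_comm, ← lintegral_const_mul' _ _ ENNReal.ofReal_ne_top]
  refine mul_le_mul_right (lintegral_mono fun η => ?_) _
  split_ifs
  · rw [mul_left_comm]
    refine mul_le_mul_right ?_ _
    by_cases h0 : sec (c0 P) p η = 0
    · rw [h0, mul_zero]
      exact zero_le
    · have h1 : Lam F (p.1, p.2.1, η) 0 ≤ ENNReal.ofReal (1 / 6) := by
        refine le_trans (lintegral_mono fun τ => LF_mono h.le_env _)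
          ((hL (p.1, p.2.1, η) hp h0).trans (mul_le_of_le_one_right' ?_))
        exact ENNReal.ofReal_le_one.2 (Real.sqrt_le_one.2 (by linarith [hp.2, hP.t0_le]))
      have h2 : ENNReal.ofReal (5 / 6) ≤ ex (Lam F (p.1, p.2.1, η) 0) := by
        refine ENNReal.le_of_add_le_add_right (a := ENNReal.ofReal (1 / 6)) ENNReal.ofReal_ne_top ?_
        rw [← ENNReal.ofReal_add (by norm_num) (by norm_num)]
        exact le_trans (ENNReal.ofReal_le_one.2 (by norm_num))
          ((one_le_ex_add _).trans (add_le_add le_rfl h1))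
      have e : sec (cp P F) p η = sec (c0 P) p η * ex (Lam F (p.1, p.2.1, η) 0) := if_pos hp
      rw [e, mul_comm]
      exact mul_le_mul_right h2 _
  · rw [mul_zero]

theorem os_F_le {P : Par} {b : ℝ≥0∞} {β F : PF} (h : ESol P b β F) :
    F ≤ fun p => cp P F p + (ZZ P p + wY P (omF P b) p) := fun p => by
  by_cases hp : p.1 ∈ Icc 0 P.t0
  · have e : cp P F p = c0 P p * ex (Lam F p 0) := if_pos hp
    change F p ≤ cp P F p + _
    rw [e]
    exact (h.split hp).trans_le (add_le_add le_rfl (h.gp_le hp))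
  · rw [h.zero p hp]
    exact zero_le

/-- (G3) On `(s, s+Δ)`: `Psi ≥ (19/20) Lfast (cp) · ((1 + 9·10⁻⁶) ℓ)^{-3600}` (`good_offspring`, `supp_c0`,
`(1+9·10⁻⁶)^{3600} ≤ 21/20`); `cp ≥ (9/10) c0` (`Lam_cold`, `one_le_ex_add`) so `∫ Lfast cp ≥ 5`;
`LF F ≤ Lfast cp + 13 cd ∫ c0 + LF (ZZ + wY om)` (`ESol.split`, `LL_eq`, `mass_c0`, `LF_rest`) and the last two
integrate to `≤ 1/50`; `depth_1d`. -/
theorem one_step : ∀ᶠ P in parF, ∀ b : ℝ≥0∞, b ≤ 1 → ∀ β F : PF, Measurable β → ESol P b β F →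
    ∀ q : Ph, 0 < q.1 → elN q ≤ P.top →
    3 / 4 * Xi q ≤ ∫⁻ t in Ioi q.1, ex (Lam F (fl q t) q.1) * Psi P F (fl q t) := by
  obtain ⟨K, hK, hR⟩ := LF_rest
  filter_upwards [ev_basic, hR, Lam_cold (ENNReal.ofReal (1 / 6)) (by simp),
    ob1_small (η := ENNReal.ofReal (1 / 100)) hK (by simp) continuous_id rfl] with
    P hP hR hL hKt b hb β F _ h q hq ht
  by_cases hg : good q.2.2
  swap
  · rw [Xi, if_neg hg, mul_zero]
    exact zero_le
  have hl := os_elN_pos hq
  have hd := os_dlt_pos hq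
  have hj := os_jb_pos q.2.2
  have hfl : Measurable (fl q) := measurable_fl.comp (f := fun τ : ℝ => (q, τ)) measurable_prodMk_left
  have hLf : Measurable fun τ => Lfast (cp P F) (fl q τ) :=
    (measurable_Lfast (measurable_cp P h.meas)).comp hfl
  have hvol : volume (Ioo q.1 (q.1 + dlt q)) = ENNReal.ofReal (dlt q) := by
    rw [Real.volume_Ioo, add_sub_cancel_left]
  have key := depth_1d (fun τ => LF F (fl q τ)) (fun τ => Lfast (cp P F) (fl q τ))
    (fun _ => 13 * (ENNReal.ofReal cd * ENNReal.ofReal (2 * cK2 / elN q)) +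
      K * ENNReal.ofReal (jb q.2.2)) hLf measurable_const (s := q.1) (t := q.1 + dlt q)
    (fun τ hτ => by
      obtain ⟨a1, a2, -, a4⟩ := os_pt hP hq ht hτ
      refine (LF_mono (os_F_le h) _).trans ?_
      rw [LF_add (measurable_cp P h.meas), ← add_assoc]
      refine add_le_add ((os_LF_le (measurable_cp P h.meas) _).trans (add_le_add le_rfl ?_))
        (hR b hb (fl q τ) ⟨a1.le, a2⟩)
      exact mul_le_mul_right (mul_le_mul_right
        ((lintegral_mono fun η => os_cp_le P F _).trans a4) _) _)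
    (by
      rw [setLIntegral_const, hvol, add_mul]
      have e1 := os_dlt_mul q
      have hcd : 0 < cd := by unfold cd; positivity
      have hc2 : 0 < cK2 := by unfold cK2; positivity
      have a1 : 13 * (ENNReal.ofReal cd * ENNReal.ofReal (2 * cK2 / elN q)) *
          ENNReal.ofReal (dlt q) ≤ ENNReal.ofReal (1 / 100) := by
        rw [← ENNReal.ofReal_mul hcd.le, ← ENNReal.ofReal_ofNat 13,
          ← ENNReal.ofReal_mul (by norm_num), ← ENNReal.ofReal_mul (by positivity)]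
        refine ENNReal.ofReal_le_ofReal ?_
        have a2 : dlt q ≤ elN q / 10 ^ 6 := by
          rw [← e1]
          exact le_mul_of_one_le_right hd.le (le_add_of_nonneg_right (norm_nonneg _))
        calc _ ≤ 13 * (cd * (2 * cK2 / elN q)) * (elN q / 10 ^ 6) := by gcongr
          _ = 26 * (cd * cK2) / 10 ^ 6 := by field_simp; norm_num
          _ ≤ _ := by unfold cd cK2; norm_num
      have a2 : K * ENNReal.ofReal (jb q.2.2) * ENNReal.ofReal (dlt q) ≤
          ENNReal.ofReal (1 / 100) := by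
        refine le_trans ?_ hKt
        rw [mul_assoc, ← ENNReal.ofReal_mul hj.le, mul_comm (jb _), e1]
        refine mul_le_mul_right (ENNReal.ofReal_le_ofReal ?_) _
        have h5 : P.top = P.r0 / 10 := rfl
        change _ ≤ P.t0
        linarith [hP.r0_t0, hP.r0_pos]
      refine (add_le_add a1 a2).trans (le_of_eq ?_)
      rw [← ENNReal.ofReal_add (by norm_num) (by norm_num),
        show (1 / 100 + 1 / 100 : ℝ) = 1 / 50 by norm_num, ENNReal.ofReal_div_of_pos (by norm_num)]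
      simp)
    (by
      calc (5 : ℝ≥0∞) = ENNReal.ofReal (5 / 6) * 6 := by
            rw [← ENNReal.ofReal_ofNat 6, ← ENNReal.ofReal_mul (by norm_num)]
            norm_num
        _ ≤ ENNReal.ofReal (5 / 6) * ∫⁻ τ in Ioo q.1 (q.1 + dlt q), Lfast (c0 P) (fl q τ) :=
            mul_le_mul_right (fast_depth hP q hq ht hg) _
        _ ≤ _ := by
            rw [← lintegral_const_mul' _ _ ENNReal.ofReal_ne_top]
            refine setLIntegral_mono' measurableSet_Ioo fun τ hτ => ?_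
            obtain ⟨a1, a2, -, -⟩ := os_pt hP hq ht hτ
            exact os_cp_ge hP h (hL b hb) ⟨a1.le, a2⟩)
    (by
      refine ne_top_of_le_ne_top (b := ∫⁻ _ in Ioo q.1 (q.1 + dlt q),
        13 * (ENNReal.ofReal (2 + ‖q.2.2‖) * ENNReal.ofReal (2 * cK2 / elN q))) ?_
        (setLIntegral_mono' measurableSet_Ioo fun τ hτ => ?_)
      · rw [setLIntegral_const, hvol]
        finiteness
      · exact (os_Lfast_le hP F _).trans
          (mul_le_mul_right (mul_le_mul_right (os_pt hP hq ht hτ).2.2.2 _) _))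
  have e19 : (19 / 20 : ℝ≥0∞) = ENNReal.ofReal (19 / 20) := by
    rw [ENNReal.ofReal_div_of_pos (by norm_num)]
    simp
  have e34 : (3 / 4 : ℝ≥0∞) = ENNReal.ofReal (3 / 4) := by
    rw [ENNReal.ofReal_div_of_pos (by norm_num)]
    simp
  rw [Xi, if_pos hg, XiA, if_pos hq]
  calc _ ≤ ENNReal.ofReal (20 / 21) * ENNReal.ofReal ((elN q ^ 3600)⁻¹) * (19 / 20) * (19 / 20) := by
        have a1 : (3 / 4 : ℝ≥0∞) ≤ ENNReal.ofReal (20 / 21) * (19 / 20) * (19 / 20) := by
          rw [e19, e34, ← ENNReal.ofReal_mul (by norm_num), ← ENNReal.ofReal_mul (by norm_num)]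
          exact ENNReal.ofReal_le_ofReal (by norm_num)
        exact (mul_le_mul_left a1 _).trans (le_of_eq (by ring))
    _ ≤ ∫⁻ t in Ioo q.1 (q.1 + dlt q), ex (Lam F (fl q t) q.1) * Psi P F (fl q t) := by
        refine (mul_le_mul_right key _).trans ?_
        rw [← lintegral_const_mul' _ _ (by rw [e19]; finiteness)]
        refine setLIntegral_mono' measurableSet_Ioo fun τ hτ => ?_
        obtain ⟨a1, -, a3, -⟩ := os_pt hP hq ht hτ
        have e : Lam F (fl q τ) q.1 = ∫⁻ σ in Ioo q.1 τ, LF F (fl q σ) := by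
          simp only [Lam, fl_fl]
          rfl
        rw [e, mul_left_comm]
        refine mul_le_mul_right (le_trans ?_ (os_Psi_ge hP h.meas a1 a3)) _
        exact mul_le_mul_left (mul_le_mul_left (os_weight hq (Ioo_subset_Icc_self hτ)) _) _
    _ ≤ _ := lintegral_mono_set Ioo_subset_Ioi_self

/-- (G4) Let `B = (QF F F + β) 1{elN ≤ top, good, t > 0}`, `g' p = ∫ ex (Lam F p s) B (fl p s) ds`; on the strip
`F ≥ cp + g'`, so `F(η) F(ζ) ≥ cp(η) g'(ζ) 1_fast + g'(η) cp(ζ) 1_fast` and by `QH_swap`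
`QF F F ≥ 2 QH (cp ⊗ g' 1_fast)`; `lint_QH_mul` gives `JJ (QF F F) (2 top) ≥ 2 ∫ g' Psi`
(`Psi` vanishes unless `0 < t ≤ top/4 ≤ t0`), then `lint_Iw_mul` and `one_step`. -/
theorem growth : ∀ᶠ P in parF, ∀ b : ℝ≥0∞, b ≤ 1 → ∀ β F : PF, Measurable β → ESol P b β F →
    3 / 2 * JJ (fun p => QF F F p + β p) P.top ≤ JJ (QF F F) (2 * P.top) := by
  filter_upwards [one_step] with P h1 b hb β F hβ hF
  have hQ := measurable_QF hF.meas hF.meas
  have hk : Measurable fun x : Ph × ℝ => ex (Lam F x.1 x.2) :=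
    measurable_ex.comp (measurable_Lam hF.meas)
  have hS : ∀ s : ℝ, MeasurableSet {p : Ph | elN p ≤ s} := fun s =>
    measurableSet_le measurable_elN measurable_const
  have hΨ := measurable_Psi P hF.meas
  have hc := measurable_cp P hF.meas
  set B : PF := fun p => if elN p ≤ P.top then QF F F p + β p else 0 with hB
  have mB : Measurable B := Measurable.ite (hS _) (hQ.add hβ) measurable_const
  set g : PF := fun p => ∫⁻ s in Ioo 0 p.1, ex (Lam F p s) * B (fl p s) with hg
  have mg : Measurable (cut P g) := measurable_cut P (PosA.measurable_lint_Ioo measurable_const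
    measurable_fst (g := fun p s => ex (Lam F p s) * B (fl p s)) (hk.mul (mB.comp measurable_fl)))
  set φ : PF := fun p => if elN p ≤ 2 * P.top then Xi p else 0 with hφ
  have mφ : Measurable φ := Measurable.ite (hS _) measurable_Xi measurable_const
  have a1 : ∀ p, cp P F p + cut P g p ≤ F p := fun p => by
    by_cases hp : p.1 ∈ Icc 0 P.t0
    · simp only [cp, cut, if_pos hp]
      rw [hF.split hp]
      refine add_le_add_right (le_add_left (lintegral_mono fun s => mul_le_mul_right ?_ _)) _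
      simp only [hB]
      split_ifs
      exacts [le_rfl, zero_le]
    · simp only [cp, cut, if_neg hp, add_zero, zero_le]
  have a2 : ∀ t x, ∫⁻ v, 2 * (cut P g (t, x, v) * Psi P F (t, x, v)) ≤
      ∫⁻ v, φ (t, x, v) * QF F F (t, x, v) := fun t x => by
    set H : R3 × R3 → ℝ≥0∞ := fun q =>
      (if cd ≤ ‖q.1 - q.2‖ then cp P F (t, x, q.1) else 0) * cut P g (t, x, q.2) with hH
    have mH : Measurable H := (Measurable.ite (measurableSet_le measurable_const (by fun_prop))
      (hc.comp (by fun_prop)) measurable_const).mul (mg.comp (by fun_prop))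
    have mφ' : Measurable fun v : R3 => φ (t, x, v) := mφ.comp (by fun_prop)
    have mK : Measurable fun q : R3 × R3 =>
        ∫⁻ w, ab q.1 q.2 w * φ (t, x, postVel q.1 q.2 w) ∂sphereMeasure :=
      ((measurable_ab.mul (mφ'.comp measurable_postVel)).comp
        (f := fun y : (R3 × R3) × R3 => (y.1.1, y.1.2, y.2)) (by fun_prop)).lintegral_prod_right'
    have b1 : ∀ v, 2 * QH H v ≤ QF F F (t, x, v) := fun v => by
      rw [two_mul]
      nth_rewrite 2 [QH_swap H mH]
      rw [← QH_add mH]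
      refine QH_mono (fun q => le_trans ?_ (mul_le_mul' (a1 (t, x, q.1)) (a1 (t, x, q.2)))) v
      rw [add_mul, mul_add, mul_add]
      refine add_le_add (le_add_left (mul_le_mul_left ?_ _)) (le_add_right ?_)
      · split_ifs
        exacts [le_rfl, zero_le]
      · simp only [hH, Prod.fst_swap, Prod.snd_swap, mul_comm (cut P g _)]
        refine mul_le_mul_left ?_ _
        split_ifs
        exacts [le_rfl, zero_le]
    refine le_trans (le_of_eq ?_) (lintegral_mono fun v => mul_le_mul_right (b1 v) _)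
    simp only [mul_left_comm _ (2 : ℝ≥0∞)]
    rw [lintegral_const_mul' _ _ ENNReal.ofNat_ne_top, lintegral_const_mul' _ _ ENNReal.ofNat_ne_top,
      lint_QH_mul H mH _ mφ', lintegral_lintegral_swap (mH.mul mK).aemeasurable]
    refine congrArg _ (lintegral_congr fun ζ => ?_)
    refine (lintegral_const_mul _ ((Measurable.ite
      (measurableSet_le measurable_const (by fun_prop)) (measurable_sec hc _) measurable_const).mul
        (mK.comp (f := fun η : R3 => (η, ζ)) (by fun_prop)))).symm.trans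
      (lintegral_congr fun η => (mul_left_comm _ _ _).trans (mul_assoc _ _ _).symm)
  have a3 : 2 * ∫⁻ p, g p * Psi P F p ≤ JJ (QF F F) (2 * P.top) := by
    have m1 : Measurable fun p => 2 * (cut P g p * Psi P F p) := (mg.mul hΨ).const_mul _
    have m2 : Measurable fun p => φ p * QF F F p := mφ.mul hQ
    calc _ = ∫⁻ p, 2 * (cut P g p * Psi P F p) := by
          rw [lintegral_const_mul' _ _ ENNReal.ofNat_ne_top]
          refine congrArg _ (lintegral_congr fun p => ?_)
          by_cases hp : p.1 ∈ Icc 0 P.t0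
          · rw [cut, if_pos hp]
          · simp only [Psi, sec, cp, cut, if_neg hp, ite_self, zero_mul, lintegral_zero, mul_zero]
      _ ≤ ∫⁻ p, φ p * QF F F p := by
          rw [Measure.volume_eq_prod, lintegral_prod _ m1.aemeasurable,
            lintegral_prod _ m2.aemeasurable]
          refine lintegral_mono fun t => ?_
          exact (lintegral_prod _ (m1.comp measurable_prodMk_left).aemeasurable).trans_le
            ((lintegral_mono fun x => a2 t x).trans_eq
              (lintegral_prod _ (m2.comp measurable_prodMk_left).aemeasurable).symm)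
      _ = _ := by
          rw [JJ, ← lintegral_indicator (hS _)]
          refine lintegral_congr fun p => ?_
          rw [mul_comm]
          simp only [hφ, indicator, mem_ofPred_eq, mul_ite, mul_zero]
  refine le_trans ?_ a3
  rw [lint_Iw_mul 0 (fun p s => ex (Lam F p s)) hk B _ mB hΨ,
    show (3 / 2 : ℝ≥0∞) = 2 * (3 / 4) by
      rw [← mul_div_assoc, ENNReal.div_eq_div_iff (by simp) (by simp) (by simp) (by simp)]; norm_num,
    mul_assoc, JJ, ← lintegral_const_mul' _ _ (ENNReal.div_ne_top (by simp) (by simp)),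
    ← lintegral_indicator (hS _), ← lintegral_indicator (measurableSet_Ioi.prod MeasurableSet.univ)]
  refine mul_le_mul_right (lintegral_mono fun q => indicator_le (fun q hq => ?_) q) _
  by_cases h0 : 0 < q.1
  · rw [indicator_of_mem (mem_prod.2 ⟨mem_Ioi.2 h0, mem_univ _⟩), mul_left_comm]
    exact mul_le_mul' (if_pos hq).ge (h1 b hb β F hβ hF q h0 hq)
  · simp only [Xi, XiA, if_neg h0, ite_self, mul_zero, zero_le]

theorem JJ_le_Jw : ∀ᶠ P in parF, ∀ b : ℝ≥0∞, b ≤ 1 → ∀ β F : PF, Measurable β → ESol P b β F →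
    JJ (fun p => QF F F p + β p) P.top ≠ ⊤ →
    JJ (fun p => QF F F p + β p) P.top ≤ 2 * Jw (QF F F) P.top := by
  filter_upwards [growth] with P hP b hb β F hβ hF hfin
  have h1 := hP b hb β F hβ hF
  have h2 : JJ (QF F F) (2 * P.top) ≤
      JJ (fun p => QF F F p + β p) P.top + Jw (QF F F) P.top := by
    refine (lintegral_mono_set (t := {p : Ph | elN p ≤ P.top} ∪
      {p : Ph | P.top < elN p ∧ elN p ≤ 2 * P.top}) fun p hp => ?_).trans
      ((lintegral_union_le _ _ _).trans (add_le_add (lintegral_mono fun p => ?_) le_rfl))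
    · exact (le_or_gt (elN p) P.top).imp id fun h => ⟨h, hp⟩
    · exact mul_le_mul' le_self_add le_rfl
  have e : (3 / 2 : ℝ≥0∞) = 1 + 2⁻¹ := by
    rw [show (3 : ℝ≥0∞) = 2 + 1 by norm_num, ENNReal.add_div,
      ENNReal.div_self (by norm_num) (by simp), one_div]
  rw [e, add_mul, one_mul] at h1
  have h3 := (ENNReal.add_le_add_iff_left hfin).1 (h1.trans h2)
  calc _ = 2 * (2⁻¹ * JJ (fun p => QF F F p + β p) P.top) := by
        rw [← mul_assoc, ENNReal.mul_inv_cancel (by norm_num) (by simp), one_mul]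
    _ ≤ _ := by gcongr

end
end Crest.Agent.R68
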