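import Crest.Agent.R68.W4

/-! # Row 68: dominated convergence for the error terms of the entropy inequality -/

set_option autoImplicit false
open MeasureTheory Set Filter Topology
open scoped ENNReal NNReal
open Crest.AnalysisR.VecCalc3 Crest.AnalysisR.PDE.Boltzmann

namespace Crest.Agent.R68
noncomputable section

namespace W5B

theorem dct3 (μ : Measure (ℝ × R3)) [SFinite μ] (Φ : ℕ → (ℝ × R3) × R3 × R3 → ℝ≥0∞)
    (Ψ B : (ℝ × R3) × R3 × R3 → ℝ≥0∞) (hΦ : ∀ n, Measurable (Φ n)) (hΨ : Measurable Ψ)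
    (hB : Measurable B) (hle : ∀ n p, Φ n p ≤ B p)
    (hfin : ∫⁻ z, ∫⁻ v, ∫⁻ vs, B (z, v, vs) ∂volume ∂volume ∂μ ≠ ⊤)
    (hlim : ∀ p, Tendsto (fun n => Φ n p) atTop (𝓝 (Ψ p))) :
    Tendsto (fun n => ∫⁻ z, ∫⁻ v, ∫⁻ vs, Φ n (z, v, vs) ∂volume ∂volume ∂μ) atTop
      (𝓝 (∫⁻ z, ∫⁻ v, ∫⁻ vs, Ψ (z, v, vs) ∂volume ∂volume ∂μ)) := by
  have key : ∀ Θ : (ℝ × R3) × R3 × R3 → ℝ≥0∞, Measurable Θ →
      ∫⁻ p, Θ p ∂(μ.prod ((volume : Measure R3).prod (volume : Measure R3))) =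
        ∫⁻ z, ∫⁻ v, ∫⁻ vs, Θ (z, v, vs) ∂volume ∂volume ∂μ := by
    intro Θ hΘ
    rw [lintegral_prod _ hΘ.aemeasurable]
    refine lintegral_congr fun z => ?_
    exact lintegral_prod (fun y => Θ (z, y)) (hΘ.comp measurable_prodMk_left).aemeasurable
  simp_rw [← key _ (hΦ _), ← key _ hΨ]
  refine tendsto_lintegral_of_dominated_convergence B hΦ
    (fun n => Eventually.of_forall (hle n)) ?_ (Eventually.of_forall hlim)
  rw [key _ hB]; exact hfin

theorem max_log_eq {y : ℝ} (hy : 0 ≤ y) : max (Real.log y) 0 = Real.log (max y 1) := by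
  rcases le_total y 1 with h | h
  · rw [max_eq_right h, Real.log_one, max_eq_right (Real.log_nonpos hy h)]
  · rw [max_eq_left h, max_eq_left (Real.log_nonneg h)]

theorem cont_lp : Continuous fun y : ℝ => Real.log (max y 1) :=
  (continuous_id.max continuous_const).log fun _ =>
    ne_of_gt (lt_of_lt_of_le one_pos (le_max_right _ _))

theorem maxw_pos (v : R3) : 0 < maxwellian v := by
  unfold maxwellian; positivity

theorem maxw_le_one (v : R3) : maxwellian v ≤ 1 := by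
  unfold maxwellian
  have h1 : (2 * Real.pi) ^ (-(3 / 2 : ℝ)) ≤ 1 :=
    Real.rpow_le_one_of_one_le_of_nonpos (by linarith [Real.pi_gt_three]) (by norm_num)
  have h2 : Real.exp (-‖v‖ ^ 2 / 2) ≤ 1 := Real.exp_le_one_iff.2 (by
    have := sq_nonneg ‖v‖; linarith)
  exact mul_le_one₀ h1 (Real.exp_pos _).le h2

theorem meas_maxw : Measurable maxwellian := by
  unfold maxwellian; fun_prop

theorem meas_jb : Measurable jb := by
  unfold jb; fun_prop

theorem jb_pos (v : R3) : 0 < jb v := by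
  unfold jb; positivity

theorem mu_moment (k : ℕ) : ∫⁻ v, mu v * ENNReal.ofReal (jb v ^ k) ≠ ⊤ := by
  obtain ⟨C, hC, h⟩ := lint_SgA k
  have h1 := h (EuclideanSpace.single 0 1) ∅ (by simp) (1 / 2) (by norm_num)
  refine ne_top_of_le_ne_top ?_ (le_trans (lintegral_mono fun v => ?_) h1)
  · exact ENNReal.mul_ne_top hC (by simp)
  · rw [mul_comm]
    refine mul_le_mul_right ?_ _
    refine (mu_le_Ga v).trans (le_mul_of_one_le_right' ?_)
    unfold SgA
    exact le_add_right le_self_add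

/-- `log⁺ ((a + ε M)/N) ≤ 1 + log⁺ a` -/
theorem lp_le {a m N : ℝ} (ha : 0 ≤ a) (hm0 : 0 ≤ m) (hm : m ≤ 1) (hN : 1 ≤ N) :
    max (Real.log ((a + m) / N)) 0 ≤ 1 + max (Real.log a) 0 := by
  rw [max_log_eq (by positivity), max_log_eq ha]
  have h1 : max ((a + m) / N) 1 ≤ 2 * max a 1 := by
    have := le_max_left a 1
    have := le_max_right a 1
    refine max_le ?_ (by linarith)
    refine (div_le_self (by linarith) hN).trans (by linarith)
  have h2 : (0 : ℝ) < max a 1 := lt_of_lt_of_le one_pos (le_max_right _ _)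
  calc Real.log (max ((a + m) / N) 1) ≤ Real.log (2 * max a 1) :=
        Real.log_le_log (lt_of_lt_of_le one_pos (le_max_right _ _)) h1
    _ = Real.log 2 + Real.log (max a 1) := Real.log_mul (by norm_num) h2.ne'
    _ ≤ 1 + Real.log (max a 1) := by
        have := Real.log_le_sub_one_of_pos (show (0 : ℝ) < 2 by norm_num); linarith

theorem lp_le_self {a : ℝ} (ha : 0 ≤ a) : max (Real.log a) 0 ≤ a :=
  max_le (Real.log_le_self ha) ha

/-- the majorant -/
def Bd (F : PF) (p : (ℝ × R3) × R3 × R3) : ℝ≥0∞ :=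
  13 * (ENNReal.ofReal (jb p.2.1 * ((F (p.1.1, p.1.2, p.2.1)).toReal + maxwellian p.2.1) *
      (1 + max (Real.log (F (p.1.1, p.1.2, p.2.1)).toReal) 0)) *
    ENNReal.ofReal (jb p.2.2 * ((F (p.1.1, p.1.2, p.2.2)).toReal + maxwellian p.2.2)))

theorem meas_a1 {F : PF} (hF : Measurable F) :
    Measurable fun p : (ℝ × R3) × R3 × R3 => (F (p.1.1, p.1.2, p.2.1)).toReal :=
  (hF.comp (by fun_prop)).ennreal_toReal

theorem meas_a2 {F : PF} (hF : Measurable F) :
    Measurable fun p : (ℝ × R3) × R3 × R3 => (F (p.1.1, p.1.2, p.2.2)).toReal :=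
  (hF.comp (by fun_prop)).ennreal_toReal

theorem meas_Bd {F : PF} (hF : Measurable F) : Measurable (Bd F) := by
  have h1 := meas_a1 hF
  have h2 := meas_a2 hF
  have j1 : Measurable fun p : (ℝ × R3) × R3 × R3 => jb p.2.1 := meas_jb.comp (by fun_prop)
  have j2 : Measurable fun p : (ℝ × R3) × R3 × R3 => jb p.2.2 := meas_jb.comp (by fun_prop)
  have m1 : Measurable fun p : (ℝ × R3) × R3 × R3 => maxwellian p.2.1 := meas_maxw.comp (by fun_prop)
  have m2 : Measurable fun p : (ℝ × R3) × R3 × R3 => maxwellian p.2.2 := meas_maxw.comp (by fun_prop)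
  exact (((j1.mul (h1.add m1)).mul ((h1.log.max measurable_const).const_add 1)).ennreal_ofReal.mul
    (j2.mul (h2.add m2)).ennreal_ofReal).const_mul 13

/-- the integrand of the main error term -/
def Ig (F : PF) (ε N : ℝ) (p : (ℝ × R3) × R3 × R3) : ℝ≥0∞ :=
  13 * ENNReal.ofReal (jb p.2.1 * jb p.2.2 *
    ((F (p.1.1, p.1.2, p.2.1)).toReal + ε * maxwellian p.2.1) *
    ((F (p.1.1, p.1.2, p.2.2)).toReal + ε * maxwellian p.2.2) *
    max (Real.log (((F (p.1.1, p.1.2, p.2.1)).toReal + ε * maxwellian p.2.1) / N)) 0)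

theorem meas_Ig {F : PF} (hF : Measurable F) (ε N : ℝ) : Measurable (Ig F ε N) := by
  have h1 := meas_a1 hF
  have h2 := meas_a2 hF
  have j1 : Measurable fun p : (ℝ × R3) × R3 × R3 => jb p.2.1 := meas_jb.comp (by fun_prop)
  have j2 : Measurable fun p : (ℝ × R3) × R3 × R3 => jb p.2.2 := meas_jb.comp (by fun_prop)
  have m1 : Measurable fun p : (ℝ × R3) × R3 × R3 => maxwellian p.2.1 := meas_maxw.comp (by fun_prop)
  have m2 : Measurable fun p : (ℝ × R3) × R3 × R3 => maxwellian p.2.2 := meas_maxw.comp (by fun_prop)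
  exact ((((j1.mul j2).mul (h1.add (m1.const_mul ε))).mul (h2.add (m2.const_mul ε))).mul
    (((h1.add (m1.const_mul ε)).div_const N).log.max measurable_const)).ennreal_ofReal.const_mul 13

theorem Ig_le (F : PF) {ε N : ℝ} (h0 : 0 ≤ ε) (h1 : ε ≤ 1) (hN : 1 ≤ N)
    (p : (ℝ × R3) × R3 × R3) : Ig F ε N p ≤ Bd F p := by
  unfold Ig Bd
  refine mul_le_mul_right ?_ _
  set a := (F (p.1.1, p.1.2, p.2.1)).toReal
  set b := (F (p.1.1, p.1.2, p.2.2)).toReal
  have ha : 0 ≤ a := ENNReal.toReal_nonneg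
  have hb : 0 ≤ b := ENNReal.toReal_nonneg
  have hj1 := jb_pos p.2.1
  have hj2 := jb_pos p.2.2
  have hm1 := maxw_pos p.2.1
  have hm2 := maxw_pos p.2.2
  have hl : 0 ≤ max (Real.log a) 0 := le_max_right _ _
  rw [← ENNReal.ofReal_mul (by positivity)]
  refine ENNReal.ofReal_le_ofReal ?_
  have e1 : ε * maxwellian p.2.1 ≤ maxwellian p.2.1 := mul_le_of_le_one_left hm1.le h1
  have e2 : ε * maxwellian p.2.2 ≤ maxwellian p.2.2 := mul_le_of_le_one_left hm2.le h1
  have e3 := lp_le ha (mul_nonneg h0 hm1.le) (e1.trans (maxw_le_one _)) hN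
  calc jb p.2.1 * jb p.2.2 * (a + ε * maxwellian p.2.1) * (b + ε * maxwellian p.2.2) *
        max (Real.log ((a + ε * maxwellian p.2.1) / N)) 0
      ≤ jb p.2.1 * jb p.2.2 * (a + maxwellian p.2.1) * (b + maxwellian p.2.2) *
        (1 + max (Real.log a) 0) := by
        have := le_max_right (Real.log ((a + ε * maxwellian p.2.1) / N)) 0
        gcongr
    _ = _ := by ring

theorem X_le (f : R3 → ℝ≥0∞) :
    ∫⁻ v, ENNReal.ofReal (jb v * ((f v).toReal + maxwellian v) *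
        (1 + max (Real.log (f v).toReal) 0)) ≤
      2 * (∫⁻ v, f v * ENNReal.ofReal (jb v ^ 1 * (1 + max (Real.log (f v).toReal) 0))) +
        ∫⁻ v, mu v * ENNReal.ofReal (jb v ^ 1) := by
  have hm : Measurable fun v => mu v * ENNReal.ofReal (jb v ^ 1) :=
    measurable_mu.mul (meas_jb.pow_const 1).ennreal_ofReal
  rw [← lintegral_const_mul' _ _ (by norm_num), ← lintegral_add_right _ hm]
  refine lintegral_mono fun v => ?_
  set a := (f v).toReal
  have ha : 0 ≤ a := ENNReal.toReal_nonneg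
  have hj := jb_pos v
  have hm1 := maxw_pos v
  have hm2 := maxw_le_one v
  have hl : 0 ≤ max (Real.log a) 0 := le_max_right _ _
  have hl2 := lp_le_self ha
  have e1 : ENNReal.ofReal a ≤ f v := ENNReal.ofReal_toReal_le
  calc ENNReal.ofReal (jb v * (a + maxwellian v) * (1 + max (Real.log a) 0))
      ≤ ENNReal.ofReal (2 * (a * (jb v ^ 1 * (1 + max (Real.log a) 0))) +
          maxwellian v * jb v ^ 1) := by
        refine ENNReal.ofReal_le_ofReal ?_
        have h1 : maxwellian v * max (Real.log a) 0 ≤ a * (1 + max (Real.log a) 0) := by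
          nlinarith [mul_nonneg ha hl]
        have h2 := mul_le_mul_of_nonneg_left h1 hj.le
        nlinarith
    _ = 2 * (ENNReal.ofReal a * ENNReal.ofReal (jb v ^ 1 * (1 + max (Real.log a) 0))) +
          mu v * ENNReal.ofReal (jb v ^ 1) := by
        rw [ENNReal.ofReal_add (by positivity) (by positivity), ENNReal.ofReal_mul (by norm_num),
          ENNReal.ofReal_mul ha, ENNReal.ofReal_mul hm1.le, ENNReal.ofReal_ofNat]
        rfl
    _ ≤ _ := by gcongr

theorem Y_le (f : R3 → ℝ≥0∞) :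
    ∫⁻ v, ENNReal.ofReal (jb v * ((f v).toReal + maxwellian v)) ≤
      (∫⁻ v, f v * ENNReal.ofReal (jb v ^ 1)) + ∫⁻ v, mu v * ENNReal.ofReal (jb v ^ 1) := by
  have hm : Measurable fun v => mu v * ENNReal.ofReal (jb v ^ 1) :=
    measurable_mu.mul (meas_jb.pow_const 1).ennreal_ofReal
  rw [← lintegral_add_right _ hm]
  refine lintegral_mono fun v => ?_
  set a := (f v).toReal
  have ha : 0 ≤ a := ENNReal.toReal_nonneg
  have hj := jb_pos v
  have hm1 := maxw_pos v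
  have e1 : ENNReal.ofReal a ≤ f v := ENNReal.ofReal_toReal_le
  calc ENNReal.ofReal (jb v * (a + maxwellian v))
      = ENNReal.ofReal (a * jb v ^ 1 + maxwellian v * jb v ^ 1) := by congr 1; ring
    _ = ENNReal.ofReal a * ENNReal.ofReal (jb v ^ 1) + mu v * ENNReal.ofReal (jb v ^ 1) := by
        rw [ENNReal.ofReal_add (by positivity) (by positivity),
          ENNReal.ofReal_mul ha, ENNReal.ofReal_mul hm1.le]
        rfl
    _ ≤ _ := by gcongr

theorem rho_le (f : R3 → ℝ≥0∞) (k : ℕ) :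
    ∫⁻ v, f v * ENNReal.ofReal (jb v ^ k) ≤
      ∫⁻ v, f v * ENNReal.ofReal (jb v ^ k * (1 + max (Real.log (f v).toReal) 0)) := by
  refine lintegral_mono fun v => mul_le_mul_right (ENNReal.ofReal_le_ofReal ?_) _
  have hj := pow_pos (jb_pos v) k
  have hl : 0 ≤ max (Real.log (f v).toReal) 0 := le_max_right _ _
  nlinarith

theorem vol_ne_top (T : ℝ) : (volume : Measure (ℝ × R3)) (Ioo (0 : ℝ) T ×ˢ cell) ≠ ⊤ := by
  rw [Measure.volume_eq_prod, Measure.prod_prod, volume_cell, Real.volume_Ioo]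
  simp

theorem Bd_fin {F : PF} {T : ℝ} (h : WSol F T) :
    ∫⁻ z in Ioo (0 : ℝ) T ×ˢ cell, ∫⁻ v, ∫⁻ vs, Bd F (z, v, vs) ∂volume ∂volume
      ∂(volume : Measure (ℝ × R3)) ≠ ⊤ := by
  set C := ∫⁻ v, mu v * ENNReal.ofReal (jb v ^ 1) with hCdef
  have hC : C ≠ ⊤ := mu_moment 1
  have h3 := (h.h3 1).ne
  refine ne_top_of_le_ne_top (b := ∫⁻ z in Ioo (0 : ℝ) T ×ˢ cell,
    (13 * (2 + 3 * C) * ((∫⁻ v, F (z.1, z.2, v) *
        ENNReal.ofReal (jb v ^ 1 * (1 + max (Real.log (F (z.1, z.2, v)).toReal) 0))) *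
      (1 + ∫⁻ v, F (z.1, z.2, v) * ENNReal.ofReal (jb v ^ 1))) + 13 * (C * C))
      ∂(volume : Measure (ℝ × R3))) ?_ (lintegral_mono fun z => ?_)
  · have hK : 13 * (2 + 3 * C) ≠ ⊤ := ENNReal.mul_ne_top (by norm_num)
      (ENNReal.add_ne_top.2 ⟨by norm_num, ENNReal.mul_ne_top (by norm_num) hC⟩)
    rw [lintegral_add_right _ measurable_const, lintegral_const_mul' _ _ hK, lintegral_const,
      Measure.restrict_apply_univ]
    exact ENNReal.add_ne_top.2 ⟨ENNReal.mul_ne_top hK h3, ENNReal.mul_ne_top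
      (ENNReal.mul_ne_top (by norm_num) (ENNReal.mul_ne_top hC hC)) (vol_ne_top T)⟩
  · have hf : Measurable fun v => F (z.1, z.2, v) := h.meas.comp (by fun_prop)
    have hx := X_le (fun v => F (z.1, z.2, v))
    have hy := Y_le (fun v => F (z.1, z.2, v))
    have hr := rho_le (fun v => F (z.1, z.2, v)) 1
    have m1 : Measurable fun v => ENNReal.ofReal (jb v * ((F (z.1, z.2, v)).toReal + maxwellian v) *
        (1 + max (Real.log (F (z.1, z.2, v)).toReal) 0)) :=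
      ((meas_jb.mul (hf.ennreal_toReal.add meas_maxw)).mul
        ((hf.ennreal_toReal.log.max measurable_const).const_add 1)).ennreal_ofReal
    have m2 : Measurable fun v => ENNReal.ofReal (jb v * ((F (z.1, z.2, v)).toReal + maxwellian v)) :=
      (meas_jb.mul (hf.ennreal_toReal.add meas_maxw)).ennreal_ofReal
    have e : ∫⁻ v, ∫⁻ vs, Bd F (z, v, vs) = 13 *
        ((∫⁻ v, ENNReal.ofReal (jb v * ((F (z.1, z.2, v)).toReal + maxwellian v) *
          (1 + max (Real.log (F (z.1, z.2, v)).toReal) 0))) *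
        ∫⁻ v, ENNReal.ofReal (jb v * ((F (z.1, z.2, v)).toReal + maxwellian v))) := by
      unfold Bd
      simp only
      simp_rw [lintegral_const_mul' _ _ (show (13 : ℝ≥0∞) ≠ ⊤ by norm_num), lintegral_const_mul _ m2]
      rw [lintegral_mul_const _ m1]
    rw [e, mul_assoc, ← mul_add]
    refine mul_le_mul_right ?_ _
    rw [← hCdef] at hx hy
    set P := ∫⁻ v, F (z.1, z.2, v) *
        ENNReal.ofReal (jb v ^ 1 * (1 + max (Real.log (F (z.1, z.2, v)).toReal) 0))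
    set ρ := ∫⁻ v, F (z.1, z.2, v) * ENNReal.ofReal (jb v ^ 1)
    have a1 : P * ρ ≤ P * (1 + ρ) := mul_le_mul_right le_add_self _
    have a2 : P ≤ P * (1 + ρ) := le_mul_of_one_le_right' le_self_add
    calc _ ≤ (2 * P + C) * (ρ + C) := mul_le_mul' hx hy
      _ = 2 * (P * ρ) + 2 * C * P + C * ρ + C * C := by ring
      _ ≤ 2 * (P * (1 + ρ)) + 2 * C * (P * (1 + ρ)) + C * (P * (1 + ρ)) + C * C := by
          have := hr.trans a2
          gcongr
      _ = _ := by ring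

theorem rho_fin {F : PF} {T : ℝ} (h : WSol F T) (k : ℕ) :
    ∫⁻ z in Ioo (0 : ℝ) T ×ˢ cell, ∫⁻ v, F (z.1, z.2, v) * ENNReal.ofReal (jb v ^ k) ∂volume
      ∂(volume : Measure (ℝ × R3)) ≠ ⊤ := by
  refine ne_top_of_le_ne_top (h.h3 k).ne (lintegral_mono fun z => ?_)
  exact (rho_le (fun v => F (z.1, z.2, v)) k).trans (le_mul_of_one_le_right' le_self_add)

theorem meas_rho {F : PF} (hF : Measurable F) (k : ℕ) :
    Measurable fun z : ℝ × R3 => ∫⁻ v, F (z.1, z.2, v) * ENNReal.ofReal (jb v ^ k) := by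
  have : Measurable fun p : (ℝ × R3) × R3 => F (p.1.1, p.1.2, p.2) * ENNReal.ofReal (jb p.2 ^ k) :=
    (hF.comp (by fun_prop)).mul ((meas_jb.comp measurable_snd).pow_const k).ennreal_ofReal
  exact this.lintegral_prod_right'

theorem Ig_tendsto (F : PF) {N : ℝ} (hN : 1 ≤ N) (p : (ℝ × R3) × R3 × R3) :
    Tendsto (fun n : ℕ => Ig F (1 / ((n : ℝ) + 1)) N p) atTop (𝓝 (Ig F 0 N p)) := by
  unfold Ig
  set a := (F (p.1.1, p.1.2, p.2.1)).toReal
  set b := (F (p.1.1, p.1.2, p.2.2)).toReal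
  have ha : 0 ≤ a := ENNReal.toReal_nonneg
  have hm1 := maxw_pos p.2.1
  have hc : Continuous fun ε : ℝ => jb p.2.1 * jb p.2.2 * (a + ε * maxwellian p.2.1) *
      (b + ε * maxwellian p.2.2) * Real.log (max ((a + ε * maxwellian p.2.1) / N) 1) := by
    refine Continuous.mul (by fun_prop) (cont_lp.comp (by fun_prop))
  have ht := (hc.tendsto 0).comp tendsto_one_div_add_atTop_nhds_zero_nat
  refine ENNReal.Tendsto.const_mul (ENNReal.tendsto_ofReal ?_) (Or.inr (by norm_num))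
  rw [max_log_eq (by positivity)]
  refine ht.congr fun n => ?_
  rw [max_log_eq (by positivity)]
  rfl

theorem Ig_tendsto0 (F : PF) (p : (ℝ × R3) × R3 × R3) :
    Tendsto (fun n : ℕ => Ig F 0 ((n : ℝ) + 1) p) atTop (𝓝 0) := by
  refine tendsto_const_nhds.congr' ?_
  obtain ⟨n0, hn0⟩ := exists_nat_ge (F (p.1.1, p.1.2, p.2.1)).toReal
  filter_upwards [eventually_ge_atTop n0] with n hn
  have ha : 0 ≤ (F (p.1.1, p.1.2, p.2.1)).toReal := ENNReal.toReal_nonneg
  have hn' : (n0 : ℝ) ≤ n := by exact_mod_cast hn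
  have : max (Real.log (((F (p.1.1, p.1.2, p.2.1)).toReal + 0 * maxwellian p.2.1) / ((n : ℝ) + 1))) 0
      = 0 := by
    rw [zero_mul, add_zero]
    refine max_eq_right (Real.log_nonpos (by positivity) ?_)
    rw [div_le_one (by positivity)]; linarith
  unfold Ig
  rw [this]; simp

theorem coef_tendsto (N : ℝ) : Tendsto (fun n : ℕ => ENNReal.ofReal (1 / ((n : ℝ) + 1) *
    (10 + Real.log N - Real.log (1 / ((n : ℝ) + 1))))) atTop (𝓝 0) := by
  have hc : Continuous fun ε : ℝ => ε * (10 + Real.log N) + Real.negMulLog ε := by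
    have := Real.continuous_negMulLog
    fun_prop
  have ht := (hc.tendsto 0).comp tendsto_one_div_add_atTop_nhds_zero_nat
  simp only [zero_mul, Real.negMulLog_zero, add_zero] at ht
  rw [← ENNReal.ofReal_zero]
  refine ENNReal.tendsto_ofReal (ht.congr fun n => ?_)
  simp only [Function.comp, Real.negMulLog]; ring

theorem main1 {F : PF} {T : ℝ} (h : WSol F T) {N : ℝ} (hN : 1 ≤ N) :
    (∀ n : ℕ, ∫⁻ z in Ioo (0 : ℝ) T ×ˢ cell, entErr (1 / ((n : ℝ) + 1)) N (fun v => F (z.1, z.2, v))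
      ∂(volume : Measure (ℝ × R3)) ≠ ⊤) ∧
    Tendsto (fun n : ℕ => ∫⁻ z in Ioo (0 : ℝ) T ×ˢ cell,
        entErr (1 / ((n : ℝ) + 1)) N (fun v => F (z.1, z.2, v)) ∂(volume : Measure (ℝ × R3))) atTop
      (𝓝 (∫⁻ z in Ioo (0 : ℝ) T ×ˢ cell, ∫⁻ v, ∫⁻ vs, Ig F 0 N (z, v, vs) ∂volume ∂volume
        ∂(volume : Measure (ℝ × R3)))) := by
  set R := ∫⁻ z in Ioo (0 : ℝ) T ×ˢ cell, ∫⁻ v, F (z.1, z.2, v) * ENNReal.ofReal (jb v ^ 3) ∂volume
      ∂(volume : Measure (ℝ × R3))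
  set C := ∫⁻ v, mu v * ENNReal.ofReal (jb v ^ 3)
  have hR : 100 * R * C ≠ ⊤ :=
    ENNReal.mul_ne_top (ENNReal.mul_ne_top (by norm_num) (rho_fin h 3)) (mu_moment 3)
  have h0 : ∀ n : ℕ, (0 : ℝ) ≤ 1 / ((n : ℝ) + 1) := fun n => by positivity
  have h1 : ∀ n : ℕ, 1 / ((n : ℝ) + 1) ≤ 1 := fun n => by
    rw [div_le_one (by positivity)]; linarith [Nat.cast_nonneg (α := ℝ) n]
  have e : ∀ ε : ℝ, ∫⁻ z in Ioo (0 : ℝ) T ×ˢ cell, entErr ε N (fun v => F (z.1, z.2, v))
      ∂(volume : Measure (ℝ × R3)) =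
      (∫⁻ z in Ioo (0 : ℝ) T ×ˢ cell, ∫⁻ v, ∫⁻ vs, Ig F ε N (z, v, vs) ∂volume ∂volume
        ∂(volume : Measure (ℝ × R3))) +
      ENNReal.ofReal (ε * (10 + Real.log N - Real.log ε)) * (100 * R * C) := by
    intro ε
    have hm := meas_rho h.meas 3
    unfold entErr
    rw [lintegral_add_right _ ((hm.const_mul _).mul_const _), lintegral_mul_const _ (hm.const_mul _),
      lintegral_const_mul _ hm]
    congr 1
    ring
  simp_rw [e]
  refine ⟨fun n => ENNReal.add_ne_top.2 ⟨ne_top_of_le_ne_top (Bd_fin h) ?_,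
    ENNReal.mul_ne_top ENNReal.ofReal_ne_top hR⟩, ?_⟩
  · exact lintegral_mono fun z => lintegral_mono fun v => lintegral_mono fun vs =>
      Ig_le F (h0 n) (h1 n) hN _
  · have t1 := dct3 (volume.restrict (Ioo (0 : ℝ) T ×ˢ cell)) _ _ (Bd F)
      (fun n : ℕ => meas_Ig h.meas (1 / ((n : ℝ) + 1)) N) (meas_Ig h.meas 0 N) (meas_Bd h.meas)
      (fun n p => Ig_le F (h0 n) (h1 n) hN p) (Bd_fin h) (Ig_tendsto F hN)
    have t2 := ENNReal.Tendsto.mul_const (b := 100 * R * C) (coef_tendsto N) (Or.inr hR)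
    simpa using t1.add t2

theorem main2 {F : PF} {T : ℝ} (h : WSol F T) :
    Tendsto (fun n : ℕ => ∫⁻ z in Ioo (0 : ℝ) T ×ˢ cell, ∫⁻ v, ∫⁻ vs,
      Ig F 0 ((n : ℝ) + 1) (z, v, vs) ∂volume ∂volume ∂(volume : Measure (ℝ × R3))) atTop (𝓝 0) := by
  have t1 := dct3 (volume.restrict (Ioo (0 : ℝ) T ×ˢ cell)) _ (fun _ => 0) (Bd F)
    (fun n : ℕ => meas_Ig h.meas 0 ((n : ℝ) + 1)) measurable_const (meas_Bd h.meas)
    (fun n p => Ig_le F le_rfl zero_le_one (by linarith [Nat.cast_nonneg (α := ℝ) n]) p)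
    (Bd_fin h) (Ig_tendsto0 F)
  simpa using t1

end W5B
end
end Crest.Agent.R68
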