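import Crest.Agent.R68.W4

/-! # Row 68: weak-solution module, part 5 (auxiliary): the renormalised identity -/

set_option autoImplicit false
open MeasureTheory Set Filter Topology
open scoped ENNReal NNReal
open Crest.AnalysisR.VecCalc3 Crest.AnalysisR.PDE.Boltzmann

namespace Crest.Agent.R68.Ren
noncomputable section

/-- lattice periodicity of a real function -/
def PerR (Φ : Ph → ℝ) : Prop :=
  ∀ (t : ℝ) (x v : R3) (m : Fin 3 → ℤ), Φ (t, x + lat m, v) = Φ (t, x, v)

theorem PerR.comp {Φ : Ph → ℝ} (h : PerR Φ) (g : ℝ → ℝ≥0∞) : Per fun p => g (Φ p) :=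
  fun t x v m => congrArg g (h t x v m)

theorem measurable_ch1 (t : ℝ) : Measurable fun q : R3 × R3 => ch q t :=
  measurable_ch.comp (measurable_id.prodMk measurable_const)

/-- real version of `lint_cell_ch` -/
theorem int_cell_ch {Φ : Ph → ℝ} (hΦ : Measurable Φ) (hp : PerR Φ) (t : ℝ)
    (hi : IntegrableOn (fun q : R3 × R3 => Φ (t, q.1, q.2)) (cell ×ˢ univ)) :
    IntegrableOn (fun q : R3 × R3 => Φ (ch q t)) (cell ×ˢ univ) ∧
      ∫ q in cell ×ˢ univ, Φ (ch q t) = ∫ q in cell ×ˢ (univ : Set R3), Φ (t, q.1, q.2) := by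
  have h1 : IntegrableOn (fun q : R3 × R3 => Φ (ch q t)) (cell ×ˢ univ) := by
    refine ⟨(hΦ.comp (measurable_ch1 t)).aestronglyMeasurable, ?_⟩
    have := lint_cell_ch (fun p => ‖Φ p‖ₑ) hΦ.enorm (hp.comp _) t
    exact this.trans_lt hi.2
  refine ⟨h1, ?_⟩
  rw [integral_eq_lintegral_pos_part_sub_lintegral_neg_part h1,
    integral_eq_lintegral_pos_part_sub_lintegral_neg_part hi,
    lint_cell_ch (fun p => ENNReal.ofReal (Φ p)) hΦ.ennreal_ofReal (hp.comp _) t,
    lint_cell_ch (fun p => ENNReal.ofReal (-Φ p)) hΦ.neg.ennreal_ofReal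
      (hp.comp fun y => ENNReal.ofReal (-y)) t]

/-- real version of `lint_strip_ch` -/
theorem int_strip_ch {Φ : Ph → ℝ} (hΦ : Measurable Φ) (hp : PerR Φ) (t : ℝ)
    (hi : IntegrableOn Φ (strip t)) :
    IntegrableOn (fun q : R3 × R3 => ∫ s in Ioo 0 t, Φ (ch q s)) (cell ×ˢ univ) ∧
      ∫ q in cell ×ˢ univ, ∫ s in Ioo 0 t, Φ (ch q s) = ∫ p in strip t, Φ p := by
  have key : ∀ g : ℝ → ℝ≥0∞, Measurable g →
      ∫⁻ z, g (Φ (ch z.1 z.2)) ∂((volume.restrict (cell ×ˢ (univ : Set R3))).prod
        (volume.restrict (Ioo 0 t))) = ∫⁻ p in strip t, g (Φ p) := fun g hg => by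
    exact (lintegral_prod _ (hg.comp (hΦ.comp measurable_ch)).aemeasurable).trans
      (lint_strip_ch (fun p => g (Φ p)) (hg.comp hΦ) (hp.comp g) 0 t)
  have h1 : Integrable (fun z : (R3 × R3) × ℝ => Φ (ch z.1 z.2))
      ((volume.restrict (cell ×ˢ (univ : Set R3))).prod (volume.restrict (Ioo 0 t))) :=
    ⟨(hΦ.comp measurable_ch).aestronglyMeasurable,
      (key (fun y => ‖y‖ₑ) measurable_enorm).trans_lt hi.2⟩
  refine ⟨h1.integral_prod_left, ?_⟩
  rw [← integral_prod _ h1, integral_eq_lintegral_pos_part_sub_lintegral_neg_part h1,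
    integral_eq_lintegral_pos_part_sub_lintegral_neg_part hi,
    key ENNReal.ofReal ENNReal.measurable_ofReal,
    key (fun y => ENNReal.ofReal (-y)) (ENNReal.measurable_ofReal.comp measurable_neg)]

/-- primitive of the truncated logarithm -/
def bb (N z : ℝ) : ℝ := if z ≤ N then z * Real.log z - z else z * Real.log N - N

theorem continuous_bb (N : ℝ) : Continuous (bb N) := by
  unfold bb
  refine Continuous.if_le (Real.continuous_mul_log.sub continuous_id)
    ((continuous_id.mul continuous_const).sub continuous_const) continuous_id continuous_const ?_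
  rintro z rfl
  rfl

theorem bb_deriv {N z : ℝ} (hz : 0 < z) :
    HasDerivWithinAt (bb N) (Real.log (min z N)) (Ioi z) z := by
  rcases lt_or_ge z N with h | h
  · rw [min_eq_left h.le]
    have h1 : HasDerivAt (fun z => z * Real.log z - z) (Real.log z) z := by
      exact ((Real.hasDerivAt_mul_log hz.ne').sub (hasDerivAt_id z)).congr_deriv (by ring)
    refine (h1.congr_of_eventuallyEq ?_).hasDerivWithinAt
    filter_upwards [Iio_mem_nhds h] with y hy
    exact if_pos (le_of_lt hy)
  · rw [min_eq_right h]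
    have h1 : HasDerivAt (fun z => z * Real.log N - N) (Real.log N) z := by
      simpa using ((hasDerivAt_id z).mul_const (Real.log N)).sub_const N
    refine h1.hasDerivWithinAt.congr (fun y hy => if_neg (not_le.2 (h.trans_lt hy))) ?_
    unfold bb
    split_ifs with h2
    · rw [le_antisymm h2 h]
    · rfl

theorem abs_bb_le {N z : ℝ} (hN : 0 ≤ N) (hz : 0 ≤ z) :
    |bb N z| ≤ z * (|Real.log (min z N)| + 1) := by
  unfold bb
  split_ifs with h
  · rw [min_eq_left h]
    refine (abs_sub _ _).trans (le_of_eq ?_)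
    rw [abs_mul, abs_of_nonneg hz]
    ring
  · rw [min_eq_right (not_le.1 h).le]
    refine (abs_sub _ _).trans ?_
    rw [abs_mul, abs_of_nonneg hz, abs_of_nonneg hN]
    linarith [(not_le.1 h).le]

/-- the chain rule for `bb` along one characteristic -/
theorem chain_bb {N c T : ℝ} (hN : 0 < N) (hc : 0 < c) {f g : ℝ → ℝ} (hg : IntegrableOn g (Ioo 0 T))
    (hf0 : ∀ s, 0 ≤ f s) (hf : ∀ t ∈ Icc 0 T, f t = f 0 + ∫ s in Ioo 0 t, g s) {t : ℝ}
    (ht : t ∈ Icc 0 T) :
    bb N (f t + c) = bb N (f 0 + c) + ∫ s in Ioo 0 t, g s * Real.log (min (f s + c) N) := by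
  have hβ' : Continuous fun z => Real.log (min (max z c) N) :=
    ((continuous_id.max continuous_const).min continuous_const).log fun z =>
      (lt_min (hc.trans_le (le_max_right _ _)) hN).ne'
  have hβ : ∀ z, HasDerivAt (fun z => bb N c + ∫ u in c..z, Real.log (min (max u c) N))
      (Real.log (min (max z c) N)) z := fun z =>
    (intervalIntegral.integral_hasDerivAt_right (hβ'.intervalIntegrable _ _)
      (hβ'.stronglyMeasurableAtFilter _ _) hβ'.continuousAt).const_add _
  have e : ∀ z, c ≤ z → bb N c + ∫ u in c..z, Real.log (min (max u c) N) = bb N z := fun z hz => by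
    rw [intervalIntegral.integral_eq_sub_of_hasDeriv_right_of_le hz (continuous_bb N).continuousOn
      (fun x hx => by rw [max_eq_left hx.1.le]; exact bb_deriv (hc.trans hx.1))
      (hβ'.intervalIntegrable _ _)]
    ring
  have := (chain_rule_ac (fun s => f s + c) g (f 0 + c) T hg
    (fun t ht => by rw [hf t ht]; ring) _ _ hβ hβ' t ht).2
  rw [e _ (by linarith [hf0 t]), e _ (by linarith [hf0 0])] at this
  rw [this]
  congr 2
  funext s
  rw [max_eq_left (by linarith [hf0 s]), mul_comm]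

theorem maxwellian_pos (v : R3) : 0 < maxwellian v := by
  unfold maxwellian
  have := Real.pi_pos
  positivity

theorem continuous_maxwellian : Continuous maxwellian := by
  unfold maxwellian
  fun_prop

theorem continuous_jb : Continuous jb := by
  unfold jb
  fun_prop

theorem one_le_jb (v : R3) : 1 ≤ jb v := by
  unfold jb
  linarith [norm_nonneg v]

theorem integrable_maxwellian (k : ℕ) : Integrable fun v : R3 => jb v ^ k * maxwellian v := by
  refine ⟨((continuous_jb.pow k).mul continuous_maxwellian).aestronglyMeasurable, ?_⟩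
  obtain ⟨C, hC, h⟩ := lint_SgA k
  have h1 := h (EuclideanSpace.single 0 1) ∅ (by simp) (1 / 2) (by norm_num)
  refine lt_of_le_of_lt (le_trans (lintegral_mono fun v => ?_) h1) ?_
  · have hj : 0 ≤ jb v ^ k := pow_nonneg (zero_le_one.trans (one_le_jb v)) k
    rw [Real.enorm_eq_ofReal (mul_nonneg hj (maxwellian_pos v).le), ENNReal.ofReal_mul hj]
    refine mul_le_mul_right ((mu_le_Ga v).trans (le_mul_of_one_le_right' ?_)) _
    unfold SgA
    exact le_self_add.trans le_self_add
  · simpa using hC.lt_top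

theorem integrableOn_maxwellian (k : ℕ) :
    IntegrableOn (fun q : R3 × R3 => jb q.2 ^ k * maxwellian q.2) (cell ×ˢ univ) := by
  have : IsFiniteMeasure ((volume : Measure R3).restrict cell) :=
    ⟨by simp [volume_cell]⟩
  unfold IntegrableOn
  rw [Measure.volume_eq_prod, ← Measure.prod_restrict, Measure.restrict_univ]
  exact (integrable_maxwellian k).comp_snd _

theorem integrableOn_moment {F : PF} {T : ℝ} (h : WSol F T) (k : ℕ) {t : ℝ} (ht : t ∈ Icc 0 T) :
    IntegrableOn (fun q : R3 × R3 => jb q.2 ^ k * (F (t, q.1, q.2)).toReal) (cell ×ˢ univ) := by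
  obtain ⟨C, hC, hm⟩ := h.moment k
  have m1 : Measurable fun q : R3 × R3 => F (t, q.1, q.2) :=
    h.meas.comp (measurable_const.prodMk measurable_id)
  refine ⟨(((continuous_jb.measurable.comp measurable_snd).pow_const k).mul
    m1.ennreal_toReal).aestronglyMeasurable, ?_⟩
  refine lt_of_le_of_lt (le_trans (lintegral_mono fun q => ?_) (hm t ht)) hC.lt_top
  have hj : 0 ≤ jb q.2 ^ k := pow_nonneg (zero_le_one.trans (one_le_jb q.2)) k
  rw [Real.enorm_eq_ofReal (mul_nonneg hj ENNReal.toReal_nonneg), ENNReal.ofReal_mul hj]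
  exact mul_le_mul_right ENNReal.ofReal_toReal_le _

theorem renorm {F : PF} {T : ℝ} (h : WSol F T) {ε N : ℝ} (hε : ε ∈ Ioc (0 : ℝ) 1) (hN : 1 ≤ N)
    (t : ℝ) (ht : t ∈ Icc 0 T) :
    IntegrableOn (fun q : R3 × R3 => bb N (rl F t q.1 q.2 + ε * maxwellian q.2)) (cell ×ˢ univ) ∧
    IntegrableOn (fun p : Ph => Qr F p * lg ε N (sec F p) p.2.2) (strip t) ∧
    ∫ q in cell ×ˢ univ, bb N (rl F t q.1 q.2 + ε * maxwellian q.2) =
      (∫ q in cell ×ˢ univ, bb N (rl F 0 q.1 q.2 + ε * maxwellian q.2)) +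
        ∫ p in strip t, Qr F p * lg ε N (sec F p) p.2.2 := by
  set K := 10 + Real.log N - Real.log ε with hK
  have hK0 : 0 ≤ K := by
    have h1 := Real.log_nonneg hN
    have h2 := Real.log_nonpos hε.1.le hε.2
    linarith
  set G : Ph → ℝ := fun p => (F p).toReal + ε * maxwellian p.2.2 with hG
  have mG : Measurable G := h.meas.ennreal_toReal.add
    ((continuous_maxwellian.measurable.comp (measurable_snd.comp measurable_snd)).const_mul ε)
  have hG0 : ∀ p, 0 ≤ G p := fun p =>
    add_nonneg ENNReal.toReal_nonneg (mul_nonneg hε.1.le (maxwellian_pos _).le)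
  have hlg : ∀ p : Ph, |Real.log (min (G p) N)| ≤ K * jb p.2.2 ^ 2 := fun p =>
    abs_lg_le hε hN (sec F p) p.2.2
  have mΦ : Measurable fun p => bb N (G p) := (continuous_bb N).measurable.comp mG
  have mΨ : Measurable fun p => Qr F p * Real.log (min (G p) N) :=
    (measurable_Qr h.meas).mul (mG.min measurable_const).log
  have pG : PerR G := fun s x v m => by simp only [hG, h.per s x v m]
  have pΦ : PerR fun p => bb N (G p) := fun s x v m => by simp only [pG s x v m]
  have pΨ : PerR fun p => Qr F p * Real.log (min (G p) N) := fun s x v m => by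
    simp only [pG s x v m, Qr, h.per s x v m, (h.per.QF h.per) s x v m, h.per.LF s x v m]
  have iΦ : ∀ s ∈ Icc 0 T,
      IntegrableOn (fun q : R3 × R3 => bb N (G (s, q.1, q.2))) (cell ×ˢ univ) := fun s hs => by
    refine Integrable.mono' (((integrableOn_moment h 2 hs).add
      ((integrableOn_maxwellian 2).const_mul ε)).const_mul (K + 1))
      (mΦ.comp (measurable_const.prodMk measurable_id)).aestronglyMeasurable
      (Eventually.of_forall fun q => ?_)
    have h1 := abs_bb_le (zero_le_one.trans hN) (hG0 (s, q.1, q.2))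
    have h2 := hlg (s, q.1, q.2)
    have h3 : 1 ≤ jb q.2 ^ 2 := one_le_pow₀ (one_le_jb _)
    have h4 : G (s, q.1, q.2) * (|Real.log (min (G (s, q.1, q.2)) N)| + 1) ≤
        G (s, q.1, q.2) * (K * jb q.2 ^ 2 + jb q.2 ^ 2) :=
      mul_le_mul_of_nonneg_left (add_le_add h2 h3) (hG0 _)
    refine (h1.trans h4).trans (le_of_eq ?_)
    simp only [hG, Pi.add_apply]
    ring
  have iΨ : IntegrableOn (fun p => Qr F p * Real.log (min (G p) N)) (strip t) := by
    have h1 : IntegrableOn (fun p : Ph => jb p.2.2 ^ 2 * Qr F p) (strip t) :=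
      (h.integrableOn_Qr 2).mono_set (prod_mono (Ioo_subset_Ioo_right ht.2) Subset.rfl)
    refine Integrable.mono' (h1.norm.const_mul K) mΨ.aestronglyMeasurable
      (Eventually.of_forall fun p => ?_)
    rw [norm_mul, norm_mul, Real.norm_eq_abs, Real.norm_eq_abs, Real.norm_eq_abs,
      abs_of_nonneg (sq_nonneg (jb p.2.2)), ← mul_assoc, mul_comm]
    exact mul_le_mul_of_nonneg_right (hlg p) (abs_nonneg _)
  have h0 : (0 : ℝ) ∈ Icc 0 T := ⟨le_rfl, ht.1.trans ht.2⟩
  refine ⟨iΦ t ht, iΨ, ?_⟩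
  obtain ⟨-, a2⟩ := int_cell_ch mΦ pΦ t (iΦ t ht)
  obtain ⟨b1, b2⟩ := int_cell_ch mΦ pΦ 0 (iΦ 0 h0)
  obtain ⟨c1, c2⟩ := int_strip_ch mΨ pΨ t iΨ
  change ∫ q in cell ×ˢ univ, bb N (G (t, q.1, q.2)) =
    (∫ q in cell ×ˢ univ, bb N (G (0, q.1, q.2))) + ∫ p in strip t, Qr F p * Real.log (min (G p) N)
  rw [← a2, ← b2, ← c2, ← integral_add b1 c1]
  refine integral_congr_ae ?_
  filter_upwards [h.linear] with q hq
  exact chain_bb (f := fun s => (F (ch q s)).toReal) (c := ε * maxwellian q.2)
    (zero_lt_one.trans_le hN) (mul_pos hε.1 (maxwellian_pos _)) hq.1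
    (fun _ => ENNReal.toReal_nonneg) hq.2.2 ht

end
end Crest.Agent.R68.Ren
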