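import Crest.Agent.R68.W4
import Crest.Agent.R68.W5AuxB
import Crest.Agent.R68.W5Ren

/-! # Row 68: weak-solution module, part 5: the entropy inequality -/

set_option autoImplicit false
open MeasureTheory Set Filter Topology
open scoped ENNReal NNReal
open Crest.AnalysisR.VecCalc3 Crest.AnalysisR.PDE.Boltzmann

namespace Crest.Agent.R68
noncomputable section

/-- primitive of the truncated logarithm: `z log z - z` for `z ≤ N`, affine afterwards -/
def bN (N z : ℝ) : ℝ := if z ≤ N then z * Real.log z - z else z * Real.log N - N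

/-- Renormalised identity.  On a.e. characteristic apply `chain_rule_ac` to `F♯ + c`, `c = ε M(v)`, with
`β' z = log (min (max z c) N)` and `β` its primitive that equals `bN N` on `[c, ∞)`; integrate over
`cell × ℝ³` (`|bN N G| ≤ C G jb²`, `abs_lg_le`, `WSol.moment`, `WSol.integrableOn_Qr`), unshift with
the real versions of `lint_cell_ch`/`lint_strip_ch`. -/
theorem WSol.renorm {F : PF} {T : ℝ} (h : WSol F T) {ε N : ℝ} (hε : ε ∈ Ioc (0 : ℝ) 1) (hN : 1 ≤ N)
    (t : ℝ) (ht : t ∈ Icc 0 T) :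
    IntegrableOn (fun q : R3 × R3 => bN N (rl F t q.1 q.2 + ε * maxwellian q.2)) (cell ×ˢ univ) ∧
    IntegrableOn (fun p : Ph => Qr F p * lg ε N (sec F p) p.2.2) (strip t) ∧
    ∫ q in cell ×ˢ univ, bN N (rl F t q.1 q.2 + ε * maxwellian q.2) =
      (∫ q in cell ×ˢ univ, bN N (rl F 0 q.1 q.2 + ε * maxwellian q.2)) +
        ∫ p in strip t, Qr F p * lg ε N (sec F p) p.2.2 :=
  Ren.renorm h hε hN t ht

/-- the error after `ε → 0` -/
def entErr0 (N : ℝ) (f : R3 → ℝ≥0∞) : ℝ≥0∞ :=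
  ∫⁻ v, ∫⁻ vs, 13 * ENNReal.ofReal (jb v * jb vs * (f v).toReal * (f vs).toReal *
      max (Real.log ((f v).toReal / N)) 0)

/-- dominated convergence in `ε = 1/(n+1)`; majorant from `H3`
(`log⁺ (f + M) ≤ 1 + log⁺ f`, `(f + M) log⁺ (f+M) ≤ (f + M)(1 + log⁺ f)` and `M log⁺ f ≤ f`). -/
theorem WSol.tendsto_entErr {F : PF} {T : ℝ} (h : WSol F T) {N : ℝ} (hN : 1 ≤ N) :
    (∀ n : ℕ, ∫⁻ z in Ioo (0 : ℝ) T ×ˢ cell, entErr (1 / ((n : ℝ) + 1)) N (fun v => F (z.1, z.2, v))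
      ∂(volume : Measure (ℝ × R3)) ≠ ⊤) ∧
    Tendsto (fun n : ℕ => ∫⁻ z in Ioo (0 : ℝ) T ×ˢ cell,
        entErr (1 / ((n : ℝ) + 1)) N (fun v => F (z.1, z.2, v)) ∂(volume : Measure (ℝ × R3))) atTop
      (𝓝 (∫⁻ z in Ioo (0 : ℝ) T ×ˢ cell, entErr0 N (fun v => F (z.1, z.2, v))
        ∂(volume : Measure (ℝ × R3)))) := by
  have := W5B.main1 h hN
  simpa only [W5B.Ig, entErr0, zero_mul, add_zero] using this

theorem WSol.tendsto_entErr0 {F : PF} {T : ℝ} (h : WSol F T) :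
    Tendsto (fun n : ℕ => ∫⁻ z in Ioo (0 : ℝ) T ×ˢ cell,
        entErr0 ((n : ℝ) + 1) (fun v => F (z.1, z.2, v)) ∂(volume : Measure (ℝ × R3))) atTop (𝓝 0) := by
  have := W5B.main2 h
  simpa only [W5B.Ig, entErr0, zero_mul, add_zero] using this

theorem WE_M_pos (v : R3) : 0 < maxwellian v := by
  unfold maxwellian
  positivity

theorem WE_log_c : Real.log ((2 * Real.pi) ^ (-(3 / 2 : ℝ))) ≤ 0 :=
  Real.log_nonpos (by positivity)
    (Real.rpow_le_one_of_one_le_of_nonpos (by linarith [Real.pi_gt_three]) (by norm_num))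

theorem WE_log_M (v : R3) :
    Real.log (maxwellian v) = Real.log ((2 * Real.pi) ^ (-(3 / 2 : ℝ))) - ‖v‖ ^ 2 / 2 := by
  rw [maxwellian, Real.log_mul (by positivity) (Real.exp_pos _).ne', Real.log_exp]
  ring

theorem WE_log_M_le (v : R3) : Real.log (maxwellian v) ≤ -(‖v‖ ^ 2 / 2) := by
  rw [WE_log_M]
  linarith [WE_log_c]

theorem WE_M_le_one (v : R3) : maxwellian v ≤ 1 :=
  (Real.log_nonpos_iff (WE_M_pos v).le).1 ((WE_log_M_le v).trans (neg_nonpos.2 (by positivity)))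

theorem WE_cont_M : Continuous maxwellian := by
  unfold maxwellian
  fun_prop

theorem WE_int_gauss : Integrable fun v : R3 => Real.exp (-(‖v‖ ^ 2 / 4)) := by
  have h := (GaussianFourier.integrable_cexp_neg_mul_sq_norm_add (V := R3) (b := (1 / 4 : ℝ))
    (by simp) 0 0).norm
  refine h.congr (Eventually.of_forall fun v => ?_)
  simp only [zero_mul, add_zero, Complex.norm_exp]
  congr 1
  rw [← Complex.ofReal_pow, ← Complex.ofReal_neg, ← Complex.ofReal_mul, Complex.ofReal_re]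
  ring

theorem WE_int_M : Integrable maxwellian := by
  refine WE_int_gauss.mono' WE_cont_M.aestronglyMeasurable (Eventually.of_forall fun v => ?_)
  rw [Real.norm_of_nonneg (WE_M_pos v).le, ← Real.exp_log (WE_M_pos v)]
  refine Real.exp_le_exp.2 ((WE_log_M_le v).trans ?_)
  nlinarith [sq_nonneg ‖v‖]

theorem WE_int_ML : Integrable fun v => maxwellian v * Real.log (maxwellian v) := by
  refine (WE_int_gauss.const_mul 2).mono'
    (Real.continuous_mul_log.comp WE_cont_M).aestronglyMeasurable (Eventually.of_forall fun v => ?_)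
  have h1 := WE_log_M_le v
  set L := Real.log (maxwellian v) with hL
  have h2 : maxwellian v = Real.exp (L / 2) * Real.exp (L / 2) := by
    rw [← Real.exp_add, add_halves, hL, Real.exp_log (WE_M_pos v)]
  have h3 : L ≤ 0 := h1.trans (neg_nonpos.2 (by positivity))
  have h4 : Real.exp (L / 2) * -L ≤ 2 := by
    have h5 := Real.add_one_le_exp (-(L / 2))
    have h6 : Real.exp (L / 2) * Real.exp (-(L / 2)) = 1 := by rw [← Real.exp_add]; simp
    nlinarith [Real.exp_pos (L / 2)]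
  have h5 : Real.exp (L / 2) ≤ Real.exp (-(‖v‖ ^ 2 / 4)) := Real.exp_le_exp.2 (by linarith)
  rw [norm_mul, Real.norm_of_nonneg (WE_M_pos v).le, Real.norm_of_nonpos h3, h2, mul_assoc,
    mul_comm 2]
  exact mul_le_mul h5 h4 (mul_nonneg (Real.exp_pos _).le (neg_nonneg.2 h3)) (Real.exp_pos _).le

theorem WE_int_v {g : R3 → ℝ} (hg : Integrable g) :
    IntegrableOn (fun q : R3 × R3 => g q.2) (cell ×ˢ univ) := by
  have : IsFiniteMeasure (volume.restrict cell) := ⟨by simp [volume_cell]⟩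
  rw [IntegrableOn, Measure.volume_eq_prod, ← Measure.prod_restrict, Measure.restrict_univ]
  exact hg.comp_snd _

theorem WE_key {x M : ℝ} (hx : 0 ≤ x) (hM : 0 < M) :
    0 ≤ x * Real.log x - x * Real.log M - x + M := by
  rcases hx.eq_or_lt with rfl | hx
  · simpa using hM.le
  · have h := mul_le_mul_of_nonneg_left (Real.log_le_sub_one_of_pos (div_pos hM hx)) hx.le
    rw [Real.log_div hM.ne' hx.ne', mul_sub, mul_sub, mul_div_cancel₀ _ hx.ne'] at h
    linarith

theorem WE_nonneg {N G M : ℝ} (hG : 0 ≤ G) (hM : 0 < M) (hN : M ≤ N) :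
    0 ≤ bN N G - G * Real.log M + M := by
  unfold bN
  split_ifs with h
  · linarith [WE_key hG hM]
  · have h1 := WE_key (hM.le.trans hN) hM
    have h2 := mul_le_mul_of_nonneg_right (not_le.1 h).le
      (sub_nonneg.2 (Real.log_le_log hM hN))
    nlinarith

theorem WE_le {N G : ℝ} (hG : 0 ≤ G) (hN : 0 < N) : bN N G ≤ G * Real.log G - G := by
  unfold bN
  split_ifs with h
  · exact le_rfl
  · linarith [WE_key hG hN]

theorem WE_upper {N G : ℝ} (hG : 0 ≤ G) (hN : 0 < N) : bN N G ≤ G * Real.log N := by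
  unfold bN
  split_ifs with h
  · rcases hG.eq_or_lt with rfl | hG'
    · simp
    · linarith [mul_le_mul_of_nonneg_left (Real.log_le_log hG' h) hG]
  · linarith

theorem WE_cont_bN (N : ℝ) : Continuous (bN N) := by
  unfold bN
  refine Continuous.if_le (Real.continuous_mul_log.sub continuous_id) (by fun_prop) continuous_id
    continuous_const fun x hx => ?_
  rw [show x = N from hx]

theorem WE_ent_eq {G M : ℝ} (hG : 0 ≤ G) (hM : 0 < M) :
    G * Real.log (G / M) - G + M = G * Real.log G - G - G * Real.log M + M := by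
  rcases hG.eq_or_lt with rfl | hG'
  · simp
  · rw [Real.log_div hG'.ne' hM.ne']
    ring

theorem WE_meas_rl {F : ℝ × R3 × R3 → ℝ≥0∞} (hF : Measurable F) (s : ℝ) :
    Measurable fun q : R3 × R3 => rl F s q.1 q.2 := by
  unfold rl
  fun_prop

theorem WE_FL {F : PF} {T : ℝ} (h : WSol F T) (s : ℝ) (hs : s ∈ Icc 0 T) :
    IntegrableOn (fun q : R3 × R3 => rl F s q.1 q.2) (cell ×ˢ univ) ∧
    IntegrableOn (fun q : R3 × R3 => rl F s q.1 q.2 * Real.log (maxwellian q.2)) (cell ×ˢ univ) ∧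
    ∫ q in cell ×ˢ univ, rl F s q.1 q.2 * Real.log (maxwellian q.2) =
      ∫ q in cell ×ˢ univ, rl F 0 q.1 q.2 * Real.log (maxwellian q.2) := by
  have h0 : (0 : ℝ) ∈ Icc 0 T := ⟨le_rfl, hs.1.trans hs.2⟩
  obtain ⟨a1, a2⟩ := h.conserved _ (Or.inl rfl) s hs
  obtain ⟨b1, b2⟩ := h.conserved _ (Or.inr (Or.inr rfl)) s hs
  obtain ⟨c1, -⟩ := h.conserved _ (Or.inl rfl) 0 h0
  obtain ⟨d1, -⟩ := h.conserved _ (Or.inr (Or.inr rfl)) 0 h0
  have e : ∀ s, (fun q : R3 × R3 => rl F s q.1 q.2 * Real.log (maxwellian q.2)) = fun q =>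
      Real.log ((2 * Real.pi) ^ (-(3 / 2 : ℝ))) * (rl F s q.1 q.2 * 1) -
        rl F s q.1 q.2 * (‖q.2‖ ^ 2 / 2) := fun s => by
    funext q
    rw [WE_log_M]
    ring
  refine ⟨by simpa using a1, ?_, ?_⟩
  · rw [e]
    exact (a1.const_mul _).sub b1
  · rw [e, e, integral_sub (a1.const_mul _) b1, integral_sub (c1.const_mul _) d1,
      integral_const_mul, integral_const_mul, a2, b2]

theorem WE_tendsto_b {F : PF} {T : ℝ} (h : WSol F T) {N : ℝ} (hN : 1 ≤ N) (s : ℝ)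
    (hs : s ∈ Icc 0 T) :
    IntegrableOn (fun q : R3 × R3 => bN N (rl F s q.1 q.2)) (cell ×ˢ univ) ∧
    Tendsto (fun n : ℕ => ∫ q in cell ×ˢ univ,
      bN N (rl F s q.1 q.2 + 1 / ((n : ℝ) + 1) * maxwellian q.2)) atTop
      (𝓝 (∫ q in cell ×ˢ univ, bN N (rl F s q.1 q.2))) := by
  obtain ⟨h1, h2, -⟩ := WE_FL h s hs
  have h3 := WE_int_v WE_int_M
  have h4 := WE_int_v WE_int_ML
  have hb : IntegrableOn (fun q : R3 × R3 => (rl F s q.1 q.2 + maxwellian q.2) *
      (Real.log N - Real.log (maxwellian q.2)) + maxwellian q.2) (cell ×ˢ univ) := by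
    refine ((((h1.add h3).mul_const (Real.log N)).sub (h2.add h4)).add h3).congr
      (Eventually.of_forall fun q => ?_)
    simp only [Pi.add_apply, Pi.sub_apply]
    ring
  have hbd : ∀ ε ∈ Icc (0 : ℝ) 1, ∀ q : R3 × R3, ‖bN N (rl F s q.1 q.2 + ε * maxwellian q.2)‖ ≤
      (rl F s q.1 q.2 + maxwellian q.2) * (Real.log N - Real.log (maxwellian q.2)) +
        maxwellian q.2 := by
    intro ε hε q
    have hM := WE_M_pos q.2
    have hF : 0 ≤ rl F s q.1 q.2 := ENNReal.toReal_nonneg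
    have hG : 0 ≤ rl F s q.1 q.2 + ε * maxwellian q.2 := add_nonneg hF (mul_nonneg hε.1 hM.le)
    have hG' : rl F s q.1 q.2 + ε * maxwellian q.2 ≤ rl F s q.1 q.2 + maxwellian q.2 := by
      nlinarith [hε.2]
    have k1 := WE_nonneg hG hM ((WE_M_le_one q.2).trans hN)
    have k2 := WE_upper hG (one_pos.trans_le hN)
    have k3 := Real.log_nonneg hN
    have k4 := Real.log_nonpos hM.le (WE_M_le_one q.2)
    have k5 := mul_le_mul_of_nonneg_right hG' (show 0 ≤ Real.log N - Real.log (maxwellian q.2) by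
      linarith)
    have k6 := mul_nonneg hG k3
    have k7 := mul_nonneg hG (neg_nonneg.2 k4)
    rw [Real.norm_eq_abs, abs_le]
    constructor <;> nlinarith
  have hm : ∀ ε : ℝ, AEStronglyMeasurable
      (fun q : R3 × R3 => bN N (rl F s q.1 q.2 + ε * maxwellian q.2))
      (volume.restrict (cell ×ˢ univ)) := fun ε =>
    ((WE_cont_bN N).measurable.comp ((WE_meas_rl h.meas s).add
      ((WE_cont_M.measurable.comp measurable_snd).const_mul ε))).aestronglyMeasurable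
  refine ⟨?_, tendsto_integral_of_dominated_convergence _ (fun n => hm _) hb
    (fun n => Eventually.of_forall (hbd _ ⟨by positivity, ?_⟩)) (Eventually.of_forall fun q => ?_)⟩
  · simpa [IntegrableOn] using
      hb.mono' (hm 0) (Eventually.of_forall (hbd 0 ⟨le_rfl, zero_le_one⟩))
  · exact div_le_one_of_le₀ (by linarith [(Nat.cast_nonneg n : (0 : ℝ) ≤ n)]) (by positivity)
  · refine ((WE_cont_bN N).tendsto _).comp ?_
    simpa using (tendsto_one_div_add_atTop_nhds_zero_nat.mul_const (maxwellian q.2)).const_add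
      (rl F s q.1 q.2)

theorem WE_meas_err {F : ℝ × R3 × R3 → ℝ≥0∞} (hF : Measurable F) (ε N : ℝ) :
    Measurable fun z : ℝ × R3 => entErr ε N (fun v => F (z.1, z.2, v)) := by
  have hM := WE_cont_M.measurable
  unfold entErr
  refine Measurable.add (Measurable.lintegral_prod_right' (f := fun x : (ℝ × R3) × R3 => ∫⁻ vs, _)
    (Measurable.lintegral_prod_right' (f := fun y : ((ℝ × R3) × R3) × R3 =>
      13 * ENNReal.ofReal (jb y.1.2 * jb y.2 * reg ε (fun v => F (y.1.1.1, y.1.1.2, v)) y.1.2 *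
        reg ε (fun v => F (y.1.1.1, y.1.1.2, v)) y.2 *
        max (Real.log (reg ε (fun v => F (y.1.1.1, y.1.1.2, v)) y.1.2 / N)) 0)) ?_))
    (Measurable.mul_const (Measurable.const_mul (Measurable.lintegral_prod_right'
      (f := fun x : (ℝ × R3) × R3 => F (x.1.1, x.1.2, x.2) * ENNReal.ofReal (jb x.2 ^ 3)) ?_) _) _)
  · unfold reg jb
    fun_prop
  · unfold jb
    fun_prop

theorem WE_meas_D {F : ℝ × R3 × R3 → ℝ≥0∞} (hF : Measurable F) (ε : ℝ) :
    Measurable fun z : ℝ × R3 => Dloc (reg ε (fun v => F (z.1, z.2, v))) := by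
  have hM := WE_cont_M.measurable
  refine measurable_Dloc_param _ ?_
  unfold reg
  fun_prop

theorem WE_assoc (t : ℝ) : MeasurePreserving (MeasurableEquiv.prodAssoc : (ℝ × R3) × R3 ≃ᵐ Ph)
    ((volume.restrict (Ioo (0 : ℝ) t ×ˢ cell)).prod volume) (volume.restrict (strip t)) := by
  refine ⟨MeasurableEquiv.prodAssoc.measurable, ?_⟩
  rw [strip, Measure.volume_eq_prod, ← Measure.prod_restrict, Measure.prodAssoc_prod,
    Measure.volume_eq_prod (α := ℝ), ← Measure.prod_restrict, Measure.volume_eq_prod (α := R3),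
    ← Measure.prod_restrict, Measure.restrict_univ]

/-- the renormalised inequality for fixed `ε`, `N` -/
theorem WE_stepA {F : PF} {t : ℝ} (h : WSol F t) (ht : 0 ≤ t) {ε N : ℝ} (hε : ε ∈ Ioc (0 : ℝ) 1)
    (hN : 1 ≤ N) {E : ℝ≥0∞}
    (hE : ∫⁻ z in Ioo (0 : ℝ) t ×ˢ cell, entErr ε N (fun v => F (z.1, z.2, v))
      ∂(volume : Measure (ℝ × R3)) = E) (hE' : E ≠ ⊤) {x : ℝ}
    (hx : x = E.toReal - ((∫ q in cell ×ˢ univ, bN N (rl F t q.1 q.2 + ε * maxwellian q.2)) -
      ∫ q in cell ×ˢ univ, bN N (rl F 0 q.1 q.2 + ε * maxwellian q.2))) :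
    0 ≤ x ∧ ∫⁻ z in Ioo (0 : ℝ) t ×ˢ cell, Dloc (reg ε (fun v => F (z.1, z.2, v)))
      ∂(volume : Measure (ℝ × R3)) ≤ ENNReal.ofReal x := by
  obtain ⟨-, h1, h2⟩ := h.renorm hε hN t ⟨ht, le_rfl⟩
  have h3 := ((WE_assoc t).integrable_comp_emb
    MeasurableEquiv.prodAssoc.measurableEmbedding).2 h1
  have h4 := (WE_assoc t).integral_comp' fun p : Ph => Qr F p * lg ε N (sec F p) p.2.2
  set I : ℝ × R3 → ℝ := fun z => ∫ v, ((Qp (fun v => F (z.1, z.2, v)) (fun v => F (z.1, z.2, v))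
    v).toReal - (F (z.1, z.2, v) * LL (fun v => F (z.1, z.2, v)) v).toReal) *
      lg ε N (fun v => F (z.1, z.2, v)) v with hI
  have h5 : Integrable I (volume.restrict (Ioo (0 : ℝ) t ×ˢ cell)) := h3.integral_prod_left
  have h6 : ∫ z in Ioo (0 : ℝ) t ×ˢ cell, I z = ∫ p in strip t, Qr F p * lg ε N (sec F p) p.2.2 :=
    (integral_prod _ h3).symm.trans h4
  have hm := WE_meas_err h.meas ε N
  have hfin := ae_lt_top hm (hE ▸ hE')
  have hi : Integrable (fun z : ℝ × R3 => (entErr ε N (fun v => F (z.1, z.2, v))).toReal)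
      (volume.restrict (Ioo (0 : ℝ) t ×ˢ cell)) :=
    integrable_toReal_of_lintegral_ne_top hm.aemeasurable (hE ▸ hE')
  have hmom : ∀ᵐ z ∂(volume.restrict (Ioo (0 : ℝ) t ×ˢ cell) : Measure (ℝ × R3)),
      (∫⁻ v, F (z.1, z.2, v) * ENNReal.ofReal (jb v ^ 3)) ^ 2 < ⊤ := by
    refine ae_lt_top (Measurable.pow_const (Measurable.lintegral_prod_right'
      (f := fun x : (ℝ × R3) × R3 => F (x.1.1, x.1.2, x.2) * ENNReal.ofReal (jb x.2 ^ 3)) ?_) 2)
      (h.lint_rho_sq 3).ne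
    exact (h.meas.comp (by fun_prop)).mul (by unfold jb; fun_prop)
  have hae : ∀ᵐ z ∂(volume.restrict (Ioo (0 : ℝ) t ×ˢ cell) : Measure (ℝ × R3)),
      Dloc (reg ε (fun v => F (z.1, z.2, v))) ≠ ⊤ ∧
      (Dloc (reg ε (fun v => F (z.1, z.2, v)))).toReal ≤
        (entErr ε N (fun v => F (z.1, z.2, v))).toReal - I z := by
    filter_upwards [hfin, hmom] with z hz hz'
    obtain ⟨k1, k2⟩ := entropy_velocity (fun v => F (z.1, z.2, v)) (h.meas.comp (by fun_prop)) hε hN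
      (fun h0 => by rw [h0] at hz'; simp at hz') hz.ne
    exact ⟨k1, le_sub_iff_add_le'.2 k2⟩
  have hnn : 0 ≤ᵐ[volume.restrict (Ioo (0 : ℝ) t ×ˢ cell)]
      fun z : ℝ × R3 => (entErr ε N (fun v => F (z.1, z.2, v))).toReal - I z :=
    hae.mono fun z hz => ENNReal.toReal_nonneg.trans hz.2
  have hx' : x = ∫ z in Ioo (0 : ℝ) t ×ˢ cell,
      ((entErr ε N (fun v => F (z.1, z.2, v))).toReal - I z) := by
    rw [integral_sub hi h5, integral_toReal hm.aemeasurable hfin, hE, h6, hx, h2]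
    ring
  refine ⟨hx' ▸ integral_nonneg_of_ae hnn, ?_⟩
  rw [hx']
  refine le_trans (lintegral_mono_ae (hae.mono fun z hz => ?_))
    (ofReal_integral_eq_lintegral_ofReal (hi.sub h5) hnn).ge
  rw [← ENNReal.ofReal_toReal hz.1]
  exact ENNReal.ofReal_le_ofReal hz.2

/-- the inequality for fixed `N` -/
theorem WE_stepB {F : PF} {t : ℝ} (h : WSol F t) (ht : 0 ≤ t) {N : ℝ} (hN : 1 ≤ N) {E : ℝ≥0∞}
    (hE : ∫⁻ z in Ioo (0 : ℝ) t ×ˢ cell, entErr0 N (fun v => F (z.1, z.2, v))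
      ∂(volume : Measure (ℝ × R3)) = E) (hE' : E ≠ ⊤) :
    (∫⁻ q in cell ×ˢ univ, ENNReal.ofReal (bN N (rl F t q.1 q.2) -
        rl F t q.1 q.2 * Real.log (maxwellian q.2) + maxwellian q.2)) +
      ∫⁻ z in Ioo (0 : ℝ) t ×ˢ cell, Dloc (fun v => (F (z.1, z.2, v)).toReal)
        ∂(volume : Measure (ℝ × R3)) ≤ relEntropy (rl F 0) + E := by
  have h0 : (0 : ℝ) ∈ Icc 0 t := ⟨le_rfl, ht⟩
  have h1 : t ∈ Icc 0 t := ⟨ht, le_rfl⟩
  obtain ⟨e1, e2⟩ := h.tendsto_entErr hN
  rw [hE] at e2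
  obtain ⟨a1, a2⟩ := WE_tendsto_b h hN t h1
  obtain ⟨b1, b2⟩ := WE_tendsto_b h hN 0 h0
  have hx := ((ENNReal.tendsto_toReal hE').comp e2).sub (a2.sub b2)
  have hA := fun n : ℕ => WE_stepA h ht (ε := 1 / ((n : ℝ) + 1)) ⟨by positivity,
    div_le_one_of_le₀ (by linarith [(Nat.cast_nonneg n : (0 : ℝ) ≤ n)]) (by positivity)⟩ hN rfl
    (e1 n) rfl
  have hx0 := ge_of_tendsto' hx fun n => (hA n).1
  have hD : ∫⁻ z in Ioo (0 : ℝ) t ×ˢ cell, Dloc (fun v => (F (z.1, z.2, v)).toReal)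
      ∂(volume : Measure (ℝ × R3)) ≤ ENNReal.ofReal (E.toReal -
        ((∫ q in cell ×ˢ univ, bN N (rl F t q.1 q.2)) - ∫ q in cell ×ˢ univ, bN N (rl F 0 q.1 q.2))) := by
    have l1 := lintegral_liminf_le (μ := volume.restrict (Ioo (0 : ℝ) t ×ˢ cell)) (u := atTop)
      fun n : ℕ => WE_meas_D h.meas (1 / ((n : ℝ) + 1))
    refine (lintegral_mono fun z : ℝ × R3 => Dloc_le_liminf (fun v => F (z.1, z.2, v))
      (h.meas.comp (f := fun v : R3 => (z.1, z.2, v)) (by fun_prop))).trans (l1.trans ?_)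
    rw [← (ENNReal.tendsto_ofReal hx).liminf_eq]
    exact liminf_le_liminf (Eventually.of_forall fun n => (hA n).2)
  have hnn : ∀ (s : ℝ) (q : R3 × R3), 0 ≤ bN N (rl F s q.1 q.2) -
      rl F s q.1 q.2 * Real.log (maxwellian q.2) + maxwellian q.2 := fun s q =>
    WE_nonneg ENNReal.toReal_nonneg (WE_M_pos _) ((WE_M_le_one _).trans hN)
  obtain ⟨-, c1, c2⟩ := WE_FL h t h1
  obtain ⟨-, d1, -⟩ := WE_FL h 0 h0
  have hM := WE_int_v WE_int_M
  have k1 := ofReal_integral_eq_lintegral_ofReal ((a1.sub c1).add hM) (Eventually.of_forall (hnn t))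
  have k0 := ofReal_integral_eq_lintegral_ofReal ((b1.sub d1).add hM) (Eventually.of_forall (hnn 0))
  have n1 : 0 ≤ ∫ q in cell ×ˢ univ, (bN N (rl F t q.1 q.2) -
      rl F t q.1 q.2 * Real.log (maxwellian q.2) + maxwellian q.2) := integral_nonneg (hnn t)
  simp only [Pi.add_apply, Pi.sub_apply] at k1 k0
  have k2 : ∫⁻ q in cell ×ˢ univ, ENNReal.ofReal (bN N (rl F 0 q.1 q.2) -
      rl F 0 q.1 q.2 * Real.log (maxwellian q.2) + maxwellian q.2) ≤ relEntropy (rl F 0) := by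
    refine lintegral_mono fun q => ENNReal.ofReal_le_ofReal ?_
    rw [WE_ent_eq (G := rl F 0 q.1 q.2) ENNReal.toReal_nonneg (WE_M_pos _)]
    linarith [WE_le (G := rl F 0 q.1 q.2) ENNReal.toReal_nonneg (one_pos.trans_le hN)]
  rw [← k1]
  rw [← k0] at k2
  refine (add_le_add le_rfl hD).trans ?_
  rw [← ENNReal.ofReal_add n1 hx0]
  refine le_trans (le_of_eq ?_) (ENNReal.ofReal_add_le.trans
    (add_le_add k2 (ENNReal.ofReal_toReal hE').le))
  rw [integral_add (a1.fun_sub c1) hM, integral_add (b1.fun_sub d1) hM, integral_sub a1 c1,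
    integral_sub b1 d1, c2]
  congr 1
  ring

theorem WE_lim {a e : ℕ → ℝ≥0∞} {x D R : ℝ≥0∞} (hx : x ≤ liminf a atTop)
    (he : Tendsto e atTop (𝓝 0)) (h : ∀ k, e k ≠ ⊤ → a k + D ≤ R + e k) : x + D ≤ R := by
  refine ENNReal.le_of_forall_pos_le_add fun δ hδ hR => ?_
  have h1 : ∀ᶠ k in atTop, a k + D ≤ R + δ := by
    filter_upwards [he.eventually (gt_mem_nhds (ENNReal.coe_pos.2 hδ))] with k hk
    exact (h k (ne_top_of_lt hk)).trans (add_le_add le_rfl hk.le)
  obtain ⟨k, hk⟩ := h1.exists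
  have h2 : D ≤ R + δ := le_add_self.trans hk
  have h3 : D ≠ ⊤ := ne_top_of_le_ne_top (ENNReal.add_ne_top.2 ⟨hR.ne, ENNReal.coe_ne_top⟩) h2
  have h4 : liminf a atTop ≤ R + δ - D :=
    liminf_le_of_frequently_le' (h1.mono fun k hk => ENNReal.le_sub_of_add_le_right h3 hk).frequently
  exact (add_le_add (hx.trans h4) le_rfl).trans (tsub_add_cancel_of_le h2).le

/-- The entropy inequality.  For fixed `N`: integrate `entropy_velocity` over `(0,t) × cell`, insert in
`WSol.renorm`, let `ε = 1/(n+1) → 0` (dominated convergence for `bN`, Fatou + `Dloc_le_liminf` for the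
dissipation, `tendsto_entErr`).  Add `∫ (-F log M + M)`, conserved by `WSol.conserved`
(`-log M = c + ‖v‖²/2`).  The integrand `e_N = bN N F - F log M + M` is nonnegative and increases to
`F log (F/M) - F + M` as `N → ∞`: monotone convergence at time `t`, `e_N ≤ e_∞` at time `0`, and
`tendsto_entErr0`. -/
theorem WSol.entropy {F : PF} {T : ℝ} (h : WSol F T) (t : ℝ) (ht : t ∈ Icc 0 T) :
    relEntropy (rl F t) + (∫⁻ s in Set.Icc 0 t, dissipation (rl F s)) ≤ relEntropy (rl F 0) := by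
  have h' := h.mono ht.2
  have hD : ∫⁻ s in Set.Icc 0 t, dissipation (rl F s) = ∫⁻ z in Ioo (0 : ℝ) t ×ˢ cell,
      Dloc (fun v => (F (z.1, z.2, v)).toReal) ∂(volume : Measure (ℝ × R3)) := by
    have hm : Measurable fun z : ℝ × R3 => Dloc (fun v => (F (z.1, z.2, v)).toReal) :=
      measurable_Dloc_param _ (h.meas.comp (by fun_prop)).ennreal_toReal
    rw [Measure.volume_eq_prod, ← Measure.prod_restrict, lintegral_prod _ hm.aemeasurable,
      ← Measure.restrict_congr_set Ioo_ae_eq_Icc]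
    exact lintegral_congr fun s => dissipation_eq _ (WE_meas_rl h.meas s)
  rw [hD]
  refine WE_lim ?_ h'.tendsto_entErr0 fun k hk => WE_stepB h' ht.1
    (by linarith [(Nat.cast_nonneg k : (0 : ℝ) ≤ k)]) rfl hk
  have hm := WE_meas_rl h.meas t
  have hM := WE_cont_M.measurable.comp (measurable_snd : Measurable fun q : R3 × R3 => q.2)
  refine le_trans (lintegral_mono fun q => ?_) (lintegral_liminf_le fun k =>
    ((((WE_cont_bN _).measurable.comp hm).sub (hm.mul hM.log)).add hM).ennreal_ofReal)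
  refine (Tendsto.liminf_eq (tendsto_const_nhds.congr' ?_)).ge
  filter_upwards [eventually_ge_atTop ⌈rl F t q.1 q.2⌉₊] with k hk
  have hk' : rl F t q.1 q.2 ≤ (k : ℝ) + 1 := by
    linarith [Nat.le_ceil (rl F t q.1 q.2), (Nat.cast_le (α := ℝ)).2 hk]
  rw [WE_ent_eq (G := rl F t q.1 q.2) ENNReal.toReal_nonneg (WE_M_pos _)]
  simp only [bN, if_pos hk']

end
end Crest.Agent.R68
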