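import Crest.Agent.R68.W3
import Crest.Agent.R68.W5

/-! # Row 68: weak-solution module, part 6: assembly -/

set_option autoImplicit false
open MeasureTheory Set Filter Topology
open scoped ENNReal NNReal
open Crest.AnalysisR.VecCalc3 Crest.AnalysisR.PDE.Boltzmann

namespace Crest.Agent.R68
noncomputable section

namespace W6H

/-- the constant `-log M(0)` -/
def cM : ℝ := 3 / 2 * Real.log (2 * Real.pi)

theorem cM_nonneg : 0 ≤ cM :=
  mul_nonneg (by norm_num) (Real.log_nonneg (by linarith [Real.pi_gt_three]))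

theorem maxwellian_eq (v : R3) : maxwellian v = Real.exp (-cM - ‖v‖ ^ 2 / 2) := by
  rw [maxwellian, Real.rpow_def_of_pos (by positivity), ← Real.exp_add, cM]
  congr 1
  ring

theorem maxwellian_pos (v : R3) : 0 < maxwellian v := by
  rw [maxwellian_eq]; exact Real.exp_pos _

theorem maxwellian_le (v : R3) : maxwellian v ≤ Real.exp (-‖v‖ ^ 2 / 2) := by
  rw [maxwellian_eq]
  exact Real.exp_le_exp.2 (by linarith [cM_nonneg])

theorem log_div {z : ℝ} (hz : 0 < z) (v : R3) :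
    Real.log (z / maxwellian v) = Real.log z + cM + ‖v‖ ^ 2 / 2 := by
  rw [Real.log_div hz.ne' (maxwellian_pos v).ne', maxwellian_eq, Real.log_exp]
  ring

/-- the Gaussian majorant -/
def gs (v : R3) : ℝ≥0∞ := ENNReal.ofReal (Real.exp (-‖v‖ ^ 2 / 2))

theorem measurable_gs : Measurable gs := by
  unfold gs
  fun_prop

theorem measurable_gs2 : Measurable fun q : R3 × R3 => gs q.2 :=
  measurable_gs.comp measurable_snd

theorem lint_gs : ∫⁻ v, gs v ≠ ⊤ := by
  have h := GaussianFourier.integral_rexp_neg_mul_sq_norm (V := R3) (b := 1 / 2) (by norm_num)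
  have h1 : Integrable fun v : R3 => Real.exp (-(1 / 2) * ‖v‖ ^ 2) :=
    Integrable.of_integral_ne_zero (by rw [h]; positivity)
  have h2 := h1.lintegral_lt_top
  refine ne_of_lt (lt_of_le_of_lt (le_of_eq (lintegral_congr fun v => ?_)) h2)
  unfold gs
  congr 2
  ring

theorem lint_prod (g : R3 × R3 → ℝ≥0∞) (hg : Measurable g) :
    ∫⁻ q in cell ×ˢ (univ : Set R3), g q = ∫⁻ x in cell, ∫⁻ v, g (x, v) := by
  rw [Measure.volume_eq_prod, ← Measure.restrict_prod_eq_prod_univ, lintegral_prod _ hg.aemeasurable]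

theorem lint_gs2 : ∫⁻ q in cell ×ˢ (univ : Set R3), gs q.2 = ∫⁻ v, gs v := by
  rw [lint_prod _ measurable_gs2]
  simp [volume_cell]

theorem sq_le_ent {z m : ℝ} (hz : 0 ≤ z) (hm : 0 < m) :
    (Real.sqrt z - Real.sqrt m) ^ 2 ≤ z * Real.log (z / m) - z + m := by
  have h1 := Real.sq_sqrt hz
  have h2 := Real.sq_sqrt hm.le
  rcases hz.eq_or_lt with rfl | hz
  · simp [h2]
  · have ha := Real.sqrt_pos.2 hz
    have hb := Real.sqrt_pos.2 hm
    set a := Real.sqrt z
    set b := Real.sqrt m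
    have h3 : Real.log (z / m) = -2 * Real.log (b / a) := by
      rw [← h1, ← h2, ← div_pow, Real.log_pow, Real.log_div ha.ne' hb.ne',
        Real.log_div hb.ne' ha.ne']
      push_cast
      ring
    have h4 := mul_le_mul_of_nonneg_left (Real.log_le_sub_one_of_pos (div_pos hb ha)) hz.le
    have h5 : z * (b / a - 1) = a * b - z := by
      rw [← h1]; field_simp
    rw [h3]
    nlinarith

theorem ent_nonneg {z m : ℝ} (hz : 0 ≤ z) (hm : 0 < m) : 0 ≤ z * Real.log (z / m) - z + m :=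
  (sq_nonneg _).trans (sq_le_ent hz hm)

theorem abs_le_ent {z m δ : ℝ} (hz : 0 ≤ z) (hm : 0 < m) (hδ : 0 < δ) :
    |z - m| ≤ δ * m + (1 + δ⁻¹) * (z * Real.log (z / m) - z + m) := by
  have h0 := sq_le_ent hz hm
  have h1 := Real.sq_sqrt hz
  have h2 := Real.sq_sqrt hm.le
  set a := Real.sqrt z
  set b := Real.sqrt m
  have h3 : (1 + δ⁻¹) * (a - b) ^ 2 ≤ (1 + δ⁻¹) * (z * Real.log (z / m) - z + m) :=
    mul_le_mul_of_nonneg_left h0 (by positivity)
  have h4 : ∀ d : ℝ, 2 * b * d ≤ δ * b ^ 2 + δ⁻¹ * d ^ 2 := fun d => by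
    have : 0 ≤ δ⁻¹ * (δ * b - d) ^ 2 := by positivity
    have e : δ⁻¹ * (δ * b - d) ^ 2 = δ * b ^ 2 + δ⁻¹ * d ^ 2 - 2 * b * d := by
      field_simp; ring
    linarith
  have h5 := h4 (a - b)
  have h6 := h4 (b - a)
  rw [abs_le]
  constructor <;> nlinarith [sq_nonneg (a - b)]

theorem ent_le {z : ℝ} (hz : 0 ≤ z) (v : R3) :
    z * Real.log (z / maxwellian v) - z + maxwellian v ≤
      (1 + cM) * (z * (1 + ‖v‖ ^ 2 + |Real.log z|)) + Real.exp (-‖v‖ ^ 2 / 2) := by
  have h1 := maxwellian_le v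
  rcases hz.eq_or_lt with rfl | hz
  · simpa using h1
  · rw [log_div hz]
    have h2 := le_abs_self (Real.log z)
    have h3 := abs_nonneg (Real.log z)
    have h4 := cM_nonneg
    have h5 := sq_nonneg ‖v‖
    have h6 : Real.log z + cM + ‖v‖ ^ 2 / 2 ≤ (1 + cM) * (1 + ‖v‖ ^ 2 + |Real.log z|) := by
      nlinarith [mul_nonneg h4 h3, mul_nonneg h4 h5]
    nlinarith [mul_le_mul_of_nonneg_left h6 hz.le]

theorem le_ent {z : ℝ} (hz : 0 ≤ z) (v : R3) :
    z * (1 + ‖v‖ ^ 2 + |Real.log z|) ≤ (z * Real.log (z / maxwellian v) - z + maxwellian v) +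
      (2 * (jb v ^ 2 * z) + Real.exp (-‖v‖ ^ 2 / 2)) := by
  have h0 := ent_nonneg hz (maxwellian_pos v)
  have h1 := maxwellian_pos v
  have h2 := Real.exp_pos (-‖v‖ ^ 2 / 2)
  have h5 := sq_nonneg ‖v‖
  have hj : z * (1 + ‖v‖ ^ 2) ≤ jb v ^ 2 * z := by
    rw [mul_comm, jb]
    exact mul_le_mul_of_nonneg_right (by nlinarith [norm_nonneg v]) hz
  rcases hz.eq_or_lt with rfl | hz
  · simp only [zero_mul, mul_zero, sub_zero, zero_add]
    positivity
  rcases le_total 0 (Real.log z) with h | h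
  · rw [abs_of_nonneg h, log_div hz]
    nlinarith [mul_nonneg hz.le cM_nonneg, mul_nonneg hz.le h5]
  · rw [abs_of_nonpos h]
    have h6 := Real.log_le_sub_one_of_pos (div_pos (Real.exp_pos (-‖v‖ ^ 2)) hz)
    rw [Real.log_div (Real.exp_pos _).ne' hz.ne', Real.log_exp] at h6
    have h7 := mul_le_mul_of_nonneg_left h6 hz.le
    rw [mul_sub z (_ / z), mul_div_cancel₀ _ hz.ne'] at h7
    have h8 : Real.exp (-‖v‖ ^ 2) ≤ Real.exp (-‖v‖ ^ 2 / 2) := Real.exp_le_exp.2 (by linarith)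
    nlinarith

theorem measurable_jb : Measurable jb := by
  unfold jb
  fun_prop

end W6H

open W6H

theorem relEntropy_lt_top {F₀ : R3 → R3 → ℝ} {R : ℝ} (h : IsAdmissibleDatum F₀ R) :
    relEntropy F₀ < ⊤ := by
  have h1 : relEntropy F₀ ≤ ∫⁻ q in cell ×ˢ (univ : Set R3), (ENNReal.ofReal (1 + cM) *
      ENNReal.ofReal (F₀ q.1 q.2 * (1 + ‖q.2‖ ^ 2 + |Real.log (F₀ q.1 q.2)|)) + gs q.2) := by
    refine lintegral_mono fun q => ?_
    have h2 : 0 ≤ 1 + cM := by linarith [cM_nonneg]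
    rw [← ENNReal.ofReal_mul h2]
    exact (ENNReal.ofReal_le_ofReal (ent_le (h.2.1 _ _) _)).trans ENNReal.ofReal_add_le
  rw [lintegral_add_right _ measurable_gs2,
    lintegral_const_mul' _ _ ENNReal.ofReal_ne_top, lint_gs2] at h1
  exact h1.trans_lt (ENNReal.add_lt_top.2
    ⟨ENNReal.mul_lt_top ENNReal.ofReal_lt_top h.2.2.2.2, lint_gs.lt_top⟩)

/-- pointwise: `z |log z| ≤ (z log (z/M) - z + M) + C z jb² + C e^{-‖v‖²/2}`; e.g.
`z log⁺ z ≤ e(z) + z` as `M ≤ 1`, and `z log⁻ z ≤ z ‖v‖² + 2 e^{-‖v‖²/2}`. -/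
theorem log_bound_of {F : PF} (h : ∀ T, 0 < T → WSol F T) (T : ℝ) :
    ∃ C : ℝ≥0∞, C < ⊤ ∧ ∀ t ∈ Set.Icc 0 T,
      (∫⁻ q in cell ×ˢ Set.univ, ENNReal.ofReal (rl F t q.1 q.2 *
        (1 + ‖q.2‖ ^ 2 + |Real.log (rl F t q.1 q.2)|)) ∂(volume : Measure (R3 × R3))) ≤ C := by
  have hW := h (max T 1) (lt_max_of_lt_right one_pos)
  obtain ⟨C, hC, H⟩ := hW.moment 2
  obtain ⟨R, hR⟩ := hW.adm
  refine ⟨relEntropy (rl F 0) + (2 * C + ∫⁻ v, gs v), ENNReal.add_lt_top.2 ⟨relEntropy_lt_top hR,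
    ENNReal.add_lt_top.2 ⟨ENNReal.mul_lt_top (by simp) hC.lt_top, lint_gs.lt_top⟩⟩,
    fun t ht => ?_⟩
  have ht' : t ∈ Icc 0 (max T 1) := ⟨ht.1, ht.2.trans (le_max_left _ _)⟩
  have hm : Measurable fun q : R3 × R3 => 2 * (ENNReal.ofReal (jb q.2 ^ 2) * F (t, q.1, q.2)) :=
    ((((measurable_jb.comp measurable_snd).pow_const 2).ennreal_ofReal).mul
      (hW.meas.comp (measurable_const.prodMk measurable_id))).const_mul 2
  calc _ ≤ ∫⁻ q in cell ×ˢ (univ : Set R3), (ENNReal.ofReal (rl F t q.1 q.2 *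
          Real.log (rl F t q.1 q.2 / maxwellian q.2) - rl F t q.1 q.2 + maxwellian q.2) +
        (2 * (ENNReal.ofReal (jb q.2 ^ 2) * F (t, q.1, q.2)) + gs q.2)) := by
        refine lintegral_mono fun q => ?_
        refine (ENNReal.ofReal_le_ofReal (le_ent ENNReal.toReal_nonneg _)).trans
          (ENNReal.ofReal_add_le.trans (add_le_add le_rfl (ENNReal.ofReal_add_le.trans
            (add_le_add ?_ le_rfl))))
        rw [ENNReal.ofReal_mul zero_le_two, ENNReal.ofReal_mul (sq_nonneg _), ENNReal.ofReal_ofNat]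
        gcongr
        exact ENNReal.ofReal_toReal_le
    _ ≤ _ := by
        rw [lintegral_add_right _ (hm.fun_add measurable_gs2),
          lintegral_add_right _ measurable_gs2,
          lintegral_const_mul' _ _ (by simp), lint_gs2]
        exact add_le_add (le_self_add.trans (hW.entropy t ht'))
          (add_le_add (mul_le_mul_right (H t ht') 2) le_rfl)

theorem isGlobalSolution_of {F : PF} (h : ∀ T, 0 < T → WSol F T) :
    IsGlobalSolution (rl F) (rl F 0) := by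
  have h1 := h 1 one_pos
  have hW : ∀ t : ℝ, 0 ≤ t → WSol F (t + 1) ∧ t ∈ Icc 0 (t + 1) ∧ (0 : ℝ) ∈ Icc 0 (t + 1) :=
    fun t ht => ⟨h _ (by linarith), ⟨ht, by linarith⟩, le_rfl, by linarith⟩
  refine ⟨h1.meas.ennreal_toReal, fun _ _ _ _ => ENNReal.toReal_nonneg,
    fun t v x i => congrArg ENNReal.toReal (h1.per.isPeriodic3 t v x i), fun _ _ => rfl,
    isWeakSolution_of h, hasLocalConservation_of h, log_bound_of h, l1_continuous_of h,
    fun T k => ?_, fun t ht i => ?_, fun t ht => ?_,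
    fun t ht => (hW t ht).1.entropy t (hW t ht).2.1⟩
  · have h2 := h (max T 1) (lt_max_of_lt_right one_pos)
    refine lt_of_le_of_lt ((lintegral_mono_set (t := strip (max T 1)) (Set.prod_mono
      (Ioo_subset_Ioo_right (le_max_left _ _)) subset_rfl)).trans (lintegral_mono_ae ?_))
      (h2.lint_Q k)
    filter_upwards [h2.coll_ae] with p hp
    rw [hp.1, hp.2]
    refine mul_le_mul_left (ENNReal.ofReal_le_ofReal ?_) _
    have h3 : 1 + ‖p.2.2‖ ^ 2 ≤ jb p.2.2 ^ 2 := by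
      rw [jb]; nlinarith [norm_nonneg p.2.2]
    have h4 : 0 ≤ jb p.2.2 := by rw [jb]; positivity
    refine (Real.rpow_le_rpow (by positivity) h3 (by positivity)).trans (le_of_eq ?_)
    rw [← Real.rpow_natCast, ← Real.rpow_mul h4, ← Real.rpow_natCast]
    congr 1
    push_cast
    ring
  · have h2 := (hW t ht).1.conserved (fun v => v i) (Or.inr (Or.inl ⟨i, rfl⟩)) t (hW t ht).2.1
    simp only [mul_comm (rl F _ _ _)] at h2
    exact h2
  · have h2 := (hW t ht).1.conserved (fun v => ‖v‖ ^ 2 / 2) (Or.inr (Or.inr rfl)) t (hW t ht).2.1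
    have h3 := (hW t ht).1.conserved (fun v => ‖v‖ ^ 2 / 2) (Or.inr (Or.inr rfl)) 0 (hW t ht).2.2
    have e : ∀ s : ℝ, IntegrableOn (fun q : R3 × R3 => rl F s q.1 q.2 * (‖q.2‖ ^ 2 / 2))
        (cell ×ˢ univ) → ∫⁻ q in cell ×ˢ univ, ENNReal.ofReal (‖q.2‖ ^ 2 * rl F s q.1 q.2) =
          ENNReal.ofReal (2 * ∫ q in cell ×ˢ univ, rl F s q.1 q.2 * (‖q.2‖ ^ 2 / 2)) := by
      intro s hs
      rw [← integral_const_mul, ofReal_integral_eq_lintegral_ofReal (hs.const_mul 2)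
        (Eventually.of_forall fun q => mul_nonneg zero_le_two
          (mul_nonneg ENNReal.toReal_nonneg (by positivity)))]
      refine lintegral_congr fun q => ?_
      congr 1
      ring
    rw [e t h2.1, e 0 h3.1, h2.2]

/-- `|z - M| ≤ η M + C_η (z log (z/M) - z + M)` (convexity of `y log y - y + 1`, which is at least
`c_η |y - 1|` for `|y - 1| ≥ η`), `∫ M = 1` (or `≤ 1`·const), and `F(t) ≠ ⊤` a.e. -/
theorem l1_le_entropy (η : ℝ≥0∞) (hη : 0 < η) : ∃ C : ℝ≥0∞, C ≠ ⊤ ∧ ∀ (F : PF) (T : ℝ), WSol F T →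
    ∀ t ∈ Icc 0 T, ∫⁻ x in cell, ∫⁻ v, dd (F (t, x, v)) (mu v) ≤ η + C * relEntropy (rl F 0) := by
  obtain ⟨δ, hδ, hδ'⟩ := ENNReal.exists_nnreal_pos_mul_lt lint_gs hη.ne'
  have hδ0 : (0 : ℝ) < δ := hδ
  refine ⟨ENNReal.ofReal (1 + (δ : ℝ)⁻¹), ENNReal.ofReal_ne_top, fun F T hW t ht => ?_⟩
  obtain ⟨C, hC, H⟩ := hW.moment 0
  have hm : Measurable fun q : R3 × R3 => F (t, q.1, q.2) :=
    hW.meas.comp (measurable_const.prodMk measurable_id)
  have h1 := H t ht
  simp only [pow_zero, ENNReal.ofReal_one, one_mul] at h1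
  have h2 := ae_lt_top hm (h1.trans_lt hC.lt_top).ne
  rw [← lint_prod (fun q => dd (F (t, q.1, q.2)) (mu q.2))
    (measurable_dd hm (measurable_mu.comp measurable_snd))]
  calc _ ≤ ∫⁻ q in cell ×ˢ (univ : Set R3), (ENNReal.ofReal (1 + (δ : ℝ)⁻¹) *
        ENNReal.ofReal (rl F t q.1 q.2 * Real.log (rl F t q.1 q.2 / maxwellian q.2) -
          rl F t q.1 q.2 + maxwellian q.2) + δ * gs q.2) := by
        refine lintegral_mono_ae ?_
        filter_upwards [h2] with q hq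
        have hz : 0 ≤ rl F t q.1 q.2 := ENNReal.toReal_nonneg
        have hM := maxwellian_pos q.2
        have h3 : dd (F (t, q.1, q.2)) (mu q.2) ≤
            ENNReal.ofReal |rl F t q.1 q.2 - maxwellian q.2| := by
          rw [← ENNReal.ofReal_toReal hq.ne, dd_le_iff, mu,
            ← ENNReal.ofReal_add hM.le (abs_nonneg _),
            ← ENNReal.ofReal_add ENNReal.toReal_nonneg (abs_nonneg _)]
          constructor <;> refine ENNReal.ofReal_le_ofReal ?_
          · linarith [le_abs_self (rl F t q.1 q.2 - maxwellian q.2),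
              show rl F t q.1 q.2 = (F (t, q.1, q.2)).toReal from rfl]
          · linarith [neg_abs_le (rl F t q.1 q.2 - maxwellian q.2),
              show rl F t q.1 q.2 = (F (t, q.1, q.2)).toReal from rfl]
        refine h3.trans ((ENNReal.ofReal_le_ofReal (abs_le_ent hz hM hδ0)).trans
          (ENNReal.ofReal_add_le.trans ?_))
        rw [add_comm, ENNReal.ofReal_mul (by positivity), ENNReal.ofReal_mul hδ0.le,
          ENNReal.ofReal_coe_nnreal]
        exact add_le_add le_rfl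
          (mul_le_mul_right (ENNReal.ofReal_le_ofReal (maxwellian_le _)) _)
    _ ≤ _ := by
        rw [lintegral_add_right _ (measurable_gs2.const_mul _),
          lintegral_const_mul' _ _ ENNReal.ofReal_ne_top,
          lintegral_const_mul' _ _ ENNReal.coe_ne_top, lint_gs2, add_comm]
        exact add_le_add hδ'.le (mul_le_mul_right (le_self_add.trans (hW.entropy t ht)) _)

end
end Crest.Agent.R68
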