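import Crest.Agent.R68.Conc
import Crest.Agent.R68.PlaneB
import Crest.Agent.R68.W6

/-! # Row 68: late phase: entropy of the datum -/

set_option autoImplicit false
open MeasureTheory Set Filter Topology
open scoped ENNReal NNReal
open Crest.AnalysisR.VecCalc3 Crest.AnalysisR.PDE.Boltzmann

namespace Crest.Agent.R68.LD
noncomputable section

/-- mass-energy-entropy integrand -/
def eI (z : ℝ≥0∞) (v : R3) : ℝ≥0∞ :=
  ENNReal.ofReal (z.toReal * (1 + ‖v‖ ^ 2 + |Real.log z.toReal|))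

theorem eI_zero (v : R3) : eI 0 v = 0 := by simp [eI]

theorem real_bd {r A z s : ℝ} (hr : 0 < r) (hr1 : r ≤ 1) (hA : 1 ≤ A) (hz : 0 ≤ z)
    (hzA : z ≤ A / r ^ 13) (hs : s ≤ 4) : z * (1 + s + |Real.log z|) ≤ A * (A + 19) / r ^ 14 := by
  have h1 : A / r ^ 13 ≤ A / r ^ 14 :=
    div_le_div_of_nonneg_left (by linarith) (by positivity) (pow_le_pow_of_le_one hr.le hr1 (by norm_num))
  have h2 : 1 ≤ A / r ^ 14 :=
    (one_le_div (by positivity)).2 ((pow_le_one₀ hr.le hr1).trans hA)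
  have h3 : z * |Real.log z| ≤ A / r ^ 14 * (A + 14) := by
    rcases hz.eq_or_lt with rfl | hz0
    · rw [zero_mul]; positivity
    rcases le_total z 1 with h | h
    · have := (Real.abs_log_mul_self_lt z hz0 h).le
      rw [abs_mul, abs_of_pos hz0] at this
      nlinarith
    · have h4 := Real.log_le_log hz0 hzA
      rw [Real.log_div (by linarith) (by positivity), Real.log_pow] at h4
      have h5 := Real.log_le_sub_one_of_pos (inv_pos.2 hr)
      have h6 := Real.log_le_sub_one_of_pos (show 0 < A by linarith)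
      have h7 : 1 ≤ r⁻¹ := (one_le_inv₀ hr).2 hr1
      rw [Real.log_inv] at h5
      rw [abs_of_nonneg (Real.log_nonneg h),
        show A / r ^ 14 * (A + 14) = A / r ^ 13 * ((A + 14) * r⁻¹) by field_simp]
      push_cast at h4
      exact mul_le_mul hzA (by nlinarith) (Real.log_nonneg h) (hz.trans hzA)
  rw [show A * (A + 19) / r ^ 14 = A / r ^ 14 * (A + 19) by ring]
  nlinarith

theorem c0_zero (P : Par) (x v : R3) : c0 P (0, x, v) = ∑ b : Bool, cold0 P b (red x) v := by
  show ∑ b : Bool, cold0 P b (red (x - (0 : ℝ) • v)) v = _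
  rw [zero_smul, sub_zero]

theorem g0_zero (P : Par) (x v : R3) :
    g0 P (0, x, v) = if ‖v‖ < P.R ∧ P.d0 < tn x then mu v else 0 := by
  show (if ‖v‖ < P.R ∧ P.d0 < tn (x - (0 : ℝ) • v) then mu v else 0) = _
  rw [zero_smul, sub_zero]

theorem cold_supp {P : Par} {b : Bool} {y v : R3} (h : cold0 P b y v ≠ 0) :
    y ∈ SS P.r0 b ∧ ‖v - uu b 0 y‖ ≤ x1 y ^ 4 := by
  by_contra hc
  exact h (if_neg hc)

theorem norm_le {P : Par} {b : Bool} {y v : R3} (h : cold0 P b y v ≠ 0) :
    ‖y‖ ≤ 2 * cK * P.r0 :=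
  (norm_le_of_mem_SS (cold_supp h).1).trans
    (mul_le_mul_of_nonneg_left (cold_supp h).1.2.1 (by unfold cK; positivity))

theorem c0_eq_zero {P : Par} (hP : P.Basic) {x : R3} (h : P.d0 < tn x) (v : R3) :
    c0 P (0, x, v) = 0 := by
  rw [c0_zero]
  refine Finset.sum_eq_zero fun b _ => by_contra fun hc => ?_
  have h1 : tn x ≤ 2 * cK * P.r0 := norm_le hc
  linarith [hP.r0_d0, hP.d0_pos]

theorem inner_bd : ∃ K : ℝ≥0∞, K ≠ ⊤ ∧ ∀ P : Par, P.Basic → ∀ y : R3,
    ∫⁻ v, eI (∑ b : Bool, cold0 P b y v) v ≤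
      {y : R3 | ‖y - 0‖ ≤ 2 * cK * P.r0}.indicator (fun y => K * npw ‖y - 0‖ 2) y := by
  obtain ⟨A, hA⟩ : ∃ A, A = 2 * cC := ⟨_, rfl⟩
  have hA1 : 1 ≤ A := by rw [hA, cC]; norm_num
  refine ⟨ENNReal.ofReal (A * (A + 19) * (40 * cK ^ 2)), ENNReal.ofReal_ne_top, fun P hP y => ?_⟩
  by_cases h : ∀ v b, cold0 P b y v = 0
  · simp [h, eI_zero]
  push Not at h
  obtain ⟨v₀, b₀, h⟩ := h
  have hr := abs_pos.2 (cold0_small hP h).1
  have hr1 : |x1 y| ≤ 1 := by linarith [abs_x1_le y, (cold0_small hP h).2.2.1]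
  have hy := hr.trans_le (abs_x1_le y)
  have hm : ∀ b, MeasurableSet {v : R3 | ‖v - uu b 0 y‖ ≤ x1 y ^ 4} := fun b =>
    measurableSet_le (by fun_prop) measurable_const
  have h1 : ∀ v, eI (∑ b : Bool, cold0 P b y v) v ≤ ∑ b : Bool,
      {v : R3 | ‖v - uu b 0 y‖ ≤ x1 y ^ 4}.indicator
        (fun _ => ENNReal.ofReal (A * (A + 19) / |x1 y| ^ 14)) v := by
    intro v
    by_cases hv : ∀ b, cold0 P b y v = 0
    · simp [hv, eI_zero]
    push Not at hv
    obtain ⟨b, hb⟩ := hv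
    refine le_trans ?_ (Finset.single_le_sum (fun _ _ => bot_le) (Finset.mem_univ b))
    rw [indicator_of_mem (by exact (cold_supp hb).2)]
    have h2 : ∀ b, cold0 P b y v ≤ ENNReal.ofReal (cC / |x1 y| ^ 13) := fun b => by
      by_cases hb : cold0 P b y v = 0
      · exact hb.trans_le bot_le
      · exact (cold0_small hP hb).2.2.2.2.2
    have h3 : 0 ≤ cC / |x1 y| ^ 13 := by unfold cC; positivity
    refine ENNReal.ofReal_le_ofReal (real_bd hr hr1 hA1 ENNReal.toReal_nonneg
      (ENNReal.toReal_le_of_le_ofReal (by positivity) ?_)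
      (by nlinarith [(cold0_small hP hb).2.2.2.1, norm_nonneg v]))
    rw [Fintype.sum_bool, hA, mul_div_assoc, two_mul, ENNReal.ofReal_add h3 h3]
    exact add_le_add (h2 _) (h2 _)
  refine (lintegral_mono h1).trans ?_
  rw [lintegral_finsetSum _ fun b _ => measurable_const.indicator (hm b),
    indicator_of_mem (by simpa using norm_le h), sub_zero, PB.npw_pos hy,
    ← ENNReal.ofReal_mul (by positivity)]
  have h4 : 0 ≤ A * (A + 19) / |x1 y| ^ 14 := by positivity
  refine (Finset.sum_le_sum fun b _ => ((lintegral_indicator_const (hm b) _).trans_le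
    (mul_le_mul_right (vol_ball_le _ _ (by positivity)) _)).trans_eq
    (ENNReal.ofReal_mul h4).symm).trans ?_
  rw [Fintype.sum_bool, ← ENNReal.ofReal_add (by positivity) (by positivity)]
  refine ENNReal.ofReal_le_ofReal ?_
  have h5 := pow_le_pow_left₀ hy.le (norm_le_of_mem_SS (cold_supp h).1) 2
  rw [Real.rpow_neg hy.le, Real.rpow_two, ← Even.pow_abs (by decide : Even 4),
    ← div_eq_mul_inv, le_div_iff₀ (by positivity)]
  refine (mul_le_mul_of_nonneg_left h5 (by positivity)).trans_eq ?_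
  field_simp
  ring

theorem measurable_eI {F : PF} (hF : Measurable F) :
    Measurable fun q : R3 × R3 => eI (F (0, q.1, q.2)) q.2 := by
  have : Measurable fun q : R3 × R3 => (F (0, q.1, q.2)).toReal :=
    (hF.comp (measurable_const.prodMk measurable_id)).ennreal_toReal
  exact (this.mul (((measurable_snd.norm.pow_const 2).const_add 1).add
    this.log.abs)).ennreal_ofReal

theorem cold_bd : ∃ K : ℝ≥0∞, K ≠ ⊤ ∧ ∀ P : Par, P.Basic →
    ∫⁻ q in cell ×ˢ (univ : Set R3), eI (c0 P (0, q.1, q.2)) q.2 ≤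
      K * ENNReal.ofReal (2 * cK * P.r0) := by
  obtain ⟨K, hK, h⟩ := inner_bd
  obtain ⟨C, hC, h'⟩ := lint_loc_sing
  refine ⟨K * C, ENNReal.mul_ne_top hK hC, fun P hP => ?_⟩
  have hm : MeasurableSet {y : R3 | ‖y - 0‖ ≤ 2 * cK * P.r0} :=
    measurableSet_le (by fun_prop) measurable_const
  have h0 : 0 < 2 * cK * P.r0 := by have := hP.r0_pos; unfold cK; positivity
  rw [W6H.lint_prod _ (measurable_eI (measurable_c0 P))]
  simp only [c0_zero]
  refine (lintegral_mono fun x => h P hP (red x)).trans ((lint_cell_red _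
    (((mba_npw (by fun_prop) 2).const_mul K).indicator hm)).trans
    ((setLIntegral_le_lintegral _ _).trans ?_))
  rw [lintegral_indicator hm, lintegral_const_mul' _ _ hK, mul_assoc K]
  refine mul_le_mul_right ((h' 0 2 ⟨by norm_num, by norm_num⟩ _
    ⟨h0, by linarith [hP.r0_K]⟩).trans_eq ?_) _
  norm_num

theorem toReal_mu (v : R3) : (mu v).toReal = maxwellian v :=
  ENNReal.toReal_ofReal (W6H.maxwellian_pos v).le

theorem eI_F0 {P : Par} (hP : P.Basic) (x v : R3) : eI (F0 P (0, x, v)) v ≤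
    eI (c0 P (0, x, v)) v + ENNReal.ofReal (1 + W6H.cM + 2 * P.R ^ 2) * W6H.gs v := by
  show eI (c0 P _ + g0 P _) v ≤ _
  rw [g0_zero]
  split_ifs with h
  · rw [c0_eq_zero hP h.2, zero_add, eI_zero, zero_add, W6H.gs,
      ← ENNReal.ofReal_mul (by have := W6H.cM_nonneg; positivity), eI, toReal_mu, mul_comm]
    refine ENNReal.ofReal_le_ofReal (mul_le_mul ?_ (W6H.maxwellian_le v)
      (W6H.maxwellian_pos v).le (by have := W6H.cM_nonneg; positivity))
    have h1 := pow_le_pow_left₀ (norm_nonneg v) h.1.le 2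
    have h2 := W6H.cM_nonneg
    have h3 := sq_nonneg ‖v‖
    rw [W6H.maxwellian_eq, Real.log_exp, abs_of_nonpos (by linarith)]
    linarith
  · rw [add_zero]
    exact le_self_add

theorem admissible {P : Par} (hP : P.Basic) : IsAdmissibleDatum (rl (F0 P) 0) P.R := by
  refine ⟨((measurable_F0 P).comp (measurable_const.prodMk measurable_id)).ennreal_toReal,
    fun _ _ => ENNReal.toReal_nonneg,
    fun v x i => congrArg ENNReal.toReal ((per_F0 P).isPeriodic3 0 v x i), fun x v h => ?_, ?_⟩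
  · have h1 : c0 P (0, x, v) = 0 := by_contra fun hc =>
      (hP.R_ge.trans_le h).not_ge (supp_c0 hP hc).1
    show (c0 P (0, x, v) + g0 P (0, x, v)).toReal = 0
    rw [g0_zero, if_neg fun h' => h'.1.not_ge h, add_zero, h1, ENNReal.toReal_zero]
  obtain ⟨K, hK, h⟩ := cold_bd
  refine lt_of_le_of_lt (lintegral_mono fun q : R3 × R3 => eI_F0 hP q.1 q.2) ?_
  rw [lintegral_add_left (measurable_eI (measurable_c0 P)),
    lintegral_const_mul' _ _ ENNReal.ofReal_ne_top, W6H.lint_gs2]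
  exact ENNReal.add_lt_top.2 ⟨(h P hP).trans_lt (ENNReal.mul_lt_top hK.lt_top ENNReal.ofReal_lt_top),
    ENNReal.mul_lt_top ENNReal.ofReal_lt_top W6H.lint_gs.lt_top⟩

theorem ent_F0 {P : Par} (hP : P.Basic) (x v : R3) :
    ENNReal.ofReal (rl (F0 P) 0 x v * Real.log (rl (F0 P) 0 x v / maxwellian v) -
      rl (F0 P) 0 x v + maxwellian v) ≤
    ENNReal.ofReal (1 + W6H.cM) * eI (c0 P (0, x, v)) v +
      ({y : R3 | ‖y - 0‖ ≤ P.d0}.indicator 1 (red x) * W6H.gs v +
        {v : R3 | P.R ≤ ‖v‖}.indicator W6H.gs v) := by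
  have e : rl (F0 P) 0 x v = (c0 P (0, x, v) + g0 P (0, x, v)).toReal := rfl
  rw [e, g0_zero]
  split_ifs with h
  · rw [c0_eq_zero hP h.2, zero_add, toReal_mu, div_self (W6H.maxwellian_pos v).ne']
    simp
  rw [add_zero, eI, ← ENNReal.ofReal_mul (by linarith [W6H.cM_nonneg])]
  refine ((ENNReal.ofReal_le_ofReal (W6H.ent_le ENNReal.toReal_nonneg v)).trans
    ENNReal.ofReal_add_le).trans (add_le_add le_rfl ?_)
  rcases not_and_or.1 h with h | h
  · rw [indicator_of_mem (f := W6H.gs) (by exact not_lt.1 h)]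
    exact le_add_self
  · rw [indicator_of_mem (by rw [mem_ofPred_eq, sub_zero]; exact not_lt.1 h),
      Pi.one_apply, one_mul]
    exact le_self_add

theorem tail : Tendsto (fun R : ℝ => ∫⁻ v, {v : R3 | R ≤ ‖v‖}.indicator W6H.gs v) atTop (𝓝 0) := by
  have := tendsto_lintegral_filter_of_dominated_convergence (μ := volume) (l := atTop)
    (F := fun (R : ℝ) v => {v : R3 | R ≤ ‖v‖}.indicator W6H.gs v) (f := fun _ => 0) W6H.gs
    (.of_forall fun R => W6H.measurable_gs.indicator (measurableSet_le measurable_const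
      measurable_norm)) (.of_forall fun R => .of_forall fun v => indicator_le_self _ _ v)
    W6H.lint_gs (.of_forall fun v => tendsto_const_nhds.congr' ((eventually_gt_atTop ‖v‖).mono
      fun R h => (indicator_of_notMem (s := {v : R3 | R ≤ ‖v‖}) h.not_ge _).symm))
  simpa using this

theorem small (K : ℝ≥0∞) (hK : K ≠ ⊤) {f : ℝ → ℝ} (hf : Continuous f) (h0 : f 0 = 0) {η : ℝ≥0∞}
    (hη : 0 < η) : ∀ᶠ r in 𝓝[>] (0 : ℝ), K * ENNReal.ofReal (f r) ≤ η := by
  filter_upwards [MB.ev_small (f := fun r => K.toReal * f r) (by fun_prop) (by simp [h0]) hη]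
    with r h
  rwa [ENNReal.ofReal_mul ENNReal.toReal_nonneg, ENNReal.ofReal_toReal hK] at h

theorem entropy_small (η : ℝ≥0∞) (hη : 0 < η) :
    ∀ᶠ P in parF, relEntropy (rl (F0 P) 0) ≤ η := by
  obtain ⟨K, hK, h⟩ := cold_bd
  have h3 : 0 < η / 3 := ENNReal.div_pos hη.ne' (by norm_num)
  filter_upwards [ev_basic, ev_R (p := fun R => ∫⁻ v, {v : R3 | R ≤ ‖v‖}.indicator W6H.gs v ≤ η / 3)
      (tail.eventually_le_const h3),
    ev_d0 (p := fun _ _ _ _ d => (∫⁻ v, W6H.gs v) * ENNReal.ofReal (5 * d ^ 3) ≤ η / 3)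
      fun _ _ _ _ _ _ => small _ W6H.lint_gs (by fun_prop) (by simp) h3,
    ev_r0 (p := fun P => ENNReal.ofReal (1 + W6H.cM) * K * ENNReal.ofReal (2 * cK * P.r0) ≤ η / 3)
      fun _ _ _ _ _ _ _ _ _ => small _ (ENNReal.mul_ne_top ENNReal.ofReal_ne_top hK)
        (f := fun r => 2 * cK * r) (by fun_prop) (by simp) h3] with P hP h1 h2 h4
  have m1 : MeasurableSet {y : R3 | ‖y - 0‖ ≤ P.d0} :=
    measurableSet_le (by fun_prop) measurable_const
  have m2 : Measurable ({y : R3 | ‖y - 0‖ ≤ P.d0}.indicator (1 : R3 → ℝ≥0∞)) :=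
    measurable_one.indicator m1
  have m3 : Measurable fun q : R3 × R3 => {v : R3 | P.R ≤ ‖v‖}.indicator W6H.gs q.2 :=
    (W6H.measurable_gs.indicator (measurableSet_le measurable_const measurable_norm)).comp
      measurable_snd
  have m4 : Measurable fun q : R3 × R3 =>
      {y : R3 | ‖y - 0‖ ≤ P.d0}.indicator (1 : R3 → ℝ≥0∞) (red q.1) * W6H.gs q.2 :=
    ((m2.comp measurable_red).comp measurable_fst).mul W6H.measurable_gs2
  refine le_trans (lintegral_mono fun q : R3 × R3 => ent_F0 hP q.1 q.2) ?_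
  rw [lintegral_add_left ((measurable_eI (measurable_c0 P)).const_mul _), lintegral_add_left m4,
    lintegral_const_mul' _ _ ENNReal.ofReal_ne_top, W6H.lint_prod _ m4,
    W6H.lint_prod _ m3]
  refine (add_le_add ((mul_le_mul_right (h P hP) _).trans ((mul_assoc _ _ _).ge.trans h4))
    (add_le_add (le_trans ?_ h2) (le_trans (by simp [volume_cell]) h1))).trans_eq
    ((add_assoc _ _ _).symm.trans (ENNReal.add_thirds η))
  simp only [lintegral_const_mul _ W6H.measurable_gs]
  rw [lintegral_mul_const _ (by exact m2.comp measurable_red), mul_comm]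
  refine mul_le_mul_right ((lint_cell_red _ m2).trans ((setLIntegral_le_lintegral _ _).trans ?_)) _
  rw [lintegral_indicator_one m1]
  exact vol_ball_le _ _ hP.d0_pos.le

end
end Crest.Agent.R68.LD
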