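import Crest.Agent.R68.Base

/-! # Row 68: auxiliary lemmas for the hand-off (`mu_Lam_small`, `ev_handoff`) -/

set_option autoImplicit false
open MeasureTheory Set Filter Topology
open scoped ENNReal NNReal
open Crest.AnalysisR.VecCalc3 Crest.AnalysisR.PDE.Boltzmann

namespace Crest.Agent.R68
noncomputable section
namespace LAH

theorem Ga_anti {a a' : ℝ} (h : a ≤ a') (v : R3) : Ga a' v ≤ Ga a v :=
  ENNReal.ofReal_le_ofReal (Real.exp_le_exp.2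
    (neg_le_neg (mul_le_mul_of_nonneg_right h (sq_nonneg _))))

theorem Ga_le_GS (a : ℝ) (p : Ph) : Ga a p.2.2 ≤ GS a p :=
  le_mul_of_one_le_right' (one_le_Sg p)

theorem mu_jb (v : R3) :
    mu v * ENNReal.ofReal (jb v) ^ 3 ≤ ENNReal.ofReal (Real.exp 6) * Ga (1 / 8) v := by
  have hj : 0 ≤ jb v := (zero_le_one.trans (OAC.one_le_jb v))
  refine (mul_le_mul_left (mu_le_Ga v) _).trans ?_
  unfold Ga
  rw [← ENNReal.ofReal_pow hj, ← ENNReal.ofReal_mul (Real.exp_pos _).le,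
    ← ENNReal.ofReal_mul (Real.exp_pos _).le]
  refine ENNReal.ofReal_le_ofReal ?_
  have h1 : jb v ≤ Real.exp ‖v‖ := by
    have := Real.add_one_le_exp ‖v‖
    unfold jb
    linarith
  have h2 : jb v ^ 3 ≤ Real.exp (3 * ‖v‖) := by
    have := pow_le_pow_left₀ hj h1 3
    rwa [← Real.exp_nat_mul, Nat.cast_ofNat] at this
  refine (mul_le_mul_of_nonneg_left h2 (Real.exp_pos _).le).trans ?_
  rw [← Real.exp_add, ← Real.exp_add]
  refine Real.exp_le_exp.2 ?_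
  nlinarith [sq_nonneg (‖v‖ - 4)]

theorem ell_ge {q : Ph} {d s : ℝ} (hd : 0 < d) (hs : 0 < s) (h : d < tn (q.2.1 - q.1 • q.2.2)) :
    npw (ell (fl q s)) 1 ≤ ENNReal.ofReal (1 / d) * ENNReal.ofReal (jb q.2.2) := by
  have h1 : tn (q.2.1 - q.1 • q.2.2) ≤ tn (fl q s).2.1 + s * ‖q.2.2‖ := by
    have := tn_add_le (fl q s).2.1 (-(s • q.2.2))
    rw [norm_neg, norm_smul, Real.norm_of_nonneg hs.le, ← sub_eq_add_neg] at this
    rw [← mba_foot_fl q s]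
    exact this
  have h2 := tn_nonneg (fl q s).2.1
  have h3 := norm_nonneg q.2.2
  have h4 : ell (fl q s) = 8 * s + tn (fl q s).2.1 := rfl
  have h5 : 0 < ell (fl q s) := by
    rw [h4]
    linarith
  rw [SrcA.npw_one_eq h5, ← ENNReal.ofReal_mul (by positivity)]
  refine ENNReal.ofReal_le_ofReal ?_
  rw [one_div, ← div_eq_inv_mul, ← one_div, div_le_div_iff₀ h5 hd, h4]
  unfold jb
  nlinarith [mul_nonneg h2 h3, mul_nonneg hs.le h3]

theorem slab_le : ∃ K : ℝ≥0∞, K ≠ ⊤ ∧ ∀ (p : Ph) (r : ℝ), p.1 ∈ Icc (0 : ℝ) 1 → 0 < r →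
    volume {s : ℝ | s ∈ Ioo 0 p.1 ∧ fl p s ∈ slabS (3 * r)} ≤
      (K * ENNReal.ofReal r) ^ (1 / 4 : ℝ) *
        (ENNReal.ofReal (jb p.2.2) * npw |x1 p.2.2| (1 / 4)) := by
  obtain ⟨K, hK, h⟩ := slab_time
  refine ⟨K * 24, ENNReal.mul_ne_top hK (by norm_num), fun p r ht hr => ?_⟩
  set A := volume {s : ℝ | s ∈ Ioo 0 p.1 ∧ fl p s ∈ slabS (3 * r)} with hA
  have hA1 : A ≤ 1 := by
    refine (measure_mono (t := Ioo 0 p.1) fun s hs => hs.1).trans ?_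
    rw [Real.volume_Ioo, sub_zero]
    exact ENNReal.ofReal_le_one.2 ht.2
  have hj1 := OAC.one_le_jb p.2.2
  have hj : 0 ≤ jb p.2.2 := zero_le_one.trans hj1
  have hA2 : A ≤ K * 24 * ENNReal.ofReal r * (ENNReal.ofReal (jb p.2.2) ^ (4 : ℝ) *
      npw |x1 p.2.2| (1 / 4) ^ (4 : ℝ)) := by
    refine (h p (3 * r) ht.1 (by positivity)).trans ?_
    have e1 : npw |x1 p.2.2| (1 / 4) ^ (4 : ℝ) = npw |x1 p.2.2| 1 := by
      unfold npw
      rw [← ENNReal.rpow_mul]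
      norm_num
    have e2 : ENNReal.ofReal ((1 + p.1) ^ 3 * jb p.2.2 ^ 3 * (3 * r)) ≤
        24 * ENNReal.ofReal r * ENNReal.ofReal (jb p.2.2) ^ (4 : ℝ) := by
      rw [ENNReal.ofReal_rpow_of_nonneg hj (by norm_num), ← ENNReal.ofReal_ofNat,
        ← ENNReal.ofReal_mul (by norm_num), ← ENNReal.ofReal_mul (by positivity)]
      refine ENNReal.ofReal_le_ofReal ?_
      have h8 : (1 + p.1) ^ 3 ≤ 2 ^ 3 := pow_le_pow_left₀ (by linarith [ht.1]) (by linarith [ht.2]) 3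
      have e3 : jb p.2.2 ^ (4 : ℝ) = jb p.2.2 ^ 4 := by
        rw [← Real.rpow_natCast]; norm_num
      have e4 : jb p.2.2 ^ 3 ≤ jb p.2.2 ^ 4 := pow_le_pow_right₀ hj1 (by norm_num)
      rw [e3]
      calc (1 + p.1) ^ 3 * jb p.2.2 ^ 3 * (3 * r) ≤ 2 ^ 3 * jb p.2.2 ^ 4 * (3 * r) := by gcongr
        _ = _ := by ring
    rw [e1]
    refine (mul_le_mul_left (mul_le_mul_right e2 K) _).trans (le_of_eq ?_)
    ring
  calc A = A ^ (1 : ℝ) := (ENNReal.rpow_one _).symm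
    _ ≤ A ^ (1 / 4 : ℝ) := ENNReal.rpow_le_rpow_of_exponent_ge hA1 (by norm_num)
    _ ≤ _ := ENNReal.rpow_le_rpow hA2 (by norm_num)
    _ = _ := by
      rw [ENNReal.mul_rpow_of_nonneg _ _ (by norm_num),
        ENNReal.mul_rpow_of_nonneg (_ ^ (4 : ℝ)) _ (by norm_num), ← ENNReal.rpow_mul,
        ← ENNReal.rpow_mul]
      norm_num

theorem ev_small {K₁ K₃ η : ℝ≥0∞} (h₁ : K₁ ≠ ⊤) (h₃ : K₃ ≠ ⊤) (hη : 0 < η) :
    ∀ᶠ P in parF, K₁ * (ENNReal.ofReal (1 / P.d0) * (K₃ * ENNReal.ofReal P.r0) ^ (1 / 4 : ℝ)) ≤ η := by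
  have t0 : Tendsto (fun r : ℝ => ENNReal.ofReal r) (𝓝[>] 0) (𝓝 0) := by
    have h := ENNReal.tendsto_ofReal (tendsto_id.mono_left (nhdsWithin_le_nhds (a := (0 : ℝ))
      (s := Ioi 0)))
    simpa using h
  have t2 : ∀ d : ℝ, Tendsto (fun r : ℝ => K₁ * (ENNReal.ofReal (1 / d) *
      (K₃ * ENNReal.ofReal r) ^ (1 / 4 : ℝ))) (𝓝[>] 0) (𝓝 0) := by
    intro d
    have a1 := ENNReal.Tendsto.const_mul (a := K₃) t0 (Or.inr h₃)
    rw [mul_zero] at a1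
    have a2 := (ENNReal.continuous_rpow_const (y := (1 / 4 : ℝ))).continuousAt.tendsto.comp a1
    rw [ENNReal.zero_rpow_of_pos (by norm_num)] at a2
    have a3 := ENNReal.Tendsto.const_mul (a := ENNReal.ofReal (1 / d)) a2
      (Or.inr ENNReal.ofReal_ne_top)
    have a4 := ENNReal.Tendsto.const_mul (a := K₁) a3 (Or.inr h₁)
    rw [mul_zero, mul_zero] at a4
    exact a4
  exact ev_r0 (p := fun P => K₁ * (ENNReal.ofReal (1 / P.d0) *
      (K₃ * ENNReal.ofReal P.r0) ^ (1 / 4 : ℝ)) ≤ η)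
    fun _ _ _ _ d _ _ _ _ => (t2 d).eventually (ge_mem_nhds hη)

theorem mu_Lam_small (η : ℝ≥0∞) (hη : 0 < η) : ∀ᶠ P in parF, ∀ b : ℝ≥0∞, b ≤ 1 → ∀ q : Ph,
    q.1 ∈ Icc 0 P.t0 → P.d0 < tn (q.2.1 - q.1 • q.2.2) →
    mu q.2.2 * Lam (env P b) q 0 ≤ η * (Ga (1 / 8) q.2.2 * (1 + npw |x1 q.2.2| (1 / 4))) := by
  obtain ⟨K₁, hK₁, h₁⟩ := LF_csm
  obtain ⟨K₂, hK₂, h₂⟩ := LF_rest
  obtain ⟨K₃, hK₃, h₃⟩ := slab_le
  filter_upwards [ev_basic, h₂,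
    ev_small (K₁ := ENNReal.ofReal (Real.exp 6) * (K₁ * 8)) (by finiteness) hK₃ hη,
    ob1_small (K := ENNReal.ofReal (Real.exp 6) * K₂) (by finiteness) hη continuous_id rfl]
    with P hP h₂ h₄ h₅ b hb q hq hd
  have hq1 : q.1 ≤ 1 := by linarith [hq.2, hP.t0_le]
  set J := ENNReal.ofReal (jb q.2.2) with hJ
  have hJ1 : 1 ≤ J := Wb.one_le_J _
  have hS : MeasurableSet (fl q ⁻¹' slabS (3 * P.r0)) :=
    PosA.measurable_fl' q (measurableSet_slabS _)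
  have e : env P b = fun q => c0 P q + (ZZ P q + wY P (omF P b) q) :=
    funext fun q => add_assoc _ _ _
  have hpt : ∀ s ∈ Ioo 0 q.1, LF (env P b) (fl q s) ≤
      K₁ * 8 * J * (ENNReal.ofReal (1 / P.d0) * J) * (fl q ⁻¹' slabS (3 * P.r0)).indicator 1 s +
        K₂ * J := by
    intro s hs
    have hs1 : s ≤ 1 := hs.2.le.trans hq1
    have e2 : LF (c0 P) (fl q s) = LF (csm P) (fl q s) := by
      unfold LF
      rw [SrcA.sec_c0 hP q ⟨hs.1.le, hs1⟩]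
    have e3 : (slabS (3 * P.r0)).indicator (1 : Ph → ℝ≥0∞) (fl q s) =
        (fl q ⁻¹' slabS (3 * P.r0)).indicator 1 s := rfl
    have h6 := ob1_cube hs.1.le hs1
    have h7 := ell_ge (q := q) hP.d0_pos hs.1 hd
    rw [e, LF_add (measurable_c0 P), e2]
    refine add_le_add ((h₁ P hP (fl q s) hs.1).trans ?_)
      (h₂ b hb (fl q s) ⟨hs.1.le, hs.2.le.trans hq.2⟩)
    rw [e3]
    calc _ ≤ K₁ * 8 * J * ((fl q ⁻¹' slabS (3 * P.r0)).indicator 1 s *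
          (ENNReal.ofReal (1 / P.d0) * J)) :=
          mul_le_mul' (mul_le_mul' (mul_le_mul_right h6 _) le_rfl) (mul_le_mul_right h7 _)
      _ = _ := by ring
  have hI : ∫⁻ s in Ioo 0 q.1, (fl q ⁻¹' slabS (3 * P.r0)).indicator (1 : ℝ → ℝ≥0∞) s =
      volume {s : ℝ | s ∈ Ioo 0 q.1 ∧ fl q s ∈ slabS (3 * P.r0)} := by
    rw [lintegral_indicator_one hS, Measure.restrict_apply hS, inter_comm]
    rfl
  have hvol : volume (Ioo (0 : ℝ) q.1) ≤ ENNReal.ofReal P.t0 := by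
    rw [Real.volume_Ioo, sub_zero]
    exact ENNReal.ofReal_le_ofReal hq.2
  set n := npw |x1 q.2.2| (1 / 4) with hn
  have hL : Lam (env P b) q 0 ≤ J ^ 3 * (K₁ * 8 * (ENNReal.ofReal (1 / P.d0) *
      (K₃ * ENNReal.ofReal P.r0) ^ (1 / 4 : ℝ)) * n + K₂ * ENNReal.ofReal P.t0) := by
    refine (setLIntegral_mono' measurableSet_Ioo hpt).trans ?_
    rw [lintegral_add_right _ measurable_const, lintegral_const_mul _ (measurable_one.indicator hS),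
      hI, setLIntegral_const, mul_add]
    refine add_le_add ((mul_le_mul_right (h₃ q P.r0 ⟨hq.1, hq1⟩ hP.r0_pos) _).trans_eq (by ring)) ?_
    have : J ≤ J ^ 3 := le_self_pow hJ1 (by norm_num)
    calc K₂ * J * volume (Ioo (0 : ℝ) q.1) ≤ K₂ * J ^ 3 * ENNReal.ofReal P.t0 := by gcongr
      _ = _ := by ring
  calc mu q.2.2 * Lam (env P b) q 0 ≤ mu q.2.2 * J ^ 3 * (K₁ * 8 * (ENNReal.ofReal (1 / P.d0) *
        (K₃ * ENNReal.ofReal P.r0) ^ (1 / 4 : ℝ)) * n + K₂ * ENNReal.ofReal P.t0) := by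
        rw [mul_assoc]
        exact mul_le_mul_right hL _
    _ ≤ ENNReal.ofReal (Real.exp 6) * Ga (1 / 8) q.2.2 * (K₁ * 8 * (ENNReal.ofReal (1 / P.d0) *
        (K₃ * ENNReal.ofReal P.r0) ^ (1 / 4 : ℝ)) * n + K₂ * ENNReal.ofReal P.t0) :=
        mul_le_mul_left (mu_jb _) _
    _ = Ga (1 / 8) q.2.2 * (ENNReal.ofReal (Real.exp 6) * K₂ * ENNReal.ofReal P.t0 +
        ENNReal.ofReal (Real.exp 6) * (K₁ * 8) * (ENNReal.ofReal (1 / P.d0) *
          (K₃ * ENNReal.ofReal P.r0) ^ (1 / 4 : ℝ)) * n) := by ring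
    _ ≤ Ga (1 / 8) q.2.2 * (η + η * n) := mul_le_mul_right (add_le_add h₅ (mul_le_mul_left h₄ _)) _
    _ = _ := by ring

theorem ev_tail (η : ℝ≥0∞) (hη : 0 < η) :
    ∀ᶠ P in parF, ∀ v : R3, P.R ≤ ‖v‖ → mu v ≤ η * Ga (1 / 8) v := by
  refine ev_R (p := fun R => ∀ v : R3, R ≤ ‖v‖ → mu v ≤ η * Ga (1 / 8) v) ?_
  have h1 := ENNReal.tendsto_ofReal Real.tendsto_exp_neg_atTop_nhds_zero
  rw [ENNReal.ofReal_zero] at h1
  filter_upwards [h1.eventually (ge_mem_nhds hη), eventually_ge_atTop (3 : ℝ)] with R h2 h3 v hv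
  refine (mu_le_Ga v).trans (le_trans ?_ (mul_le_mul_left h2 _))
  unfold Ga
  rw [← ENNReal.ofReal_mul (Real.exp_pos _).le, ← Real.exp_add]
  refine ENNReal.ofReal_le_ofReal (Real.exp_le_exp.2 ?_)
  nlinarith [mul_nonneg (norm_nonneg v) (sub_nonneg.2 (h3.trans hv))]

theorem YY_le {P : Par} (hP : P.Basic) {p : Ph} (hp : P.t0 ≤ p.1) :
    YY P (fl p P.t0) ≤ 12 * GS (1 / 8) p := by
  have h1 := (aT_mem hP (t := P.t0) ⟨hP.t0_pos.le, le_rfl⟩).1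
  calc YY P (fl p P.t0) ≤ Ga (1 / 8) p.2.2 * (12 * Sg p) :=
        mul_le_mul' (Ga_anti (a' := aT P.k3 P.t0) (by linarith) _) (Sg_fl_le p hP.t0_pos.le hp)
    _ = _ := mul_left_comm _ _ _

theorem upper (η : ℝ≥0∞) (hη : 0 < η) : ∀ᶠ P in parF, ∀ b : ℝ≥0∞, b ≤ 1 → ∀ p : Ph, P.t0 ≤ p.1 →
    Ia 0 (QF (env P b) (env P b)) (fl p P.t0) ≤ 1 / 2 * (ZZ P p + Big P p) + η * GS (1 / 8) p := by
  obtain ⟨K, hK, hn⟩ := TT_wn
  obtain ⟨ε, hε, hε1, hε2⟩ : ∃ ε : ℝ≥0∞, 0 < ε ∧ ε ≤ 1 / 2 ∧ 228 * ε ≤ η := by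
    refine ⟨min (1 / 2) (η / 228), lt_min (by norm_num) (ENNReal.div_pos hη.ne' (by norm_num)),
      min_le_left _ _, (mul_le_mul_right (min_le_right _ _) _).trans ENNReal.mul_div_le⟩
  obtain ⟨θ, hθ, hθ1, hθ2⟩ := SrcHl.small hK hε
  filter_upwards [ev_omF_le, ev_basic, Ia_thermal ε hε, TT_wb ε hε, small_ops ε hε,
    ev_wnF_le (ENNReal.ofReal θ) (ENNReal.ofReal_pos.2 hθ)] with P hom hP hth hb hsm hw b hb1 p hp
  have hq : (fl p P.t0).1 ∈ Icc 0 P.t0 := ⟨hP.t0_pos.le, le_rfl⟩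
  have hq1 : (fl p P.t0).1 ≤ 1 := hq.2.trans (hP.t0_le.trans (by norm_num))
  obtain ⟨s1, s2, -⟩ := hsm _ (adm_omF hP b) _ hq
  have t0 : wbF P (lst (fl p P.t0)) * Ga (aT P.k3 P.t0) p.2.2 ≤ wY P (wbF P) (fl p P.t0) :=
    mul_le_mul_right (le_mul_of_one_le_right' (one_le_Sg _)) _
  have t1 := (hth p P.t0 hq hp).trans (mul_le_mul_right (add_le_add le_rfl t0) ε)
  have t2 := (hb _ hq).trans (OBB.mul_npw_le ε _ (by norm_num) _)
  have t3 := (hn P hP _ hq).trans (OBB.mul_npw_le K _ (by norm_num) _)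
  have t4 := YY_le hP hp
  have t5 : wY P (wbF P) (fl p P.t0) ≤ YY P (fl p P.t0) :=
    mul_le_of_le_one_left' (wbF_le_one hP (lst_nonneg hq.1))
  have t6 : wY P (wnF P) (fl p P.t0) ≤ ENNReal.ofReal θ * YY P (fl p P.t0) :=
    mul_le_mul_left (hw _ ⟨lst_nonneg hq.1, lst_le_two ⟨hq.1, hq1⟩⟩) _
  have t7 : wY P (wnF P) (fl p P.t0) ≤ YY P (fl p P.t0) :=
    t6.trans (mul_le_of_le_one_left' (ENNReal.ofReal_le_one.2 hθ1))
  have t8 : K * wY P (wnF P) (fl p P.t0) ≤ ε * YY P (fl p P.t0) := by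
    refine (mul_le_mul_right t6 _).trans ?_
    rw [← mul_assoc]
    exact mul_le_mul_left hθ2 _
  rw [OBB.wY_omF] at s1 s2
  refine (OBB.Ia_env P b (hom b hb1) _ hq1).trans ?_
  rw [OBB.TT_omF]
  set Z := ZZ P p + Big P p
  set B := wY P (wbF P) (fl p P.t0)
  set N := wY P (wnF P) (fl p P.t0)
  set Y := YY P (fl p P.t0)
  calc _ ≤ ε * (Z + Y) + (2 * (ε * Y) + 1 * (ε * Y)) + 2 * (ε * (2 * Y + 1 * Y)) +
        3 * (ε * (2 * Y + 1 * Y)) := by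
        refine add_le_add (add_le_add (add_le_add (t1.trans (by gcongr)) (add_le_add
          (mul_le_mul_right (t2.trans (by gcongr)) _) (mul_le_mul' hb1 (t3.trans t8))))
          (mul_le_mul_right (s1.trans (by gcongr)) _)) (mul_le_mul_right (s2.trans (by gcongr)) _)
    _ = ε * Z + 19 * ε * Y := by ring
    _ ≤ 1 / 2 * Z + 19 * ε * (12 * GS (1 / 8) p) := by gcongr
    _ = 1 / 2 * Z + 228 * ε * GS (1 / 8) p := by ring
    _ ≤ _ := by gcongr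

theorem handoff (η : ℝ≥0∞) (hη : 0 < η) : ∀ᶠ P in parF, ∀ b : ℝ≥0∞, b ≤ 1 → ∀ Fe : PF,
    ESol P b 0 Fe → ∀ p : Ph, P.t0 ≤ p.1 →
    Fe (fl p P.t0) ≤ mu p.2.2 + (c0 P p + 1 / 2 * (ZZ P p + Big P p) + η * GS (1 / 8) p) ∧
      mu p.2.2 ≤ Fe (fl p P.t0) + (Hl P p + η * GS (1 / 8) p) := by
  filter_upwards [ev_basic, upper η hη, mu_Lam_small η hη, ev_tail η hη] with P hP h1 h2 h3 b hb Fe
    hF p hp
  have hq : (fl p P.t0).1 ∈ Icc 0 P.t0 := ⟨hP.t0_pos.le, le_rfl⟩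
  constructor
  · have e : Maj 0 (env P b) (g0 P) 0 (fl p P.t0) =
        g0 P p + Ia 0 (QF (env P b) (env P b)) (fl p P.t0) := by
      simp only [Maj, Ia, g0_fl, Pi.zero_apply, add_zero]
    have hg : g0 P p ≤ mu p.2.2 := by
      unfold g0
      split_ifs
      · exact le_rfl
      · exact zero_le
    rw [hF.eq _ hq]
    refine (Duh_le_Maj hF.le_env _).trans ?_
    rw [BaseB.Maj_F0, e, c0_fl]
    refine (add_le_add le_rfl (add_le_add hg (h1 b hb p hp))).trans_eq ?_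
    ring
  · by_cases hd : tn (p.2.1 - p.1 • p.2.2) ≤ P.d0
    · have e : Hl P p = mu p.2.2 := if_pos hd
      rw [e]
      exact le_add_left le_self_add
    by_cases hR : P.R ≤ ‖p.2.2‖
    · exact le_add_left (le_add_left ((h3 _ hR).trans (mul_le_mul_right (Ga_le_GS _ p) _)))
    have e : g0 P p = mu p.2.2 := if_pos ⟨not_le.1 hR, not_le.1 hd⟩
    have h4 : mu p.2.2 * ex (Lam Fe (fl p P.t0) 0) ≤ Fe (fl p P.t0) := by
      conv_rhs => rw [hF.eq _ hq]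
      refine le_add_right (mul_le_mul_left ?_ _)
      rw [F0_fl, F0_fl, ← e]
      exact le_add_self
    have h5 : Lam Fe (fl p P.t0) 0 ≤ Lam (env P b) (fl p P.t0) 0 :=
      lintegral_mono fun τ => LF_mono hF.le_env _
    have h6 := h2 b hb (fl p P.t0) hq (by
      rw [mba_foot_fl]
      exact not_le.1 hd)
    have h7 : Ga (1 / 8) p.2.2 * (1 + npw |x1 p.2.2| (1 / 4)) ≤ GS (1 / 8) p :=
      mul_le_mul_right le_self_add _
    calc mu p.2.2 ≤ mu p.2.2 * (ex (Lam Fe (fl p P.t0) 0) + Lam Fe (fl p P.t0) 0) :=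
          le_mul_of_one_le_right' (one_le_ex_add _)
      _ ≤ _ := by
          rw [mul_add]
          exact add_le_add h4 (le_add_left ((mul_le_mul_right h5 _).trans
            (h6.trans (mul_le_mul_right h7 _))))

end LAH
end
end Crest.Agent.R68
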