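import Crest.Agent.R68.Base
import Crest.Agent.R68.W6
import Crest.Agent.R68.LateAAuxD
import Crest.Agent.R68.LateAAuxH

/-! # Row 68: late phase: definitions, datum, hand-off -/

set_option autoImplicit false
open MeasureTheory Set Filter Topology
open scoped ENNReal NNReal
open Crest.AnalysisR.VecCalc3 Crest.AnalysisR.PDE.Boltzmann

namespace Crest.Agent.R68
noncomputable section

/-- the Maxwellian on phase space -/
def muF : PF := fun p => mu p.2.2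
/-- the bounded weight -/
def WW : PF := fun p => Ga (1 / 8) p.2.2
/-- exponential decay after time `a` -/
def dec (ν a : ℝ) : PF := fun p => ENNReal.ofReal (Real.exp (-(ν * (p.1 - a))))
/-- singular part of the lower envelope -/
def Em (P : Par) (ν : ℝ) (η₁ : ℝ≥0∞) : PF := fun p =>
  dec (ν / 2) P.t0 p * (η₁ * GS (1 / 8) p + Hl P p)
/-- singular part of the upper envelope -/
def Ep (P : Par) (ν : ℝ) (η₁ : ℝ≥0∞) : PF := fun p => Em P ν η₁ p + dec ν P.t0 p * sZ P p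
/-- lower envelope of `F - μ` -/
def envm (P : Par) (ν : ℝ) (ε η₁ : ℝ≥0∞) : PF := fun p => ε * WW p + Em P ν η₁ p
/-- upper envelope of `F - μ` -/
def envp (P : Par) (ν : ℝ) (ε η₁ : ℝ≥0∞) : PF := fun p => ε * WW p + Ep P ν η₁ p
/-- late clamp -/
def clL (P : Par) (ν : ℝ) (ε η₁ : ℝ≥0∞) (f : PF) : PF := fun p =>
  max (muF p - envm P ν ε η₁ p) (min (f p) (muF p + envp P ν ε η₁ p))
/-- damping kernel -/
def dmp (ν : ℝ) (p : Ph) (s : ℝ) : ℝ≥0∞ := ENNReal.ofReal (Real.exp (-(ν * jb p.2.2 * (p.1 - s))))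
/-- the linearised operator at the Maxwellian -/
def KB (d : PF) : PF := fun q => 2 * QF muF d q + muF q * LF d q
/-- its damped Duhamel integral -/
def KK (ν a : ℝ) (d : PF) : PF := fun p => ∫⁻ s in Ioo a p.1, dmp ν p s * KB d (fl p s)
/-- the quadratic term -/
def NN (ν a : ℝ) (d : PF) : PF := fun p => ∫⁻ s in Ioo a p.1, dmp ν p s * QF d d (fl p s)
/-- `L¹` norm at time `s` -/
def n1 (d : PF) (s : ℝ) : ℝ≥0∞ := ∫⁻ x in cell, ∫⁻ v, d (s, x, v)

theorem measurable_muF : Measurable muF := mba_mu.comp mba_v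
theorem measurable_WW : Measurable WW := mba_Ga measurable_const mba_v
theorem measurable_dec (ν a : ℝ) : Measurable (dec ν a) :=
  ((measurable_fst.sub_const a).const_mul ν).neg.exp.ennreal_ofReal
theorem measurable_Em (P : Par) (ν : ℝ) (η₁ : ℝ≥0∞) : Measurable (Em P ν η₁) :=
  (measurable_dec _ _).mul (((measurable_GS _).const_mul _).add (measurable_Hl P))
theorem measurable_Ep (P : Par) (ν : ℝ) (η₁ : ℝ≥0∞) : Measurable (Ep P ν η₁) :=
  (measurable_Em P ν η₁).add ((measurable_dec _ _).mul (measurable_sZ P))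
theorem measurable_envm (P : Par) (ν : ℝ) (ε η₁ : ℝ≥0∞) : Measurable (envm P ν ε η₁) :=
  (measurable_WW.const_mul ε).add (measurable_Em P ν η₁)
theorem measurable_envp (P : Par) (ν : ℝ) (ε η₁ : ℝ≥0∞) : Measurable (envp P ν ε η₁) :=
  (measurable_WW.const_mul ε).add (measurable_Ep P ν η₁)
theorem measurable_clL (P : Par) (ν : ℝ) (ε η₁ : ℝ≥0∞) {f : PF} (hf : Measurable f) :
    Measurable (clL P ν ε η₁ f) :=
  (measurable_muF.sub (measurable_envm P ν ε η₁)).max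
    (hf.min (measurable_muF.add (measurable_envp P ν ε η₁)))
theorem per_muF : Per muF := fun _ _ _ _ => rfl
theorem LateA1.per_Em (P : Par) (ν : ℝ) (η₁ : ℝ≥0∞) : Per (Em P ν η₁) := fun t x v m =>
  congrArg₂ (fun a b => dec (ν / 2) P.t0 (t, x, v) * (η₁ * a + b)) (per_GS _ t x v m)
    (per_Hl P t x v m)
theorem per_Ep (P : Par) (ν : ℝ) (η₁ : ℝ≥0∞) : Per (Ep P ν η₁) := fun t x v m =>
  congrArg₂ (fun a b => a + dec ν P.t0 (t, x, v) * b) (LateA1.per_Em P ν η₁ t x v m)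
    (congrArg₂ (· + ·) (per_csm P t x v m) (per_ZZ P t x v m))
theorem per_clL (P : Par) (ν : ℝ) (ε η₁ : ℝ≥0∞) {f : PF} (hf : Per f) : Per (clL P ν ε η₁ f) :=
  fun t x v m => congrArg₂ max
    (congrArg (fun a => muF (t, x, v) - (ε * WW (t, x, v) + a)) (LateA1.per_Em P ν η₁ t x v m))
    (congrArg₂ (fun a b => min a (muF (t, x, v) + (ε * WW (t, x, v) + b))) (hf t x v m)
      (per_Ep P ν η₁ t x v m))
theorem posOp_KB : PosOp KB :=
  ((posOp_QF measurable_muF).mul (w := fun _ => 2) measurable_const).plus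
    (posOp_LF.mul measurable_muF)
theorem posOp_KK (ν a : ℝ) : PosOp (KK ν a) := by
  refine (posOp_Iw a (dmp ν) ?_).comp posOp_KB
  exact ((((mba_v.comp measurable_fst).norm.const_add 1).const_mul ν).mul
    (measurable_fst.fst.sub measurable_snd)).neg.exp.ennreal_ofReal
theorem measurable_n1 {d : PF} (hd : Measurable d) : Measurable (n1 d) := by
  have h : Measurable fun z : (ℝ × R3) × R3 => d (z.1.1, z.1.2, z.2) :=
    hd.comp (measurable_fst.fst.prodMk (measurable_fst.snd.prodMk measurable_snd))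
  exact h.lintegral_prod_right'.lintegral_prod_right'
theorem clL_le (P : Par) (ν : ℝ) (ε η₁ : ℝ≥0∞) (f : PF) (p : Ph) :
    clL P ν ε η₁ f p ≤ muF p + envp P ν ε η₁ p :=
  max_le (tsub_le_self.trans le_self_add) (min_le_right _ _)
theorem dd_clL_le (P : Par) (ν : ℝ) (ε η₁ : ℝ≥0∞) (f : PF) (p : Ph) :
    dd (clL P ν ε η₁ f p) (muF p) ≤ min (dd (f p) (muF p)) (envp P ν ε η₁ p) := by
  obtain ⟨h1, h2⟩ := dd_le_iff.1 (le_refl (dd (f p) (muF p)))
  refine le_min (dd_le_iff.2 ⟨?_, ?_⟩) (dd_le_iff.2 ⟨clL_le P ν ε η₁ f p, ?_⟩)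
  · exact max_le (tsub_le_self.trans le_self_add) ((min_le_left _ _).trans h1)
  · refine le_trans ?_ (add_le_add_left (le_max_right _ _) _)
    rw [← min_add_add_right]
    exact le_min h2 (le_self_add.trans le_self_add)
  · exact le_tsub_add.trans (add_le_add (le_max_left _ _) (add_le_add_right le_self_add _))
theorem dd_clL_clL_le (P : Par) (ν : ℝ) (ε η₁ : ℝ≥0∞) (f g : PF) (p : Ph) :
    dd (clL P ν ε η₁ f p) (clL P ν ε η₁ g p) ≤ dd (f p) (g p) := by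
  have key : ∀ {a b x y d : ℝ≥0∞}, x ≤ y + d → max a (min x b) ≤ max a (min y b) + d := by
    intro a b x y d h
    refine max_le ((le_max_left _ _).trans le_self_add)
      (le_trans ?_ (add_le_add_left (le_max_right _ _) _))
    rw [← min_add_add_right]
    exact min_le_min h le_self_add
  obtain ⟨h1, h2⟩ := dd_le_iff.1 (le_refl (dd (f p) (g p)))
  exact dd_le_iff.2 ⟨key h1, key h2⟩
theorem clL_eq (P : Par) (ν : ℝ) (ε η₁ : ℝ≥0∞) (f : PF) (p : Ph)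
    (h1 : f p ≤ muF p + envp P ν ε η₁ p) (h2 : muF p ≤ f p + envm P ν ε η₁ p) :
    clL P ν ε η₁ f p = f p :=
  (congrArg (max _) (min_eq_left h1)).trans (max_eq_right (tsub_le_iff_right.2 h2))
theorem LateA1.Ga_anti {a a' : ℝ} (h : a ≤ a') (v : R3) : Ga a' v ≤ Ga a v :=
  ENNReal.ofReal_le_ofReal (Real.exp_le_exp.2 (neg_le_neg
    (mul_le_mul_of_nonneg_right h (sq_nonneg _))))
theorem LateA1.dec_le_one {ν a : ℝ} (hν : 0 ≤ ν) {p : Ph} (hp : a ≤ p.1) : dec ν a p ≤ 1 :=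
  ENNReal.ofReal_le_one.2 (Real.exp_le_one_iff.2 (neg_nonpos.2 (mul_nonneg hν (sub_nonneg.2 hp))))
theorem up_le {P : Par} {ν : ℝ} (hν : 0 ≤ ν) {ε η₁ : ℝ≥0∞} (hε : ε ≤ 1) (hη : η₁ ≤ 1) {p : Ph}
    (hp : P.t0 ≤ p.1) : muF p + envp P ν ε η₁ p ≤ 4 * (GS (1 / 8) p + sZ P p) := by
  have h1 : WW p ≤ GS (1 / 8) p := le_mul_of_one_le_right' (one_le_Sg p)
  have h2 : muF p ≤ GS (1 / 8) p :=
    ((mu_le_Ga _).trans (LateA1.Ga_anti (by norm_num) _)).trans h1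
  have h3 : Hl P p ≤ GS (1 / 8) p := by
    refine le_trans ?_ h2
    unfold Hl
    split_ifs
    exacts [le_rfl, zero_le]
  have h4 : Em P ν η₁ p ≤ GS (1 / 8) p + GS (1 / 8) p :=
    (mul_le_of_le_one_left' (LateA1.dec_le_one (by linarith) hp)).trans
      (add_le_add (mul_le_of_le_one_left' hη) h3)
  have h5 : dec ν P.t0 p * sZ P p ≤ 4 * sZ P p :=
    mul_le_mul_left ((LateA1.dec_le_one hν hp).trans (by norm_num)) _
  refine (add_le_add h2 (add_le_add ((mul_le_of_le_one_left' hε).trans h1)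
    (add_le_add h4 h5))).trans (le_of_eq ?_)
  ring
theorem ev_env_le : ∀ᶠ P in parF, ∀ b : ℝ≥0∞, b ≤ 1 → ∀ p : Ph, p.1 ∈ Icc 0 P.t0 →
    env P b p ≤ 4 * (c0 P p + ZZ P p + GS (1 / 8) p) := by
  filter_upwards [ev_basic, ev_wnF_le 1 one_pos] with P hP hn b hb p hp
  have h0 := lst_nonneg hp.1
  have h1 : omF P b (lst p) ≤ 4 :=
    (add_le_add (mul_le_mul_right (wbF_le_one hP h0) 2) (mul_le_mul' hb
      (hn _ ⟨h0, lst_le_two ⟨hp.1, hp.2.trans (hP.t0_le.trans (by norm_num))⟩⟩))).trans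
      (by norm_num)
  have h2 : YY P p ≤ GS (1 / 8) p :=
    mul_le_mul_left (LateA1.Ga_anti (le_trans (by norm_num) (aT_mem hP hp).1) _) _
  rw [mul_add]
  exact add_le_add (le_mul_of_one_le_left' (by norm_num)) (mul_le_mul' h1 h2)

/-- At `t = 0`, `c0 (0,x,v) ≤ Σ_b 1{‖v - uu b 0 y‖ ≤ r⁴, ‖y‖ ≤ 2 cK r0} cC/r^{13}` with `y = red x`,
`r = |x1 y| ≤ r0`, and `c0 ≥ cC/(cK r^{13}) ≥ 1` where it is nonzero; so
`∫ c0 (1 + ‖v‖² + |log c0|) dv ≤ c (1 + log (1/r))/MM ≤ c' r^{-1/4} ‖y‖⁻¹ ≤ c' (r^{-1/2} + ‖y‖^{-2})`;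
`lint_cell_red`, `lint_loc_sing`, `lint_split`.  The supports of `c0` and `g0` are disjoint in `x`
(`r0_d0`). -/
theorem datum_admissible {P : Par} (hP : P.Basic) : IsAdmissibleDatum (rl (F0 P) 0) P.R :=
  LD.admissible hP

theorem F0_ne_top (P : Par) (p : Ph) : F0 P p ≠ ⊤ := by
  refine ENNReal.add_ne_top.2 ⟨c0_ne_top P p, ?_⟩
  unfold g0
  split_ifs
  exacts [ENNReal.ofReal_ne_top, ENNReal.zero_ne_top]

/-- the entropy integrand vanishes where `F0 = μ`, equals `μ` where `F0 = 0` (hole or `‖v‖ ≥ R`), and is at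
most `c0 (log c0 + 10) + μ` on the support of `c0`. -/
theorem ev_entropy_small (η : ℝ≥0∞) (hη : 0 < η) :
    ∀ᶠ P in parF, relEntropy (rl (F0 P) 0) ≤ η :=
  LD.entropy_small η hη

/-- optical depth outside the hole: `ell (fl q s) ≥ d0/(2⟨v⟩)`, `LF_csm`, `slab_time` with
`min 1 x ≤ x^{1/4}`, `LF_rest`; `μ ⟨v⟩³ ≤ K Ga (1/8)`. -/
theorem mu_Lam_small (η : ℝ≥0∞) (hη : 0 < η) : ∀ᶠ P in parF, ∀ b : ℝ≥0∞, b ≤ 1 → ∀ q : Ph,
    q.1 ∈ Icc 0 P.t0 → P.d0 < tn (q.2.1 - q.1 • q.2.2) →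
    mu q.2.2 * Lam (env P b) q 0 ≤ η * (Ga (1 / 8) q.2.2 * (1 + npw |x1 q.2.2| (1 / 4))) :=
  LAH.mu_Lam_small η hη

/-- Hand-off.  Upper: `Fe q ≤ c0 + g0 + Ia 0 (QF env env) q` at `q = fl p t0`, expand as in `Maj_g0` with
`Ia_thermal` (two-time), `TT_wb`, `TT_wn`, `ev_wnF_le`, `small_ops`, `YY q ≤ 12 GS (1/8) p` (`Sg_fl_le`,
`aT_mem`).  Lower: `μ ≤ g0 + Hl + μ 1{‖v‖ ≥ R}`, `g0 ≤ g0 ex Λ + g0 Λ`, `mu_Lam_small`. -/
theorem ev_handoff (η : ℝ≥0∞) (hη : 0 < η) : ∀ᶠ P in parF, ∀ b : ℝ≥0∞, b ≤ 1 → ∀ Fe : PF,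
    ESol P b 0 Fe → ∀ p : Ph, P.t0 ≤ p.1 →
    Fe (fl p P.t0) ≤ muF p + (c0 P p + 1 / 2 * (ZZ P p + Big P p) + η * GS (1 / 8) p) ∧
      muF p ≤ Fe (fl p P.t0) + (Hl P p + η * GS (1 / 8) p) :=
  LAH.handoff η hη

end
end Crest.Agent.R68
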