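import Crest.Agent.R68.LateA

/-! # Row 68: late phase, source bounds with polynomial growth in time -/

set_option autoImplicit false
open MeasureTheory Set Filter Topology
open scoped ENNReal NNReal
open Crest.AnalysisR.VecCalc3 Crest.AnalysisR.PDE.Boltzmann

namespace Crest.Agent.R68
namespace LBA
noncomputable section

/-- weight for late differences -/
def GW (P : Par) : PF := fun p => GS (1 / 16) p + c0 P p + ZZ P p
/-- upper bound of the late clamp -/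
def U (P : Par) : PF := fun p => 4 * (GS (1 / 8) p + sZ P p)
/-- polynomial weight in time -/
def T (n : ℕ) (t : ℝ) : ℝ≥0∞ := ENNReal.ofReal ((1 + t) ^ n)
/-- `⟨v⟩` -/
def J (p : Ph) : ℝ≥0∞ := ENNReal.ofReal (jb p.2.2)

theorem measurable_GW (P : Par) : Measurable (GW P) :=
  ((measurable_GS _).fun_add (measurable_c0 P)).fun_add (measurable_ZZ P)

theorem measurable_U (P : Par) : Measurable (U P) :=
  ((measurable_GS _).fun_add (measurable_sZ P)).const_mul _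

theorem finSec_GW (P : Par) : FinSec (GW P) := fun s z => (finSec_Sg s z).mono fun _ h =>
  ENNReal.add_ne_top.2 ⟨ENNReal.add_ne_top.2
    ⟨ENNReal.mul_ne_top ENNReal.ofReal_ne_top h, c0_ne_top P _⟩, ZZ_ne_top P _⟩

theorem T_mono {n m : ℕ} (h : n ≤ m) {s t : ℝ} (hs : 0 ≤ s) (hst : s ≤ t) : T n s ≤ T m t :=
  ENNReal.ofReal_le_ofReal ((pow_le_pow_left₀ (by linarith) (by linarith) n).trans
    (pow_le_pow_right₀ (show 1 ≤ 1 + t by linarith) h))

theorem T_add (n m : ℕ) {t : ℝ} (ht : 0 ≤ t) : T (n + m) t = T n t * T m t := by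
  show ENNReal.ofReal _ = ENNReal.ofReal _ * ENNReal.ofReal _
  rw [pow_add, ENNReal.ofReal_mul (by positivity)]

theorem one_le_J (p : Ph) : 1 ≤ J p := ENNReal.one_le_ofReal.2 (BilB.one_le_jb _)

theorem Ga_le_GS (a : ℝ) (p : Ph) : Ga a p.2.2 ≤ GS a p := le_mul_of_one_le_right' (one_le_Sg p)

theorem one_le_Ga {a : ℝ} (ha : a ≤ 1) {v : R3} (hv : ‖v‖ ≤ 3) :
    1 ≤ ENNReal.ofReal (Real.exp 9) * Ga a v := by
  show 1 ≤ ENNReal.ofReal _ * ENNReal.ofReal _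
  rw [← ENNReal.ofReal_mul (Real.exp_pos _).le, ← Real.exp_add, ENNReal.one_le_ofReal]
  refine Real.one_le_exp ?_
  nlinarith [norm_nonneg v, sq_nonneg ‖v‖]

theorem Big_le {P : Par} (hP : P.Basic) : ∃ C : ℝ≥0∞, C ≠ ⊤ ∧ ∀ q : Ph, 0 ≤ q.1 →
    Big P q ≤ C * T 26 q.1 * Ga (1 / 8) q.2.2 := by
  have hc := hP.cs_pos
  have hC : 0 < cC := by
    show (0 : ℝ) < 10 ^ 13
    positivity
  refine ⟨ENNReal.ofReal (2 * (P.N + 1) * cC / P.cs ^ 13) * ENNReal.ofReal (Real.exp 9),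
    by finiteness, fun q hq => ?_⟩
  show (if P.rstar q.1 < 2 * P.r0 ∧ ‖q.2.2‖ ≤ 3 then
    ENNReal.ofReal (2 * (P.N + 1) * cC / (P.cs / (1 + q.1) ^ 2) ^ 13) else 0) ≤ _
  split_ifs with h
  · have e : 2 * (P.N + 1) * cC / (P.cs / (1 + q.1) ^ 2) ^ 13 =
        2 * (P.N + 1) * cC / P.cs ^ 13 * (1 + q.1) ^ 26 := by
      have : 0 < 1 + q.1 := by linarith
      field_simp
    rw [e, ENNReal.ofReal_mul (by positivity), mul_right_comm _ (ENNReal.ofReal (Real.exp 9)),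
      mul_assoc _ (ENNReal.ofReal (Real.exp 9))]
    exact le_mul_of_one_le_right' (one_le_Ga (a := 1 / 8) (by norm_num) h.2)
  · exact zero_le

theorem leak_le (P : Par) {q : Ph} (hq : 0 ≤ q.1) :
    leak P q ≤ ENNReal.ofReal (Real.exp 9) * Ga (1 / 8) q.2.2 := by
  show (if ‖q.2.2‖ ≤ 2 then ENNReal.ofReal (min 1 (8 * q.1 + tn q.2.1) ^ P.k3) else 0) ≤ _
  split_ifs with h
  · refine le_trans (ENNReal.ofReal_le_one.2 (pow_le_one₀ (le_min zero_le_one ?_) (min_le_left _ _)))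
      (one_le_Ga (by norm_num) (by linarith))
    linarith [tn_nonneg q.2.1]
  · exact zero_le

theorem npw_ell_le {P : Par} {q : Ph} (hq : P.t0 ≤ q.1) : npw (ell q) 1 ≤ npw (8 * P.t0) 1 :=
  MB.npw_anti zero_le_one (show 8 * P.t0 ≤ 8 * q.1 + tn q.2.1 by linarith [tn_nonneg q.2.1])

theorem ind_le (ϱ : ℝ) (q : Ph) : (slabS ϱ).indicator (1 : Ph → ℝ≥0∞) q ≤ 1 :=
  indicator_le_self' (fun _ _ => zero_le) q

/-- polynomially bounded by the weight -/
def LB (P : Par) (n : ℕ) (f : Ph → ℝ → ℝ≥0∞) : Prop :=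
  ∃ K : ℝ≥0∞, K ≠ ⊤ ∧ ∀ (p : Ph) (s : ℝ), P.t0 ≤ s → s ≤ p.1 → f p s ≤ K * T n p.1 * GW P p

variable {P : Par} {n : ℕ} {f g : Ph → ℝ → ℝ≥0∞}

theorem LB.of_le (h : LB P n g) (hfg : ∀ (p : Ph) (s : ℝ), P.t0 ≤ s → s ≤ p.1 → f p s ≤ g p s) :
    LB P n f := by
  obtain ⟨K, hK, h⟩ := h
  exact ⟨K, hK, fun p s h1 h2 => (hfg p s h1 h2).trans (h p s h1 h2)⟩

theorem LB.add (h : LB P n f) (h' : LB P n g) : LB P n fun p s => f p s + g p s := by
  obtain ⟨K, hK, h⟩ := h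
  obtain ⟨K', hK', h'⟩ := h'
  refine ⟨K + K', by finiteness, fun p s h1 h2 => ?_⟩
  rw [add_mul, add_mul]
  exact add_le_add (h p s h1 h2) (h' p s h1 h2)

theorem LB.cmul (h : LB P n f) {c : ℝ≥0∞} (hc : c ≠ ⊤) : LB P n fun p s => c * f p s := by
  obtain ⟨K, hK, h⟩ := h
  refine ⟨c * K, by finiteness, fun p s h1 h2 => ?_⟩
  rw [mul_assoc, mul_assoc, ← mul_assoc K]
  exact mul_le_mul_right (h p s h1 h2) c

theorem LB.mono (hP : P.Basic) (h : LB P n f) {m : ℕ} (hm : n ≤ m) : LB P m f := by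
  obtain ⟨K, hK, h⟩ := h
  exact ⟨K, hK, fun p s h1 h2 => (h p s h1 h2).trans (mul_le_mul_left (mul_le_mul_right
    (T_mono hm (hP.t0_pos.le.trans (h1.trans h2)) le_rfl) K) _)⟩

/-- multiplication by `c (1 + t)^m` -/
theorem LB.tmul (hP : P.Basic) (h : LB P n f) {c : ℝ≥0∞} (hc : c ≠ ⊤) (m : ℕ) :
    LB P (m + n) fun p s => c * T m p.1 * f p s := by
  obtain ⟨K, hK, h⟩ := h
  refine ⟨c * K, by finiteness, fun p s h1 h2 => (mul_le_mul_right (h p s h1 h2) _).trans_eq ?_⟩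
  rw [T_add m n (hP.t0_pos.le.trans (h1.trans h2))]
  ring

theorem lb_of_le (h : ∀ (p : Ph) (s : ℝ), P.t0 ≤ s → s ≤ p.1 → f p s ≤ GW P p) : LB P 0 f :=
  ⟨1, ENNReal.one_ne_top, fun p s h1 h2 => (h p s h1 h2).trans_eq (by
    show _ = 1 * ENNReal.ofReal ((1 + p.1) ^ 0) * _
    rw [pow_zero, ENNReal.ofReal_one, one_mul, one_mul])⟩

theorem lb_GS16 : LB P 0 fun p _ => GS (1 / 16) p :=
  lb_of_le fun _ _ _ _ => le_self_add.trans le_self_add

theorem lb_JJ : LB P 0 fun p _ => J p * (J p * GS (1 / 8) p) := by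
  refine (lb_GS16.cmul (c := ENNReal.ofReal (Real.exp (16 * ((2 : ℕ) : ℝ) ^ 2)))
    ENNReal.ofReal_ne_top).of_le fun p _ _ _ => ?_
  have h := BilB.jb_pow_Ga_le 2 (1 / 16) (by norm_num) p.2.2
  rw [ENNReal.ofReal_pow (BilB.jb_pos _).le] at h
  have e : Ga (1 / 8) p.2.2 = Ga (1 / 16) p.2.2 * Ga (1 / 16) p.2.2 := by
    rw [← BilA.Ga_add]
    norm_num
  calc J p * (J p * (Ga (1 / 8) p.2.2 * Sg p))
      = J p ^ 2 * Ga (1 / 16) p.2.2 * (Ga (1 / 16) p.2.2 * Sg p) := by rw [e]; ring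
    _ ≤ _ := mul_le_mul_left h _

theorem lb_J : LB P 0 fun p _ => J p * GS (1 / 8) p :=
  lb_JJ.of_le fun p _ _ _ => le_mul_of_one_le_left' (one_le_J p)

theorem lb_JGa : LB P 0 fun p _ => J p * Ga (1 / 8) p.2.2 :=
  lb_J.of_le fun p _ _ _ => mul_le_mul_right (Ga_le_GS _ p) _

theorem lb_c0 (hP : P.Basic) : LB P 0 fun p _ => J p * c0 P p := by
  refine ((lb_of_le (f := fun p _ => c0 P p) fun _ _ _ _ => le_add_self.trans le_self_add).cmul
    (c := 3) (by norm_num)).of_le fun p _ _ _ => ?_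
  by_cases h : c0 P p = 0
  · rw [h, mul_zero, mul_zero]
  · exact mul_le_mul_left (ob1_jb (supp_c0 hP h).1) _

theorem lb_ZZ (hP : P.Basic) : LB P 0 fun p _ => J p * ZZ P p := by
  refine ((lb_of_le (f := fun p _ => ZZ P p) fun _ _ _ _ => le_add_self).cmul
    (c := 3) (by norm_num)).of_le fun p _ h1 h2 => ?_
  by_cases h : ZZ P p = 0
  · rw [h, mul_zero, mul_zero]
  · exact mul_le_mul_left (ob1_jb (supp_ZZ hP (hP.t0_pos.le.trans (h1.trans h2)) h).1) _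

theorem lb_Big (hP : P.Basic) : LB P 26 fun p _ => J p * Big P p := by
  obtain ⟨C, hC, h⟩ := Big_le hP
  refine (lb_JGa.tmul hP hC 26).of_le fun p _ h1 h2 => ?_
  rw [mul_left_comm]
  exact mul_le_mul_right (h p (hP.t0_pos.le.trans (h1.trans h2))) _

theorem src_sZ : ∀ᶠ P in parF, ∃ K : ℝ≥0∞, K ≠ ⊤ ∧ ∀ (p : Ph) (s : ℝ), P.t0 ≤ s → s ≤ p.1 →
    ∀ a ∈ Icc (1 / 16 : ℝ) (1 / 4), QF (sZ P) (GS a) (fl p s) ≤ K * T 8 p.1 * GS a p := by
  obtain ⟨K, hK, h⟩ := src_csm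
  filter_upwards [ev_basic, src_ZZ 1 one_pos] with P hP hZ
  have h0 := MB.npw_ne_top (mul_pos (by norm_num : (0 : ℝ) < 8) hP.t0_pos) 1
  refine ⟨K * (npw (8 * P.t0) 1 + ENNReal.ofReal P.r0) + 1, by finiteness,
    fun p s h1 h2 a ha => ?_⟩
  have hs := hP.t0_pos.trans_le h1
  have h3 : T 8 s ≤ T 8 p.1 := T_mono le_rfl hs.le h2
  have h4 : npw (jb p.2.2) 1 + DS p ≤ Sg p :=
    add_le_add ((OBB.npw_jb_le _ zero_le_one).trans le_self_add) le_rfl
  have h5 : DS p ^ (8 / 9 : ℝ) ≤ DS p := by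
    rcases DS_eq_zero_or p with h | h
    · rw [h, ENNReal.zero_rpow_of_pos (by norm_num)]
    · exact (ENNReal.rpow_le_rpow_of_exponent_le h.1 (by norm_num)).trans_eq (ENNReal.rpow_one _)
  refine (QF_add_left (measurable_csm P) (measurable_GS a) _).trans_le
    ((add_le_add (h P hP p s hs h2 a ha) (hZ p s hs.le h2 a ha)).trans ?_)
  calc _ ≤ K * T 8 p.1 * Ga a p.2.2 * (1 * npw (8 * P.t0) 1 * Sg p + ENNReal.ofReal P.r0 * Sg p) +
        1 * T 8 p.1 * Ga a p.2.2 * Sg p := by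
        gcongr
        · exact h3
        · exact ind_le _ _
        · exact npw_ell_le h1
        · exact (add_le_add le_rfl h5).trans h4
        · exact h3
    _ = _ := by
        show _ = _ * (Ga a p.2.2 * Sg p)
        ring

theorem QF_U (P : Par) {G : PF} (hG : Measurable G) (q : Ph) :
    QF (U P) G q = 4 * (QF (GS (1 / 8)) G q + QF (sZ P) G q) := by
  rw [QF_comm (measurable_U P) hG, ← QF_add_left (measurable_GS _) hG,
    QF_comm ((measurable_GS _).fun_add (measurable_sZ P)) hG]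
  exact congrFun ((posOp_QF hG).smul 4 _ ((measurable_GS _).fun_add (measurable_sZ P))) q

/-- the three basic source bounds -/
theorem ev_src : ∀ᶠ P in parF, P.Basic ∧ (LB P 8 fun p s => QF (U P) (GS (1 / 16)) (fl p s)) ∧
    (LB P 8 fun p s => J p * QF (U P) (GS (1 / 8)) (fl p s)) ∧
    LB P 26 fun p s => J p * QF (U P) (sZ P) (fl p s) := by
  obtain ⟨K1, hK1, h1⟩ := src_GS_gap
  obtain ⟨K2, hK2, h2⟩ := src_GS_same
  filter_upwards [ev_basic, src_sZ, thermal 1 one_pos] with P hP ⟨K3, hK3, h3⟩ h4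
  have a1 : LB P 8 fun p s => J p * QF (sZ P) (GS (1 / 8)) (fl p s) :=
    (lb_J.tmul hP hK3 8).of_le fun p s e1 e2 => by
      rw [mul_left_comm]
      exact mul_le_mul_right (h3 p s e1 e2 _ ⟨by norm_num, by norm_num⟩) _
  refine ⟨hP, ?_, ?_, ?_⟩
  · refine ((((lb_GS16.tmul hP hK1 6).mono hP (by norm_num)).add (lb_GS16.tmul hP hK3 8)).cmul
      (c := 4) (by norm_num)).of_le fun p s e1 e2 => ?_
    have hs := hP.t0_pos.le.trans e1
    rw [QF_U P (measurable_GS _)]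
    refine mul_le_mul_right (add_le_add ((h1 (fl p s) hs _ ⟨le_rfl, by norm_num⟩ _
      (by norm_num)).trans ?_) (h3 p s e1 e2 _ ⟨le_rfl, by norm_num⟩)) _
    exact mul_le_mul' (mul_le_mul_right (T_mono le_rfl hs e2) _) (Ga_le_GS _ p)
  · refine ((((lb_JJ.tmul hP hK2 6).mono hP (by norm_num)).add a1).cmul
      (c := 4) (by norm_num)).of_le fun p s e1 e2 => ?_
    have hs := hP.t0_pos.le.trans e1
    rw [QF_U P (measurable_GS _), mul_left_comm, mul_add, mul_left_comm _ (J p), ← mul_assoc _ (J p)]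
    refine mul_le_mul_right (add_le_add (mul_le_mul_right
      ((h2 (fl p s) hs _ ⟨by norm_num, by norm_num⟩).trans ?_) _) le_rfl) _
    exact mul_le_mul' (mul_le_mul_left (mul_le_mul_right (T_mono le_rfl hs e2) _) _) (Ga_le_GS _ p)
  · refine (((a1.mono hP (by norm_num)).add ((((lb_ZZ hP).mono hP (by norm_num)).add (lb_Big hP)).add
      ((lb_JGa.cmul (c := ENNReal.ofReal (Real.exp 9)) ENNReal.ofReal_ne_top).mono hP
        (by norm_num)))).cmul (c := 4) (by norm_num)).of_le fun p s e1 e2 => ?_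
    have hs := hP.t0_pos.le.trans e1
    rw [QF_U P (measurable_sZ P), QF_comm (measurable_GS _) (measurable_sZ P), mul_left_comm, mul_add,
      mul_left_comm _ (J p), ← mul_add, ← mul_add, ← mul_add, ← mul_add]
    refine mul_le_mul_right (mul_le_mul_right (add_le_add le_rfl ((h4 p s hs e2).trans ?_)) _) _
    rw [one_mul]
    exact add_le_add le_rfl (leak_le P (q := fl p s) hs)

theorem GW_le (hP : P.Basic) : ∃ C : ℝ≥0∞, C ≠ ⊤ ∧ ∀ q : Ph, 0 ≤ q.1 →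
    GW P q ≤ GS (1 / 16) q + (sZ P q + C * T 26 q.1 * GS (1 / 8) q) := by
  obtain ⟨C, hC, h⟩ := Big_le hP
  refine ⟨C, hC, fun q hq => ?_⟩
  calc GS (1 / 16) q + c0 P q + ZZ P q
      ≤ GS (1 / 16) q + (csm P q + C * T 26 q.1 * GS (1 / 8) q) + ZZ P q :=
        add_le_add (add_le_add le_rfl ((c0_le_csm_add_Big hP hq).trans (add_le_add le_rfl
          ((h q hq).trans (mul_le_mul_right (Ga_le_GS _ q) _))))) le_rfl
    _ = GS (1 / 16) q + (csm P q + ZZ P q + C * T 26 q.1 * GS (1 / 8) q) := by ring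

theorem gain : ∀ᶠ P in parF, LB P 40 fun p s => QF (U P) (GW P) (fl p s) := by
  filter_upwards [ev_src] with P ⟨hP, h1, h2, h3⟩
  obtain ⟨C, hC, h⟩ := GW_le hP
  refine ((h1.mono hP (by norm_num)).add ((h3.mono hP (by norm_num)).add
    ((h2.tmul hP hC 26).mono hP (by norm_num)))).of_le fun p s e1 e2 => ?_
  have hs := hP.t0_pos.le.trans e1
  refine (obc_mono (F' := U P)
    (G' := fun q => GS (1 / 16) q + (sZ P q + C * T 26 s * GS (1 / 8) q)) (fl p s)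
    (fun _ => le_rfl) fun η => h (s, _, η) hs).trans ?_
  rw [QF_add_right (measurable_U P) (measurable_GS _), QF_add_right (measurable_U P) (measurable_sZ P)]
  refine add_le_add le_rfl (add_le_add (le_mul_of_one_le_left' (one_le_J p)) ?_)
  refine (congrFun ((posOp_QF (measurable_U P)).smul _ _ (measurable_GS _)) _).trans_le ?_
  exact mul_le_mul' (mul_le_mul_right (T_mono le_rfl hs e2) _) (le_mul_of_one_le_left' (one_le_J p))

theorem loss : ∀ᶠ P in parF, ∃ K : ℝ≥0∞, K ≠ ⊤ ∧ ∀ q : Ph, P.t0 ≤ q.1 →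
    LF (GW P) q ≤ K * T 40 q.1 * J q := by
  obtain ⟨K1, hK1, h1⟩ := LF_GS
  obtain ⟨K2, hK2, h2⟩ := LF_csm
  filter_upwards [ev_basic, LF_ZZ 1 one_pos] with P hP h3
  obtain ⟨C, hC, h⟩ := GW_le hP
  have h0 := MB.npw_ne_top (mul_pos (by norm_num : (0 : ℝ) < 8) hP.t0_pos) 1
  refine ⟨K1 + (K2 * npw (8 * P.t0) 1 + 1 + C * K1), by finiteness, fun q hq => ?_⟩
  have hs := hP.t0_pos.trans_le hq
  have e1 : T 3 q.1 ≤ T 40 q.1 := T_mono (by norm_num) hs.le le_rfl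
  have e2 : T 26 q.1 * T 3 q.1 ≤ T 40 q.1 :=
    (T_add 26 3 hs.le).ge.trans (T_mono (by norm_num) hs.le le_rfl)
  refine (show LF (GW P) q ≤
      LF (fun r => GS (1 / 16) r + (sZ P r + C * T 26 q.1 * GS (1 / 8) r)) q from
    LL_mono_ae (Eventually.of_forall fun η => h (q.1, q.2.1, η) hs.le) _).trans ?_
  rw [LF_add (measurable_GS _), LF_add (measurable_sZ P),
    show LF (sZ P) q = _ from LF_add (measurable_csm P) q,
    show LF (fun r => C * T 26 q.1 * GS (1 / 8) r) q = _ from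
      congrFun (posOp_LF.smul _ _ (measurable_GS _)) q]
  calc _ ≤ K1 * T 3 q.1 * J q + (K2 * T 3 q.1 * J q * (1 * npw (8 * P.t0) 1) + 1 * T 3 q.1 * J q +
        C * T 26 q.1 * (K1 * T 3 q.1 * J q)) :=
        add_le_add (h1 q hs.le _ (by norm_num)) (add_le_add (add_le_add ((h2 P hP q hs).trans
          (mul_le_mul_right (mul_le_mul' (ind_le _ _) (npw_ell_le hq)) _)) (h3 q hs.le))
          (mul_le_mul_right (h1 q hs.le _ (by norm_num)) _))
    _ = (K1 * T 3 q.1 + (K2 * npw (8 * P.t0) 1 * T 3 q.1 + 1 * T 3 q.1 +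
          C * K1 * (T 26 q.1 * T 3 q.1))) * J q := by ring
    _ ≤ (K1 * T 40 q.1 + (K2 * npw (8 * P.t0) 1 * T 40 q.1 + 1 * T 40 q.1 +
          C * K1 * T 40 q.1)) * J q := by gcongr
    _ = _ := by ring

theorem maj : ∀ᶠ P in parF, ∃ K : ℝ≥0∞, K ≠ ⊤ ∧ ∀ b : ℝ≥0∞, b ≤ 1 → ∀ Fe : PF, ESol P b 0 Fe →
    ∀ (p : Ph) (s : ℝ), P.t0 ≤ s → s ≤ p.1 →
    J p * Maj P.t0 (U P) Fe 0 (fl p s) ≤ K * T 40 p.1 * GW P p := by
  filter_upwards [ev_src, ev_handoff 1 one_pos] with P ⟨hP, _, h2, h3⟩ h4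
  have a1 : LB P 26 fun p s => J p * QF (U P) (U P) (fl p s) :=
    (((h2.mono hP (by norm_num)).add h3).cmul (c := 4) (by norm_num)).of_le fun p s _ _ => by
      rw [QF_U P (measurable_U P), QF_comm (measurable_GS _) (measurable_U P),
        QF_comm (measurable_sZ P) (measurable_U P), mul_left_comm, mul_add]
  have a2 : LB P 40 fun p s => J p * ∫⁻ τ in Ioo P.t0 s, QF (U P) (U P) (fl p τ) := by
    obtain ⟨K, hK, h⟩ := a1
    refine ⟨K, hK, fun p s e1 e2 => ?_⟩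
    have ht := hP.t0_pos.le.trans (e1.trans e2)
    show J p * ∫⁻ τ in Ioo P.t0 s, QF (U P) (U P) (fl p τ) ≤ _
    rw [← lintegral_const_mul' (J p) _ ENNReal.ofReal_ne_top]
    refine (setLIntegral_mono' measurableSet_Ioo fun τ hτ =>
      h p τ hτ.1.le (hτ.2.le.trans e2)).trans ?_
    rw [setLIntegral_const, Real.volume_Ioo, mul_right_comm, mul_assoc K]
    refine mul_le_mul_left (mul_le_mul_right (le_trans ?_ (T_mono (n := 26 + 1) (by norm_num) ht le_rfl))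
      _) _
    rw [T_add 26 1 ht]
    refine mul_le_mul_right (ENNReal.ofReal_le_ofReal ?_) _
    rw [pow_one]
    linarith [hP.t0_pos]
  obtain ⟨K, hK, h⟩ := ((((lb_JGa.add (lb_c0 hP)).add (lb_ZZ hP)).add lb_J).mono hP
    (m := 40) (by norm_num)).add (((lb_Big hP).mono hP (by norm_num)).add a2)
  refine ⟨K, hK, fun b hb Fe hF p s e1 e2 => le_trans ?_ (h p s e1 e2)⟩
  have e : Maj P.t0 (U P) Fe 0 (fl p s) =
      Fe (fl p P.t0) + ∫⁻ τ in Ioo P.t0 s, QF (U P) (U P) (fl p τ) := by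
    show Fe (fl (fl p s) P.t0) + ∫⁻ τ in Ioo P.t0 s, (QF (U P) (U P) (fl (fl p s) τ) + 0) = _
    simp only [fl_fl, add_zero]
  have h5 : muF p ≤ Ga (1 / 8) p.2.2 := (mu_le_Ga _).trans (BallB.Ga_anti (by norm_num) _)
  have h6 : 1 / 2 * (ZZ P p + Big P p) ≤ ZZ P p + Big P p :=
    mul_le_of_le_one_left' (by norm_num)
  calc J p * Maj P.t0 (U P) Fe 0 (fl p s)
      ≤ J p * (Ga (1 / 8) p.2.2 + (c0 P p + (ZZ P p + Big P p) + 1 * GS (1 / 8) p) +
          ∫⁻ τ in Ioo P.t0 s, QF (U P) (U P) (fl p τ)) := by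
        rw [e]
        exact mul_le_mul_right (add_le_add ((h4 b hb Fe hF p (e1.trans e2)).1.trans
          (add_le_add h5 (add_le_add (add_le_add le_rfl h6) le_rfl))) le_rfl) _
    _ = _ := by ring

end
end LBA
end Crest.Agent.R68
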