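import Crest.Agent.R68.Stab
import Crest.Agent.R68.FixedPt

/-! # Row 68: late phase: abstract existence for a clamped equation (auxiliary file of `LateB`) -/

set_option autoImplicit false
open MeasureTheory Set Filter Topology
open scoped ENNReal NNReal
open Crest.AnalysisR.VecCalc3 Crest.AnalysisR.PDE.Boltzmann

namespace Crest.Agent.R68
noncomputable section
namespace LateBE

theorem lint_exp_pow {a t Λ : ℝ} (ha : 0 ≤ a) (hat : a ≤ t) (hΛ : 0 < Λ) (n : ℕ) :
    ENNReal.ofReal (Λ * (1 + t) ^ n) *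
        ∫⁻ s in Ioo a t, ENNReal.ofReal (Real.exp (Λ * (1 + s) ^ (n + 1))) ≤
      ENNReal.ofReal (Real.exp (Λ * (1 + t) ^ (n + 1))) := by
  set c : ℝ := Λ * (1 + t) ^ n with hc
  have ht : 0 ≤ 1 + t := by linarith
  have hc0 : 0 ≤ c := by positivity
  set A : ℝ := Λ * (1 + t) ^ (n + 1) with hA
  have hd : ∀ s : ℝ, HasDerivAt (fun s => Real.exp (A - c * (t - s)))
      (c * Real.exp (A - c * (t - s))) s := fun s => by
    have h1 : HasDerivAt (fun s : ℝ => A - c * (t - s)) c s := by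
      simpa using (((hasDerivAt_id s).const_sub t).const_mul c).const_sub A
    simpa [mul_comm] using h1.exp
  have hcont : Continuous fun s : ℝ => c * Real.exp (A - c * (t - s)) := by fun_prop
  have hint : ∫ s in Ioo a t, c * Real.exp (A - c * (t - s)) =
      Real.exp A - Real.exp (A - c * (t - a)) := by
    rw [← integral_Ioc_eq_integral_Ioo, ← intervalIntegral.integral_of_le hat,
      intervalIntegral.integral_eq_sub_of_hasDerivAt (fun s _ => hd s)
        (hcont.intervalIntegrable _ _)]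
    simp
  have hI : IntegrableOn (fun s : ℝ => c * Real.exp (A - c * (t - s))) (Ioo a t) :=
    (hcont.integrableOn_Icc (a := a) (b := t)).mono_set Ioo_subset_Icc_self
  rw [← lintegral_const_mul' _ _ ENNReal.ofReal_ne_top]
  calc _ ≤ ∫⁻ s in Ioo a t, ENNReal.ofReal (c * Real.exp (A - c * (t - s))) := by
        refine setLIntegral_mono' measurableSet_Ioo fun s hs => ?_
        rw [← ENNReal.ofReal_mul hc0]
        refine ENNReal.ofReal_le_ofReal (mul_le_mul_of_nonneg_left (Real.exp_le_exp.2 ?_) hc0)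
        have hs0 : 0 ≤ 1 + s := by linarith [hs.1]
        have h2 : (1 + s) ^ n ≤ (1 + t) ^ n := pow_le_pow_left₀ hs0 (by linarith [hs.2]) n
        have h3 : (1 + s) ^ (n + 1) ≤ (1 + t) ^ n * (1 + s) := by
          rw [pow_succ]
          exact mul_le_mul_of_nonneg_right h2 hs0
        calc Λ * (1 + s) ^ (n + 1) ≤ Λ * ((1 + t) ^ n * (1 + s)) :=
              mul_le_mul_of_nonneg_left h3 hΛ.le
          _ = A - c * (t - s) := by rw [hA, hc]; ring
    _ = ENNReal.ofReal (∫ s in Ioo a t, c * Real.exp (A - c * (t - s))) :=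
        (ofReal_integral_eq_lintegral_ofReal hI (Eventually.of_forall fun s => by positivity)).symm
    _ ≤ _ := by
        rw [hint]
        exact ENNReal.ofReal_le_ofReal (sub_le_self _ (Real.exp_pos _).le)

/-- the exponential time weight -/
def ew (Λ : ℝ) (z : ℝ × R3) : ℝ≥0∞ := ENNReal.ofReal (Real.exp (Λ * (1 + z.1) ^ (80 + 1)))

theorem contr {a : ℝ} (ha : 0 ≤ a) {E D W : PF} (hE : Measurable E) (hW : Measurable W)
    {K₁ K₂ K₃ : ℝ≥0∞}
    (h1 : ∀ (p : Ph) (s : ℝ), a ≤ s → s ≤ p.1 →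
      QF E W (fl p s) ≤ K₁ * ENNReal.ofReal ((1 + p.1) ^ 40) * W p)
    (h2 : ∀ q : Ph, a ≤ q.1 →
      LF W q ≤ K₂ * ENNReal.ofReal ((1 + q.1) ^ 40) * ENNReal.ofReal (jb q.2.2))
    (h3 : ∀ (p : Ph) (s : ℝ), a ≤ s → s ≤ p.1 →
      ENNReal.ofReal (jb p.2.2) * Maj a E D 0 (fl p s) ≤ K₃ * ENNReal.ofReal ((1 + p.1) ^ 40) * W p)
    {Λ : ℝ} (hΛ : 0 < Λ) (hK : 2 * K₁ + K₂ * K₃ ≤ 2⁻¹ * ENNReal.ofReal Λ) (p : Ph) (hp : a ≤ p.1) :
    Ia a (fun q => 2 * QF E (fun r => ew Λ (r.1, r.2.1) * W r) q +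
      Maj a E D 0 q * LF (fun r => ew Λ (r.1, r.2.1) * W r) q) p ≤
      2⁻¹ * (ew Λ (p.1, p.2.1) * W p) := by
  have ht : 1 ≤ 1 + p.1 := by linarith
  have e1 : ENNReal.ofReal ((1 + p.1) ^ 40) ≤ ENNReal.ofReal ((1 + p.1) ^ 80) :=
    ENNReal.ofReal_le_ofReal (pow_le_pow_right₀ ht (by norm_num))
  have e2 : ENNReal.ofReal ((1 + p.1) ^ 40) * ENNReal.ofReal ((1 + p.1) ^ 40) =
      ENNReal.ofReal ((1 + p.1) ^ 80) := by
    rw [← ENNReal.ofReal_mul (by positivity), ← pow_add]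
  have hm : Measurable fun s : ℝ => ENNReal.ofReal (Real.exp (Λ * (1 + s) ^ (80 + 1))) := by
    fun_prop
  calc _ ≤ ∫⁻ s in Ioo a p.1, (2 * K₁ + K₂ * K₃) * ENNReal.ofReal ((1 + p.1) ^ 80) * W p *
        ENNReal.ofReal (Real.exp (Λ * (1 + s) ^ (80 + 1))) := by
        refine setLIntegral_mono' measurableSet_Ioo fun s hs => ?_
        have q1 : QF E (fun r => ew Λ (r.1, r.2.1) * W r) (fl p s) =
            ENNReal.ofReal (Real.exp (Λ * (1 + s) ^ (80 + 1))) * QF E W (fl p s) := by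
          have := QF_mul_tx hE hW (fun _ => 1) (ew Λ) (fl p s)
          simp only [one_mul] at this
          exact this
        have q2 : LF (fun r => ew Λ (r.1, r.2.1) * W r) (fl p s) =
            ENNReal.ofReal (Real.exp (Λ * (1 + s) ^ (80 + 1))) * LF W (fl p s) :=
          LF_mul_tx hW (ew Λ) (fl p s)
        have q3 : LF W (fl p s) ≤
            K₂ * ENNReal.ofReal ((1 + p.1) ^ 40) * ENNReal.ofReal (jb p.2.2) := by
          refine (h2 (fl p s) hs.1.le).trans (mul_le_mul_left (mul_le_mul_right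
            (ENNReal.ofReal_le_ofReal (pow_le_pow_left₀ ?_ ?_ _)) _) _)
          · show 0 ≤ 1 + s
            linarith [hs.1]
          · show 1 + s ≤ 1 + p.1
            linarith [hs.2]
        have q4 : Maj a E D 0 (fl p s) * LF W (fl p s) ≤
            K₂ * K₃ * ENNReal.ofReal ((1 + p.1) ^ 80) * W p := by
          calc _ ≤ Maj a E D 0 (fl p s) *
                (K₂ * ENNReal.ofReal ((1 + p.1) ^ 40) * ENNReal.ofReal (jb p.2.2)) :=
                mul_le_mul_right q3 _
            _ = K₂ * ENNReal.ofReal ((1 + p.1) ^ 40) *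
                (ENNReal.ofReal (jb p.2.2) * Maj a E D 0 (fl p s)) := by ring
            _ ≤ K₂ * ENNReal.ofReal ((1 + p.1) ^ 40) *
                (K₃ * ENNReal.ofReal ((1 + p.1) ^ 40) * W p) :=
                mul_le_mul_right (h3 p s hs.1.le hs.2.le) _
            _ = _ := by rw [← e2]; ring
        have q5 : QF E W (fl p s) ≤ K₁ * ENNReal.ofReal ((1 + p.1) ^ 80) * W p :=
          (h1 p s hs.1.le hs.2.le).trans (mul_le_mul_left (mul_le_mul_right e1 _) _)
        beta_reduce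
        rw [q1, q2]
        calc _ = (2 * QF E W (fl p s) + Maj a E D 0 (fl p s) * LF W (fl p s)) *
              ENNReal.ofReal (Real.exp (Λ * (1 + s) ^ (80 + 1))) := by ring
          _ ≤ (2 * (K₁ * ENNReal.ofReal ((1 + p.1) ^ 80) * W p) +
                K₂ * K₃ * ENNReal.ofReal ((1 + p.1) ^ 80) * W p) *
              ENNReal.ofReal (Real.exp (Λ * (1 + s) ^ (80 + 1))) :=
              mul_le_mul_left (add_le_add (mul_le_mul_right q5 _) q4) _
          _ = _ := by ring
    _ = (2 * K₁ + K₂ * K₃) * ENNReal.ofReal ((1 + p.1) ^ 80) * W p *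
        ∫⁻ s in Ioo a p.1, ENNReal.ofReal (Real.exp (Λ * (1 + s) ^ (80 + 1))) :=
        lintegral_const_mul _ hm
    _ ≤ 2⁻¹ * ENNReal.ofReal Λ * ENNReal.ofReal ((1 + p.1) ^ 80) * W p *
        ∫⁻ s in Ioo a p.1, ENNReal.ofReal (Real.exp (Λ * (1 + s) ^ (80 + 1))) := by gcongr
    _ = 2⁻¹ * ((ENNReal.ofReal (Λ * (1 + p.1) ^ 80) *
        ∫⁻ s in Ioo a p.1, ENNReal.ofReal (Real.exp (Λ * (1 + s) ^ (80 + 1)))) * W p) := by
        rw [ENNReal.ofReal_mul hΛ.le]; ring
    _ ≤ _ := mul_le_mul_right (mul_le_mul_left (lint_exp_pow ha hp hΛ 80) _) _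

theorem Duh_at {a : ℝ} (f D : PF) {p : Ph} (hp : p.1 = a) : Duh a f D 0 p = D p := by
  subst hp
  simp only [Duh, Lam, fl_self, Ioo_self, Measure.restrict_empty, lintegral_zero_measure, ex_zero,
    mul_one, add_zero]

theorem exists_abs {a : ℝ} (ha : 0 ≤ a) {E D W : PF} (hE : Measurable E) (hD : Measurable D)
    (hDp : Per D) (hW : Measurable W) (hWf : FinSec W) (cl : PF → PF)
    (hcm : ∀ f, Measurable f → Measurable (cl f)) (hcp : ∀ f, Per f → Per (cl f))
    (hce : ∀ (f : PF) (q : Ph), a ≤ q.1 → cl f q ≤ E q)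
    (hcd : ∀ (f g : PF) (q : Ph), dd (cl f q) (cl g q) ≤ dd (f q) (g q))
    {K₁ K₂ K₃ : ℝ≥0∞} (hK₁ : K₁ ≠ ⊤) (hK₂ : K₂ ≠ ⊤) (hK₃ : K₃ ≠ ⊤)
    (h1 : ∀ (p : Ph) (s : ℝ), a ≤ s → s ≤ p.1 →
      QF E W (fl p s) ≤ K₁ * ENNReal.ofReal ((1 + p.1) ^ 40) * W p)
    (h2 : ∀ q : Ph, a ≤ q.1 →
      LF W q ≤ K₂ * ENNReal.ofReal ((1 + q.1) ^ 40) * ENNReal.ofReal (jb q.2.2))
    (h3 : ∀ (p : Ph) (s : ℝ), a ≤ s → s ≤ p.1 →
      ENNReal.ofReal (jb p.2.2) * Maj a E D 0 (fl p s) ≤
        K₃ * ENNReal.ofReal ((1 + p.1) ^ 40) * W p) :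
    ∃ F : PF, Measurable F ∧ Per F ∧ (∀ p : Ph, p.1 ≤ a → F p = D p) ∧
      ∀ p : Ph, a ≤ p.1 → F p = Duh a (cl F) D 0 p := by
  classical
  have hS : MeasurableSet {q : Ph | a ≤ q.1} := measurableSet_le measurable_const measurable_fst
  have hz : Measurable (0 : PF) := measurable_zero
  obtain ⟨Λ, hΛ1, hK⟩ : ∃ Λ : ℝ, 1 ≤ Λ ∧ 2 * K₁ + K₂ * K₃ ≤ 2⁻¹ * ENNReal.ofReal Λ := by
    have hfin : 2 * K₁ + K₂ * K₃ ≠ ⊤ := by finiteness
    refine ⟨2 * (2 * K₁ + K₂ * K₃).toReal + 1, by linarith [ENNReal.toReal_nonneg (a := 2 * K₁ + K₂ * K₃)], ?_⟩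
    rw [ENNReal.ofReal_add (by positivity) zero_le_one, ENNReal.ofReal_mul zero_le_two,
      ENNReal.ofReal_toReal hfin, ENNReal.ofReal_ofNat, mul_add, ← mul_assoc,
      mul_comm 2⁻¹ (2 : ℝ≥0∞), FP.two_half, one_mul]
    exact le_self_add
  have hΛ : 0 < Λ := by linarith
  set c : PF → PF := fun f q => if a ≤ q.1 then cl f q else 0 with hc
  have cm : ∀ f, Measurable f → Measurable (c f) := fun f hf =>
    Measurable.ite hS (hcm f hf) measurable_const
  have cp : ∀ f, Per f → Per (c f) := fun f hf t x v m => by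
    simp only [hc, hcp f hf t x v m]
  have ce : ∀ f, c f ≤ E := fun f q => by
    simp only [hc]
    split_ifs with hq
    exacts [hce f q hq, zero_le]
  have cd : ∀ f g, ddF (c f) (c g) ≤ ddF f g := fun f g q => by
    simp only [hc, ddF]
    split_ifs with hq
    · exact hcd f g q
    · rw [dd_self]; exact zero_le
  have hMaj := measurable_Maj hE hD hz a
  have hT : PosOp fun d : PF => Ia a fun q => 2 * QF E d q + Maj a E D 0 q * LF d q :=
    (posOp_Ia a).comp (((posOp_QF hE).mul (w := fun _ => 2) measurable_const).plus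
      (posOp_LF.mul hMaj))
  have hTK : KillsNull fun d : PF => Ia a fun q => 2 * QF E d q + Maj a E D 0 q * LF d q :=
    KillsNull.comp (posOp_Ia a) (((killsNull_QF hE).mul fun _ => 2).plus (killsNull_LF.mul _))
  have hw : Measurable fun q : Ph => if a ≤ q.1 then (1 : ℝ≥0∞) else 0 :=
    Measurable.ite hS measurable_const measurable_const
  have hew : Measurable fun r : Ph => ew Λ (r.1, r.2.1) := by
    unfold ew
    fun_prop
  obtain ⟨F, hFm, hFp, hF⟩ := fixed_point
    (fun f p => if a ≤ p.1 then Duh a (c f) D 0 p else D p)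
    (fun f hf => Measurable.ite hS (measurable_Duh (cm f hf) hD hz a) hD)
    (fun f hf t x v m => by
      simp only [Per.Duh (cp f hf) hDp (β := 0) (fun _ _ _ _ => rfl) a t x v m, hDp t x v m])
    (hT.mul hw) (hTK.mul _) (fun f g hf hg p => by
      by_cases hp : a ≤ p.1
      · simp only [if_pos hp, one_mul]
        exact (dd_Duh_le (cm f hf) (cm g hg) hE hD hz (ce f) (ce g) p).trans
          (hT.mono _ _ (FP.measurable_ddF (cm f hf) (cm g hg)) (FP.measurable_ddF hf hg) (cd f g) p)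
      · simp only [if_neg hp, dd_self]
        exact zero_le)
    (G := fun r => ew Λ (r.1, r.2.1) * W r) (hew.mul hW)
    (fun s z => (hWf s z).mono fun η hη => ENNReal.mul_ne_top ENNReal.ofReal_ne_top hη)
    (fun p => by
      by_cases hp : a ≤ p.1
      · simp only [if_pos hp, one_mul]
        exact contr ha hE hW h1 h2 h3 hΛ hK p hp
      · simp only [if_neg hp, zero_mul]
        exact zero_le)
    (f₀ := fun p => if a ≤ p.1 then 0 else D p) (Measurable.ite hS measurable_const hD)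
    (fun t x v m => by simp only [hDp t x v m]) hK₃
    (fun p => by
      by_cases hp : a ≤ p.1
      · simp only [if_pos hp]
        refine (dd_le_max _ _).trans (max_le ((Duh_le_Maj (ce _) p).trans ?_) zero_le)
        have h4 := h3 p p.1 hp le_rfl
        rw [fl_self] at h4
        have h5 : (1 : ℝ≥0∞) ≤ ENNReal.ofReal (jb p.2.2) :=
          ENNReal.one_le_ofReal.2 (le_add_of_nonneg_right (norm_nonneg _))
        refine (le_mul_of_one_le_left' h5).trans (h4.trans ?_)
        rw [mul_assoc]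
        refine mul_le_mul_right (mul_le_mul_left (ENNReal.ofReal_le_ofReal ?_) _) _
        have ht : 1 ≤ 1 + p.1 := by linarith
        have h6 : (1 + p.1) ^ 40 ≤ (1 + p.1) ^ (80 + 1) := pow_le_pow_right₀ ht (by norm_num)
        have h7 : (1 + p.1) ^ (80 + 1) ≤ Λ * (1 + p.1) ^ (80 + 1) :=
          le_mul_of_one_le_left (by positivity) hΛ1
        have h8 := Real.add_one_le_exp (Λ * (1 + p.1) ^ (80 + 1))
        show _ ≤ Real.exp (Λ * (1 + p.1) ^ (80 + 1))
        linarith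
      · simp only [if_neg hp, dd_self]
        exact zero_le)
  have hF' : ∀ p, F p = if a ≤ p.1 then Duh a (c F) D 0 p else D p :=
    fun p => (congrFun hF p).symm
  refine ⟨F, hFm, hFp, fun p hp => ?_, fun p hp => ?_⟩
  · rw [hF']
    split_ifs with h
    · exact Duh_at _ _ (le_antisymm hp h)
    · rfl
  · rw [hF', if_pos hp]
    exact Duh_congr p (fun q hq => if_pos hq.1.le) (fun _ _ => rfl) fun _ _ => rfl

end LateBE
end
end Crest.Agent.R68
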