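import Crest.Agent.R68.LateA
import Crest.Agent.R68.LateBAuxE
import Crest.Agent.R68.LateBAuxA

/-! # Row 68: late phase: existence for the clamped equation -/

set_option autoImplicit false
open MeasureTheory Set Filter Topology
open scoped ENNReal NNReal
open Crest.AnalysisR.VecCalc3 Crest.AnalysisR.PDE.Boltzmann

namespace Crest.Agent.R68
noncomputable section

/-- weight for late differences -/
def GLt (P : Par) : PF := fun p => GS (1 / 16) p + c0 P p + ZZ P p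
/-- upper bound of the late clamp -/
def UL (P : Par) : PF := fun p => 4 * (GS (1 / 8) p + sZ P p)

theorem measurable_GLt (P : Par) : Measurable (GLt P) :=
  LBA.measurable_GW P
theorem measurable_UL (P : Par) : Measurable (UL P) :=
  LBA.measurable_U P
theorem finSec_GLt (P : Par) : FinSec (GLt P) :=
  LBA.finSec_GW P

/-- `c0 ≤ csm + Big ≤ csm + C (1+s)^{26} GS (1/8)`; `src_GS_gap`, `src_GS_same` (`⟨v⟩ Ga (1/8) ≤ K Ga (1/16)`),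
`src_csm` (`ell ≥ 8 t0`), `src_ZZ`, `thermal`, `QF_comm`. -/
theorem late_gain : ∀ᶠ P in parF, ∃ K : ℝ≥0∞, K ≠ ⊤ ∧ ∀ (p : Ph) (s : ℝ), P.t0 ≤ s → s ≤ p.1 →
    QF (UL P) (GLt P) (fl p s) ≤ K * ENNReal.ofReal ((1 + p.1) ^ 40) * GLt P p :=
  LBA.gain

theorem late_LF : ∀ᶠ P in parF, ∃ K : ℝ≥0∞, K ≠ ⊤ ∧ ∀ q : Ph, P.t0 ≤ q.1 →
    LF (GLt P) q ≤ K * ENNReal.ofReal ((1 + q.1) ^ 40) * ENNReal.ofReal (jb q.2.2) :=
  LBA.loss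

/-- `ev_handoff` (two-time: apply it to `p`, as `fl (fl p s) t0 = fl p t0`) and the same source bounds -/
theorem late_Maj : ∀ᶠ P in parF, ∃ K : ℝ≥0∞, K ≠ ⊤ ∧ ∀ b : ℝ≥0∞, b ≤ 1 → ∀ Fe : PF, ESol P b 0 Fe →
    ∀ (p : Ph) (s : ℝ), P.t0 ≤ s → s ≤ p.1 →
    ENNReal.ofReal (jb p.2.2) * Maj P.t0 (UL P) Fe 0 (fl p s) ≤
      K * ENNReal.ofReal ((1 + p.1) ^ 40) * GLt P p :=
  LBA.maj

/-- `∫_a^t e^{Λ(1+s)^n} ds ≤ e^{Λ(1+t)^n}/(Λ (1+t)^{n-1})` since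
`(1+t)^n - (1+s)^n ≥ (t-s)(1+t)^{n-1}`. -/
theorem lint_exp_pow {a t Λ : ℝ} (ha : 0 ≤ a) (hat : a ≤ t) (hΛ : 0 < Λ) (n : ℕ) :
    ENNReal.ofReal (Λ * (1 + t) ^ n) * ∫⁻ s in Ioo a t, ENNReal.ofReal (Real.exp (Λ * (1 + s) ^ (n + 1))) ≤
      ENNReal.ofReal (Real.exp (Λ * (1 + t) ^ (n + 1))) :=
  LateBE.lint_exp_pow ha hat hΛ n

/-- `fixed_point` with `Φ f p = if t0 ≤ t then Duh t0 (cl f) Fe 0 p else Fe p`, where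
`cl f q = if t0 ≤ q.1 then clL f q else 0 ≤ UL`, `M d = 1{t0 ≤ t} Ia t0 (2 QF UL d + Maj t0 UL Fe 0 · LF d)`,
`G = 1{t0 ≤ t} e^{Λ(1+t)^{81}} GLt`, `f₀ = 1{t < t0} Fe`. -/
theorem late_exists {ν : ℝ} (hν : 0 ≤ ν) : ∀ᶠ P in parF, ∀ ε η₁ : ℝ≥0∞, ε ≤ 1 → η₁ ≤ 1 →
    ∀ b : ℝ≥0∞, b ≤ 1 → ∀ Fe : PF, ESol P b 0 Fe → ∃ F : PF, Measurable F ∧ Per F ∧
      (∀ p : Ph, p.1 ≤ P.t0 → F p = Fe p) ∧
      ∀ p : Ph, P.t0 ≤ p.1 → F p = Duh P.t0 (clL P ν ε η₁ F) Fe 0 p := by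
  filter_upwards [ev_basic, late_gain, late_LF, late_Maj] with P hP h1 h2 h3 ε η₁ hε hη b hb Fe hFe
  obtain ⟨K₁, hK₁, h1⟩ := h1
  obtain ⟨K₂, hK₂, h2⟩ := h2
  obtain ⟨K₃, hK₃, h3⟩ := h3
  exact LateBE.exists_abs hP.t0_pos.le (measurable_UL P) hFe.meas hFe.per (measurable_GLt P)
    (finSec_GLt P) (clL P ν ε η₁) (fun _ hf => measurable_clL P ν ε η₁ hf)
    (fun _ hf => per_clL P ν ε η₁ hf)
    (fun f q hq => (clL_le P ν ε η₁ f q).trans (up_le hν hε hη hq))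
    (dd_clL_clL_le P ν ε η₁) hK₁ hK₂ hK₃ h1 h2 (h3 b hb Fe hFe)

end
end Crest.Agent.R68
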