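import Crest.Agent.R68.LateA

/-! # Row 68: late phase: comparison of the Duhamel map with the Maxwellian -/

set_option autoImplicit false
open MeasureTheory Set Filter Topology
open scoped ENNReal NNReal
open Crest.AnalysisR.VecCalc3 Crest.AnalysisR.PDE.Boltzmann

namespace Crest.Agent.R68.LC1
noncomputable section

theorem lint_neg (g : ℝ → ℝ≥0∞) (a t : ℝ) :
    ∫⁻ τ in Ioo (-t) (-a), g (-τ) = ∫⁻ τ in Ioo a t, g τ := by
  have h := (Measure.measurePreserving_neg (volume : Measure ℝ)).setLIntegral_comp_preimage_emb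
    (MeasurableEquiv.neg ℝ).measurableEmbedding g (Ioo a t)
  have e : (Neg.neg ⁻¹' Ioo a t : Set ℝ) = Ioo (-t) (-a) := by
    ext x
    simp only [mem_preimage, mem_Ioo]
    constructor <;> rintro ⟨h1, h2⟩ <;> constructor <;> linarith
  rwa [e] at h

theorem lint_ex_L (L : ℝ → ℝ≥0∞) (hL : Measurable L) (a t : ℝ) (hfin : ∫⁻ τ in Ioo a t, L τ ≠ ⊤) :
    ex (∫⁻ τ in Ioo a t, L τ) + ∫⁻ s in Ioo a t, ex (∫⁻ τ in Ioo s t, L τ) * L s = 1 := by
  have h := lint_L_ex (fun τ => L (-τ)) (hL.comp measurable_neg) (-t) (-a) (by rwa [lint_neg])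
  rw [lint_neg] at h
  rw [add_comm, ← h, ← lint_neg (fun s => ex (∫⁻ τ in Ioo s t, L τ) * L s)]
  congr 1
  refine lintegral_congr fun s => ?_
  rw [mul_comm, ← lint_neg L (-s) t, neg_neg]

theorem ex_le_dmp {a ν : ℝ} (hν : 0 ≤ ν) {f : PF} (p : Ph)
    (hL : ∀ s ∈ Ioo a p.1, ENNReal.ofReal (ν * jb p.2.2) ≤ LF f (fl p s)) {s : ℝ}
    (hs : s ∈ Icc a p.1) : ex (Lam f p s) ≤ dmp ν p s := by
  have hj : 0 ≤ ν * jb p.2.2 := mul_nonneg hν (by unfold jb; positivity)
  have h1 : ENNReal.ofReal (ν * jb p.2.2 * (p.1 - s)) ≤ Lam f p s := by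
    rw [ENNReal.ofReal_mul hj, ← Real.volume_Ioo, ← setLIntegral_const]
    exact setLIntegral_mono' measurableSet_Ioo fun τ hτ => hL τ ⟨hs.1.trans_lt hτ.1, hτ.2⟩
  exact (ex_anti h1).trans (ex_ofReal (mul_nonneg hj (sub_nonneg.2 hs.2))).le

theorem dmp_le_dec {a ν : ℝ} (hν : 0 ≤ ν) (p : Ph) (ha : a ≤ p.1) : dmp ν p a ≤ dec ν a p := by
  refine ENNReal.ofReal_le_ofReal (Real.exp_le_exp.2 (neg_le_neg ?_))
  refine mul_le_mul_of_nonneg_right (le_mul_of_one_le_right hν ?_) (sub_nonneg.2 ha)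
  exact le_add_of_nonneg_right (norm_nonneg _)

theorem QF_mu (q : Ph) : QF muF muF q = muF q * LF muF q := Qp_mu_mu q.2.2

theorem up_pt {f : PF} (hf : Measurable f) (q : Ph) :
    QF f f q ≤ muF q * LF f q + (KB (ddF f muF) q + QF (ddF f muF) (ddF f muF) q) := by
  have hd : Measurable (ddF f muF) := measurable_dd hf measurable_muF
  have h1 : f ≤ fun q => muF q + ddF f muF q := fun q => (dd_le_iff.1 le_rfl).1
  have h2 : muF ≤ fun q => f q + ddF f muF q := fun q => (dd_le_iff.1 le_rfl).2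
  have h3 : LF muF q ≤ LF f q + LF (ddF f muF) q := (LF_mono h2 q).trans (LF_add hf q).le
  refine (QF_mono h1 h1 q).trans ?_
  rw [QF_add_left (G := fun q => muF q + ddF f muF q) measurable_muF (measurable_muF.add hd),
    QF_add_right measurable_muF measurable_muF,
    QF_add_right hd measurable_muF, QF_comm hd measurable_muF, QF_mu]
  calc _ ≤ muF q * (LF f q + LF (ddF f muF) q) + QF muF (ddF f muF) q +
        (QF muF (ddF f muF) q + QF (ddF f muF) (ddF f muF) q) := by gcongr
    _ = _ := by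
        show _ = muF q * LF f q + (2 * QF muF (ddF f muF) q + muF q * LF (ddF f muF) q +
          QF (ddF f muF) (ddF f muF) q)
        ring

theorem low_pt {f : PF} (hf : Measurable f) (q : Ph) :
    muF q * LF f q ≤ QF f f q + KB (ddF f muF) q := by
  have hd : Measurable (ddF f muF) := measurable_dd hf measurable_muF
  have h1 : f ≤ fun q => muF q + ddF f muF q := fun q => (dd_le_iff.1 le_rfl).1
  have h3 : LF f q ≤ LF muF q + LF (ddF f muF) q :=
    (LF_mono h1 q).trans (LF_add measurable_muF q).le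
  have h4 : muF ≤ fun q => min (f q) (muF q) + ddF f muF q := fun q => by
    rcases le_total (f q) (muF q) with h | h
    · simp only [min_eq_left h]
      exact (dd_le_iff.1 le_rfl).2
    · simp only [min_eq_right h]
      exact le_self_add
  have h5 := StabA.QF_le_add (g := fun q => min (f q) (muF q)) (E := muF) measurable_muF
    (hf.min measurable_muF) hd le_rfl (fun q => min_le_right _ _) h4 q
  have h6 : QF (fun q => min (f q) (muF q)) (fun q => min (f q) (muF q)) q ≤ QF f f q :=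
    QF_mono (fun q => min_le_left _ _) (fun q => min_le_left _ _) q
  calc muF q * LF f q ≤ muF q * (LF muF q + LF (ddF f muF) q) := by gcongr
    _ = QF muF muF q + muF q * LF (ddF f muF) q := by rw [QF_mu, mul_add]
    _ ≤ (QF f f q + 2 * QF muF (ddF f muF) q) + muF q * LF (ddF f muF) q :=
        add_le_add_left (h5.trans (add_le_add_left h6 _)) _
    _ = _ := add_assoc _ _ _

theorem Duh_vs_mu {a ν : ℝ} (hν : 0 ≤ ν) {f D : PF} (hf : Measurable f) (p : Ph) (ha : a ≤ p.1)
    (hL : ∀ s ∈ Ioo a p.1, ENNReal.ofReal (ν * jb p.2.2) ≤ LF f (fl p s)) (hfin : Lam f p a ≠ ⊤) :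
    Duh a f D 0 p ≤ muF p + ((D (fl p a) - muF p) * dec ν a p + KK ν a (ddF f muF) p +
        NN ν a (ddF f muF) p) ∧
      muF p ≤ Duh a f D 0 p + ((muF p - D (fl p a)) * dec ν a p + KK ν a (ddF f muF) p) := by
  have hd : Measurable (ddF f muF) := measurable_dd hf measurable_muF
  have hfl : Measurable (fl p) := measurable_fl.comp measurable_prodMk_left
  have mL : Measurable fun s => LF f (fl p s) := (measurable_LF hf).comp hfl
  have mE : Measurable fun s => ex (Lam f p s) := measurable_ex.comp (StabA.meas_Lam hf p)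
  have mQ : Measurable fun s => QF f f (fl p s) := (measurable_QF hf hf).comp hfl
  have mK : Measurable fun s => dmp ν p s * KB (ddF f muF) (fl p s) :=
    (ENNReal.measurable_ofReal.comp (by fun_prop)).mul ((posOp_KB.meas _ hd).comp hfl)
  have mEL : Measurable fun s => ex (Lam f p s) * LF f (fl p s) := mE.mul mL
  have mEQ : Measurable fun s => ex (Lam f p s) * QF f f (fl p s) := mE.mul mQ
  have mEL' : Measurable fun s => muF p * (ex (Lam f p s) * LF f (fl p s)) := mEL.const_mul _
  have hone : ex (Lam f p a) + ∫⁻ s in Ioo a p.1, ex (Lam f p s) * LF f (fl p s) = 1 :=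
    lint_ex_L _ mL a p.1 hfin
  have hmu : muF p = muF p * ex (Lam f p a) +
      ∫⁻ s in Ioo a p.1, muF p * (ex (Lam f p s) * LF f (fl p s)) := by
    rw [lintegral_const_mul _ mEL, ← mul_add, hone, mul_one]
  have hE : ∀ s ∈ Ioo a p.1, ex (Lam f p s) ≤ dmp ν p s := fun s hs =>
    ex_le_dmp hν p hL ⟨hs.1.le, hs.2.le⟩
  have hEa : ex (Lam f p a) ≤ dec ν a p :=
    (ex_le_dmp hν p hL ⟨le_rfl, ha⟩).trans (dmp_le_dec hν p ha)
  have hD : Duh a f D 0 p = D (fl p a) * ex (Lam f p a) +
      ∫⁻ s in Ioo a p.1, ex (Lam f p s) * QF f f (fl p s) := by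
    show D (fl p a) * ex (Lam f p a) +
      ∫⁻ s in Ioo a p.1, ex (Lam f p s) * (QF f f (fl p s) + 0) = _
    simp only [add_zero]
  rw [hD]
  constructor
  · have h1 : D (fl p a) * ex (Lam f p a) ≤
        muF p * ex (Lam f p a) + (D (fl p a) - muF p) * dec ν a p :=
      calc D (fl p a) * ex (Lam f p a) ≤ (muF p + (D (fl p a) - muF p)) * ex (Lam f p a) :=
            mul_le_mul_left le_add_tsub _
        _ ≤ _ := by
            rw [add_mul]
            gcongr
    have h2 : ∫⁻ s in Ioo a p.1, ex (Lam f p s) * QF f f (fl p s) ≤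
        (∫⁻ s in Ioo a p.1, muF p * (ex (Lam f p s) * LF f (fl p s))) +
          (KK ν a (ddF f muF) p + NN ν a (ddF f muF) p) := by
      show _ ≤ _ + ((∫⁻ s in Ioo a p.1, dmp ν p s * KB (ddF f muF) (fl p s)) +
        ∫⁻ s in Ioo a p.1, dmp ν p s * QF (ddF f muF) (ddF f muF) (fl p s))
      rw [← lintegral_add_left mK, ← lintegral_add_left mEL']
      refine setLIntegral_mono' measurableSet_Ioo fun s hs => ?_
      refine (mul_le_mul_right (up_pt hf (fl p s)) _).trans ?_
      rw [mul_add, ← mul_add (dmp ν p s), mul_left_comm]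
      exact add_le_add le_rfl (mul_le_mul_left (hE s hs) _)
    refine (add_le_add h1 h2).trans (le_of_eq ?_)
    conv_rhs => rw [hmu]
    rw [← hmu, add_add_add_comm, ← hmu, add_assoc]
  · have h1 : muF p * ex (Lam f p a) ≤
        D (fl p a) * ex (Lam f p a) + (muF p - D (fl p a)) * dec ν a p :=
      calc muF p * ex (Lam f p a) ≤ (D (fl p a) + (muF p - D (fl p a))) * ex (Lam f p a) :=
            mul_le_mul_left le_add_tsub _
        _ ≤ _ := by
            rw [add_mul]
            gcongr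
    have h2 : ∫⁻ s in Ioo a p.1, muF p * (ex (Lam f p s) * LF f (fl p s)) ≤
        (∫⁻ s in Ioo a p.1, ex (Lam f p s) * QF f f (fl p s)) + KK ν a (ddF f muF) p := by
      show _ ≤ _ + ∫⁻ s in Ioo a p.1, dmp ν p s * KB (ddF f muF) (fl p s)
      rw [← lintegral_add_left mEQ]
      refine setLIntegral_mono' measurableSet_Ioo fun s hs => ?_
      rw [mul_left_comm]
      refine (mul_le_mul_right (low_pt hf (fl p s)) _).trans ?_
      rw [mul_add]
      exact add_le_add le_rfl (mul_le_mul_left (hE s hs) _)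
    refine hmu.le.trans ((add_le_add h1 h2).trans (le_of_eq ?_))
    rw [add_add_add_comm]

end
end Crest.Agent.R68.LC1
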