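import Crest.Agent.R68.LateA

/-! # Row 68: late phase: collision frequency of the clamp, `KB WW`, mass of the envelope -/

set_option autoImplicit false
open MeasureTheory Set Filter Topology
open scoped ENNReal NNReal
open Crest.AnalysisR.VecCalc3 Crest.AnalysisR.PDE.Boltzmann

namespace Crest.Agent.R68.LC2
noncomputable section

theorem dec_pow {a : ℝ} (ha : 0 < a) (k : ℕ) : ∃ C : ℝ≥0∞, C ≠ ⊤ ∧ ∀ (t0 : ℝ) (q : Ph), t0 ≤ 1 →
    0 ≤ q.1 → dec a t0 q * ENNReal.ofReal ((1 + q.1) ^ k) ≤ C := by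
  refine ⟨ENNReal.ofReal (Real.exp (2 * a) * k.factorial / a ^ k), ENNReal.ofReal_ne_top,
    fun t0 q h1 h0 => ?_⟩
  show ENNReal.ofReal (Real.exp (-(a * (q.1 - t0)))) * _ ≤ _
  rw [← ENNReal.ofReal_mul (Real.exp_pos _).le]
  refine ENNReal.ofReal_le_ofReal ?_
  have h2 := Real.pow_div_factorial_le_exp (a * (1 + q.1)) (by positivity) k
  have h3 : (0 : ℝ) < k.factorial := by exact_mod_cast k.factorial_pos
  rw [div_le_iff₀ h3, mul_pow] at h2
  rw [le_div_iff₀ (by positivity), mul_assoc, mul_comm ((1 + q.1) ^ k)]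
  refine (mul_le_mul_of_nonneg_left h2 (Real.exp_pos _).le).trans ?_
  rw [← mul_assoc, ← Real.exp_add]
  gcongr
  nlinarith

theorem dec_le_one {a t0 : ℝ} (ha : 0 ≤ a) {q : Ph} (h : t0 ≤ q.1) : dec a t0 q ≤ 1 := by
  show ENNReal.ofReal (Real.exp (-(a * (q.1 - t0)))) ≤ 1
  rw [ENNReal.ofReal_le_one, Real.exp_le_one_iff]
  nlinarith

theorem Ga_le_GS (a : ℝ) (p : Ph) : Ga a p.2.2 ≤ GS a p :=
  le_mul_of_one_le_right' (one_le_Sg p)

theorem LF_le {F G : PF} (q : Ph) (h : ∀ η, F (q.1, q.2.1, η) ≤ G (q.1, q.2.1, η)) :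
    LF F q ≤ LF G q := LL_mono_ae (.of_forall h) _

theorem LF_const {F : PF} (hF : Measurable F) (c : ℝ≥0∞) (q : Ph) :
    LF (fun p => c * F p) q = c * LF F q := LF_mul_tx hF (fun _ => c) q

theorem LF_WW : ∃ K : ℝ≥0∞, K ≠ ⊤ ∧ ∀ q : Ph, LF WW q ≤ K * ENNReal.ofReal (jb q.2.2) := by
  obtain ⟨K, hK, h⟩ := LF_GS
  refine ⟨K, hK, fun q => ?_⟩
  have h1 := h (0, q.2) le_rfl (1 / 8) (by norm_num)
  simp only [add_zero, one_pow, ENNReal.ofReal_one, mul_one] at h1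
  exact (LF_le (F := WW) (0, q.2) fun η => Ga_le_GS _ _).trans h1

theorem LF_envm (P : Par) (ν : ℝ) (ε η₁ : ℝ≥0∞) (q : Ph) : LF (envm P ν ε η₁) q =
    ε * LF WW q + dec (ν / 2) P.t0 q * (η₁ * LF (GS (1 / 8)) q + LF (Hl P) q) := by
  have hG : Measurable fun p => η₁ * GS (1 / 8) p := (measurable_GS _).const_mul _
  rw [← LF_const measurable_WW, ← LF_const (measurable_GS _), ← LF_add hG,
    ← LF_const (hG.fun_add (measurable_Hl P)), ← LF_add (measurable_WW.const_mul _)]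
  rfl

theorem LF_clL_ge : ∃ ν : ℝ, 0 < ν ∧ ν ≤ 1 ∧ ∃ e : ℝ≥0∞, 0 < e ∧ e ≤ 1 ∧ ∀ᶠ P in parF,
    ∀ ε η₁ : ℝ≥0∞, ε ≤ e → η₁ ≤ e → ∀ f : PF, Measurable f → ∀ q : Ph, P.t0 ≤ q.1 →
      ENNReal.ofReal (ν * jb q.2.2) ≤ LF (clL P ν ε η₁ f) q := by
  obtain ⟨ν, h0, h1, hν⟩ := LL_mu_ge
  obtain ⟨K₁, hK₁, hW⟩ := LF_WW
  obtain ⟨K₂, hK₂, hG⟩ := LF_GS
  obtain ⟨C, hC, hd⟩ := dec_pow (a := ν / 2 / 2) (by positivity) 3
  have hη : 0 < ENNReal.ofReal (ν / 4) := ENNReal.ofReal_pos.2 (by positivity)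
  obtain ⟨e, he, heK⟩ := ENNReal.exists_pos_mul_lt (a := K₁ + K₂ * C)
    (ENNReal.add_ne_top.2 ⟨hK₁, ENNReal.mul_ne_top hK₂ hC⟩) hη.ne'
  refine ⟨ν / 2, by positivity, by linarith, min e 1, lt_min he one_pos, min_le_right _ _, ?_⟩
  filter_upwards [ev_basic, src_Hl _ hη] with P hP hH ε η₁ hε hη₁ f hf q hq
  have hq0 : 0 ≤ q.1 := hP.t0_pos.le.trans hq
  have hj : 0 ≤ jb q.2.2 := add_nonneg zero_le_one (norm_nonneg _)
  have h2 : LF muF q ≤ LF (clL P (ν / 2) ε η₁ f) q + LF (envm P (ν / 2) ε η₁) q := by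
    rw [← LF_add (measurable_clL P _ _ _ hf)]
    exact LF_mono (fun p => tsub_le_iff_right.1 (le_max_left _ _)) q
  have h3 : LF (envm P (ν / 2) ε η₁) q ≤ ENNReal.ofReal (ν / 2 * jb q.2.2) := by
    rw [LF_envm, mul_add (dec _ _ _)]
    calc _ ≤ e * (K₁ * ENNReal.ofReal (jb q.2.2)) +
          (dec (ν / 2 / 2) P.t0 q * (e * (K₂ * ENNReal.ofReal ((1 + q.1) ^ 3) *
            ENNReal.ofReal (jb q.2.2))) + 1 * (ENNReal.ofReal (ν / 4) * ENNReal.ofReal (jb q.2.2))) := by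
          gcongr
          exacts [hε.trans (min_le_left _ _), hW q, hη₁.trans (min_le_left _ _),
            hG q hq0 _ (by norm_num), dec_le_one (by positivity) hq, (hH q hq).2]
      _ = (e * (K₁ + K₂ * (dec (ν / 2 / 2) P.t0 q * ENNReal.ofReal ((1 + q.1) ^ 3))) +
          ENNReal.ofReal (ν / 4)) * ENNReal.ofReal (jb q.2.2) := by ring
      _ ≤ (ENNReal.ofReal (ν / 4) + ENNReal.ofReal (ν / 4)) * ENNReal.ofReal (jb q.2.2) := by
          gcongr
          refine le_trans ?_ heK.le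
          gcongr
          exact hd _ q (by linarith [hP.t0_le]) hq0
      _ = _ := by
          rw [← ENNReal.ofReal_add (by positivity) (by positivity),
            ← ENNReal.ofReal_mul (by positivity)]
          congr 1; ring
  have h4 := ((hν q.2.2).trans h2).trans (add_le_add_right h3 _)
  rw [show ν * jb q.2.2 = ν / 2 * jb q.2.2 + ν / 2 * jb q.2.2 by ring,
    ENNReal.ofReal_add (by positivity) (by positivity)] at h4
  exact (ENNReal.add_le_add_iff_right ENNReal.ofReal_ne_top).1 h4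

theorem Lam_clL_ne_top {ν : ℝ} (hν : 0 ≤ ν) : ∀ᶠ P in parF, ∀ ε η₁ : ℝ≥0∞, ε ≤ 1 → η₁ ≤ 1 →
    ∀ (f : PF) (p : Ph), Lam (clL P ν ε η₁ f) p P.t0 ≠ ⊤ := by
  obtain ⟨K₁, hK₁, hG⟩ := LF_GS
  obtain ⟨K₂, hK₂, hc⟩ := LF_csm
  filter_upwards [ev_basic, LF_ZZ 1 one_pos] with P hP hZ ε η₁ hε hη f p
  set A : ℝ≥0∞ := ENNReal.ofReal ((1 + p.1) ^ 3) with hA
  set J : ℝ≥0∞ := ENNReal.ofReal (jb p.2.2) with hJ
  have h1 : ∀ τ ∈ Ioo P.t0 p.1, LF (clL P ν ε η₁ f) (fl p τ) ≤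
      4 * (K₁ * A * J + (K₂ * A * J * (1 * npw (8 * P.t0) 1) + 1 * A * J)) := by
    intro τ hτ
    have h0 : 0 < τ := hP.t0_pos.trans hτ.1
    have h2 : ENNReal.ofReal ((1 + τ) ^ 3) ≤ A :=
      ENNReal.ofReal_le_ofReal (pow_le_pow_left₀ (by positivity) (by linarith [hτ.2]) 3)
    refine (LF_le (G := fun q => 4 * (GS (1 / 8) q + (csm P q + ZZ P q))) _ fun η =>
      (clL_le P ν ε η₁ f _).trans (up_le hν hε hη hτ.1.le)).trans ?_
    rw [LF_const ((measurable_GS _).fun_add ((measurable_csm P).fun_add (measurable_ZZ P))),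
      LF_add (measurable_GS _), LF_add (measurable_csm P)]
    refine mul_le_mul_right (add_le_add ((hG _ h0.le _ (by norm_num)).trans ?_)
      (add_le_add ((hc P hP _ h0).trans ?_) ((hZ _ h0.le).trans ?_))) _
    · exact mul_le_mul_left (mul_le_mul_right h2 _) _
    · refine mul_le_mul' (mul_le_mul_left (mul_le_mul_right h2 _) _)
        (mul_le_mul' (indicator_le_self _ _ _) (MB.npw_anti zero_le_one ?_))
      exact le_add_of_le_of_nonneg (by show 8 * P.t0 ≤ 8 * τ; linarith [hτ.1]) (tn_nonneg _)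
    · exact mul_le_mul_left (mul_le_mul_right h2 _) _
  refine ne_top_of_le_ne_top ?_ (setLIntegral_mono' measurableSet_Ioo h1)
  have h3 : npw (8 * P.t0) 1 ≠ ⊤ := MB.npw_ne_top (by linarith [hP.t0_pos]) _
  rw [setLIntegral_const, Real.volume_Ioo, hA, hJ]
  finiteness

theorem Ga_jb (v : R3) : Ga (1 / 2) v * ENNReal.ofReal (jb v) ≤ 2 * Ga (1 / 8) v := by
  show ENNReal.ofReal (Real.exp (-(1 / 2 * ‖v‖ ^ 2))) * ENNReal.ofReal (1 + ‖v‖) ≤
    2 * ENNReal.ofReal (Real.exp (-(1 / 8 * ‖v‖ ^ 2)))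
  rw [← ENNReal.ofReal_mul (Real.exp_pos _).le]
  refine le_trans (ENNReal.ofReal_le_ofReal ?_) ((ENNReal.ofReal_mul (p := 2)
    (q := Real.exp (-(1 / 8 * ‖v‖ ^ 2))) (by norm_num)).trans (by rw [ENNReal.ofReal_ofNat])).le
  have h1 := Real.add_one_le_exp (3 / 8 * ‖v‖ ^ 2)
  rw [show -(1 / 8 * ‖v‖ ^ 2) = -(1 / 2 * ‖v‖ ^ 2) + 3 / 8 * ‖v‖ ^ 2 by ring, Real.exp_add,
    mul_left_comm]
  refine mul_le_mul_of_nonneg_left ?_ (Real.exp_pos _).le
  nlinarith [sq_nonneg (‖v‖ - 1)]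

theorem KB_WW : ∃ K : ℝ≥0∞, K ≠ ⊤ ∧ ∀ q : Ph, KB WW q ≤ K * WW q := by
  obtain ⟨K₁, hK₁, h1⟩ := src_GS_gap
  obtain ⟨K₂, hK₂, h2⟩ := LF_WW
  refine ⟨2 * K₁ + K₂ * 2, by finiteness, fun q => ?_⟩
  have h3 := h1 (0, q.2) le_rfl (1 / 8) ⟨by norm_num, by norm_num⟩ (1 / 2) (by norm_num)
  simp only [add_zero, one_pow, ENNReal.ofReal_one, mul_one] at h3
  have h4 : QF muF WW q ≤ K₁ * WW q :=
    (QF_mono (F := muF) (G := WW) (fun p => (mu_le_Ga _).trans (Ga_le_GS _ p))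
      (fun p => Ga_le_GS _ p) (0, q.2)).trans h3
  have h5 : muF q * LF WW q ≤ K₂ * (2 * WW q) := by
    refine (mul_le_mul' (mu_le_Ga _) (h2 q)).trans ?_
    rw [mul_left_comm]
    exact mul_le_mul_right (Ga_jb _) _
  refine (add_le_add (mul_le_mul_right h4 2) h5).trans_eq ?_
  ring

theorem n1_c0 {P : Par} (hP : P.Basic) (s : ℝ) :
    n1 (c0 P) s ≤ ENNReal.ofReal (cK2 / (8 / 10)) := by
  have hm : ∀ t : ℝ, Measurable fun q : R3 × R3 => c0 P (t, q.1, q.2) := fun t =>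
    (measurable_c0 P).comp (measurable_const.prodMk measurable_id)
  have h1 : ∀ t : ℝ, n1 (c0 P) t = ∫⁻ q in cell ×ˢ (univ : Set R3), c0 P (ch q 0) := fun t => by
    have h2 := W6H.lint_prod _ (hm t)
    refine h2.symm.trans ?_
    rw [← lint_cell_ch _ (measurable_c0 P) (per_c0 P)]
    exact lintegral_congr fun q => by rw [← fl_ch q t 0, c0_fl]
  rw [h1, ← h1 (1 / 10)]
  refine (lintegral_mono (g := fun _ => ENNReal.ofReal (cK2 / (8 / 10))) fun x => ?_).trans_eq ?_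
  · refine (mass_c0 hP (1 / 10, x, 0) ⟨by norm_num, le_rfl⟩).trans (ENNReal.ofReal_le_ofReal ?_)
    refine div_le_div_of_nonneg_left (by unfold cK2; positivity) (by norm_num) ?_
    exact le_add_of_le_of_nonneg (by norm_num) (tn_nonneg _)
  · rw [setLIntegral_const, volume_cell, mul_one]

theorem n1_envp {ν : ℝ} (hν : 0 < ν) : ∃ K : ℝ≥0∞, K ≠ ⊤ ∧ ∀ᶠ P in parF,
    ∀ ε η₁ : ℝ≥0∞, ε ≤ 1 → η₁ ≤ 1 → ∀ s : ℝ, P.t0 ≤ s → n1 (envp P ν ε η₁) s ≤ K := by
  obtain ⟨K, hK, hG⟩ := moment_GS 0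
  obtain ⟨C₁, hC₁, hd₁⟩ := dec_pow (a := ν / 2) (by positivity) 3
  obtain ⟨C₂, hC₂, hd₂⟩ := dec_pow hν 3
  simp only [pow_zero, ENNReal.ofReal_one, one_mul] at hG
  refine ⟨2 * K + K * C₁ + C₂ + ENNReal.ofReal (cK2 / (8 / 10)), by finiteness, ?_⟩
  filter_upwards [ev_basic, mass_ZZ 1 one_pos] with P hP hZ ε η₁ hε hη s hs
  have hs0 : 0 ≤ s := hP.t0_pos.le.trans hs
  have ht : P.t0 ≤ 1 := by linarith [hP.t0_le]
  have h1 : ∀ x : R3, ∫⁻ v, envp P ν ε η₁ (s, x, v) ≤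
      (2 * K + K * C₁ + C₂) + ∫⁻ v, c0 P (s, x, v) := by
    intro x
    set q : Ph := (s, x, 0) with hq
    have hm := SrcM_meas (measurable_GS (1 / 8))
    calc _ ≤ ∫⁻ v, (2 * sec (GS (1 / 8)) (0, x, 0) v + dec (ν / 2) P.t0 q * sec (GS (1 / 8)) q v +
          dec ν P.t0 q * sec (ZZ P) q v) + c0 P (s, x, v) := by
          refine lintegral_mono fun v => ?_
          have h2 : WW (s, x, v) ≤ sec (GS (1 / 8)) (0, x, 0) v := Ga_le_GS _ (0, x, v)
          have h3 : Hl P (s, x, v) ≤ sec (GS (1 / 8)) (0, x, 0) v := by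
            refine le_trans ?_ (((mu_le_Ga v).trans (BallB.Ga_anti (by norm_num) v)).trans h2)
            show (if _ then mu v else 0) ≤ mu v
            split_ifs
            exacts [le_rfl, zero_le]
          calc envp P ν ε η₁ (s, x, v) = ε * WW (s, x, v) +
                dec (ν / 2) P.t0 q * Hl P (s, x, v) +
                dec (ν / 2) P.t0 q * (η₁ * sec (GS (1 / 8)) q v) +
                dec ν P.t0 q * sec (ZZ P) q v + dec ν P.t0 q * csm P (s, x, v) := by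
                show ε * WW (s, x, v) + (dec (ν / 2) P.t0 q * (η₁ * sec (GS (1 / 8)) q v +
                  Hl P (s, x, v)) + dec ν P.t0 q * (csm P (s, x, v) + sec (ZZ P) q v)) = _
                ring
            _ ≤ 1 * sec (GS (1 / 8)) (0, x, 0) v + 1 * sec (GS (1 / 8)) (0, x, 0) v +
                dec (ν / 2) P.t0 q * (1 * sec (GS (1 / 8)) q v) +
                dec ν P.t0 q * sec (ZZ P) q v + 1 * c0 P (s, x, v) := by
                gcongr
                exacts [dec_le_one (by positivity) hs, dec_le_one hν.le hs, csm_le_c0 P _]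
            _ = _ := by ring
      _ ≤ _ := by
          rw [lintegral_add_left ((((hm _).const_mul _).fun_add ((hm _).const_mul _)).fun_add
              ((SrcM_meas (measurable_ZZ P) _).const_mul _)),
            lintegral_add_left (((hm _).const_mul _).fun_add ((hm _).const_mul _)),
            lintegral_add_left ((hm _).const_mul _), lintegral_const_mul _ (hm _),
            lintegral_const_mul _ (hm _), lintegral_const_mul _ (SrcM_meas (measurable_ZZ P) _)]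
          refine add_le_add_left (add_le_add (add_le_add (mul_le_mul_right ?_ _) ?_) ?_) _
          · have h2 := hG (0, x, 0) le_rfl (1 / 8) (by norm_num)
            simpa only [add_zero, one_pow, ENNReal.ofReal_one, mul_one] using h2
          · refine (mul_le_mul_right (hG q hs0 _ (by norm_num)) _).trans ?_
            rw [mul_left_comm]
            exact mul_le_mul_right (hd₁ _ q ht hs0) _
          · refine (mul_le_mul_right (hZ q hs0) _).trans ?_
            rw [one_mul]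
            exact hd₂ _ q ht hs0
  refine (lintegral_mono h1).trans ?_
  rw [lintegral_add_left measurable_const, setLIntegral_const, volume_cell, mul_one]
  exact add_le_add_right (n1_c0 hP s) _

end
end Crest.Agent.R68.LC2
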