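import Crest.Agent.R68.LateA

/-! # Row 68: late phase: auxiliary estimates for `KK_Ep` and `NN_envp` -/

set_option autoImplicit false
open MeasureTheory Set Filter Topology
open scoped ENNReal NNReal
open Crest.AnalysisR.VecCalc3 Crest.AnalysisR.PDE.Boltzmann

namespace Crest.Agent.R68
noncomputable section
namespace LC4

theorem lint_ftc {f F : ℝ → ℝ} {a t : ℝ} (hat : a ≤ t) (hF : ∀ x, HasDerivAt F (f x) x)
    (hf : Continuous f) (h0 : ∀ x, 0 ≤ f x) :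
    ∫⁻ s in Ioo a t, ENNReal.ofReal (f s) = ENNReal.ofReal (F t - F a) := by
  rw [← intervalIntegral.integral_eq_sub_of_hasDerivAt (fun x _ => hF x) (hf.intervalIntegrable a t),
    intervalIntegral.integral_of_le hat, integral_Ioc_eq_integral_Ioo,
    ofReal_integral_eq_lintegral_ofReal
      ((hf.integrableOn_Icc (a := a) (b := t)).mono_set Ioo_subset_Icc_self)
      (Eventually.of_forall h0)]

theorem one_le_jb (v : R3) : 1 ≤ jb v := by
  have := norm_nonneg v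
  show 1 ≤ 1 + ‖v‖
  linarith

theorem one_le_jb' (v : R3) : 1 ≤ ENNReal.ofReal (jb v) := ENNReal.one_le_ofReal.2 (one_le_jb v)

theorem meas_dmp (ν : ℝ) (p : Ph) : Measurable (dmp ν p) := by
  show Measurable fun s => ENNReal.ofReal (Real.exp (-(ν * jb p.2.2 * (p.1 - s))))
  fun_prop

theorem lint_dmp {ν : ℝ} (hν : 0 < ν) (a : ℝ) (p : Ph) (ha : a ≤ p.1) :
    ∫⁻ s in Ioo a p.1, dmp ν p s * ENNReal.ofReal (jb p.2.2) ≤ ENNReal.ofReal ν⁻¹ := by
  have hj := one_le_jb p.2.2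
  have e : ∀ s, dmp ν p s * ENNReal.ofReal (jb p.2.2) =
      ENNReal.ofReal (Real.exp (-(ν * jb p.2.2 * (p.1 - s))) * jb p.2.2) := fun s =>
    (ENNReal.ofReal_mul (Real.exp_pos _).le).symm
  simp only [e]
  rw [lint_ftc (F := fun s => Real.exp (-(ν * jb p.2.2 * (p.1 - s))) * ν⁻¹) ha ?_ (by fun_prop)
    (fun x => by positivity)]
  · refine ENNReal.ofReal_le_ofReal ?_
    have : 0 ≤ Real.exp (-(ν * jb p.2.2 * (p.1 - a))) * ν⁻¹ := by positivity
    simp only [sub_self, mul_zero, neg_zero, Real.exp_zero, one_mul]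
    linarith
  · intro x
    have h := ((((hasDerivAt_id x).const_sub p.1).const_mul (ν * jb p.2.2)).neg.exp).mul_const ν⁻¹
    refine h.congr_deriv ?_
    simp only [id, Pi.neg_apply]
    field_simp

theorem lint_dec {ν : ℝ} (hν : 0 < ν) (a : ℝ) (p : Ph) (ha : a ≤ p.1) :
    ∫⁻ s in Ioo a p.1, dec ν a (fl p s) ≤ ENNReal.ofReal ν⁻¹ := by
  show ∫⁻ s in Ioo a p.1, ENNReal.ofReal (Real.exp (-(ν * (s - a)))) ≤ _
  rw [lint_ftc (F := fun s => -(Real.exp (-(ν * (s - a))) * ν⁻¹)) ha ?_ (by fun_prop)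
    (fun x => by positivity)]
  · refine ENNReal.ofReal_le_ofReal ?_
    have : 0 ≤ Real.exp (-(ν * (p.1 - a))) * ν⁻¹ := by positivity
    simp only [sub_self, mul_zero, neg_zero, Real.exp_zero, one_mul]
    linarith
  · intro x
    have h := (((((hasDerivAt_id x).sub_const a).const_mul ν).neg.exp).mul_const ν⁻¹).neg
    refine h.congr_deriv ?_
    simp only [id, Pi.neg_apply]
    field_simp

theorem dec_le_one {ν a : ℝ} (hν : 0 ≤ ν) {q : Ph} (hq : a ≤ q.1) : dec ν a q ≤ 1 := by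
  show ENNReal.ofReal (Real.exp (-(ν * (q.1 - a)))) ≤ 1
  rw [ENNReal.ofReal_le_one, Real.exp_le_one_iff]
  have := mul_nonneg hν (sub_nonneg.2 hq)
  linarith

theorem dec_pow {ν : ℝ} (hν : 0 < ν) : ∃ C : ℝ≥0∞, C ≠ ⊤ ∧ ∀ (a : ℝ) (q : Ph), 0 ≤ a → a ≤ 1 →
    a ≤ q.1 → ∀ j ≤ 6, dec ν a q * ENNReal.ofReal ((1 + q.1) ^ j) ≤ C := by
  refine ⟨ENNReal.ofReal (Real.exp (2 * ν) * (720 / ν ^ 6)), ENNReal.ofReal_ne_top,
    fun a q h0 h1 hq j hj => ?_⟩
  show ENNReal.ofReal (Real.exp (-(ν * (q.1 - a)))) * _ ≤ _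
  rw [← ENNReal.ofReal_mul (Real.exp_pos _).le]
  refine ENNReal.ofReal_le_ofReal ?_
  have hs : 1 ≤ 1 + q.1 := by linarith
  have h2 : (1 + q.1) ^ j ≤ (1 + q.1) ^ 6 := pow_le_pow_right₀ hs hj
  have h3 := Real.pow_div_factorial_le_exp (ν * (1 + q.1)) (by positivity) 6
  have h4 : (1 + q.1) ^ 6 ≤ Real.exp (ν * (1 + q.1)) * (720 / ν ^ 6) := by
    have e : (1 + q.1) ^ 6 = (ν * (1 + q.1)) ^ 6 / (Nat.factorial 6 : ℕ) * (720 / ν ^ 6) := by
      simp only [Nat.factorial]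
      field_simp
      norm_num
    rw [e]
    exact mul_le_mul_of_nonneg_right h3 (by positivity)
  calc Real.exp (-(ν * (q.1 - a))) * (1 + q.1) ^ j
      ≤ Real.exp (-(ν * (q.1 - a))) * (Real.exp (ν * (1 + q.1)) * (720 / ν ^ 6)) :=
        mul_le_mul_of_nonneg_left (h2.trans h4) (Real.exp_pos _).le
    _ = Real.exp (-(ν * (q.1 - a)) + ν * (1 + q.1)) * (720 / ν ^ 6) := by
        rw [Real.exp_add]; ring
    _ ≤ _ := by
        refine mul_le_mul_of_nonneg_right (Real.exp_le_exp.2 ?_) (by positivity)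
        nlinarith

theorem dmp_dec {ν a : ℝ} (hν : 0 ≤ ν) (p : Ph) {s : ℝ} (hs : s ≤ p.1) :
    dmp ν p s * dec ν a (fl p s) ≤ dec ν a p := by
  show ENNReal.ofReal (Real.exp (-(ν * jb p.2.2 * (p.1 - s)))) *
    ENNReal.ofReal (Real.exp (-(ν * (s - a)))) ≤ ENNReal.ofReal (Real.exp (-(ν * (p.1 - a))))
  rw [← ENNReal.ofReal_mul (Real.exp_pos _).le, ← Real.exp_add]
  refine ENNReal.ofReal_le_ofReal (Real.exp_le_exp.2 ?_)
  have := mul_nonneg (mul_nonneg hν (sub_nonneg.2 hs)) (sub_nonneg.2 (one_le_jb p.2.2))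
  nlinarith

theorem dec_le_exp {ν a : ℝ} (hν : 0 ≤ ν) (ha : a ≤ 1) (p : Ph) :
    dec ν a p ≤ ENNReal.ofReal (Real.exp ν) *
      ENNReal.ofReal (Real.exp (-(ν * p.1)) * (1 + p.1) ^ 0) := by
  show ENNReal.ofReal (Real.exp (-(ν * (p.1 - a)))) ≤ _
  rw [← ENNReal.ofReal_mul (Real.exp_pos _).le, pow_zero, mul_one, ← Real.exp_add]
  refine ENNReal.ofReal_le_ofReal (Real.exp_le_exp.2 ?_)
  nlinarith

theorem Ga_anti {a b : ℝ} (h : a ≤ b) (v : R3) : Ga b v ≤ Ga a v := by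
  refine ENNReal.ofReal_le_ofReal (Real.exp_le_exp.2 ?_)
  have := mul_le_mul_of_nonneg_right h (sq_nonneg ‖v‖)
  linarith

theorem Ga_le_GS (a : ℝ) (p : Ph) : Ga a p.2.2 ≤ GS a p :=
  le_mul_of_one_le_right' (one_le_Sg p)

theorem mu_le_WW (p : Ph) : muF p ≤ WW p := (mu_le_Ga _).trans (Ga_anti (by norm_num) _)

theorem WW_le_GS (p : Ph) : WW p ≤ GS (1 / 8) p := Ga_le_GS _ p

theorem Hl_le_GS (P : Par) (p : Ph) : Hl P p ≤ GS (1 / 8) p := by
  refine le_trans ?_ ((mu_le_WW p).trans (WW_le_GS p))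
  show (if _ then _ else _) ≤ _
  split_ifs
  · exact le_rfl
  · exact zero_le

theorem leak_le (P : Par) {q : Ph} (hq : 0 ≤ q.1) : leak P q ≤ 2 * WW q := by
  show (if _ then _ else _) ≤ _
  split_ifs with h
  · have h0 : 0 ≤ ell q := by
      have := tn_nonneg q.2.1
      show 0 ≤ 8 * q.1 + tn q.2.1
      linarith
    have h1 : min 1 (ell q) ^ P.k3 ≤ 1 := pow_le_one₀ (le_min zero_le_one h0) (min_le_left _ _)
    have h2 : ‖q.2.2‖ ^ 2 ≤ 2 ^ 2 := pow_le_pow_left₀ (norm_nonneg _) h 2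
    have h3 := Real.add_one_le_exp (-(1 / 8 * ‖q.2.2‖ ^ 2))
    show _ ≤ 2 * ENNReal.ofReal (Real.exp (-(1 / 8 * ‖q.2.2‖ ^ 2)))
    rw [two_mul, ← ENNReal.ofReal_add (Real.exp_pos _).le (Real.exp_pos _).le]
    exact ENNReal.ofReal_le_ofReal (by linarith)
  · exact zero_le

theorem QF_cmul {F G : PF} (hF : Measurable F) (hG : Measurable G) (c d : ℝ≥0∞) (q : Ph) :
    QF (fun r => c * F r) (fun r => d * G r) q = c * d * QF F G q :=
  QF_mul_tx hF hG (fun _ => c) (fun _ => d) q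

theorem QF_cmul_right {F G : PF} (hF : Measurable F) (hG : Measurable G) (d : ℝ≥0∞) (q : Ph) :
    QF F (fun r => d * G r) q = d * QF F G q := by
  have h := QF_cmul hF hG 1 d q
  simp only [one_mul] at h
  exact h

theorem LF_cmul {F : PF} (hF : Measurable F) (c : ℝ≥0∞) (q : Ph) :
    LF (fun r => c * F r) q = c * LF F q :=
  LF_mul_tx hF (fun _ => c) q

theorem QF_sq {A B : PF} (hA : Measurable A) (hB : Measurable B) (q : Ph) :
    QF (fun r => A r + B r) (fun r => A r + B r) q = QF A A q + 2 * QF B A q + QF B B q := by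
  have hAB : Measurable fun r => A r + B r := hA.add hB
  rw [QF_add_left hA hAB, QF_add_right hA hA, QF_add_right hB hA, QF_comm hA hB]
  ring

theorem QF_WW : ∃ K : ℝ≥0∞, K ≠ ⊤ ∧ ∀ q : Ph,
    QF WW WW q ≤ K * ENNReal.ofReal (jb q.2.2) * WW q := by
  obtain ⟨C, hC, h⟩ := Qp_SgA_same
  refine ⟨C, hC, fun q => ?_⟩
  have h1 := h nn q.2.2 ∅ ∅ norm_nn (1 / 8) ⟨by norm_num, by norm_num⟩
  simp only [Finset.card_empty, Nat.cast_zero, add_zero, mul_one] at h1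
  have h2 : ∀ r : Ph, WW r ≤ Ga (1 / 8) r.2.2 * SgA nn ∅ r.2.2 := fun r =>
    le_mul_of_one_le_right' (le_add_right le_self_add)
  exact (QF_mono (F' := fun r => Ga (1 / 8) r.2.2 * SgA nn ∅ r.2.2)
    (G' := fun r => Ga (1 / 8) r.2.2 * SgA nn ∅ r.2.2) h2 h2 q).trans h1

theorem small {K η : ℝ≥0∞} (hK : K ≠ ⊤) (hη : 0 < η) : ∃ θ : ℝ≥0∞, 0 < θ ∧ K * θ ≤ η := by
  obtain ⟨θ, h0, h⟩ := ENNReal.exists_pos_mul_lt hK hη.ne'
  exact ⟨θ, h0, by rw [mul_comm]; exact h.le⟩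

theorem KB_expand (P : Par) (ν : ℝ) (η₁ : ℝ≥0∞) (q : Ph) :
    KB (Ep P ν η₁) q ≤
      η₁ * (2 * (dec (ν / 2) P.t0 q * QF (GS (1 / 2)) (GS (1 / 8)) q) +
        WW q * (dec (ν / 2) P.t0 q * LF (GS (1 / 8)) q)) +
      (2 * (dec (ν / 2) P.t0 q * QF (Hl P) (GS (1 / 8)) q) +
        WW q * (dec (ν / 2) P.t0 q * LF (Hl P) q)) +
      2 * (dec ν P.t0 q * QF (sZ P) (GS (1 / 8)) q + dec ν P.t0 q * (muF q * LF (sZ P) q)) := by
  set D := dec (ν / 2) P.t0 q with hD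
  set D' := dec ν P.t0 q with hD'
  have hG := measurable_GS (1 / 8)
  have hH := measurable_Hl P
  have hZ := measurable_sZ P
  have hM := measurable_muF
  have e : sec (Ep P ν η₁) q =
      sec (fun r => ((D * η₁) * GS (1 / 8) r + D * Hl P r) + D' * sZ P r) q := by
    funext η
    show D * (η₁ * GS (1 / 8) (q.1, q.2.1, η) + Hl P (q.1, q.2.1, η)) + D' * sZ P (q.1, q.2.1, η) =
      D * η₁ * GS (1 / 8) (q.1, q.2.1, η) + D * Hl P (q.1, q.2.1, η) + D' * sZ P (q.1, q.2.1, η)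
    ring
  have m1 : Measurable fun r => (D * η₁) * GS (1 / 8) r := hG.const_mul _
  have m2 : Measurable fun r => (D * η₁) * GS (1 / 8) r + D * Hl P r := m1.add (hH.const_mul _)
  have e1 : QF muF (Ep P ν η₁) q =
      D * η₁ * QF muF (GS (1 / 8)) q + D * QF (Hl P) muF q + D' * QF (sZ P) muF q := by
    have : QF muF (Ep P ν η₁) q =
        QF muF (fun r => ((D * η₁) * GS (1 / 8) r + D * Hl P r) + D' * sZ P r) q := by
      show Qp _ (sec (Ep P ν η₁) q) _ = Qp _ (sec _ q) _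
      rw [e]
    rw [this, QF_add_right hM m2, QF_add_right hM m1, QF_cmul_right hM hG, QF_cmul_right hM hH,
      QF_cmul_right hM hZ, QF_comm hM hH, QF_comm hM hZ]
  have e2 : LF (Ep P ν η₁) q =
      D * η₁ * LF (GS (1 / 8)) q + D * LF (Hl P) q + D' * LF (sZ P) q := by
    have : LF (Ep P ν η₁) q =
        LF (fun r => ((D * η₁) * GS (1 / 8) r + D * Hl P r) + D' * sZ P r) q := by
      show LL (sec (Ep P ν η₁) q) _ = LL (sec _ q) _
      rw [e]
    rw [this, LF_add m2, LF_add m1, LF_cmul hG, LF_cmul hH, LF_cmul hZ]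
  have hMG : muF ≤ GS (1 / 8) := fun r => (mu_le_WW r).trans (WW_le_GS r)
  have a1 : QF muF (GS (1 / 8)) q ≤ QF (GS (1 / 2)) (GS (1 / 8)) q :=
    QF_mono (fun r => (mu_le_Ga _).trans (Ga_le_GS _ r)) le_rfl q
  have a2 : QF (Hl P) muF q ≤ QF (Hl P) (GS (1 / 8)) q := QF_mono le_rfl hMG q
  have a3 : QF (sZ P) muF q ≤ QF (sZ P) (GS (1 / 8)) q := QF_mono le_rfl hMG q
  have a4 := mu_le_WW q
  show 2 * QF muF (Ep P ν η₁) q + muF q * LF (Ep P ν η₁) q ≤ _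
  rw [e1, e2]
  calc _ = η₁ * (2 * (D * QF muF (GS (1 / 8)) q) + muF q * (D * LF (GS (1 / 8)) q)) +
      (2 * (D * QF (Hl P) muF q) + muF q * (D * LF (Hl P) q)) +
      (2 * (D' * QF (sZ P) muF q) + D' * (muF q * LF (sZ P) q)) := by ring
    _ ≤ η₁ * (2 * (D * QF (GS (1 / 2)) (GS (1 / 8)) q) + WW q * (D * LF (GS (1 / 8)) q)) +
      (2 * (D * QF (Hl P) (GS (1 / 8)) q) + WW q * (D * LF (Hl P) q)) +
      (2 * (D' * QF (sZ P) (GS (1 / 8)) q) + 2 * (D' * (muF q * LF (sZ P) q))) := by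
        refine add_le_add (by gcongr) (add_le_add (by gcongr) ?_)
        rw [two_mul]; exact le_self_add
    _ = _ := by ring

theorem KK_Ep {ν : ℝ} (hν : 0 < ν)
    (hmed : ∀ η : ℝ≥0∞, 0 < η → ∀ᶠ P in parF, ∀ p : Ph, P.t0 ≤ p.1 →
    (∫⁻ s in Ioo P.t0 p.1, dmp ν p s * (dec ν P.t0 (fl p s) * QF (sZ P) (GS (1 / 8)) (fl p s))) +
      (∫⁻ s in Ioo P.t0 p.1, dmp ν p s * (dec ν P.t0 (fl p s) * (muF p * LF (sZ P) (fl p s)))) ≤
      η * (dec (ν / 2) P.t0 p * GS (1 / 8) p)) :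
    ∃ K : ℝ≥0∞, K ≠ ⊤ ∧ ∀ η : ℝ≥0∞, 0 < η → ∀ᶠ P in parF,
    ∀ η₁ : ℝ≥0∞, ∀ p : Ph, P.t0 ≤ p.1 →
    KK ν P.t0 (Ep P ν η₁) p ≤ (K * η₁ + η) * WW p + η * (dec (ν / 2) P.t0 p * GS (1 / 8) p) := by
  obtain ⟨K1, hK1, h1⟩ := src_GS_gap
  obtain ⟨K2, hK2, h2⟩ := LF_GS
  obtain ⟨C, hC, hdec⟩ := dec_pow (half_pos hν)
  set n := ENNReal.ofReal ν⁻¹ with hn
  have hn' : n ≠ ⊤ := ENNReal.ofReal_ne_top
  refine ⟨(2 * K1 + K2) * C * n, by finiteness, fun η hη => ?_⟩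
  obtain ⟨θ, hθ, hθη⟩ := small (K := (2 * C + 1) * n + 2) (by finiteness) hη
  filter_upwards [ev_basic, hmed θ hθ, src_Hl θ hθ] with P hP hm hH η₁ p hp
  set c := η₁ * ((2 * K1 + K2) * C) + (2 * C + 1) * θ with hc
  have ht0 := hP.t0_pos.le
  have ht1 : P.t0 ≤ 1 := hP.t0_le.trans (by norm_num)
  have hj := one_le_jb' p.2.2
  set J := ENNReal.ofReal (jb p.2.2) with hJ
  have key : ∀ s ∈ Ioo P.t0 p.1, dmp ν p s * KB (Ep P ν η₁) (fl p s) ≤
      dmp ν p s * J * (c * WW p) +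
      2 * (dmp ν p s * (dec ν P.t0 (fl p s) * QF (sZ P) (GS (1 / 8)) (fl p s)) +
        dmp ν p s * (dec ν P.t0 (fl p s) * (muF p * LF (sZ P) (fl p s)))) := by
    intro s hs
    have hs0 : P.t0 ≤ (fl p s).1 := hs.1.le
    have hs1 : 0 ≤ (fl p s).1 := ht0.trans hs0
    set D := dec (ν / 2) P.t0 (fl p s) with hD
    have b1 : D * QF (GS (1 / 2)) (GS (1 / 8)) (fl p s) ≤ K1 * C * J * WW p :=
      calc _ ≤ D * (K1 * ENNReal.ofReal ((1 + (fl p s).1) ^ 6) * WW p) :=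
            mul_le_mul_right (h1 (fl p s) hs1 (1 / 8) ⟨by norm_num, by norm_num⟩ (1 / 2)
              (by norm_num)) D
        _ = K1 * (D * ENNReal.ofReal ((1 + (fl p s).1) ^ 6)) * 1 * WW p := by ring
        _ ≤ _ := by gcongr; exact hdec _ _ ht0 ht1 hs0 6 le_rfl
    have b2 : D * LF (GS (1 / 8)) (fl p s) ≤ K2 * C * J :=
      calc _ ≤ D * (K2 * ENNReal.ofReal ((1 + (fl p s).1) ^ 3) * J) :=
            mul_le_mul_right (h2 (fl p s) hs1 (1 / 8) (by norm_num)) D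
        _ = K2 * (D * ENNReal.ofReal ((1 + (fl p s).1) ^ 3)) * J := by ring
        _ ≤ _ := by gcongr; exact hdec _ _ ht0 ht1 hs0 3 (by norm_num)
    have b3 : D * QF (Hl P) (GS (1 / 8)) (fl p s) ≤ θ * C * J * WW p :=
      calc _ ≤ D * (θ * ENNReal.ofReal ((1 + (fl p s).1) ^ 3) * WW p) :=
            mul_le_mul_right (hH (fl p s) hs0).1 D
        _ = θ * (D * ENNReal.ofReal ((1 + (fl p s).1) ^ 3)) * 1 * WW p := by ring
        _ ≤ _ := by gcongr; exact hdec _ _ ht0 ht1 hs0 3 (by norm_num)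
    have b4 : D * LF (Hl P) (fl p s) ≤ θ * J :=
      calc _ ≤ 1 * (θ * J) :=
            mul_le_mul' (dec_le_one (half_pos hν).le hs0) (hH (fl p s) hs0).2
        _ = _ := one_mul _
    refine (mul_le_mul_right (KB_expand P ν η₁ (fl p s)) _).trans ?_
    calc _ ≤ dmp ν p s * (η₁ * (2 * (K1 * C * J * WW p) + WW p * (K2 * C * J)) +
        (2 * (θ * C * J * WW p) + WW p * (θ * J)) +
        2 * (dec ν P.t0 (fl p s) * QF (sZ P) (GS (1 / 8)) (fl p s) +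
          dec ν P.t0 (fl p s) * (muF p * LF (sZ P) (fl p s)))) :=
          mul_le_mul_right (add_le_add (add_le_add
            (mul_le_mul_right (add_le_add (mul_le_mul_right b1 2) (mul_le_mul_right b2 _)) η₁)
            (add_le_add (mul_le_mul_right b3 2) (mul_le_mul_right b4 _))) le_rfl) _
      _ = _ := by rw [hc]; ring
  have mA : Measurable fun s => dmp ν p s * J := (meas_dmp ν p).mul_const _
  have mB : Measurable fun s =>
      dmp ν p s * (dec ν P.t0 (fl p s) * QF (sZ P) (GS (1 / 8)) (fl p s)) :=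
    (meas_dmp ν p).mul ((StabA.meas_fl (measurable_dec ν P.t0) p).mul
      (StabA.meas_fl ((posOp_QF (measurable_sZ P)).meas _ (measurable_GS _)) p))
  refine (setLIntegral_mono' measurableSet_Ioo key).trans ?_
  rw [lintegral_add_left (mA.mul_const _), lintegral_mul_const _ mA,
    lintegral_const_mul' _ _ (by norm_num), lintegral_add_left mB]
  calc _ ≤ n * (c * WW p) + 2 * (θ * (dec (ν / 2) P.t0 p * GS (1 / 8) p)) :=
        add_le_add (mul_le_mul_left (lint_dmp hν _ p hp) _) (mul_le_mul_right (hm p hp) 2)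
    _ = ((2 * K1 + K2) * C * n * η₁ + (2 * C + 1) * n * θ) * WW p +
        (2 * θ) * (dec (ν / 2) P.t0 p * GS (1 / 8) p) := by rw [hc]; ring
    _ ≤ _ := by
        gcongr
        · exact le_trans (by gcongr; exact le_self_add) hθη
        · exact le_trans (by gcongr; exact le_add_self) hθη

theorem QF_expand (P : Par) {ν : ℝ} (hν : 0 ≤ ν) {ε η₁ : ℝ≥0∞} (hε : ε ≤ 1) (hη : η₁ ≤ 1) (q : Ph)
    (hq : P.t0 ≤ q.1) :
    QF (envp P ν ε η₁) (envp P ν ε η₁) q ≤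
      (ε + η₁) ^ 2 * (QF WW WW q + dec (ν / 2) P.t0 q * QF (GS (1 / 8)) (GS (1 / 8)) q) +
      5 * (dec (ν / 2) P.t0 q * QF (Hl P) (GS (1 / 8)) q) +
      6 * (dec ν P.t0 q * QF (sZ P) (GS (1 / 8)) q) +
      dec ν P.t0 q * dec ν P.t0 q * QF (sZ P) (sZ P) q := by
  have hD1 : dec (ν / 2) P.t0 q ≤ 1 := dec_le_one (by linarith) hq
  set D := dec (ν / 2) P.t0 q with hD
  set D' := dec ν P.t0 q with hD'
  have hG := measurable_GS (1 / 8)
  have hH := measurable_Hl P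
  have hZ := measurable_sZ P
  have hW := measurable_WW
  have e : sec (envp P ν ε η₁) q = sec (fun r =>
      ((ε * WW r + (D * η₁) * GS (1 / 8) r) + D * Hl P r) + D' * sZ P r) q := by
    funext η
    show ε * WW (q.1, q.2.1, η) + (D * (η₁ * GS (1 / 8) (q.1, q.2.1, η) + Hl P (q.1, q.2.1, η)) +
        D' * sZ P (q.1, q.2.1, η)) =
      ε * WW (q.1, q.2.1, η) + D * η₁ * GS (1 / 8) (q.1, q.2.1, η) + D * Hl P (q.1, q.2.1, η) +
        D' * sZ P (q.1, q.2.1, η)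
    ring
  have m0 : Measurable fun r => ε * WW r := hW.const_mul _
  have m1 : Measurable fun r => (D * η₁) * GS (1 / 8) r := hG.const_mul _
  have m2 : Measurable fun r => D * Hl P r := hH.const_mul _
  have m3 : Measurable fun r => D' * sZ P r := hZ.const_mul _
  have m01 : Measurable fun r => ε * WW r + (D * η₁) * GS (1 / 8) r := m0.add m1
  have m012 : Measurable fun r => (ε * WW r + (D * η₁) * GS (1 / 8) r) + D * Hl P r := m01.add m2
  have l0 : ∀ r, ε * WW r ≤ GS (1 / 8) r := fun r =>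
    (mul_le_mul' hε (WW_le_GS r)).trans (one_mul _).le
  have l1 : ∀ r, (D * η₁) * GS (1 / 8) r ≤ GS (1 / 8) r := fun r =>
    mul_le_of_le_one_left' (mul_le_one' hD1 hη)
  have l2 : ∀ r, D * Hl P r ≤ GS (1 / 8) r := fun r =>
    (mul_le_mul' hD1 (Hl_le_GS P r)).trans (one_mul _).le
  have a1 : QF (fun r => D' * sZ P r)
      (fun r => (ε * WW r + (D * η₁) * GS (1 / 8) r) + D * Hl P r) q ≤
      D' * 3 * QF (sZ P) (GS (1 / 8)) q := by
    rw [← QF_cmul hZ hG]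
    refine QF_mono le_rfl (fun r => ?_) q
    calc _ ≤ GS (1 / 8) r + GS (1 / 8) r + GS (1 / 8) r :=
          add_le_add (add_le_add (l0 r) (l1 r)) (l2 r)
      _ = _ := by ring
  have a2 : QF (fun r => D * Hl P r) (fun r => ε * WW r + (D * η₁) * GS (1 / 8) r) q ≤
      D * 2 * QF (Hl P) (GS (1 / 8)) q := by
    rw [← QF_cmul hH hG]
    refine QF_mono le_rfl (fun r => ?_) q
    calc _ ≤ GS (1 / 8) r + GS (1 / 8) r := add_le_add (l0 r) (l1 r)
      _ = _ := by ring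
  have a3 : QF (fun r => D * Hl P r) (fun r => D * Hl P r) q ≤
      D * 1 * QF (Hl P) (GS (1 / 8)) q := by
    rw [← QF_cmul hH hG]
    exact QF_mono le_rfl (fun r => (l2 r).trans (one_mul _).ge) q
  have a4 : QF (GS (1 / 8)) WW q ≤ QF (GS (1 / 8)) (GS (1 / 8)) q := QF_mono le_rfl WW_le_GS q
  have e1 : QF (envp P ν ε η₁) (envp P ν ε η₁) q = QF (fun r =>
      ((ε * WW r + (D * η₁) * GS (1 / 8) r) + D * Hl P r) + D' * sZ P r) (fun r =>
      ((ε * WW r + (D * η₁) * GS (1 / 8) r) + D * Hl P r) + D' * sZ P r) q := by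
    show Qp (sec (envp P ν ε η₁) q) (sec (envp P ν ε η₁) q) _ = Qp (sec _ q) (sec _ q) _
    rw [e]
  rw [e1, QF_sq m012 m3, QF_sq m01 m2, QF_sq m0 m1, QF_cmul hW hW, QF_cmul hG hW, QF_cmul hG hG,
    QF_cmul hZ hZ]
  have a5 : ε * ε * QF WW WW q + 2 * (D * η₁ * ε * QF (GS (1 / 8)) WW q) +
      D * η₁ * (D * η₁) * QF (GS (1 / 8)) (GS (1 / 8)) q ≤
      (ε + η₁) ^ 2 * (QF WW WW q + D * QF (GS (1 / 8)) (GS (1 / 8)) q) :=
    calc _ ≤ ε * ε * QF WW WW q + 2 * (D * η₁ * ε * QF (GS (1 / 8)) (GS (1 / 8)) q) +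
        D * η₁ * (1 * η₁) * QF (GS (1 / 8)) (GS (1 / 8)) q := by gcongr
      _ ≤ _ + ((2 * ε * η₁ + η₁ ^ 2) * QF WW WW q +
          ε ^ 2 * (D * QF (GS (1 / 8)) (GS (1 / 8)) q)) := le_self_add
      _ = _ := by ring
  calc _ ≤ (ε + η₁) ^ 2 * (QF WW WW q + D * QF (GS (1 / 8)) (GS (1 / 8)) q) +
        2 * (D * 2 * QF (Hl P) (GS (1 / 8)) q) + D * 1 * QF (Hl P) (GS (1 / 8)) q +
        2 * (D' * 3 * QF (sZ P) (GS (1 / 8)) q) + D' * D' * QF (sZ P) (sZ P) q := by gcongr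
    _ = _ := by ring

theorem NN_envp {ν : ℝ} (hν : 0 < ν)
    (hmed : ∀ η : ℝ≥0∞, 0 < η → ∀ᶠ P in parF, ∀ p : Ph, P.t0 ≤ p.1 →
    (∫⁻ s in Ioo P.t0 p.1, dmp ν p s * (dec ν P.t0 (fl p s) * QF (sZ P) (GS (1 / 8)) (fl p s))) +
      (∫⁻ s in Ioo P.t0 p.1, dmp ν p s * (dec ν P.t0 (fl p s) * (muF p * LF (sZ P) (fl p s)))) ≤
      η * (dec (ν / 2) P.t0 p * GS (1 / 8) p)) :
    ∃ K : ℝ≥0∞, K ≠ ⊤ ∧ ∀ η : ℝ≥0∞, 0 < η → ∀ᶠ P in parF,
    ∀ ε η₁ : ℝ≥0∞, ε ≤ 1 → η₁ ≤ 1 → ∀ p : Ph, P.t0 ≤ p.1 →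
    NN ν P.t0 (envp P ν ε η₁) p ≤ (K * (ε + η₁) ^ 2 + η) * WW p +
      η * (dec (ν / 2) P.t0 p * GS (1 / 8) p) + η * (dec ν P.t0 p * ZZ P p) := by
  obtain ⟨K1, hK1, h1⟩ := QF_WW
  obtain ⟨K2, hK2, h2⟩ := src_GS_same
  obtain ⟨C, hC, hdec⟩ := dec_pow (half_pos hν)
  set n := ENNReal.ofReal ν⁻¹ with hn
  have hn' : n ≠ ⊤ := ENNReal.ofReal_ne_top
  set E := ENNReal.ofReal (Real.exp ν) with hE
  have hE' : E ≠ ⊤ := ENNReal.ofReal_ne_top
  refine ⟨(K1 + K2 * C) * n, by finiteness, fun η hη => ?_⟩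
  obtain ⟨θ, hθ, hθη⟩ := small (K := (5 * C + 2 + E) * n + 6 + n) (by finiteness) hη
  filter_upwards [ev_basic, hmed θ hθ, src_Hl θ hθ, thermal θ hθ, ev_Big_small hν 0 1 one_pos]
    with P hP hm hH hT hB ε η₁ hε hη₁ p hp
  set c := (ε + η₁) ^ 2 * (K1 + K2 * C) + (5 * C + 2) * θ with hc
  have ht0 := hP.t0_pos.le
  have ht1 : P.t0 ≤ 1 := hP.t0_le.trans (by norm_num)
  have hj := one_le_jb' p.2.2
  set J := ENNReal.ofReal (jb p.2.2) with hJ
  have hBig : dec ν P.t0 p * Big P p ≤ E * WW p :=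
    calc _ ≤ E * ENNReal.ofReal (Real.exp (-(ν * p.1)) * (1 + p.1) ^ 0) * Big P p :=
          mul_le_mul_left (dec_le_exp hν.le ht1 p) _
      _ ≤ E * (1 * Ga (1 / 2) p.2.2) := by
          rw [mul_assoc]; exact mul_le_mul_right (hB p (ht0.trans hp)) E
      _ ≤ _ := by rw [one_mul]; exact mul_le_mul_right (Ga_anti (by norm_num) _) E
  have key : ∀ s ∈ Ioo P.t0 p.1, dmp ν p s * QF (envp P ν ε η₁) (envp P ν ε η₁) (fl p s) ≤
      dmp ν p s * J * (c * WW p) +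
      (dec ν P.t0 (fl p s) * (θ * (dec ν P.t0 p * ZZ P p + E * WW p)) +
      6 * (dmp ν p s * (dec ν P.t0 (fl p s) * QF (sZ P) (GS (1 / 8)) (fl p s)))) := by
    intro s hs
    have hs0 : P.t0 ≤ (fl p s).1 := hs.1.le
    have hs1 : 0 ≤ (fl p s).1 := ht0.trans hs0
    have hD'1 : dec ν P.t0 (fl p s) ≤ 1 := dec_le_one hν.le hs0
    have hdd := dmp_dec (a := P.t0) hν.le p hs.2.le
    set D := dec (ν / 2) P.t0 (fl p s) with hD
    set D' := dec ν P.t0 (fl p s) with hD'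
    have b1 : QF WW WW (fl p s) ≤ K1 * J * WW p := h1 (fl p s)
    have b2 : D * QF (GS (1 / 8)) (GS (1 / 8)) (fl p s) ≤ K2 * C * J * WW p :=
      calc _ ≤ D * (K2 * ENNReal.ofReal ((1 + (fl p s).1) ^ 6) * J * WW p) :=
            mul_le_mul_right (h2 (fl p s) hs1 (1 / 8) ⟨by norm_num, by norm_num⟩) D
        _ = K2 * (D * ENNReal.ofReal ((1 + (fl p s).1) ^ 6)) * J * WW p := by ring
        _ ≤ _ := by gcongr; exact hdec _ _ ht0 ht1 hs0 6 le_rfl
    have b3 : D * QF (Hl P) (GS (1 / 8)) (fl p s) ≤ θ * C * J * WW p :=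
      calc _ ≤ D * (θ * ENNReal.ofReal ((1 + (fl p s).1) ^ 3) * WW p) :=
            mul_le_mul_right (hH (fl p s) hs0).1 D
        _ = θ * (D * ENNReal.ofReal ((1 + (fl p s).1) ^ 3)) * 1 * WW p := by ring
        _ ≤ _ := by gcongr; exact hdec _ _ ht0 ht1 hs0 3 (by norm_num)
    have b4 : QF (sZ P) (sZ P) (fl p s) ≤ θ * (ZZ P p + Big P p + 2 * WW p) :=
      (hT p s hs1 hs.2.le).trans (mul_le_mul_right (add_le_add le_rfl (leak_le P hs1)) θ)
    have b5 : dmp ν p s * (D' * D' * QF (sZ P) (sZ P) (fl p s)) ≤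
        D' * (θ * (dec ν P.t0 p * ZZ P p + E * WW p)) + dmp ν p s * J * (2 * θ * WW p) :=
      calc _ ≤ dmp ν p s * (D' * D' * (θ * (ZZ P p + Big P p + 2 * WW p))) := by gcongr
        _ = D' * (θ * (dmp ν p s * D' * ZZ P p + dmp ν p s * D' * Big P p)) +
            dmp ν p s * (D' * D' * 1) * (2 * θ * WW p) := by ring
        _ ≤ D' * (θ * (dec ν P.t0 p * ZZ P p + dec ν P.t0 p * Big P p)) +
            dmp ν p s * (1 * 1 * J) * (2 * θ * WW p) := by gcongr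
        _ ≤ _ := by
            rw [one_mul, one_mul]
            gcongr
    refine (mul_le_mul_right (QF_expand P hν.le hε hη₁ (fl p s) hs0) _).trans ?_
    rw [mul_add]
    calc _ ≤ dmp ν p s * ((ε + η₁) ^ 2 * (K1 * J * WW p + K2 * C * J * WW p) +
        5 * (θ * C * J * WW p) + 6 * (D' * QF (sZ P) (GS (1 / 8)) (fl p s))) +
        (D' * (θ * (dec ν P.t0 p * ZZ P p + E * WW p)) + dmp ν p s * J * (2 * θ * WW p)) :=
          add_le_add (mul_le_mul_right (add_le_add (add_le_add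
            (mul_le_mul_right (add_le_add b1 b2) _) (mul_le_mul_right b3 5)) le_rfl) _) b5
      _ = _ := by rw [hc]; ring
  have mA : Measurable fun s => dmp ν p s * J := (meas_dmp ν p).mul_const _
  have mB : Measurable fun s => dec ν P.t0 (fl p s) := StabA.meas_fl (measurable_dec ν P.t0) p
  refine (setLIntegral_mono' measurableSet_Ioo key).trans ?_
  rw [lintegral_add_left (mA.mul_const _), lintegral_mul_const _ mA,
    lintegral_add_left (mB.mul_const _), lintegral_mul_const _ mB,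
    lintegral_const_mul' _ _ (by norm_num)]
  calc _ ≤ n * (c * WW p) + (n * (θ * (dec ν P.t0 p * ZZ P p + E * WW p)) +
        6 * (θ * (dec (ν / 2) P.t0 p * GS (1 / 8) p))) :=
        add_le_add (mul_le_mul_left (lint_dmp hν _ p hp) _)
          (add_le_add (mul_le_mul_left (lint_dec hν _ p hp) _)
            (mul_le_mul_right (le_self_add.trans (hm p hp)) 6))
    _ = ((K1 + K2 * C) * n * (ε + η₁) ^ 2 + (5 * C + 2 + E) * n * θ) * WW p +
        (6 * θ) * (dec (ν / 2) P.t0 p * GS (1 / 8) p) + n * θ * (dec ν P.t0 p * ZZ P p) := by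
        rw [hc]; ring
    _ ≤ _ := by
        gcongr
        · exact le_trans (by gcongr; exact le_add_right le_self_add) hθη
        · exact le_trans (by gcongr; exact le_add_right le_add_self) hθη
        · exact le_trans (by gcongr; exact le_add_self) hθη

end LC4
end
end Crest.Agent.R68
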