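import Crest.Agent.R68.LateA

/-! # Row 68: late phase: the medium against a singular weight (for `late_medium`) -/

set_option autoImplicit false
open MeasureTheory Set Filter Topology
open scoped ENNReal NNReal
open Crest.AnalysisR.VecCalc3 Crest.AnalysisR.PDE.Boltzmann

namespace Crest.Agent.R68
noncomputable section
namespace LateM

theorem N_le (p : Ph) : npw (jb p.2.2) (1 / 2) * Sg p ≤ Sg p :=
  mul_le_of_le_one_left' (BaseB.npw_jb _)

theorem slab_le : ∃ K : ℝ≥0∞, K ≠ ⊤ ∧ ∀ (p : Ph) (r : ℝ), 0 ≤ p.1 → 0 < r →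
    volume {s : ℝ | s ∈ Ioo 0 p.1 ∧ fl p s ∈ slabS (3 * r)} *
        (npw (jb p.2.2) 1 + DS p ^ (8 / 9 : ℝ)) ≤
      ENNReal.ofReal ((1 + p.1) ^ 3) * ((K * ENNReal.ofReal r) ^ (1 / 36 : ℝ) * (5 * Sg p)) := by
  obtain ⟨K, hK, h⟩ := slab_time
  refine ⟨K * 3, ENNReal.mul_ne_top hK (by norm_num), fun p r ht hr => ?_⟩
  set A := volume {s : ℝ | s ∈ Ioo 0 p.1 ∧ fl p s ∈ slabS (3 * r)} with hA
  set T := ENNReal.ofReal ((1 + p.1) ^ 3) with hT
  set y := K * 3 * ENNReal.ofReal r * (ENNReal.ofReal (jb p.2.2) ^ (3 : ℝ) *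
      npw |x1 p.2.2| (1 / 4) ^ (4 : ℝ)) with hy
  have hA1 : A ≤ T * 1 := by
    refine (measure_mono (t := Ioo 0 p.1) fun s hs => hs.1).trans ?_
    rw [Real.volume_Ioo, sub_zero, mul_one]
    exact ENNReal.ofReal_le_ofReal ((le_add_of_nonneg_left zero_le_one).trans
      (le_self_pow₀ (le_add_of_nonneg_right ht) three_ne_zero))
  have hj := (BilB.jb_pos p.2.2).le
  have hA2 : A ≤ T * y := by
    refine (h p (3 * r) ht (by positivity)).trans_eq ?_
    have e1 : npw |x1 p.2.2| (1 / 4) ^ (4 : ℝ) = npw |x1 p.2.2| 1 := by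
      unfold npw
      rw [← ENNReal.rpow_mul]
      norm_num
    rw [hy, e1, ENNReal.ofReal_rpow_of_nonneg hj (by norm_num), ENNReal.ofReal_mul (by positivity),
      ENNReal.ofReal_mul (by positivity), ENNReal.ofReal_mul (by norm_num), ENNReal.ofReal_ofNat,
      ← Real.rpow_natCast (jb _), Nat.cast_ofNat]
    ring
  have hA3 : A ≤ T * y ^ (1 / 36 : ℝ) := by
    rcases le_total 1 y with h1 | h1
    · exact hA1.trans (mul_le_mul_right (ENNReal.one_le_rpow h1 (by norm_num)) _)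
    · refine hA2.trans (mul_le_mul_right ((ENNReal.rpow_one _).symm.trans_le ?_) _)
      exact ENNReal.rpow_le_rpow_of_exponent_ge h1 (by norm_num)
  have e : y ^ (1 / 36 : ℝ) = (K * 3 * ENNReal.ofReal r) ^ (1 / 36 : ℝ) *
      (ENNReal.ofReal (jb p.2.2) ^ (1 / 12 : ℝ) * npw |x1 p.2.2| (1 / 4) ^ (1 / 9 : ℝ)) := by
    rw [hy, ENNReal.mul_rpow_of_nonneg _ _ (by norm_num),
      ENNReal.mul_rpow_of_nonneg (_ ^ (3 : ℝ)) _ (by norm_num), ← ENNReal.rpow_mul,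
      ← ENNReal.rpow_mul]
    norm_num
  refine (mul_le_mul_left hA3 _).trans ?_
  rw [e, mul_assoc, mul_assoc]
  exact mul_le_mul_right (mul_le_mul_right ((Wb.core_le p).trans
    (mul_le_mul_right (N_le p) _)) _) _

theorem mu_J (v : R3) : mu v * ENNReal.ofReal (jb v) ≤
    ENNReal.ofReal (Real.exp 64) * (Ga (1 / 8) v * npw (jb v) 1) := by
  have h1 := BilB.jb_pow_Ga_le 2 (3 / 8) (by norm_num) v
  have h2 : ENNReal.ofReal (jb v) = ENNReal.ofReal (jb v ^ 2) * npw (jb v) 1 := by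
    rw [npw, ENNReal.rpow_neg_one, ENNReal.ofReal_pow (BilB.jb_pos v).le, sq, mul_assoc,
      ENNReal.mul_inv_cancel (Wb.J_ne v) ENNReal.ofReal_ne_top, mul_one]
  rw [show (16 * ((2 : ℕ) : ℝ) ^ 2) = 64 by norm_num] at h1
  calc _ ≤ Ga (1 / 8 + 3 / 8) v * ENNReal.ofReal (jb v) :=
        mul_le_mul_left ((mu_le_Ga v).trans_eq (by norm_num)) _
    _ = ENNReal.ofReal (jb v ^ 2) * Ga (3 / 8) v * (Ga (1 / 8) v * npw (jb v) 1) := by
        rw [BilA.Ga_add, h2]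
        ring
    _ ≤ _ := mul_le_mul_left h1 _

theorem dec_le {ν : ℝ} (hν : 0 < ν) (k : ℕ) : ∃ C : ℝ≥0∞, C ≠ ⊤ ∧ ∀ (a : ℝ) (p : Ph), a ≤ 1 →
    a ≤ p.1 → 0 ≤ p.1 → dec ν a p * ENNReal.ofReal ((1 + p.1) ^ k) ≤ C * dec (ν / 2) a p := by
  refine ⟨ENNReal.ofReal (k.factorial * Real.exp ν / (ν / 2) ^ k), ENNReal.ofReal_ne_top,
    fun a p ha hp h0 => ?_⟩
  rw [dec, dec, ← ENNReal.ofReal_mul (Real.exp_nonneg _), ← ENNReal.ofReal_mul (by positivity)]
  refine ENNReal.ofReal_le_ofReal ?_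
  have h1 := (div_le_iff₀' (by positivity)).1
    (Real.pow_div_factorial_le_exp (ν / 2 * (1 + p.1)) (by positivity) k)
  have h2 : Real.exp (-(ν * (p.1 - a))) * Real.exp (ν / 2 * (1 + p.1)) ≤
      Real.exp ν * Real.exp (-(ν / 2 * (p.1 - a))) := by
    rw [← Real.exp_add, ← Real.exp_add]
    exact Real.exp_le_exp.2 (by nlinarith)
  rw [div_mul_eq_mul_div, le_div_iff₀ (by positivity), mul_assoc, ← mul_pow, mul_comm (1 + p.1),
    mul_assoc]
  refine (mul_le_mul_of_nonneg_left h1 (Real.exp_nonneg _)).trans ?_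
  rw [mul_left_comm]
  exact mul_le_mul_of_nonneg_left h2 (by positivity)

theorem dmp_dec {ν : ℝ} (hν : 0 ≤ ν) (a : ℝ) (p : Ph) {s : ℝ} (hs : s ≤ p.1) :
    dmp ν p s * dec ν a (fl p s) ≤ dec ν a p := by
  rw [dmp, dec, dec, ← ENNReal.ofReal_mul (Real.exp_nonneg _), ← Real.exp_add]
  refine ENNReal.ofReal_le_ofReal (Real.exp_le_exp.2 ?_)
  have := mul_le_mul_of_nonneg_left (BilB.one_le_jb p.2.2) (mul_nonneg hν (sub_nonneg.2 hs))
  change _ + -(ν * (s - a)) ≤ _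
  linarith

theorem lint_le {p : Ph} {a r : ℝ} (ha : 0 ≤ a) {f : ℝ → ℝ≥0∞} {c₁ c₂ : ℝ≥0∞}
    (h : ∀ s ∈ Ioo a p.1, f s ≤ c₁ * (slabS r).indicator 1 (fl p s) + c₂) :
    ∫⁻ s in Ioo a p.1, f s ≤ c₁ * volume {s : ℝ | s ∈ Ioo 0 p.1 ∧ fl p s ∈ slabS r} +
      c₂ * ENNReal.ofReal p.1 := by
  have hS : MeasurableSet (fl p ⁻¹' slabS r) := PosA.measurable_fl' p (measurableSet_slabS _)
  calc _ ≤ ∫⁻ s in Ioo a p.1, (c₁ * (fl p ⁻¹' slabS r).indicator 1 s + c₂) :=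
        setLIntegral_mono' measurableSet_Ioo h
    _ ≤ ∫⁻ s in Ioo 0 p.1, (c₁ * (fl p ⁻¹' slabS r).indicator 1 s + c₂) :=
        lintegral_mono_set (Ioo_subset_Ioo_left ha)
    _ = _ := by
        rw [lintegral_add_right _ measurable_const,
          lintegral_const_mul _ (measurable_one.indicator hS), setLIntegral_const,
          lintegral_indicator_one hS, Measure.restrict_apply hS, inter_comm, Real.volume_Ioo,
          sub_zero]
        rfl

theorem point : ∃ K : ℝ≥0∞, K ≠ ⊤ ∧ ∀ η : ℝ≥0∞, 0 < η → ∀ᶠ P in parF, ∀ (p : Ph) (s : ℝ),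
    s ∈ Ioo P.t0 p.1 →
    QF (sZ P) (GS (1 / 8)) (fl p s) ≤ ENNReal.ofReal ((1 + p.1) ^ 8) * Ga (1 / 8) p.2.2 *
      (K * npw P.t0 1 * (npw (jb p.2.2) 1 + DS p ^ (8 / 9 : ℝ)) *
        (slabS (3 * P.r0)).indicator 1 (fl p s) + K * (ENNReal.ofReal P.r0 + η) * Sg p) ∧
    muF p * LF (sZ P) (fl p s) ≤ ENNReal.ofReal ((1 + p.1) ^ 8) * Ga (1 / 8) p.2.2 *
      (K * npw P.t0 1 * (npw (jb p.2.2) 1 + DS p ^ (8 / 9 : ℝ)) *
        (slabS (3 * P.r0)).indicator 1 (fl p s) + K * (ENNReal.ofReal P.r0 + η) * Sg p) := by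
  obtain ⟨K₁, hK₁, h₁⟩ := src_csm
  obtain ⟨K₂, hK₂, h₂⟩ := LF_csm
  set c := ENNReal.ofReal (Real.exp 64) with hc
  have hc' : c ≠ ⊤ := ENNReal.ofReal_ne_top
  refine ⟨(K₁ + 1) + c * (K₂ + 1), by finiteness, fun η hη => ?_⟩
  filter_upwards [ev_basic, src_ZZ η hη, LF_ZZ η hη] with P hP h₃ h₄ p s hs
  have hs0 := hP.t0_pos.trans hs.1
  have ha : (1 / 8 : ℝ) ∈ Icc (1 / 16 : ℝ) (1 / 4) := ⟨by norm_num, by norm_num⟩
  have a1 : ENNReal.ofReal ((1 + s) ^ 8) ≤ ENNReal.ofReal ((1 + p.1) ^ 8) :=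
    ENNReal.ofReal_le_ofReal (pow_le_pow_left₀ (by linarith) (by linarith [hs.2]) 8)
  have a2 : ENNReal.ofReal ((1 + s) ^ 3) ≤ ENNReal.ofReal ((1 + p.1) ^ 8) :=
    (ENNReal.ofReal_le_ofReal (pow_le_pow_right₀ (by linarith) (by norm_num))).trans a1
  have a3 : npw (ell (fl p s)) 1 ≤ npw P.t0 1 := by
    rw [npw, npw, ENNReal.rpow_neg_one, ENNReal.rpow_neg_one]
    refine ENNReal.inv_le_inv.2 (ENNReal.ofReal_le_ofReal ?_)
    change _ ≤ 8 * s + _
    linarith [tn_nonneg (fl p s).2.1, hs.1]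
  have a4 : npw (jb p.2.2) 1 + DS p ≤ Sg p := by
    simpa only [ENNReal.rpow_one] using SrcB.link_le p one_pos le_rfl
  have b1 := h₁ P hP p s hs0 hs.2.le _ ha
  have b2 := h₂ P hP (fl p s) hs0
  have b3 := h₃ p s hs0.le hs.2.le _ ha
  have b4 := h₄ (fl p s) hs0.le
  have b5 := mu_J p.2.2
  change _ ≤ _ * ENNReal.ofReal ((1 + s) ^ 3) * ENNReal.ofReal (jb p.2.2) * _ at b2
  change _ ≤ _ * ENNReal.ofReal ((1 + s) ^ 3) * ENNReal.ofReal (jb p.2.2) at b4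
  generalize (slabS (3 * P.r0)).indicator (1 : Ph → ℝ≥0∞) (fl p s) = I at *
  generalize ENNReal.ofReal ((1 + p.1) ^ 8) = T at *
  generalize Ga (1 / 8) p.2.2 = G at *
  generalize npw (jb p.2.2) 1 = N at *
  generalize npw P.t0 1 = E at *
  generalize ENNReal.ofReal P.r0 = r at *
  constructor
  · calc _ = _ := QF_add_left (measurable_csm P) (measurable_GS _) _
      _ ≤ K₁ * T * G * (I * E * (N + DS p ^ (8 / 9 : ℝ)) + r * Sg p) + η * T * G * Sg p :=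
          add_le_add (b1.trans (by gcongr)) (b3.trans (by gcongr))
      _ = T * G * (K₁ * E * (N + DS p ^ (8 / 9 : ℝ)) * I + (K₁ * r + 1 * η) * Sg p) := by ring
      _ ≤ _ := by
          rw [mul_add _ r]
          gcongr
          exacts [le_add_right le_self_add, le_add_right le_self_add, le_add_right le_add_self]
  · calc _ = mu p.2.2 * _ := congrArg _ (LF_add (measurable_csm P) _)
      _ ≤ mu p.2.2 * (K₂ * T * ENNReal.ofReal (jb p.2.2) * (I * E) +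
            η * T * ENNReal.ofReal (jb p.2.2)) :=
          mul_le_mul_right (add_le_add (b2.trans (by gcongr)) (b4.trans (by gcongr))) _
      _ = mu p.2.2 * ENNReal.ofReal (jb p.2.2) * (T * (K₂ * (I * E) + η)) := by ring
      _ ≤ c * (G * N) * (T * (K₂ * (I * E) + η)) := mul_le_mul_left b5 _
      _ = T * G * (c * K₂ * E * N * I + c * 1 * η * N) := by ring
      _ ≤ _ := by
          refine mul_le_mul_right (add_le_add ?_ ?_) _
          · gcongr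
            exacts [le_add_left (mul_le_mul_right le_self_add _), le_self_add]
          · gcongr
            exacts [le_add_left (mul_le_mul_right le_add_self _), le_add_self,
              le_self_add.trans a4]

theorem ev_small {C K : ℝ≥0∞} (hC : C ≠ ⊤) (hK : K ≠ ⊤) {η : ℝ≥0∞} (hη : 0 < η) :
    ∀ᶠ P in parF, C * (npw P.t0 1 * ((K * ENNReal.ofReal P.r0) ^ (1 / 36 : ℝ) * 5) +
      ENNReal.ofReal P.r0) ≤ η := by
  refine ev_r0 fun _ _ _ t _ _ _ ht _ => Tendsto.eventually ?_ (ge_mem_nhds hη)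
  have t0 : Tendsto (fun r : ℝ => ENNReal.ofReal r) (𝓝[>] 0) (𝓝 0) := by
    simpa using ENNReal.tendsto_ofReal (tendsto_id.mono_left (nhdsWithin_le_nhds (a := (0 : ℝ))
      (s := Ioi 0)))
  have a1 := ENNReal.Tendsto.const_mul (a := K) t0 (Or.inr hK)
  rw [mul_zero] at a1
  have a2 := (ENNReal.continuous_rpow_const (y := (1 / 36 : ℝ))).continuousAt.tendsto.comp a1
  rw [ENNReal.zero_rpow_of_pos (by norm_num)] at a2
  have a3 := ENNReal.Tendsto.const_mul (a := npw t 1)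
    (ENNReal.Tendsto.mul_const (b := 5) a2 (Or.inr (by norm_num)))
    (Or.inr (by rw [SrcA.npw_one_eq ht]; exact ENNReal.ofReal_ne_top))
  simpa using ENNReal.Tendsto.const_mul (a := C) (a3.add t0) (Or.inr hC)

theorem main {ν : ℝ} (hν : 0 < ν) (η : ℝ≥0∞) (hη : 0 < η) : ∀ᶠ P in parF, ∀ p : Ph,
    P.t0 ≤ p.1 →
    (∫⁻ s in Ioo P.t0 p.1, dmp ν p s * (dec ν P.t0 (fl p s) * QF (sZ P) (GS (1 / 8)) (fl p s))) +
      (∫⁻ s in Ioo P.t0 p.1, dmp ν p s * (dec ν P.t0 (fl p s) * (muF p * LF (sZ P) (fl p s)))) ≤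
      η * (dec (ν / 2) P.t0 p * GS (1 / 8) p) := by
  obtain ⟨K, hK, h₁⟩ := point
  obtain ⟨K', hK', h₂⟩ := slab_le
  obtain ⟨C, hC, h₃⟩ := dec_le hν 11
  have hCK : 2 * C * K ≠ ⊤ := by finiteness
  obtain ⟨θ, hθ, -, h₄⟩ := SrcHl.small hCK (ENNReal.half_pos hη.ne')
  filter_upwards [ev_basic, h₁ _ (ENNReal.ofReal_pos.2 hθ),
    ev_small hCK hK' (ENNReal.half_pos hη.ne')] with P hP h₁ h₅ p hp
  have h0 := hP.t0_pos.le.trans hp
  set T := ENNReal.ofReal ((1 + p.1) ^ 8) * Ga (1 / 8) p.2.2 with hT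
  set B := npw P.t0 1 * ((K' * ENNReal.ofReal P.r0) ^ (1 / 36 : ℝ) * 5) + ENNReal.ofReal P.r0
    with hB
  have key : ∀ g : ℝ → ℝ≥0∞, (∀ s ∈ Ioo P.t0 p.1, g s ≤ T *
      (K * npw P.t0 1 * (npw (jb p.2.2) 1 + DS p ^ (8 / 9 : ℝ)) *
        (slabS (3 * P.r0)).indicator 1 (fl p s) +
          K * (ENNReal.ofReal P.r0 + ENNReal.ofReal θ) * Sg p)) →
      ∫⁻ s in Ioo P.t0 p.1, dmp ν p s * (dec ν P.t0 (fl p s) * g s) ≤
        C * K * (B + ENNReal.ofReal θ) * (dec (ν / 2) P.t0 p * GS (1 / 8) p) := fun g hg => by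
    have a1 : ENNReal.ofReal p.1 ≤ ENNReal.ofReal ((1 + p.1) ^ 3) :=
      ENNReal.ofReal_le_ofReal ((le_add_of_nonneg_left zero_le_one).trans
        (le_self_pow₀ (le_add_of_nonneg_right h0) three_ne_zero))
    calc _ ≤ _ := lint_le (r := 3 * P.r0) hP.t0_pos.le
            (c₁ := dec ν P.t0 p * T * (K * npw P.t0 1 * (npw (jb p.2.2) 1 + DS p ^ (8 / 9 : ℝ))))
            (c₂ := dec ν P.t0 p * T * (K * (ENNReal.ofReal P.r0 + ENNReal.ofReal θ) * Sg p))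
            fun s hs => by
              rw [← mul_assoc]
              refine (mul_le_mul' (dmp_dec hν.le _ p hs.2.le) (hg s hs)).trans_eq ?_
              ring
      _ ≤ dec ν P.t0 p * T * (K * npw P.t0 1) * (ENNReal.ofReal ((1 + p.1) ^ 3) *
              ((K' * ENNReal.ofReal P.r0) ^ (1 / 36 : ℝ) * (5 * Sg p))) +
            dec ν P.t0 p * T * (K * (ENNReal.ofReal P.r0 + ENNReal.ofReal θ) * Sg p) *
              ENNReal.ofReal ((1 + p.1) ^ 3) := by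
          refine add_le_add (le_trans (le_of_eq ?_) (mul_le_mul_right (h₂ p _ h0 hP.r0_pos) _))
            (mul_le_mul_right a1 _)
          ring
      _ = dec ν P.t0 p * ENNReal.ofReal ((1 + p.1) ^ (8 + 3)) *
            (K * (B + ENNReal.ofReal θ) * (Ga (1 / 8) p.2.2 * Sg p)) := by
          rw [SrcB.ofReal_pow_add h0, hT, hB]
          ring
      _ ≤ C * dec (ν / 2) P.t0 p * (K * (B + ENNReal.ofReal θ) * GS (1 / 8) p) :=
          mul_le_mul_left (h₃ _ p (by linarith [hP.t0_le]) hp h0) _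
      _ = _ := by ring
  refine (add_le_add (key _ fun s hs => (h₁ p s hs).1) (key _ fun s hs => (h₁ p s hs).2)).trans ?_
  rw [← add_mul, ← ENNReal.add_halves η]
  refine mul_le_mul_left (le_trans (le_of_eq ?_) (add_le_add h₅ h₄)) _
  ring

end LateM
end
end Crest.Agent.R68
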