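import Crest.Agent.R68.LateA
import Crest.Agent.R68.LateCAuxM
import Crest.Agent.R68.LateCAux1
import Crest.Agent.R68.LateCAux2
import Crest.Agent.R68.LateCAuxK

/-! # Row 68: late phase: perturbation of the Maxwellian -/

set_option autoImplicit false
open MeasureTheory Set Filter Topology
open scoped ENNReal NNReal
open Crest.AnalysisR.VecCalc3 Crest.AnalysisR.PDE.Boltzmann

namespace Crest.Agent.R68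
noncomputable section

/-- backward form of `lint_L_ex` -/
theorem lint_ex_L (L : ℝ → ℝ≥0∞) (hL : Measurable L) (a t : ℝ) (hfin : ∫⁻ τ in Ioo a t, L τ ≠ ⊤) :
    ex (∫⁻ τ in Ioo a t, L τ) + ∫⁻ s in Ioo a t, ex (∫⁻ τ in Ioo s t, L τ) * L s = 1 :=
  LC1.lint_ex_L L hL a t hfin

/-- With `d = ddF f muF`: `QF f f ≤ μ L[μ] + 2 QF μ d + QF d d` (`Qp_mu_mu`), `L[μ] ≤ L[f] + L[d]`,
`μ μ' ≤ f f' + μ d' + d μ'` (use `min f μ`), `L[f] ≤ L[μ] + L[d]`, `lint_ex_L`, and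
`ex (Lam f p s) ≤ dmp ν p s ≤ e^{-ν(t-s)}`. -/
theorem Duh_vs_mu {a ν : ℝ} (hν : 0 ≤ ν) {f D : PF} (hf : Measurable f) (p : Ph) (ha : a ≤ p.1)
    (hL : ∀ s ∈ Ioo a p.1, ENNReal.ofReal (ν * jb p.2.2) ≤ LF f (fl p s)) (hfin : Lam f p a ≠ ⊤) :
    Duh a f D 0 p ≤ muF p + ((D (fl p a) - muF p) * dec ν a p + KK ν a (ddF f muF) p +
        NN ν a (ddF f muF) p) ∧
      muF p ≤ Duh a f D 0 p + ((muF p - D (fl p a)) * dec ν a p + KK ν a (ddF f muF) p) :=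
  LC1.Duh_vs_mu hν hf p ha hL hfin

/-- `LL_mu_ge`; `L[μ] ≤ L[clL f] + L[envm]`, `LF_GS`, `src_Hl`, `sup (1+s)³ e^{-ν(s-t0)/2} < ∞`. -/
theorem LF_clL_ge : ∃ ν : ℝ, 0 < ν ∧ ν ≤ 1 ∧ ∃ e : ℝ≥0∞, 0 < e ∧ e ≤ 1 ∧ ∀ᶠ P in parF,
    ∀ ε η₁ : ℝ≥0∞, ε ≤ e → η₁ ≤ e → ∀ f : PF, Measurable f → ∀ q : Ph, P.t0 ≤ q.1 →
      ENNReal.ofReal (ν * jb q.2.2) ≤ LF (clL P ν ε η₁ f) q :=
  LC2.LF_clL_ge

theorem Lam_clL_ne_top {ν : ℝ} (hν : 0 ≤ ν) : ∀ᶠ P in parF, ∀ ε η₁ : ℝ≥0∞, ε ≤ 1 → η₁ ≤ 1 →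
    ∀ (f : PF) (p : Ph), Lam (clL P ν ε η₁ f) p P.t0 ≠ ⊤ :=
  LC2.Lam_clL_ne_top hν

/-- `Qp_Ga_gen` / `src_GS_gap` and `LF_GS`-type bounds: `KB WW ≤ K WW` -/
theorem KB_WW : ∃ K : ℝ≥0∞, K ≠ ⊤ ∧ ∀ q : Ph, KB WW q ≤ K * WW q :=
  LC2.KB_WW

/-- damped time integral of the medium against a singular weight: `src_csm` (`ell ≥ 8 t0`), `src_ZZ`;
`∫ e^{-ν(t-s)} e^{-ν(s-t0)} (1+s)^k 1_slab ds ≤ e^{-ν(t-t0)} (1+t)^k min t |slab times|`, `slab_time` with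
`min t x ≤ (1+t) x^{1/36}`, Young as in `TT_wb`, `e^{-ν τ/2} (1+t)^m ≤ C`. -/
theorem late_medium {ν : ℝ} (hν : 0 < ν) (η : ℝ≥0∞) (hη : 0 < η) : ∀ᶠ P in parF, ∀ p : Ph,
    P.t0 ≤ p.1 →
    (∫⁻ s in Ioo P.t0 p.1, dmp ν p s * (dec ν P.t0 (fl p s) * QF (sZ P) (GS (1 / 8)) (fl p s))) +
      (∫⁻ s in Ioo P.t0 p.1, dmp ν p s * (dec ν P.t0 (fl p s) * (muF p * LF (sZ P) (fl p s)))) ≤
      η * (dec (ν / 2) P.t0 p * GS (1 / 8) p) :=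
  LateM.main hν η hη

theorem KK_Ep {ν : ℝ} (hν : 0 < ν) : ∃ K : ℝ≥0∞, K ≠ ⊤ ∧ ∀ η : ℝ≥0∞, 0 < η → ∀ᶠ P in parF,
    ∀ η₁ : ℝ≥0∞, ∀ p : Ph, P.t0 ≤ p.1 →
    KK ν P.t0 (Ep P ν η₁) p ≤ (K * η₁ + η) * WW p + η * (dec (ν / 2) P.t0 p * GS (1 / 8) p) :=
  LC4.KK_Ep hν (late_medium hν)

/-- expand `envp = A + B`, `A = ε W + dec (η₁ GS + Hl)`, `B = dec sZ`: `QF A A` by `src_GS_same`
(the factor `⟨v⟩` is absorbed by `dmp`; for `QF WW WW` use `Qp_SgA_same` with `S = ∅`) and `src_Hl`;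
`QF B A ≤ 3 dec QF sZ GS` (`late_medium`); `QF B B` by `thermal`, `ev_Big_small`, `leak ≤ 2 W`. -/
theorem NN_envp {ν : ℝ} (hν : 0 < ν) : ∃ K : ℝ≥0∞, K ≠ ⊤ ∧ ∀ η : ℝ≥0∞, 0 < η → ∀ᶠ P in parF,
    ∀ ε η₁ : ℝ≥0∞, ε ≤ 1 → η₁ ≤ 1 → ∀ p : Ph, P.t0 ≤ p.1 →
    NN ν P.t0 (envp P ν ε η₁) p ≤ (K * (ε + η₁) ^ 2 + η) * WW p +
      η * (dec (ν / 2) P.t0 p * GS (1 / 8) p) + η * (dec ν P.t0 p * ZZ P p) :=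
  LC4.NN_envp hν (late_medium hν)

/-- `moment_GS`, `mass_csm` (`ell ≥ 8 t0` is not uniform: use instead `lint_cell_ch` and the mass of the
datum, or `mass_csm` with `volume (slab) ≤ K r0`), `mass_ZZ`. -/
theorem n1_envp {ν : ℝ} (hν : 0 < ν) : ∃ K : ℝ≥0∞, K ≠ ⊤ ∧ ∀ᶠ P in parF,
    ∀ ε η₁ : ℝ≥0∞, ε ≤ 1 → η₁ ≤ 1 → ∀ s : ℝ, P.t0 ≤ s → n1 (envp P ν ε η₁) s ≤ K :=
  LC2.n1_envp hν

end
end Crest.Agent.R68
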