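import Crest.Agent.R68.Core

/-! # Row 68: the cold medium, the weights and the parameters -/

set_option autoImplicit false
open MeasureTheory Set Filter Topology
open scoped ENNReal NNReal
open Crest.AnalysisR.VecCalc3 Crest.AnalysisR.PDE.Boltzmann

namespace Crest.Agent.R68
noncomputable section

/-! ### fixed numerical constants -/

/-- column density of the medium -/
def cC : ℝ := 10 ^ 13
/-- optical depth parameter of one growth step -/
def cM : ℝ := 10 ^ 7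
/-- expansion speed -/
def ca : ℝ := 1 / 10 ^ 8
/-- explicit upper density constant -/
def cK2 : ℝ := 10 ^ 28
/-- threshold between slow and fast collisions -/
def cd : ℝ := 1 / 10 ^ 30
/-- good velocities: `cθ ⟨v⟩ ≤ |v₁|` -/
def cθ : ℝ := 1 / 10 ^ 37
/-- core region: `cθ' ℓ ≤ |x₁|` -/
def cθ' : ℝ := 1 / 10 ^ 46
/-- logarithmic period of the lanes -/
def cH : ℝ := 1 / 10 ^ 47
/-- aspect ratio of the support -/
def cK : ℝ := 10 ^ 47

/-- `2^{1/3}` -/
def al : ℝ := (2 : ℝ) ^ (1 / 3 : ℝ)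
/-- badly approximable unit normal -/
def nn : R3 := dir (WithLp.toLp 2 ![1, al, al ^ 2])
/-- streaming direction, orthogonal to `nn` -/
def ee : R3 := dir (WithLp.toLp 2 ![al, -1, 0])

/-! ### parameters -/

/-- the free parameters, chosen in the order of the fields -/
structure Par where
  k2 : ℕ
  k3 : ℕ
  cs : ℝ
  t0 : ℝ
  d0 : ℝ
  R : ℝ
  r0 : ℝ

/-- "for all sufficiently large `k2`, then `k3`, then small `cs`, `t0`, `d0`, large `R`, small `r0`" -/
def parF : Filter Par where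
  sets := {s | ∀ᶠ k2 in (atTop : Filter ℕ), ∀ᶠ k3 in (atTop : Filter ℕ), ∀ᶠ cs in 𝓝[>] (0 : ℝ),
    ∀ᶠ t0 in 𝓝[>] (0 : ℝ), ∀ᶠ d0 in 𝓝[>] (0 : ℝ), ∀ᶠ R in (atTop : Filter ℝ),
      ∀ᶠ r0 in 𝓝[>] (0 : ℝ), (⟨k2, k3, cs, t0, d0, R, r0⟩ : Par) ∈ s}
  univ_sets := by simp
  sets_of_superset := fun h hst => h.mono fun _ h => h.mono fun _ h => h.mono fun _ h =>
    h.mono fun _ h => h.mono fun _ h => h.mono fun _ h => h.mono fun _ h => hst h
  inter_sets := fun h1 h2 => (h1.and h2).mono fun _ h => (h.1.and h.2).mono fun _ h =>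
    (h.1.and h.2).mono fun _ h => (h.1.and h.2).mono fun _ h => (h.1.and h.2).mono fun _ h =>
    (h.1.and h.2).mono fun _ h => (h.1.and h.2).mono fun _ h => ⟨h.1, h.2⟩

theorem eventually_parF {p : Par → Prop} : (∀ᶠ P in parF, p P) ↔
    ∀ᶠ k2 in (atTop : Filter ℕ), ∀ᶠ k3 in (atTop : Filter ℕ), ∀ᶠ cs in 𝓝[>] (0 : ℝ),
    ∀ᶠ t0 in 𝓝[>] (0 : ℝ), ∀ᶠ d0 in 𝓝[>] (0 : ℝ), ∀ᶠ R in (atTop : Filter ℝ),
      ∀ᶠ r0 in 𝓝[>] (0 : ℝ), p ⟨k2, k3, cs, t0, d0, R, r0⟩ := Iff.rfl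

instance : parF.NeBot := by
  refine ⟨fun h => ?_⟩
  have h0 : ∀ᶠ _P in parF, False := by rw [h]; exact eventually_bot
  rw [eventually_parF] at h0
  obtain ⟨_, h0⟩ := h0.exists
  obtain ⟨_, h0⟩ := h0.exists
  obtain ⟨_, h0⟩ := h0.exists
  obtain ⟨_, h0⟩ := h0.exists
  obtain ⟨_, h0⟩ := h0.exists
  obtain ⟨_, h0⟩ := h0.exists
  obtain ⟨_, h0⟩ := h0.exists
  exact h0

/-- a property of `k2` alone -/
theorem ev_k2 {p : ℕ → Prop} (h : ∀ᶠ k in atTop, p k) : ∀ᶠ P in parF, p P.k2 :=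
  eventually_parF.2 <| h.mono fun _ h => .of_forall fun _ => .of_forall fun _ => .of_forall fun _ =>
    .of_forall fun _ => .of_forall fun _ => .of_forall fun _ => h

theorem ev_k3 {p : ℕ → ℕ → Prop} (h : ∀ k2, ∀ᶠ k in atTop, p k2 k) : ∀ᶠ P in parF, p P.k2 P.k3 :=
  eventually_parF.2 <| .of_forall fun k2 => (h k2).mono fun _ h => .of_forall fun _ =>
    .of_forall fun _ => .of_forall fun _ => .of_forall fun _ => .of_forall fun _ => h

theorem ev_cs {p : ℕ → ℕ → ℝ → Prop} (h : ∀ k2 k3, ∀ᶠ c in 𝓝[>] (0 : ℝ), p k2 k3 c) :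
    ∀ᶠ P in parF, p P.k2 P.k3 P.cs :=
  eventually_parF.2 <| .of_forall fun k2 => .of_forall fun k3 => (h k2 k3).mono fun _ h =>
    .of_forall fun _ => .of_forall fun _ => .of_forall fun _ => .of_forall fun _ => h

theorem ev_t0 {p : ℕ → ℕ → ℝ → ℝ → Prop}
    (h : ∀ k2 k3 cs, 0 < cs → ∀ᶠ t in 𝓝[>] (0 : ℝ), p k2 k3 cs t) :
    ∀ᶠ P in parF, p P.k2 P.k3 P.cs P.t0 :=
  eventually_parF.2 <| .of_forall fun k2 => .of_forall fun k3 =>
    (self_mem_nhdsWithin : Ioi (0 : ℝ) ∈ _) |> Filter.Eventually.mono <| fun cs hcs =>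
      (h k2 k3 cs hcs).mono fun _ h => .of_forall fun _ => .of_forall fun _ => .of_forall fun _ => h

theorem ev_d0 {p : ℕ → ℕ → ℝ → ℝ → ℝ → Prop}
    (h : ∀ k2 k3 cs t0, 0 < cs → 0 < t0 → ∀ᶠ d in 𝓝[>] (0 : ℝ), p k2 k3 cs t0 d) :
    ∀ᶠ P in parF, p P.k2 P.k3 P.cs P.t0 P.d0 :=
  eventually_parF.2 <| .of_forall fun k2 => .of_forall fun k3 =>
    (self_mem_nhdsWithin : Ioi (0 : ℝ) ∈ _) |> Filter.Eventually.mono <| fun cs hcs =>
    (self_mem_nhdsWithin : Ioi (0 : ℝ) ∈ _) |> Filter.Eventually.mono <| fun t0 ht0 =>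
      (h k2 k3 cs t0 hcs ht0).mono fun _ h => .of_forall fun _ => .of_forall fun _ => h

theorem ev_R {p : ℝ → Prop} (h : ∀ᶠ R in atTop, p R) : ∀ᶠ P in parF, p P.R :=
  eventually_parF.2 <| .of_forall fun _ => .of_forall fun _ => .of_forall fun _ =>
    .of_forall fun _ => .of_forall fun _ => h.mono fun _ h => .of_forall fun _ => h

/-- a property that holds for small `r0`, all the other parameters being fixed (and positive) -/
theorem ev_r0 {p : Par → Prop}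
    (h : ∀ k2 k3 cs t0 d0 R, 0 < cs → 0 < t0 → 0 < d0 →
      ∀ᶠ r in 𝓝[>] (0 : ℝ), p ⟨k2, k3, cs, t0, d0, R, r⟩) : ∀ᶠ P in parF, p P :=
  eventually_parF.2 <| .of_forall fun k2 => .of_forall fun k3 =>
    (self_mem_nhdsWithin : Ioi (0 : ℝ) ∈ _) |> Filter.Eventually.mono <| fun cs hcs =>
    (self_mem_nhdsWithin : Ioi (0 : ℝ) ∈ _) |> Filter.Eventually.mono <| fun t0 ht0 =>
    (self_mem_nhdsWithin : Ioi (0 : ℝ) ∈ _) |> Filter.Eventually.mono <| fun d0 hd0 =>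
      .of_forall fun R => h k2 k3 cs t0 d0 R hcs ht0 hd0

/-- number of thermal levels -/
def Par.N (P : Par) : ℕ := P.k3 + 20
/-- labels above `rstar t` are "big" at time `t` -/
def Par.rstar (P : Par) (t : ℝ) : ℝ := P.cs / (1 + t) ^ 2
/-- scale at which the neutron weight steepens -/
def Par.s1 (P : Par) : ℝ := P.r0 / 1000
/-- observation scale -/
def Par.top (P : Par) : ℝ := P.r0 / 10

/-- elementary inequalities between the parameters -/
structure Par.Basic (P : Par) : Prop where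
  k2_ge : 4000 ≤ P.k2
  k3_ge : 4 * P.k2 + 10000 ≤ P.k3
  cs_pos : 0 < P.cs
  cs_le : P.cs ≤ 1 / 100
  cs_small : 8 ^ (P.N + 2) * P.cs ^ 3 ≤ cH / 10 ^ 4
  t0_pos : 0 < P.t0
  t0_le : P.t0 ≤ 1 / 100
  t0_small : 16 * (P.k3 : ℝ) * √P.t0 ≤ 1 / 16
  d0_pos : 0 < P.d0
  d0_le : P.d0 ≤ 1 / 100
  R_ge : 2 < P.R
  r0_pos : 0 < P.r0
  r0_K : cK * P.r0 ≤ 1 / 1000
  r0_cs : 100 * P.r0 ≤ P.cs
  r0_d0 : 10 * cK * P.r0 ≤ P.d0
  r0_t0 : P.r0 ≤ P.t0

/-! ### geometry of the medium -/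

/-- sign of a stream -/
def sg (b : Bool) : ℝ := if b then 1 else -1
/-- coordinate along the normal -/
def x1 (y : R3) : ℝ := inner ℝ nn y
/-- in-plane component -/
def pr (y : R3) : R3 := y - x1 y • nn
/-- in-plane position relative to the moving tip -/
def XX (b : Bool) (t : ℝ) (x : R3) : R3 := pr x - (sg b * t) • ee
/-- expansion radius -/
def MM (b : Bool) (t : ℝ) (x : R3) : ℝ := max ‖XX b t x‖ (|x1 x| + ca * t)
/-- velocity field of stream `b` -/
def uu (b : Bool) (t : ℝ) (x : R3) : R3 := sg b • ee + (ca / MM b t x) • XX b t x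
/-- phase of `ξ` in the logarithmic period -/
def phase (b : Bool) (ξ : ℝ) : ℝ := Int.fract (Real.log |ξ| / cH - if b then 0 else 1 / 2)
/-- lanes -/
def lane (b : Bool) (ξ : ℝ) : Prop := ξ ≠ 0 ∧ phase b ξ ≤ 1 / 4
/-- inner part of the lanes -/
def laneIn (b : Bool) (ξ : ℝ) : Prop := ξ ≠ 0 ∧ 1 / 16 ≤ phase b ξ ∧ phase b ξ ≤ 3 / 16
/-- labels of stream `b` -/
def SS (r0 : ℝ) (b : Bool) : Set R3 := {y | lane b (x1 y) ∧ |x1 y| ≤ r0 ∧ ‖pr y‖ ≤ cK * |x1 y|}
/-- peculiar velocity at time `t` of the particle with label `y` and velocity `v` -/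
def ww (b : Bool) (t : ℝ) (y v : R3) : R3 := v - uu b t (y + t • v)
/-- label (foot of the characteristic, reduced modulo the lattice) -/
def lbl (p : Ph) : R3 := red (p.2.1 - p.1 • p.2.2)

open Classical in
/-- initial density of stream `b` -/
def cold0 (P : Par) (b : Bool) (y v : R3) : ℝ≥0∞ :=
  if y ∈ SS P.r0 b ∧ ‖v - uu b 0 y‖ ≤ x1 y ^ 4 then ENNReal.ofReal (cC / (MM b 0 y * x1 y ^ 12)) else 0

/-- the freely transported medium -/
def c0 (P : Par) : PF := fun p => ∑ b : Bool, cold0 P b (lbl p) p.2.2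

/-- its part with small labels -/
def csm (P : Par) : PF := fun p => if |x1 (lbl p)| ≤ P.rstar p.1 then c0 P p else 0

/-- the velocity section at time `t` and lifted position `x` of one stream with small labels -/
def csec (P : Par) (b : Bool) (t : ℝ) (x : R3) (η : R3) : ℝ≥0∞ :=
  if |x1 (x - t • η)| ≤ P.rstar t then cold0 P b (x - t • η) η else 0

/-- thermal level sets -/
def Lev (P : Par) (b : Bool) (j : ℕ) (t : ℝ) (y v : R3) : Prop :=
  x1 y ≠ 0 ∧ |x1 y| ≤ P.rstar t ∧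
    Metric.infDist y (SS P.r0 b) ≤ (1 + t) * (4 * 8 ^ j) * x1 y ^ 4 ∧
    ‖ww b t y v‖ ≤ (4 * 8 ^ j) * x1 y ^ 4

open Classical in
/-- thermal envelope of stream `b` in label variables -/
def zed0 (P : Par) (b : Bool) (t : ℝ) (y v : R3) : ℝ≥0∞ :=
  ∑ j ∈ Finset.Icc 1 P.N,
    if Lev P b j t y v then ENNReal.ofReal (cC * |x1 y| ^ (2 * j) / |x1 y| ^ 13) else 0

/-- thermal envelope -/
def ZZ (P : Par) : PF := fun p => ∑ b : Bool, zed0 P b p.1 (lbl p) p.2.2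

/-- singular weight of the debris comoving with stream `b` -/
def DD (b : Bool) : PF := fun p =>
  if ‖lbl p‖ ≤ 1 / 4 ∧ ‖ww b p.1 (lbl p) p.2.2‖ ≤ 1 then npw ‖ww b p.1 (lbl p) p.2.2‖ (3 / 2) else 0

/-- both streams -/
def DS : PF := fun p => ∑ b : Bool, DD b p

/-- singular weight -/
def Sg : PF := fun p => 1 + npw |x1 p.2.2| (1 / 4) + DS p

/-- Gaussian times singular weight -/
def GS (a : ℝ) : PF := fun p => Ga a p.2.2 * Sg p

open Classical in
/-- the centres of the point singularities at `(t, z)` -/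
def Cs (t : ℝ) (z : R3) : Finset R3 :=
  ((Finset.univ : Finset Bool) ×ˢ img (1 + 3 * t) z).image (fun bm => uu bm.1 t (z - lat bm.2))

/-- causal scale (periodic) -/
def ell (p : Ph) : ℝ := 8 * p.1 + tn p.2.1
/-- causal scale (on the whole space) -/
def elN (p : Ph) : ℝ := 8 * p.1 + ‖p.2.1‖
/-- parabolic scale -/
def lst (p : Ph) : ℝ := p.1 ^ (3 / 4 : ℝ) + tn p.2.1

/-- slabs of half-width `ϱ` around the lattice points that the medium can reach -/
def slabS (ϱ : ℝ) : Set Ph :=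
  {p | ∃ m : Fin 3 → ℤ, ‖p.2.1 - lat m‖ ≤ 1 + 2 * p.1 ∧ |x1 (p.2.1 - lat m)| ≤ ϱ}

/-- bounded remainder made of big labels (only at very late times) -/
def Big (P : Par) : PF := fun p =>
  if P.rstar p.1 < 2 * P.r0 ∧ ‖p.2.2‖ ≤ 3 then
    ENNReal.ofReal (2 * (P.N + 1) * cC / P.rstar p.1 ^ 13) else 0

/-- leak out of the last thermal level -/
def leak (P : Par) : PF := fun p =>
  if ‖p.2.2‖ ≤ 2 then ENNReal.ofReal (min 1 (ell p) ^ P.k3) else 0

/-- time dependent Gaussian exponent -/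
def aT (K : ℕ) (t : ℝ) : ℝ := 1 / 4 - 16 * (K : ℝ) * √t

/-- admissible amplitudes -/
def Adm (K : ℕ) (ω : ℝ → ℝ≥0∞) : Prop :=
  Measurable ω ∧ MonotoneOn ω (Ici 0) ∧
    ∀ u, 0 ≤ u → ∀ l : ℝ, 1 ≤ l → ω (l * u) ≤ ENNReal.ofReal (l ^ K) * ω u

/-- power amplitude -/
def pw (k : ℕ) (u : ℝ) : ℝ≥0∞ := ENNReal.ofReal (u ^ k)
/-- background amplitude -/
def wbF (P : Par) (u : ℝ) : ℝ≥0∞ := ENNReal.ofReal (min (u / P.d0) 1 ^ P.k3)
/-- neutron amplitude -/
def wnF (P : Par) (u : ℝ) : ℝ≥0∞ :=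
  ENNReal.ofReal (P.s1 ^ P.k2) * pw 2400 u + ENNReal.ofReal (P.s1 ^ 2400) * pw P.k2 u
/-- total amplitude -/
def omF (P : Par) (b : ℝ≥0∞) (u : ℝ) : ℝ≥0∞ := 2 * wbF P u + b * wnF P u

/-- early weight -/
def YY (P : Par) : PF := fun p => Ga (aT P.k3 p.1) p.2.2 * Sg p
/-- amplitude times early weight -/
def wY (P : Par) (ω : ℝ → ℝ≥0∞) : PF := fun p => ω (lst p) * YY P p

/-- background datum, freely transported -/
def g0 (P : Par) : PF := fun p =>
  if ‖p.2.2‖ < P.R ∧ P.d0 < tn (p.2.1 - p.1 • p.2.2) then mu p.2.2 else 0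
/-- the datum, freely transported -/
def F0 (P : Par) : PF := fun p => c0 P p + g0 P p
/-- the hole of the background -/
def Hl (P : Par) : PF := fun p => if tn (p.2.1 - p.1 • p.2.2) ≤ P.d0 then mu p.2.2 else 0

/-- medium plus thermal envelope -/
def cZ (P : Par) : PF := fun p => c0 P p + ZZ P p
/-- small labels plus thermal envelope -/
def sZ (P : Par) : PF := fun p => csm P p + ZZ P p
/-- early envelope -/
def env (P : Par) (b : ℝ≥0∞) : PF := fun p => c0 P p + ZZ P p + wY P (omF P b) p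
/-- weight for early differences -/
def Gh (P : Par) (b : ℝ≥0∞) : PF := fun p =>
  ENNReal.ofReal √p.1 * c0 P p + ZZ P p + wY P (omF P b) p
/-- the linear multiplication operator (without damping) -/
def TT (P : Par) (f : PF) : PF := Ia 0 (fun q => 2 * QF (c0 P) f q)

/-- restriction to the early time interval -/
def cut (P : Par) (f : PF) : PF := fun p => if p.1 ∈ Icc 0 P.t0 then f p else 0

/-- the non-cold part of a solution -/
def gp (P : Par) (β F : PF) : PF := Duh 0 F (g0 P) β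

/-- early solutions with source `β` and neutron coefficient `b ∈ {0, 1}` -/
structure ESol (P : Par) (b : ℝ≥0∞) (β F : PF) : Prop where
  meas : Measurable F
  per : Per F
  zero : ∀ p : Ph, p.1 ∉ Icc 0 P.t0 → F p = 0
  eq : ∀ p : Ph, p.1 ∈ Icc 0 P.t0 → F p = Duh 0 F (F0 P) β p
  bd : ∀ p : Ph, p.1 ∈ Icc 0 P.t0 →
    gp P β F p ≤ 3 / 4 * ZZ P p + 3 / 2 * wY P (wbF P) p + b / 4 * wY P (wnF P) p

/-- seeds -/
def seed (τ α : ℝ) : PF := fun p =>
  if p.1 ∈ Icc τ (2 * τ) ∧ tn p.2.1 ≤ 4 * τ ∧ ‖p.2.2 - nn‖ ≤ 1 / 4 then ENNReal.ofReal (α / τ) else 0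

/-- the neutron population is visible -/
def Wit (P : Par) (β F : PF) : Prop := ∃ p : Ph, p.1 ∈ Icc 0 P.t0 ∧
  1 / 2 * ZZ P p + 3 / 2 * wY P (wbF P) p + 1 / 5 * wY P (wnF P) p < gp P β F p

/-- good velocities -/
def good (v : R3) : Prop := cθ * jb v ≤ |x1 v|

/-- weight of all births -/
def XiA (p : Ph) : ℝ≥0∞ := if 0 < p.1 then ENNReal.ofReal ((elN p ^ 3600)⁻¹) else 0

open Classical in
/-- weight of good births -/
def Xi (p : Ph) : ℝ≥0∞ := if good p.2.2 then XiA p else 0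

/-- weighted number of good births below scale `s` -/
def JJ (B : PF) (s : ℝ) : ℝ≥0∞ := ∫⁻ p in {p : Ph | elN p ≤ s}, B p * Xi p
/-- weighted number of good births in the window `(s, 2s]` -/
def Jw (B : PF) (s : ℝ) : ℝ≥0∞ := ∫⁻ p in {p : Ph | s < elN p ∧ elN p ≤ 2 * s}, B p * Xi p
/-- weighted number of all births below scale `s` -/
def JA (B : PF) (s : ℝ) : ℝ≥0∞ := ∫⁻ p in {p : Ph | elN p ≤ s}, B p * XiA p

end
end Crest.Agent.R68
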