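import Crest.Agent.R68.Flow

/-! # Row 68: auxiliary lemmas for the second part of `MedBasic` -/

set_option autoImplicit false
open MeasureTheory Set Filter Topology
open scoped ENNReal NNReal
open Crest.AnalysisR.VecCalc3 Crest.AnalysisR.PDE.Boltzmann

namespace Crest.Agent.R68.MB
noncomputable section

theorem npw_anti {x y γ : ℝ} (hγ : 0 ≤ γ) (h : x ≤ y) : npw y γ ≤ npw x γ := by
  show ENNReal.ofReal y ^ (-γ) ≤ ENNReal.ofReal x ^ (-γ)
  rw [ENNReal.rpow_neg, ENNReal.rpow_neg]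
  exact ENNReal.inv_le_inv.2 (ENNReal.rpow_le_rpow (ENNReal.ofReal_le_ofReal h) hγ)

theorem npw_one (γ : ℝ) : npw 1 γ = 1 := by
  show ENNReal.ofReal 1 ^ (-γ) = 1
  rw [ENNReal.ofReal_one, ENNReal.one_rpow]

theorem npw_ne_top {x : ℝ} (hx : 0 < x) (γ : ℝ) : npw x γ ≠ ⊤ := by
  show ENNReal.ofReal x ^ (-γ) ≠ ⊤
  rw [ENNReal.ofReal_rpow_of_pos hx]
  exact ENNReal.ofReal_ne_top

theorem npw_three {x y : ℝ} (h : y ≤ 3 * x) : npw x (3 / 2) ≤ 11 / 2 * npw y (3 / 2) := by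
  have h1 : npw x (3 / 2) = ENNReal.ofReal ((3 : ℝ) ^ (3 / 2 : ℝ)) * npw (3 * x) (3 / 2) := by
    show ENNReal.ofReal x ^ (-(3 / 2 : ℝ)) = _ * ENNReal.ofReal (3 * x) ^ (-(3 / 2 : ℝ))
    rw [ENNReal.ofReal_mul (by norm_num), ENNReal.mul_rpow_of_ne_top ENNReal.ofReal_ne_top
      ENNReal.ofReal_ne_top, ← mul_assoc, ENNReal.ofReal_rpow_of_pos (x := 3) (by norm_num),
      ← ENNReal.ofReal_mul (by positivity), ← Real.rpow_add (by norm_num), add_neg_cancel,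
      Real.rpow_zero, ENNReal.ofReal_one, one_mul]
  have h2 : (3 : ℝ) ^ (3 / 2 : ℝ) ≤ 11 / 2 := by
    refine le_of_pow_le_pow_left₀ two_ne_zero (by norm_num) ?_
    rw [← Real.rpow_natCast, ← Real.rpow_mul (by norm_num)]
    norm_num
  have h3 : ENNReal.ofReal (11 / 2) = 11 / 2 := by
    rw [ENNReal.ofReal_div_of_pos (by norm_num)]
    norm_num
  rw [h1, ← h3]
  exact mul_le_mul' (ENNReal.ofReal_le_ofReal h2) (npw_anti (by norm_num) h)

theorem DD_eq (b : Bool) (p : Ph) : DD b p =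
    if ‖lbl p‖ ≤ 1 / 4 ∧ ‖ww b p.1 (lbl p) p.2.2‖ ≤ 1 then npw ‖ww b p.1 (lbl p) p.2.2‖ (3 / 2)
    else 0 := rfl

theorem DS_eq (p : Ph) : DS p = DD true p + DD false p := Fintype.sum_bool _

theorem Sg_eq (p : Ph) : Sg p = 1 + npw |x1 p.2.2| (1 / 4) + DS p := rfl

theorem DD_eq_zero_or (b : Bool) (p : Ph) : DD b p = 0 ∨ (1 ≤ DD b p ∧ ‖p.2.2‖ ≤ 3) := by
  rw [DD_eq]
  split_ifs with h
  · refine Or.inr ⟨(npw_one _).symm.trans_le (npw_anti (by norm_num) h.2), ?_⟩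
    linarith [norm_le_ww b p.1 (lbl p) p.2.2, h.2]
  · exact Or.inl rfl

theorem DD_fl_le (b : Bool) (p : Ph) {s : ℝ} (hs : 0 ≤ s) (hst : s ≤ p.1)
    (hl : lbl (fl p s) = lbl p) : DD b (fl p s) ≤ 11 / 2 * (1 + DD b p) := by
  rw [DD_eq b (fl p s), hl]
  split_ifs with h
  · refine (npw_three (ww_flight b hs hst (lbl p) p.2.2)).trans (mul_le_mul_right ?_ _)
    rw [DD_eq]
    split_ifs with h'
    · exact le_add_self
    · have h1 : 1 ≤ ‖ww b p.1 (lbl p) p.2.2‖ := le_of_not_ge fun h1 => h' ⟨h.1, h1⟩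
      rw [add_zero]
      exact (npw_anti (by norm_num) h1).trans_eq (npw_one _)
  · exact zero_le

theorem Sg_fl_le (p : Ph) {s : ℝ} (hs : 0 ≤ s) (hst : s ≤ p.1) (hl : lbl (fl p s) = lbl p) :
    Sg (fl p s) ≤ 12 * Sg p := by
  have e : (11 / 2 : ℝ≥0∞) + 11 / 2 = 11 := ENNReal.add_halves 11
  have e' : (11 / 2 : ℝ≥0∞) ≤ 12 := ENNReal.half_le_self.trans (by norm_num)
  rw [Sg_eq, Sg_eq, DS_eq, DS_eq]
  calc _ ≤ 1 + npw |x1 p.2.2| (1 / 4) + (11 / 2 * (1 + DD true p) + 11 / 2 * (1 + DD false p)) :=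
        add_le_add_right (add_le_add (DD_fl_le true p hs hst hl) (DD_fl_le false p hs hst hl)) _
    _ = 1 + (11 / 2 + 11 / 2) + 1 * npw |x1 p.2.2| (1 / 4) + 11 / 2 * (DD true p + DD false p) := by
        ring
    _ ≤ 12 + 12 * npw |x1 p.2.2| (1 / 4) + 12 * (DD true p + DD false p) := by
        rw [e]
        gcongr <;> norm_num
    _ = _ := by ring

theorem exists_lbl (t : ℝ) (z ζ : R3) : ∃ m : Fin 3 → ℤ, lbl (t, z, ζ) + t • ζ = z - lat m ∧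
    ∀ b, ww b t (lbl (t, z, ζ)) ζ = ζ - uu b t (z - lat m) := by
  obtain ⟨m, hm⟩ := exists_red_eq (z - t • ζ)
  have h : lbl (t, z, ζ) + t • ζ = z - lat m := by
    rw [show lbl (t, z, ζ) = red (z - t • ζ) from rfl, hm]
    abel
  exact ⟨m, h, fun b => by rw [← h]; rfl⟩

theorem DD_le_sum {t : ℝ} (ht : 0 ≤ t) (z ζ : R3) (b : Bool) :
    DD b (t, z, ζ) ≤ ∑ c ∈ Cs t z, sing c ζ := by
  classical
  obtain ⟨m, h1, h2⟩ := exists_lbl t z ζ
  rw [DD_eq]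
  split_ifs with h
  · have h3 : ‖ζ‖ ≤ 3 := by linarith [norm_le_ww b t (lbl (t, z, ζ)) ζ, h.2]
    have h4 : ‖z - lat m‖ ≤ 1 + 3 * t := by
      rw [← h1]
      refine (norm_add_le _ _).trans ?_
      rw [norm_smul, Real.norm_of_nonneg ht]
      nlinarith [h.1]
    have h5 : uu b t (z - lat m) ∈ Cs t z := by
      unfold Cs
      exact Finset.mem_image.2 ⟨(b, m), Finset.mem_product.2 ⟨Finset.mem_univ _, mem_img h4⟩, rfl⟩
    refine le_trans (le_of_eq ?_) (Finset.single_le_sum (f := fun c => sing c ζ)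
      (fun _ _ => zero_le) h5)
    have h6 := h.2
    rw [show ww b (t, z, ζ).1 (lbl (t, z, ζ)) (t, z, ζ).2.2 = _ from h2 b] at h6 ⊢
    exact (if_pos h6).symm
  · exact zero_le

theorem card_Cs_le {t : ℝ} (ht : 0 ≤ t) (z : R3) :
    (1 : ℝ≥0∞) + (Cs t z).card ≤ 500 * ENNReal.ofReal ((1 + t) ^ 3) := by
  classical
  have h1 : (Cs t z).card ≤ 2 * (img (1 + 3 * t) z).card := by
    unfold Cs
    refine Finset.card_image_le.trans (le_of_eq ?_)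
    rw [Finset.card_product, Finset.card_univ, Fintype.card_bool]
  have h2 : ((Cs t z).card : ℝ) ≤ 2 * (img (1 + 3 * t) z).card := by exact_mod_cast h1
  have h3 := card_img_le (ϱ := 1 + 3 * t) (by positivity) z
  have h4 : (2 * (1 + 3 * t) + 1) ^ 3 ≤ (6 * (1 + t)) ^ 3 :=
    pow_le_pow_left₀ (by positivity) (by linarith) 3
  have h5 : 1 ≤ (1 + t) ^ 3 := one_le_pow₀ (by linarith)
  have h6 : 1 + ((Cs t z).card : ℝ) ≤ 500 * (1 + t) ^ 3 := by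
    rw [mul_pow] at h4
    linarith
  have h7 := ENNReal.ofReal_le_ofReal h6
  rwa [ENNReal.ofReal_add zero_le_one (Nat.cast_nonneg _), ENNReal.ofReal_one,
    ENNReal.ofReal_natCast, ENNReal.ofReal_mul (by norm_num), ENNReal.ofReal_ofNat] at h7

theorem ae_x1_ne : ∀ᵐ η : R3, x1 η ≠ 0 := by
  have h := Measure.addHaar_submodule (volume : Measure R3) (ℝ ∙ nn)ᗮ (fun h => by
    have h1 : nn ∈ (ℝ ∙ nn)ᗮ := h ▸ Submodule.mem_top
    have h2 : x1 nn = 0 := Submodule.mem_orthogonal_singleton_iff_inner_right.1 h1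
    rw [x1_nn] at h2
    exact one_ne_zero h2)
  exact (measure_eq_zero_iff_ae_notMem.1 h).mono fun η hη e =>
    hη (Submodule.mem_orthogonal_singleton_iff_inner_right.2 e)

theorem finSec_Sg : FinSec Sg := by
  intro s z
  have h1 : ∀ᵐ η : R3, ∀ bm : Bool × (Fin 3 → ℤ), η ≠ uu bm.1 s (z - lat bm.2) :=
    ae_all_iff.2 fun bm => Measure.ae_ne _ _
  filter_upwards [h1, ae_x1_ne] with η h2 h3
  obtain ⟨m, -, h4⟩ := exists_lbl s z η
  have h5 : ∀ b, DD b (s, z, η) ≠ ⊤ := fun b => by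
    rw [DD_eq]
    split_ifs
    · refine npw_ne_top (norm_pos_iff.2 ?_) _
      rw [show ww b (s, z, η).1 (lbl (s, z, η)) (s, z, η).2.2 = _ from h4 b]
      exact sub_ne_zero.2 (h2 (b, m))
    · exact ENNReal.zero_ne_top
  rw [Sg_eq, DS_eq]
  exact ENNReal.add_ne_top.2 ⟨ENNReal.add_ne_top.2 ⟨ENNReal.one_ne_top,
    npw_ne_top (abs_pos.2 h3) _⟩, ENNReal.add_ne_top.2 ⟨h5 _, h5 _⟩⟩

theorem wY_ne_top (P : Par) {b : ℝ≥0∞} (hb : b ≠ ⊤) {p : Ph} (h : Sg p ≠ ⊤) :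
    wY P (omF P b) p ≠ ⊤ :=
  ENNReal.mul_ne_top (ENNReal.add_ne_top.2
    ⟨ENNReal.mul_ne_top ENNReal.ofNat_ne_top ENNReal.ofReal_ne_top,
      ENNReal.mul_ne_top hb (ENNReal.add_ne_top.2
        ⟨ENNReal.mul_ne_top ENNReal.ofReal_ne_top ENNReal.ofReal_ne_top,
          ENNReal.mul_ne_top ENNReal.ofReal_ne_top ENNReal.ofReal_ne_top⟩)⟩)
    (ENNReal.mul_ne_top ENNReal.ofReal_ne_top h)

theorem le_rpow {x : ℝ} (h0 : 0 ≤ x) (h1 : x ≤ 1) : x ≤ x ^ (3 / 4 : ℝ) :=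
  (Real.rpow_one x).symm.trans_le
    (Real.rpow_le_rpow_of_exponent_ge' h0 h1 (by norm_num) (by norm_num))

theorem adm_add {K : ℕ} {ω ω' : ℝ → ℝ≥0∞} (h : Adm K ω) (h' : Adm K ω') :
    Adm K fun u => ω u + ω' u :=
  ⟨h.1.add h'.1, h.2.1.add h'.2.1, fun u hu l hl => by
    rw [mul_add]
    exact add_le_add (h.2.2 u hu l hl) (h'.2.2 u hu l hl)⟩

theorem adm_mul {K : ℕ} {ω : ℝ → ℝ≥0∞} (h : Adm K ω) (c : ℝ≥0∞) : Adm K fun u => c * ω u :=
  ⟨h.1.const_mul c, fun _ hu _ hv huv => mul_le_mul_right (h.2.1 hu hv huv) c, fun u hu l hl => by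
    rw [mul_left_comm]
    exact mul_le_mul_right (h.2.2 u hu l hl) c⟩

theorem adm_pw {K k : ℕ} (h : k ≤ K) : Adm K (pw k) :=
  ⟨(measurable_id.pow_const k).ennreal_ofReal,
    fun _ hu _ _ huv => ENNReal.ofReal_le_ofReal (pow_le_pow_left₀ hu huv k), fun u hu l hl => by
      refine le_trans (ENNReal.ofReal_le_ofReal ?_) (ENNReal.ofReal_mul (by positivity)).le
      rw [mul_pow]
      exact mul_le_mul_of_nonneg_right (pow_le_pow_right₀ hl h) (pow_nonneg hu k)⟩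

theorem adm_wbF {P : Par} (hd : 0 < P.d0) : Adm P.k3 (wbF P) :=
  ⟨(((measurable_id.div_const P.d0).min measurable_const).pow_const P.k3).ennreal_ofReal,
    fun _ hu _ _ huv => ENNReal.ofReal_le_ofReal (pow_le_pow_left₀
      (le_min (div_nonneg hu hd.le) zero_le_one)
      (min_le_min_right _ (div_le_div_of_nonneg_right huv hd.le)) _), fun u hu l hl => by
      refine le_trans (ENNReal.ofReal_le_ofReal ?_) (ENNReal.ofReal_mul (by positivity)).le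
      rw [← mul_pow]
      refine pow_le_pow_left₀ (le_min (by positivity) zero_le_one) ?_ _
      rw [mul_min_of_nonneg _ _ (by linarith), mul_one, mul_div_assoc]
      exact min_le_min_left _ hl⟩

theorem wnF_eq (P : Par) (u : ℝ) : wnF P u = ENNReal.ofReal (P.s1 ^ P.k2) *
    ENNReal.ofReal (u ^ 2400) + ENNReal.ofReal (P.s1 ^ 2400) * ENNReal.ofReal (u ^ P.k2) := rfl

theorem s1_pos {P : Par} (h : 0 < P.r0) : 0 < P.s1 := div_pos h (by norm_num)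

theorem wb_real {u A d s : ℝ} {k n a : ℕ} (hu : 0 ≤ u) (hA : u ≤ A) (hd : 0 < d) (hs : 0 < s) :
    min (u / d) 1 ^ (k + n) ≤ A ^ n / (d ^ (k + n) * s ^ a) * (s ^ a * u ^ k) := by
  calc _ ≤ (u / d) ^ (k + n) :=
        pow_le_pow_left₀ (le_min (by positivity) zero_le_one) (min_le_left _ _) _
    _ = u ^ n / (d ^ (k + n) * s ^ a) * (s ^ a * u ^ k) := by
        rw [div_pow, pow_add u]
        field_simp
    _ ≤ _ := by gcongr

theorem wbF_le {P : Par} (hd : 0 < P.d0) (hr : 0 < P.r0) {n : ℕ} (hn : P.k3 = P.k2 + n) {u A : ℝ}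
    (hu : 0 ≤ u) (hA : u ≤ A) :
    wbF P u ≤ ENNReal.ofReal (A ^ n / (P.d0 ^ P.k3 * P.s1 ^ 2400)) * wnF P u := by
  have hs := s1_pos hr
  have hA0 : 0 ≤ A := hu.trans hA
  refine le_trans ?_ (mul_le_mul_right (le_add_self.trans_eq (wnF_eq P u).symm) _)
  rw [← ENNReal.ofReal_mul (pow_nonneg hs.le _), ← ENNReal.ofReal_mul
    (div_nonneg (pow_nonneg hA0 _) (mul_nonneg (pow_nonneg hd.le _) (pow_nonneg hs.le _)))]
  refine ENNReal.ofReal_le_ofReal ?_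
  rw [hn]
  exact wb_real hu hA hd hs

theorem ev_small {f : ℝ → ℝ} (hf : Continuous f) (h0 : f 0 = 0) {η : ℝ≥0∞} (hη : 0 < η) :
    ∀ᶠ r in 𝓝[>] (0 : ℝ), ENNReal.ofReal (f r) ≤ η := by
  have h := ENNReal.tendsto_ofReal (hf.tendsto 0)
  rw [h0, ENNReal.ofReal_zero] at h
  exact (h.eventually_le_const hη).filter_mono nhdsWithin_le_nhds

theorem ev_wn {η : ℝ≥0∞} (hη : 0 < η) {k a : ℕ} (hk : k ≠ 0) (ha : a ≠ 0) :
    ∀ᶠ r in 𝓝[>] (0 : ℝ), ∀ u ∈ Icc (0 : ℝ) 2, ENNReal.ofReal ((r / 1000) ^ k) *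
      ENNReal.ofReal (u ^ a) + ENNReal.ofReal ((r / 1000) ^ a) * ENNReal.ofReal (u ^ k) ≤ η := by
  filter_upwards [ev_small (f := fun r => (r / 1000) ^ k * 2 ^ a + (r / 1000) ^ a * 2 ^ k)
    (by fun_prop) (by simp [hk, ha]) hη, self_mem_nhdsWithin] with r h (hr : 0 < r) u hu
  refine le_trans ?_ h
  have := hu.1
  have := hu.2
  rw [← ENNReal.ofReal_mul (by positivity), ← ENNReal.ofReal_mul (by positivity),
    ← ENNReal.ofReal_add (by positivity) (by positivity)]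
  refine ENNReal.ofReal_le_ofReal ?_
  gcongr

theorem ev_wb {η : ℝ≥0∞} (hη : 0 < η) (d : ℝ) (a j : ℕ) : ∀ᶠ r in 𝓝[>] (0 : ℝ),
    ENNReal.ofReal ((2 * (r / 1000)) ^ (a + (j + 1)) / (d * (r / 1000) ^ a)) ≤ η := by
  filter_upwards [ev_small (f := fun r => 2 ^ (a + (j + 1)) * (r / 1000) ^ (j + 1) / d)
    (by fun_prop) (by simp) hη, self_mem_nhdsWithin] with r h (hr : 0 < r)
  refine le_trans (le_of_eq (congrArg _ ?_)) h
  rw [mul_pow, pow_add (r / 1000) a, mul_left_comm, mul_comm d,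
    mul_div_mul_left _ _ (by positivity)]

theorem ev_wnF_le (η : ℝ≥0∞) (hη : 0 < η) :
    ∀ᶠ P in parF, ∀ u ∈ Icc (0 : ℝ) 2, wnF P u ≤ η := by
  have h : ∀ᶠ P in parF, P.k2 ≠ 0 → ∀ u ∈ Icc (0 : ℝ) 2, wnF P u ≤ η :=
    ev_r0 fun k2 _ _ _ _ _ _ _ _ => by
      by_cases hk : k2 = 0
      · exact .of_forall fun _ h => absurd hk h
      · exact (ev_wn hη hk (a := 2400) (by norm_num)).mono fun _ h _ => h
  filter_upwards [h, ev_basic] with P h hP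
  exact h (by have := hP.k2_ge; omega)

theorem ev_wbF_le (η : ℝ≥0∞) (hη : 0 < η) :
    ∀ᶠ P in parF, ∀ u ∈ Icc (0 : ℝ) (2 * P.s1), wbF P u ≤ η * wnF P u := by
  have h : ∀ᶠ P in parF, ENNReal.ofReal ((2 * P.s1) ^ (2400 + (P.k3 - P.k2 - 2401 + 1)) /
      (P.d0 ^ P.k3 * P.s1 ^ 2400)) ≤ η :=
    ev_r0 fun k2 k3 _ _ d _ _ _ _ => ev_wb hη (d ^ k3) 2400 (k3 - k2 - 2401)
  filter_upwards [h, ev_basic] with P h hP u hu
  refine (wbF_le hP.d0_pos hP.r0_pos ?_ hu.1 hu.2).trans (mul_le_mul_left h _)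
  have := hP.k3_ge
  omega

end
end Crest.Agent.R68.MB
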