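import Crest.Agent.R68.Src
import Crest.Agent.R68.Flight

/-! # Row 68: the multiplication operator on power weights (auxiliary file of `OpsA`) -/

set_option autoImplicit false
open MeasureTheory Set Filter Topology
open scoped ENNReal NNReal
open Crest.AnalysisR.VecCalc3 Crest.AnalysisR.PDE.Boltzmann

namespace Crest.Agent.R68.OpsA1
noncomputable section

theorem QF_wY (P : Par) {f : PF} (hf : Measurable f) (ω : ℝ → ℝ≥0∞) (q : Ph) :
    QF f (wY P ω) q = ω (lst q) * QF f (GS (aT P.k3 q.1)) q := by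
  have h := QF_mul_tx hf (measurable_GS (aT P.k3 q.1)) (fun _ => 1)
    (fun z => ω (z.1 ^ (3 / 4 : ℝ) + tn z.2)) q
  simp only [one_mul] at h
  exact h

theorem LF_wY (P : Par) (ω : ℝ → ℝ≥0∞) (q : Ph) :
    LF (wY P ω) q = ω (lst q) * LF (GS (aT P.k3 q.1)) q :=
  LF_mul_tx (measurable_GS (aT P.k3 q.1)) (fun z => ω (z.1 ^ (3 / 4 : ℝ) + tn z.2)) q

theorem posOp_TT (P : Par) : PosOp (TT P) :=
  (posOp_Ia 0).comp ((posOp_QF (measurable_c0 P)).mul (w := fun _ => 2) measurable_const)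

theorem killsNull_TT (P : Par) : KillsNull (TT P) :=
  KillsNull.comp (S := Ia 0) (posOp_Ia 0) ((killsNull_QF (measurable_c0 P)).mul fun _ => 2)

/-- the integrand of the flight lemmas -/
def II (P : Par) (ω : ℝ → ℝ≥0∞) (p : Ph) (s : ℝ) : ℝ≥0∞ :=
  npw (ell (fl p s)) 1 * (ω (lst (fl p s)) * Ga (aT P.k3 s) p.2.2)

theorem measurable_II (P : Par) {ω : ℝ → ℝ≥0∞} (hω : Measurable ω) (p : Ph) :
    Measurable (II P ω p) := by
  have h := PosA.measurable_fl' p
  refine (mba_npw (measurable_ell.comp h) 1).mul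
    ((hω.comp (measurable_lst.comp h)).mul (mba_Ga ?_ measurable_const))
  unfold aT
  fun_prop

theorem t0_le_one {P : Par} (hP : P.Basic) {t : ℝ} (ht : t ∈ Icc 0 P.t0) : t ∈ Icc (0 : ℝ) 1 :=
  ⟨ht.1, by linarith [ht.2, hP.t0_le]⟩

theorem point : ∃ K : ℝ≥0∞, K ≠ ⊤ ∧ ∀ P : Par, P.Basic → ∀ ω : ℝ → ℝ≥0∞,
    ∀ p : Ph, p.1 ∈ Icc 0 P.t0 → ∀ s ∈ Ioo 0 p.1,
    2 * QF (c0 P) (wY P ω) (fl p s) ≤ K * npw (jb p.2.2) 1 * Sg p * II P ω p s := by
  obtain ⟨K, hK, H⟩ := src_c0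
  refine ⟨2 * K, ENNReal.mul_ne_top (by simp) hK, fun P hP ω p hp s hs => ?_⟩
  have h1 := aT_mem hP (t := s) ⟨hs.1.le, hs.2.le.trans hp.2⟩
  have h2 := H P hP p s hs.1 hs.2.le (hs.2.le.trans (t0_le_one hP hp).2) (aT P.k3 s)
    ⟨by linarith [h1.1], h1.2⟩
  rw [QF_wY P (measurable_c0 P)]
  calc _ ≤ 2 * (ω (lst (fl p s)) * (K * npw (ell (fl p s)) 1 * npw (jb p.2.2) 1 *
        Ga (aT P.k3 s) p.2.2 * Sg p)) := by
        gcongr
        exact h2
    _ = _ := by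
        unfold II
        ring

theorem master : ∃ K : ℝ≥0∞, K ≠ ⊤ ∧ ∀ P : Par, P.Basic → ∀ ω : ℝ → ℝ≥0∞, Measurable ω →
    ∀ p : Ph, p.1 ∈ Icc 0 P.t0 →
    TT P (wY P ω) p ≤ K * npw (jb p.2.2) 1 * Sg p * ∫⁻ s in Ioo 0 p.1, II P ω p s := by
  obtain ⟨K, hK, H⟩ := point
  refine ⟨K, hK, fun P hP ω hω p hp => ?_⟩
  rw [← lintegral_const_mul _ (measurable_II P hω p)]
  exact setLIntegral_mono' measurableSet_Ioo fun s hs => H P hP ω p hp s hs

theorem npw_jb_le (v : R3) : npw (jb v) 1 ≤ npw (jb v) (1 / 2) :=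
  ENNReal.rpow_le_rpow_of_exponent_le (ENNReal.one_le_ofReal.2 (BilB.one_le_jb v)) (by norm_num)

theorem npw_jb_le_one (v : R3) : npw (jb v) 1 ≤ 1 :=
  (MB.npw_anti zero_le_one (BilB.one_le_jb v)).trans (MB.npw_one 1).le

theorem TT_pw : ∃ K : ℝ≥0∞, K ≠ ⊤ ∧ ∀ P : Par, P.Basic → ∀ k : ℕ, 2 ≤ k → k ≤ P.k3 →
    ∀ p : Ph, p.1 ∈ Icc 0 P.t0 →
    TT P (wY P (pw k)) p ≤ K * ENNReal.ofReal (1 / k) * npw (jb p.2.2) 1 * wY P (pw k) p := by
  obtain ⟨K, hK, H⟩ := master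
  refine ⟨K * 100, ENNReal.mul_ne_top hK (by simp), fun P hP k hk hkK p hp => ?_⟩
  refine (H P hP _ (measurable_pw k) p hp).trans ?_
  have h := flight1 hk hkK p (t0_le_one hP hp)
  have e : ENNReal.ofReal (100 / k) = 100 * ENNReal.ofReal (1 / k) := by
    rw [div_eq_mul_one_div, ENNReal.ofReal_mul (by norm_num), ENNReal.ofReal_ofNat]
  rw [e] at h
  calc _ ≤ K * npw (jb p.2.2) 1 * Sg p * (100 * ENNReal.ofReal (1 / k) *
        (pw k (lst p) * Ga (aT P.k3 p.1) p.2.2)) := by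
        gcongr
        exact h
    _ = _ := by
        unfold wY YY
        ring

/-- two powers -/
theorem TT_two : ∃ K : ℝ≥0∞, K ≠ ⊤ ∧ ∀ P : Par, P.Basic → ∀ (A B : ℝ≥0∞) (k m : ℕ), 2 ≤ k →
    k ≤ P.k3 → 2 ≤ m → m ≤ P.k3 → ∀ p : Ph, p.1 ∈ Icc 0 P.t0 →
    TT P (wY P fun u => A * pw k u + B * pw m u) p ≤ K * npw (jb p.2.2) 1 *
      ((A * pw k (lst p) * ENNReal.ofReal (1 / k) + B * pw m (lst p) * ENNReal.ofReal (1 / m)) *
        YY P p) := by
  obtain ⟨K, hK, H⟩ := TT_pw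
  refine ⟨K, hK, fun P hP A B k m hk hkK hm hmK p hp => ?_⟩
  have e : (wY P fun u => A * pw k u + B * pw m u) =
      (fun q => A * wY P (pw k) q) + fun q => B * wY P (pw m) q := by
    funext q
    simp only [wY, Pi.add_apply]
    ring
  have m1 := measurable_wY P (measurable_pw k)
  have m2 := measurable_wY P (measurable_pw m)
  rw [e, (posOp_TT P).add _ _ (m1.const_mul A) (m2.const_mul B), (posOp_TT P).smul A _ m1,
    (posOp_TT P).smul B _ m2, Pi.add_apply]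
  calc _ ≤ A * (K * ENNReal.ofReal (1 / k) * npw (jb p.2.2) 1 * wY P (pw k) p) +
        B * (K * ENNReal.ofReal (1 / m) * npw (jb p.2.2) 1 * wY P (pw m) p) := by
        gcongr
        · exact H P hP k hk hkK p hp
        · exact H P hP m hm hmK p hp
    _ = _ := by
        unfold wY
        ring

theorem inv_le_one {k : ℕ} (hk : 1 ≤ k) : ENNReal.ofReal (1 / k) ≤ 1 :=
  ENNReal.ofReal_le_one.2 ((div_le_one (by exact_mod_cast hk)).2 (by exact_mod_cast hk))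

theorem TT_wn : ∃ K : ℝ≥0∞, K ≠ ⊤ ∧ ∀ P : Par, P.Basic → ∀ p : Ph, p.1 ∈ Icc 0 P.t0 →
    TT P (wY P (wnF P)) p ≤ K * npw (jb p.2.2) 1 * wY P (wnF P) p := by
  obtain ⟨K, hK, H⟩ := TT_two
  refine ⟨K, hK, fun P hP p hp => ?_⟩
  have h2 := hP.k2_ge
  have h3 := hP.k3_ge
  refine (H P hP _ _ 2400 P.k2 (by omega) (by omega) (by omega) (by omega) p hp).trans ?_
  unfold wY wnF
  gcongr _ * ((?_ + ?_) * _)
  · exact mul_le_of_le_one_right' (inv_le_one (by omega))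
  · exact mul_le_of_le_one_right' (inv_le_one (by omega))

theorem TT_wn_far (η : ℝ≥0∞) (hη : 0 < η) : ∀ᶠ P in parF, ∀ p : Ph, p.1 ∈ Icc 0 P.t0 →
    2 * P.s1 ≤ lst p → TT P (wY P (wnF P)) p ≤ η * wY P (wnF P) p := by
  obtain ⟨K, hK, H⟩ := TT_two
  have hev : ∀ᶠ k : ℕ in atTop,
      K * (ENNReal.ofReal ((1 / 2) ^ (k - 2400)) + ENNReal.ofReal (1 / k)) ≤ η := by
    have h1 : Tendsto (fun k : ℕ => ((1 / 2 : ℝ)) ^ (k - 2400)) atTop (𝓝 0) :=
      (tendsto_pow_atTop_nhds_zero_of_lt_one (by norm_num) (by norm_num)).comp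
        (tendsto_sub_atTop_nat 2400)
    have h2 := (ENNReal.tendsto_ofReal h1).add
      (ENNReal.tendsto_ofReal (tendsto_one_div_atTop_nhds_zero_nat (𝕜 := ℝ)))
    have h3 := ENNReal.Tendsto.const_mul (a := K) h2 (Or.inr hK)
    rw [ENNReal.ofReal_zero, add_zero, mul_zero] at h3
    exact h3.eventually_le_const hη
  filter_upwards [ev_k2 hev, ev_basic] with P h hP p hp hu
  have h2 := hP.k2_ge
  have h3 := hP.k3_ge
  have hs := MB.s1_pos hP.r0_pos
  refine (H P hP _ _ 2400 P.k2 (by omega) (by omega) (by omega) (by omega) p hp).trans ?_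
  have key : ENNReal.ofReal (P.s1 ^ P.k2) * pw 2400 (lst p) ≤
      ENNReal.ofReal ((1 / 2) ^ (P.k2 - 2400)) *
        (ENNReal.ofReal (P.s1 ^ 2400) * pw P.k2 (lst p)) := by
    obtain ⟨j, hj⟩ : ∃ j, P.k2 = 2400 + j := ⟨P.k2 - 2400, by omega⟩
    unfold pw
    rw [← ENNReal.ofReal_mul (by positivity), ← ENNReal.ofReal_mul (by positivity),
      ← ENNReal.ofReal_mul (by positivity), hj, Nat.add_sub_cancel_left]
    refine ENNReal.ofReal_le_ofReal ?_
    have hu0 : 0 ≤ lst p := by linarith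
    have h4 : P.s1 ^ j ≤ (1 / 2 * lst p) ^ j := pow_le_pow_left₀ hs.le (by linarith) j
    rw [pow_add, pow_add]
    generalize P.s1 ^ j = a at h4
    have h5 : 0 ≤ P.s1 ^ 2400 * lst p ^ 2400 := by positivity
    rw [mul_pow] at h4
    generalize P.s1 ^ 2400 = b at h5 ⊢
    generalize lst p ^ 2400 = c at h5 ⊢
    nlinarith [mul_le_mul_of_nonneg_left h4 h5]
  calc _ ≤ K * 1 * ((ENNReal.ofReal ((1 / 2) ^ (P.k2 - 2400)) *
          (ENNReal.ofReal (P.s1 ^ 2400) * pw P.k2 (lst p)) * 1 +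
          ENNReal.ofReal (P.s1 ^ 2400) * pw P.k2 (lst p) * ENNReal.ofReal (1 / P.k2)) *
          YY P p) := by
        gcongr
        · exact npw_jb_le_one _
        · exact inv_le_one (by omega)
    _ = K * (ENNReal.ofReal ((1 / 2) ^ (P.k2 - 2400)) + ENNReal.ofReal (1 / P.k2)) *
          (ENNReal.ofReal (P.s1 ^ 2400) * pw P.k2 (lst p) * YY P p) := by ring
    _ ≤ η * wY P (wnF P) p := by
        unfold wY wnF
        gcongr
        exact le_add_self

theorem TT_wn_low (η : ℝ≥0∞) (hη : 0 < η) : ∀ᶠ P in parF, ∀ p : Ph, p.1 ∈ Icc 0 P.t0 →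
    lst p ≤ 2 * P.s1 →
    TT P (fun q => if lst q < lst p ^ 2 then wY P (wnF P) q else 0) p ≤ η * wY P (wnF P) p := by
  obtain ⟨K, hK, H⟩ := TT_two
  have hev : ∀ᶠ r in 𝓝[>] (0 : ℝ), K * ENNReal.ofReal (2 * (r / 1000)) ≤ η := by
    have h1 : Tendsto (fun r : ℝ => 2 * (r / 1000)) (𝓝 0) (𝓝 0) :=
      Continuous.tendsto' (by fun_prop) _ _ (by simp)
    have h3 := ENNReal.Tendsto.const_mul (a := K) (ENNReal.tendsto_ofReal h1) (Or.inr hK)
    rw [ENNReal.ofReal_zero, mul_zero] at h3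
    exact (h3.eventually_le_const hη).filter_mono nhdsWithin_le_nhds
  have hev' : ∀ᶠ P in parF, K * ENNReal.ofReal (2 * P.s1) ≤ η :=
    ev_r0 (p := fun P => K * ENNReal.ofReal (2 * P.s1) ≤ η) fun _ _ _ _ _ _ _ _ _ => hev
  filter_upwards [hev', ev_basic] with P h hP p hp hu
  have h2 := hP.k2_ge
  have h3 := hP.k3_ge
  have hu0 : 0 ≤ lst p := lst_nonneg hp.1
  obtain ⟨k, hk⟩ : ∃ k, P.k2 = k + 1 := ⟨P.k2 - 1, by omega⟩
  have hpw : ∀ (j : ℕ) (w : ℝ), 0 ≤ w → w < lst p ^ 2 →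
      pw (j + 1) w ≤ ENNReal.ofReal (lst p ^ 2) * pw j w := fun j w hw hw' => by
    unfold pw
    rw [← ENNReal.ofReal_mul (by positivity), pow_succ']
    exact ENNReal.ofReal_le_ofReal (mul_le_mul_of_nonneg_right hw'.le (by positivity))
  have hpw' : ∀ j : ℕ, ENNReal.ofReal (lst p ^ 2) * pw j (lst p) =
      ENNReal.ofReal (lst p) * pw (j + 1) (lst p) := fun j => by
    unfold pw
    rw [← ENNReal.ofReal_mul (by positivity), ← ENNReal.ofReal_mul hu0]
    congr 1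
    ring
  have h4 : TT P (fun q => if lst q < lst p ^ 2 then wY P (wnF P) q else 0) p ≤
      TT P (wY P fun u => ENNReal.ofReal (lst p ^ 2) * ENNReal.ofReal (P.s1 ^ P.k2) * pw 2399 u +
        ENNReal.ofReal (lst p ^ 2) * ENNReal.ofReal (P.s1 ^ 2400) * pw k u) p := by
    refine setLIntegral_mono' measurableSet_Ioo fun s hs => ?_
    have e : (fun q => if lst q < lst p ^ 2 then wY P (wnF P) q else 0) =
        wY P fun u => if u < lst p ^ 2 then wnF P u else 0 := by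
      funext q
      simp only [wY]
      split_ifs
      · rfl
      · rw [zero_mul]
    rw [e]
    dsimp only
    rw [QF_wY P (measurable_c0 P), QF_wY P (measurable_c0 P)]
    gcongr
    split_ifs with hlt
    · have h0 : 0 ≤ lst (fl p s) := lst_nonneg hs.1.le
      unfold wnF
      calc _ ≤ ENNReal.ofReal (P.s1 ^ P.k2) * (ENNReal.ofReal (lst p ^ 2) *
            pw 2399 (lst (fl p s))) + ENNReal.ofReal (P.s1 ^ 2400) *
            (ENNReal.ofReal (lst p ^ 2) * pw k (lst (fl p s))) := by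
            gcongr
            · exact hpw 2399 _ h0 hlt
            · rw [hk]
              exact hpw k _ h0 hlt
        _ = _ := by ring
    · exact zero_le
  refine h4.trans ((H P hP _ _ 2399 k (by omega) (by omega) (by omega) (by omega) p hp).trans ?_)
  calc _ ≤ K * 1 * ((ENNReal.ofReal (lst p ^ 2) * ENNReal.ofReal (P.s1 ^ P.k2) *
          pw 2399 (lst p) * 1 + ENNReal.ofReal (lst p ^ 2) * ENNReal.ofReal (P.s1 ^ 2400) *
          pw k (lst p) * 1) * YY P p) := by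
        gcongr
        · exact npw_jb_le_one _
        · exact inv_le_one (by omega)
        · exact inv_le_one (by omega)
    _ = K * ((ENNReal.ofReal (P.s1 ^ P.k2) * (ENNReal.ofReal (lst p ^ 2) * pw 2399 (lst p)) +
          ENNReal.ofReal (P.s1 ^ 2400) * (ENNReal.ofReal (lst p ^ 2) * pw k (lst p))) *
          YY P p) := by ring
    _ = K * ENNReal.ofReal (lst p) * wY P (wnF P) p := by
        rw [hpw', hpw', ← hk]
        unfold wY wnF
        ring
    _ ≤ η * wY P (wnF P) p := by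
        gcongr
        refine le_trans ?_ h
        gcongr

theorem TT_point : ∃ K : ℝ≥0∞, K ≠ ⊤ ∧ ∀ P : Par, P.Basic → ∀ ω, Adm P.k3 ω →
    ∀ p : Ph, p.1 ∈ Icc 0 P.t0 → ∀ s ∈ Ioo 0 p.1,
    2 * QF (c0 P) (wY P ω) (fl p s) ≤ K * npw s 1 * wY P ω p := by
  obtain ⟨K, hK, H⟩ := point
  refine ⟨K, hK, fun P hP ω hω p hp s hs => (H P hP ω p hp s hs).trans ?_⟩
  have h1 : npw (ell (fl p s)) 1 ≤ npw s 1 := by
    refine MB.npw_anti zero_le_one ?_
    have := tn_nonneg (fl p s).2.1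
    have := hs.1
    change s ≤ 8 * s + tn (fl p s).2.1
    linarith
  unfold II
  calc _ ≤ K * 1 * Sg p * (npw s 1 * (ω (lst p) * Ga (aT P.k3 p.1) p.2.2)) := by
        gcongr _ * ?_ * _ * (?_ * ?_)
        · exact npw_jb_le_one _
        · exact flight0 hω p hs.1.le hs.2.le
    _ = _ := by
        unfold wY YY
        ring

theorem TT_om (hwb : ∀ᶠ P in parF, ∀ p : Ph, p.1 ∈ Icc 0 P.t0 →
    TT P (wY P (wbF P)) p ≤ 1 * npw (jb p.2.2) (1 / 2) * wY P (wbF P) p) :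
    ∃ K : ℝ≥0∞, K ≠ ⊤ ∧ ∀ᶠ P in parF, ∀ b : ℝ≥0∞, ∀ p : Ph, p.1 ∈ Icc 0 P.t0 →
    TT P (wY P (omF P b)) p ≤ K * npw (jb p.2.2) (1 / 2) * wY P (omF P b) p := by
  obtain ⟨K, hK, H⟩ := TT_wn
  refine ⟨1 + K, ENNReal.add_ne_top.2 ⟨ENNReal.one_ne_top, hK⟩, ?_⟩
  filter_upwards [hwb, ev_basic] with P h hP b p hp
  have e : wY P (omF P b) = (fun q => 2 * wY P (wbF P) q) + fun q => b * wY P (wnF P) q := by
    funext q
    simp only [wY, omF, Pi.add_apply]
    ring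
  have m1 := measurable_wY P (measurable_wbF P)
  have m2 := measurable_wY P (measurable_wnF P)
  rw [e, (posOp_TT P).add _ _ (m1.const_mul 2) (m2.const_mul b), (posOp_TT P).smul 2 _ m1,
    (posOp_TT P).smul b _ m2, Pi.add_apply, Pi.add_apply]
  calc _ ≤ 2 * ((1 + K) * npw (jb p.2.2) (1 / 2) * wY P (wbF P) p) +
        b * ((1 + K) * npw (jb p.2.2) (1 / 2) * wY P (wnF P) p) := by
        gcongr
        · refine (h p hp).trans ?_
          gcongr
          exact le_self_add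
        · refine (H P hP p hp).trans ?_
          gcongr
          · exact le_add_self
          · exact npw_jb_le _
    _ = _ := by ring

end
end Crest.Agent.R68.OpsA1
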