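import Crest.Agent.R68.PosOps

/-! # Row 68: auxiliary lemmas for `Duh_lin_le` -/

set_option autoImplicit false
open MeasureTheory Set Filter Topology
open scoped ENNReal NNReal
open Crest.AnalysisR.VecCalc3 Crest.AnalysisR.PDE.Boltzmann

namespace Crest.Agent.R68.StabB
noncomputable section

/-- `(u - w) (x - y) ≤ |u - w| |x - y|` in `ℝ≥0∞` -/
theorem cross_le (u w x y : ℝ≥0∞) : u * x + w * y ≤ u * y + w * x + dd u w * dd x y := by
  rcases le_total u w with h | h <;> rcases le_total x y with k | k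
  · have e1 : w = u + (w - u) := (add_tsub_cancel_of_le h).symm
    have e2 : y = x + (y - x) := (add_tsub_cancel_of_le k).symm
    have b1 : w - u ≤ dd u w := le_max_right _ _
    have b2 : y - x ≤ dd x y := le_max_right _ _
    generalize w - u = e at e1 b1
    generalize y - x = l at e2 b2
    have b3 : e * l ≤ dd u w * dd x y := mul_le_mul' b1 b2
    generalize dd u w * dd x y = z at b3
    subst e1 e2
    calc u * x + (u + e) * (x + l) = u * (x + l) + (u + e) * x + e * l := by ring
      _ ≤ _ := by gcongr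
  · have e1 : w = u + (w - u) := (add_tsub_cancel_of_le h).symm
    have e2 : x = y + (x - y) := (add_tsub_cancel_of_le k).symm
    generalize dd u w * dd x y = z
    generalize w - u = e at e1
    generalize x - y = l at e2
    subst e1 e2
    calc u * (y + l) + (u + e) * y ≤ u * (y + l) + (u + e) * y + (e * l + z) := le_self_add
      _ = _ := by ring
  · have e1 : u = w + (u - w) := (add_tsub_cancel_of_le h).symm
    have e2 : y = x + (y - x) := (add_tsub_cancel_of_le k).symm
    generalize dd u w * dd x y = z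
    generalize u - w = e at e1
    generalize y - x = l at e2
    subst e1 e2
    calc (w + e) * x + w * (x + l) ≤ (w + e) * x + w * (x + l) + (e * l + z) := le_self_add
      _ = _ := by ring
  · have e1 : u = w + (u - w) := (add_tsub_cancel_of_le h).symm
    have e2 : x = y + (x - y) := (add_tsub_cancel_of_le k).symm
    have b1 : u - w ≤ dd u w := le_max_left _ _
    have b2 : x - y ≤ dd x y := le_max_left _ _
    generalize u - w = e at e1 b1
    generalize x - y = l at e2 b2
    have b3 : e * l ≤ dd u w * dd x y := mul_le_mul' b1 b2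
    generalize dd u w * dd x y = z at b3
    subst e1 e2
    calc (w + e) * (y + l) + w * y = (w + e) * y + w * (y + l) + e * l := by ring
      _ ≤ _ := by gcongr

theorem dd_amul_le {a₁ a₀ m f c G : ℝ≥0∞} (ha : a₁ ≤ 1) (hm : dd a₁ a₀ ≤ m) (hG : dd f c ≤ G) :
    dd (a₁ * f) (a₀ * c) ≤ G + m * c := by
  refine (dd_mul_le _ _ _ _).trans (add_le_add ?_ (mul_le_mul' hm le_rfl))
  calc a₁ * dd f c ≤ 1 * G := mul_le_mul' ha hG
    _ = G := one_mul _

/-- the scalar inequality -/
theorem scalar_le {a₁ a₀ m f g c G f' g' c' G' : ℝ≥0∞} (ha : a₁ ≤ 1) (hm : dd a₁ a₀ ≤ m)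
    (hG : dd f c ≤ G) (hG' : dd g' c' ≤ G') :
    a₁ * (f * f') + (a₀ * (c * g') + a₀ * (g * c')) ≤
      a₁ * (g * g') + (a₀ * (c * f') + a₀ * (f * c')) + (G * dd f' g' + dd f g * G') +
        (m * (c * dd f' g') + m * (dd f g * c')) := by
  have h1 := cross_le (a₁ * f) (a₀ * c) f' g'
  have h2 := cross_le (a₁ * g') (a₀ * c') f g
  have h3 : dd (a₁ * f) (a₀ * c) * dd f' g' ≤ (G + m * c) * dd f' g' :=
    mul_le_mul' (dd_amul_le ha hm hG) le_rfl
  have h4 : dd (a₁ * g') (a₀ * c') * dd f g ≤ (G' + m * c') * dd f g :=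
    mul_le_mul' (dd_amul_le ha hm hG') le_rfl
  calc a₁ * (f * f') + (a₀ * (c * g') + a₀ * (g * c'))
      = (a₁ * f * f' + a₀ * c * g') + a₀ * c' * g := by ring
    _ ≤ (a₁ * f * g' + a₀ * c * f' + (G + m * c) * dd f' g') + a₀ * c' * g :=
        add_le_add (h1.trans (add_le_add le_rfl h3)) le_rfl
    _ = (a₁ * g' * f + a₀ * c' * g) + (a₀ * c * f' + (G + m * c) * dd f' g') := by ring
    _ ≤ (a₁ * g' * g + a₀ * c' * f + (G' + m * c') * dd f g) +
          (a₀ * c * f' + (G + m * c) * dd f' g') :=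
        add_le_add (h2.trans (add_le_add le_rfl h4)) le_rfl
    _ = _ := by ring

theorem meas_pair {f g : R3 → ℝ≥0∞} (hf : Measurable f) (hg : Measurable g) :
    Measurable (fun q : R3 × R3 => f q.1 * g q.2) :=
  (hf.comp measurable_fst).mul (hg.comp measurable_snd)

theorem Qp_mul (k : ℝ≥0∞) {f g : R3 → ℝ≥0∞} (hf : Measurable f) (hg : Measurable g) (v : R3) :
    k * Qp f g v = QH (fun q => k * (f q.1 * g q.2)) v :=
  (QH_const_mul k (meas_pair hf hg) v).symm

theorem measurable_ddF {f g : PF} (hf : Measurable f) (hg : Measurable g) :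
    Measurable (ddF f g) := measurable_dd hf hg

/-- the scalar inequality integrated against the collision kernel -/
theorem QF_lin_le {a₁ a₀ m : ℝ≥0∞} {f g c G : PF} (hf : Measurable f) (hg : Measurable g)
    (hc : Measurable c) (hG : Measurable G) (ha : a₁ ≤ 1) (hm : dd a₁ a₀ ≤ m)
    (h4 : ddF f c ≤ G) (h5 : ddF g c ≤ G) (q : Ph) :
    a₁ * QF f f q + 2 * a₀ * QF c g q ≤
      a₁ * QF g g q + 2 * a₀ * QF c f q + 2 * QF G (ddF f g) q + m * (2 * QF c (ddF f g) q) := by
  have hd := measurable_ddF hf hg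
  have sf := measurable_sec hf q
  have sg := measurable_sec hg q
  have sc := measurable_sec hc q
  have sG := measurable_sec hG q
  have sd := measurable_sec hd q
  have e1 : 2 * a₀ * QF c g q = a₀ * QF c g q + a₀ * QF g c q := by
    rw [QF_comm hg hc]; ring
  have e2 : 2 * a₀ * QF c f q = a₀ * QF c f q + a₀ * QF f c q := by
    rw [QF_comm hf hc]; ring
  have e3 : 2 * QF G (ddF f g) q = QF G (ddF f g) q + QF (ddF f g) G q := by
    rw [QF_comm hd hG]; ring
  have e4 : m * (2 * QF c (ddF f g) q) = m * QF c (ddF f g) q + m * QF (ddF f g) c q := by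
    rw [QF_comm hd hc]; ring
  rw [e1, e2, e3, e4]
  unfold QF
  rw [Qp_mul a₁ sf sf, Qp_mul a₀ sc sg, Qp_mul a₀ sg sc, Qp_mul a₁ sg sg, Qp_mul a₀ sc sf,
    Qp_mul a₀ sf sc, Qp_mul m sc sd, Qp_mul m sd sc]
  unfold Qp
  rw [← QH_add ((meas_pair sc sg).const_mul a₀), ← QH_add ((meas_pair sf sf).const_mul a₁),
    ← QH_add ((meas_pair sc sf).const_mul a₀), ← QH_add ((meas_pair sg sg).const_mul a₁),
    ← QH_add (meas_pair sG sd), ← QH_add ((meas_pair sc sd).const_mul m),
    ← QH_add (((meas_pair sg sg).const_mul a₁).fun_add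
      (((meas_pair sc sf).const_mul a₀).fun_add ((meas_pair sf sc).const_mul a₀))),
    ← QH_add ((((meas_pair sg sg).const_mul a₁).fun_add
      (((meas_pair sc sf).const_mul a₀).fun_add ((meas_pair sf sc).const_mul a₀))).fun_add
        ((meas_pair sG sd).fun_add (meas_pair sd sG)))]
  refine QH_mono (fun z => ?_) _
  exact scalar_le ha hm (h4 _) (h5 _)

theorem dd_LF_le' {f g : PF} (hf : Measurable f) (hg : Measurable g) (p : Ph) :
    dd (LF f p) (LF g p) ≤ LF (ddF f g) p := by
  rw [dd_le_iff]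
  constructor
  · rw [← LF_add hg]
    exact LF_mono (fun q => (dd_le_iff.1 (le_refl (dd (f q) (g q)))).1) p
  · rw [← LF_add hf]
    exact LF_mono (fun q => (dd_le_iff.1 (le_refl (dd (f q) (g q)))).2) p

theorem measurable_flp (p : Ph) : Measurable (fl p) :=
  measurable_fl.comp (f := fun s : ℝ => (p, s)) (measurable_const.prodMk measurable_id)

theorem measurable_Lamp {F : PF} (hF : Measurable F) (p : Ph) : Measurable (Lam F p) :=
  (measurable_Lam hF).comp (f := fun s : ℝ => (p, s)) (measurable_const.prodMk measurable_id)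

theorem dd_Lam_le' {f g : PF} (hf : Measurable f) (hg : Measurable g) (p : Ph) (s : ℝ) :
    dd (Lam f p s) (Lam g p s) ≤ Lam (ddF f g) p s := by
  unfold Lam
  refine (dd_lintegral_le _ _ _ ((measurable_LF hf).comp (measurable_flp p))
    ((measurable_LF hg).comp (measurable_flp p))).trans ?_
  exact lintegral_mono fun τ => dd_LF_le' hf hg _

theorem dd_exLam_le {f g : PF} (hf : Measurable f) (hg : Measurable g) (p : Ph) (s : ℝ) :
    dd (ex (Lam f p s)) (ex (Lam g p s)) ≤ Lam (ddF f g) p s :=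
  (dd_ex_le _ _).trans (dd_Lam_le' hf hg p s)

theorem dd_exLam_le_min {f c G : PF} (hf : Measurable f) (hc : Measurable c) (h4 : ddF f c ≤ G)
    (p : Ph) {a s : ℝ} (hs : a ≤ s) :
    dd (ex (Lam f p s)) (ex (Lam c p s)) ≤ min 1 (Lam G p a) := by
  refine le_min ((dd_le_max _ _).trans (max_le (ex_le_one _) (ex_le_one _))) ?_
  refine (dd_exLam_le hf hc p s).trans ?_
  unfold Lam
  calc ∫⁻ τ in Ioo s p.1, LF (ddF f c) (fl p τ) ≤ ∫⁻ τ in Ioo s p.1, LF G (fl p τ) :=
        lintegral_mono fun τ => LF_mono h4 _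
    _ ≤ ∫⁻ τ in Ioo a p.1, LF G (fl p τ) := lintegral_mono_set (Ioo_subset_Ioo_left hs)

/-- Tonelli on the triangle `a < s < τ < t` -/
theorem tonelli_tri (L Q : ℝ → ℝ≥0∞) (hL : Measurable L) (hQ : Measurable Q) (a t : ℝ) :
    ∫⁻ s in Ioo a t, (∫⁻ τ in Ioo s t, L τ) * Q s =
      ∫⁻ τ in Ioo a t, (∫⁻ s in Ioo a τ, Q s) * L τ := by
  have hS : MeasurableSet {z : ℝ × ℝ | z.1 < z.2} := measurableSet_lt measurable_fst measurable_snd
  have hF : Measurable (fun z : ℝ × ℝ =>
      {z : ℝ × ℝ | z.1 < z.2}.indicator (fun z => Q z.1 * L z.2) z) :=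
    ((hQ.comp measurable_fst).mul (hL.comp measurable_snd)).indicator hS
  have e1 : ∀ s ∈ Ioo a t, (∫⁻ τ in Ioo s t, L τ) * Q s =
      ∫⁻ τ in Ioo a t, {z : ℝ × ℝ | z.1 < z.2}.indicator (fun z => Q z.1 * L z.2) (s, τ) := by
    intro s hs
    have : (fun τ => {z : ℝ × ℝ | z.1 < z.2}.indicator (fun z => Q z.1 * L z.2) (s, τ)) =
        (Ioi s).indicator (fun τ => Q s * L τ) := by
      funext τ
      by_cases h : s < τ
      · rw [indicator_of_mem (by exact h), indicator_of_mem (by exact h)]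
      · rw [indicator_of_notMem (by exact h), indicator_of_notMem (by exact h)]
    rw [this, lintegral_indicator measurableSet_Ioi, Measure.restrict_restrict measurableSet_Ioi,
      lintegral_const_mul _ hL, mul_comm]
    have : Ioi s ∩ Ioo a t = Ioo s t := by
      ext τ
      simp only [mem_inter_iff, mem_Ioi, mem_Ioo]
      exact ⟨fun h => ⟨h.1, h.2.2⟩, fun h => ⟨h.1, hs.1.trans h.1, h.2⟩⟩
    rw [this]
  have e2 : ∀ τ ∈ Ioo a t, (∫⁻ s in Ioo a τ, Q s) * L τ =
      ∫⁻ s in Ioo a t, {z : ℝ × ℝ | z.1 < z.2}.indicator (fun z => Q z.1 * L z.2) (s, τ) := by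
    intro τ hτ
    have : (fun s => {z : ℝ × ℝ | z.1 < z.2}.indicator (fun z => Q z.1 * L z.2) (s, τ)) =
        (Iio τ).indicator (fun s => Q s * L τ) := by
      funext s
      by_cases h : s < τ
      · rw [indicator_of_mem (by exact h), indicator_of_mem (by exact h)]
      · rw [indicator_of_notMem (by exact h), indicator_of_notMem (by exact h)]
    rw [this, lintegral_indicator measurableSet_Iio, Measure.restrict_restrict measurableSet_Iio,
      lintegral_mul_const _ hQ]
    have : Iio τ ∩ Ioo a t = Ioo a τ := by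
      ext s
      simp only [mem_inter_iff, mem_Iio, mem_Ioo]
      exact ⟨fun h => ⟨h.2.1, h.1⟩, fun h => ⟨h.2, h.1, h.2.trans hτ.2⟩⟩
    rw [this]
  rw [setLIntegral_congr_fun measurableSet_Ioo e1, setLIntegral_congr_fun measurableSet_Ioo e2]
  exact lintegral_lintegral_swap hF.aemeasurable

/-- the damping error is controlled by the majorant -/
theorem maj_tonelli {a : ℝ} {d E D : PF} (hd : Measurable d) (hE : Measurable E) (p : Ph) :
    D (fl p a) * Lam d p a + ∫⁻ s in Ioo a p.1, Lam d p s * QF E E (fl p s) =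
      ∫⁻ τ in Ioo a p.1, Maj a E D 0 (fl p τ) * LF d (fl p τ) := by
  have hL : Measurable fun τ => LF d (fl p τ) := (measurable_LF hd).comp (measurable_flp p)
  have hQ : Measurable fun τ => QF E E (fl p τ) := (measurable_QF hE hE).comp (measurable_flp p)
  unfold Lam
  rw [tonelli_tri _ _ hL hQ, ← lintegral_const_mul _ hL,
    ← lintegral_add_left (hL.const_mul _)]
  refine lintegral_congr fun τ => ?_
  unfold Maj
  simp only [fl_fl, Pi.zero_apply, add_zero]
  rw [add_mul]
  rfl

theorem Duh_lin_le' {a : ℝ} {f g c E G D β : PF} (hf : Measurable f) (hg : Measurable g)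
    (hc : Measurable c) (hE : Measurable E) (hG : Measurable G)
    (hβ : Measurable β) (h2 : g ≤ E)
    (h4 : ddF f c ≤ G) (h5 : ddF g c ≤ G) (p : Ph) :
    Duh a f D β p + ∫⁻ s in Ioo a p.1, 2 * ex (Lam c p s) * QF c g (fl p s) ≤
      Duh a g D 0 p + (∫⁻ s in Ioo a p.1, 2 * ex (Lam c p s) * QF c f (fl p s)) +
        (Ia a (fun q => 2 * QF G (ddF f g) q + Maj a E D 0 q * LF (ddF f g) q) p +
          min 1 (Lam G p a) * Ia a (fun q => 2 * QF c (ddF f g) q) p) + Ia a β p := by
  have hd := measurable_ddF hf hg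
  have hp := measurable_flp p
  set m := min 1 (Lam G p a) with hm
  have mQ : ∀ {u w : PF}, Measurable u → Measurable w → Measurable fun s => QF u w (fl p s) :=
    fun hu hw => (measurable_QF hu hw).comp hp
  have mE : ∀ {u : PF}, Measurable u → Measurable fun s => ex (Lam u p s) :=
    fun hu => measurable_ex.comp (measurable_Lamp hu p)
  have mβ : Measurable fun s => β (fl p s) := hβ.comp hp
  -- pointwise inequality
  have key : ∀ s ∈ Ioo a p.1,
      ex (Lam f p s) * (QF f f (fl p s) + β (fl p s)) + 2 * ex (Lam c p s) * QF c g (fl p s) ≤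
        ex (Lam g p s) * QF g g (fl p s) + (2 * ex (Lam c p s) * QF c f (fl p s) +
          (2 * QF G (ddF f g) (fl p s) + (Lam (ddF f g) p s * QF E E (fl p s) +
            (m * (2 * QF c (ddF f g) (fl p s)) + β (fl p s))))) := by
    intro s hs
    have k1 := QF_lin_le hf hg hc hG (ex_le_one (Lam f p s))
      (dd_exLam_le_min hf hc h4 p hs.1.le) h4 h5 (fl p s)
    have k2 : ex (Lam f p s) ≤ ex (Lam g p s) + Lam (ddF f g) p s :=
      (dd_le_iff.1 (dd_exLam_le hf hg p s)).1
    have k3 : ex (Lam f p s) * QF g g (fl p s) ≤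
        ex (Lam g p s) * QF g g (fl p s) + Lam (ddF f g) p s * QF E E (fl p s) := by
      calc ex (Lam f p s) * QF g g (fl p s)
          ≤ (ex (Lam g p s) + Lam (ddF f g) p s) * QF g g (fl p s) := mul_le_mul' k2 le_rfl
        _ = ex (Lam g p s) * QF g g (fl p s) + Lam (ddF f g) p s * QF g g (fl p s) := add_mul _ _ _
        _ ≤ _ := add_le_add le_rfl (mul_le_mul' le_rfl (QF_mono h2 h2 _))
    have k4 : ex (Lam f p s) * β (fl p s) ≤ β (fl p s) := by
      calc ex (Lam f p s) * β (fl p s) ≤ 1 * β (fl p s) := mul_le_mul' (ex_le_one _) le_rfl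
        _ = _ := one_mul _
    calc ex (Lam f p s) * (QF f f (fl p s) + β (fl p s)) + 2 * ex (Lam c p s) * QF c g (fl p s)
        = (ex (Lam f p s) * QF f f (fl p s) + 2 * ex (Lam c p s) * QF c g (fl p s)) +
            ex (Lam f p s) * β (fl p s) := by ring
      _ ≤ (ex (Lam f p s) * QF g g (fl p s) + 2 * ex (Lam c p s) * QF c f (fl p s) +
            2 * QF G (ddF f g) (fl p s) + m * (2 * QF c (ddF f g) (fl p s))) + β (fl p s) :=
          add_le_add k1 k4
      _ ≤ ((ex (Lam g p s) * QF g g (fl p s) + Lam (ddF f g) p s * QF E E (fl p s)) +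
            2 * ex (Lam c p s) * QF c f (fl p s) +
            2 * QF G (ddF f g) (fl p s) + m * (2 * QF c (ddF f g) (fl p s))) + β (fl p s) := by
          gcongr
      _ = _ := by ring
  have int1 := setLIntegral_mono' (μ := volume) measurableSet_Ioo key
  rw [lintegral_add_left ((mE hf).fun_mul ((mQ hf hf).fun_add mβ)),
    lintegral_add_left ((mE hg).fun_mul (mQ hg hg)),
    lintegral_add_left (((mE hc).const_mul 2).fun_mul (mQ hc hf)),
    lintegral_add_left ((mQ hG hd).const_mul 2),
    lintegral_add_left ((measurable_Lamp hd p).fun_mul (mQ hE hE)),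
    lintegral_add_left (((mQ hc hd).const_mul 2).const_mul m),
    lintegral_const_mul m ((mQ hc hd).const_mul 2)] at int1
  have kD : D (fl p a) * ex (Lam f p a) ≤
      D (fl p a) * ex (Lam g p a) + D (fl p a) * Lam (ddF f g) p a := by
    rw [← mul_add]
    exact mul_le_mul' le_rfl (dd_le_iff.1 (dd_exLam_le hf hg p a)).1
  have kM := maj_tonelli (a := a) (D := D) hd hE p
  unfold Duh Ia
  simp only [Pi.zero_apply, add_zero]
  rw [lintegral_add_left ((mQ hG hd).const_mul 2), ← kM, add_assoc]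
  refine (add_le_add kD int1).trans (le_of_eq ?_)
  ring

end
end Crest.Agent.R68.StabB
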