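import Crest.Agent.R68.PosOps
import Crest.Agent.R68.StabB

/-! # Row 68: stability of the Duhamel map, gluing -/

set_option autoImplicit false
open MeasureTheory Set Filter Topology
open scoped ENNReal NNReal
open Crest.AnalysisR.VecCalc3 Crest.AnalysisR.PDE.Boltzmann

namespace Crest.Agent.R68
noncomputable section

namespace StabA

theorem split (φ : ℝ → ℝ≥0∞) {s τ t : ℝ} (h1 : s ≤ τ) (h2 : τ ≤ t) :
    ∫⁻ x in Ioo s t, φ x = (∫⁻ x in Ioo s τ, φ x) + ∫⁻ x in Ioo τ t, φ x := by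
  rw [setLIntegral_congr Ioo_ae_eq_Ioc, setLIntegral_congr (s := Ioo s τ) Ioo_ae_eq_Ioc,
    setLIntegral_congr (s := Ioo τ t) Ioo_ae_eq_Ioc, ← Ioc_union_Ioc_eq_Ioc h1 h2,
    lintegral_union measurableSet_Ioc (Ioc_disjoint_Ioc_of_le le_rfl)]

theorem tonelli {L G : ℝ → ℝ≥0∞} (hL : Measurable L) (hG : Measurable G) (a t : ℝ) :
    ∫⁻ s in Ioo a t, (∫⁻ τ in Ioo s t, L τ) * G s =
      ∫⁻ τ in Ioo a t, (∫⁻ s in Ioo a τ, G s) * L τ := by
  have hm : Measurable (Function.uncurry fun s τ : ℝ => if s < τ then L τ * G s else 0) :=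
    Measurable.ite (measurableSet_lt measurable_fst measurable_snd)
      ((hL.comp measurable_snd).mul (hG.comp measurable_fst)) measurable_const
  have e1 : ∀ s ∈ Ioo a t, (∫⁻ τ in Ioo s t, L τ) * G s =
      ∫⁻ τ in Ioo a t, if s < τ then L τ * G s else 0 := fun s hs => by
    have : Ioi s ∩ Ioo a t = Ioo s t := by
      ext x
      exact ⟨fun h => ⟨h.1, h.2.2⟩, fun h => ⟨h.1, hs.1.trans h.1, h.2⟩⟩
    rw [← lintegral_mul_const _ hL, ← this, ← Measure.restrict_restrict measurableSet_Ioi,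
      ← lintegral_indicator measurableSet_Ioi]
    rfl
  have e2 : ∀ τ ∈ Ioo a t, (∫⁻ s in Ioo a τ, G s) * L τ =
      ∫⁻ s in Ioo a t, if s < τ then L τ * G s else 0 := fun τ hτ => by
    have : Iio τ ∩ Ioo a t = Ioo a τ := by
      ext x
      exact ⟨fun h => ⟨h.2.1, h.1⟩, fun h => ⟨h.2, h.1, h.2.trans hτ.2⟩⟩
    rw [mul_comm, ← lintegral_const_mul _ hG, ← this, ← Measure.restrict_restrict measurableSet_Iio,
      ← lintegral_indicator measurableSet_Iio]
    rfl
  rw [setLIntegral_congr_fun measurableSet_Ioo e1, setLIntegral_congr_fun measurableSet_Ioo e2]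
  exact lintegral_lintegral_swap hm.aemeasurable

theorem meas_fl {F : PF} (hF : Measurable F) (p : Ph) : Measurable fun s => F (fl p s) :=
  hF.comp (measurable_fl.comp (measurable_const.prodMk measurable_id))

theorem meas_Lam {F : PF} (hF : Measurable F) (p : Ph) : Measurable fun s => Lam F p s :=
  (measurable_Lam hF).comp (measurable_const.prodMk measurable_id)

theorem meas_int {f β : PF} (hf : Measurable f) (hβ : Measurable β) (p : Ph) :
    Measurable fun s => ex (Lam f p s) * (QF f f (fl p s) + β (fl p s)) :=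
  (measurable_ex.comp (meas_Lam hf p)).mul
    ((meas_fl (measurable_QF hf hf) p).add (meas_fl hβ p))

theorem QF_le_add {f g E d : PF} (hf : Measurable f) (hg : Measurable g) (hd : Measurable d)
    (h1 : f ≤ E) (h2 : g ≤ E) (h : f ≤ fun q => g q + d q) (p : Ph) :
    QF f f p ≤ QF g g p + 2 * QF E d p := by
  calc QF f f p ≤ QF f (fun q => g q + d q) p := QF_mono le_rfl h p
    _ = QF f g p + QF f d p := QF_add_right hf hg p
    _ ≤ QF (fun q => g q + d q) g p + QF E d p :=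
      add_le_add (QF_mono h le_rfl p) (QF_mono h1 le_rfl p)
    _ = QF g g p + QF g d p + QF E d p := by rw [QF_add_left hg hg, QF_comm hd hg]
    _ ≤ QF g g p + QF E d p + QF E d p := by gcongr; exact QF_mono h2 le_rfl p
    _ = _ := by rw [two_mul, add_assoc]

end StabA

theorem Lam_add (F : PF) (hF : Measurable F) (p : Ph) {s τ : ℝ} (h1 : s ≤ τ) (h2 : τ ≤ p.1) :
    Lam F p s = Lam F (fl p τ) s + Lam F p τ := by
  have _ := hF
  simp only [Lam, fl_fl]
  exact StabA.split _ h1 h2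

theorem Duh_le_Maj {a : ℝ} {Fb E D β : PF} (h : Fb ≤ E) (p : Ph) :
    Duh a Fb D β p ≤ Maj a E D β p :=
  add_le_add (mul_le_of_le_one_right' (ex_le_one _)) (lintegral_mono fun _ =>
    (mul_le_of_le_one_left' (ex_le_one _)).trans (add_le_add (QF_mono h h _) le_rfl))

theorem dd_QF_le {f g E : PF} (hf : Measurable f) (hg : Measurable g) (hE : Measurable E)
    (h1 : f ≤ E) (h2 : g ≤ E) (p : Ph) :
    dd (QF f f p) (QF g g p) ≤ 2 * QF E (ddF f g) p := by
  have _ := hE
  exact dd_le_iff.2 ⟨StabA.QF_le_add hf hg (measurable_dd hf hg) h1 h2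
    (fun q => (dd_le_iff.1 le_rfl).1) p, StabA.QF_le_add hg hf (measurable_dd hf hg) h2 h1
    (fun q => (dd_le_iff.1 le_rfl).2) p⟩

theorem dd_LF_le {f g : PF} (hf : Measurable f) (hg : Measurable g) (p : Ph) :
    dd (LF f p) (LF g p) ≤ LF (ddF f g) p := by
  refine dd_le_iff.2 ⟨?_, ?_⟩
  · rw [← LF_add hg]
    exact LF_mono (fun q => (dd_le_iff.1 le_rfl).1) p
  · rw [← LF_add hf]
    exact LF_mono (fun q => (dd_le_iff.1 le_rfl).2) p

theorem dd_Lam_le {f g : PF} (hf : Measurable f) (hg : Measurable g) (p : Ph) (s : ℝ) :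
    dd (Lam f p s) (Lam g p s) ≤ Lam (ddF f g) p s :=
  (dd_lintegral_le _ _ _ (StabA.meas_fl (measurable_LF hf) p)
    (StabA.meas_fl (measurable_LF hg) p)).trans (lintegral_mono fun _ => dd_LF_le hf hg _)

/-- Stability.  `dd (ex Λ_f(s)) (ex Λ_g(s)) ≤ ∫_s^t LF (ddF f g)`; Tonelli on `a < s < τ < t` turns
`D · ∫_a^t L + ∫_a^t (∫_s^t L) (Q + β)(s) ds` into `∫_a^t L(τ) Maj(fl p τ) dτ` (`fl_fl`). -/
theorem dd_Duh_le {a : ℝ} {f g E D β : PF} (hf : Measurable f) (hg : Measurable g)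
    (hE : Measurable E) (hD : Measurable D) (hβ : Measurable β) (h1 : f ≤ E) (h2 : g ≤ E) (p : Ph) :
    dd (Duh a f D β p) (Duh a g D β p) ≤
      Ia a (fun q => 2 * QF E (ddF f g) q + Maj a E D β q * LF (ddF f g) q) p := by
  have _ := hD
  have hd : Measurable (ddF f g) := measurable_dd hf hg
  have mL := StabA.meas_fl (measurable_LF hd) p
  have mQ := (StabA.meas_fl (measurable_QF hE hd) p).const_mul 2
  have mG := (StabA.meas_fl (measurable_QF hE hE) p).add (StabA.meas_fl hβ p)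
  have hex : ∀ s, dd (ex (Lam f p s)) (ex (Lam g p s)) ≤ Lam (ddF f g) p s := fun s =>
    (dd_ex_le _ _).trans (dd_Lam_le hf hg p s)
  have b1 : dd (D (fl p a) * ex (Lam f p a)) (D (fl p a) * ex (Lam g p a)) ≤
      D (fl p a) * Lam (ddF f g) p a := by
    refine (dd_mul_le _ _ _ _).trans ?_
    rw [dd_self, zero_mul, add_zero]
    exact mul_le_mul_right (hex a) _
  have b2 : ∀ s, dd (ex (Lam f p s) * (QF f f (fl p s) + β (fl p s)))
      (ex (Lam g p s) * (QF g g (fl p s) + β (fl p s))) ≤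
      2 * QF E (ddF f g) (fl p s) + Lam (ddF f g) p s * (QF E E (fl p s) + β (fl p s)) := fun s => by
    refine (dd_mul_le _ _ _ _).trans (add_le_add ((mul_le_of_le_one_left' (ex_le_one _)).trans
      ((dd_add_le _ _ _ _).trans ?_)) (mul_le_mul' (hex s) (add_le_add (QF_mono h2 h2 _) le_rfl)))
    rw [dd_self, add_zero]
    exact dd_QF_le hf hg hE h1 h2 _
  refine (dd_add_le _ _ _ _).trans ((add_le_add b1 ((dd_lintegral_le _ _ _ (StabA.meas_int hf hβ p)
    (StabA.meas_int hg hβ p)).trans (lintegral_mono b2))).trans_eq ?_)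
  simp only [Ia, Maj, fl_fl, add_mul]
  rw [lintegral_add_left mQ, lintegral_add_left mQ, lintegral_add_left (mL.const_mul _),
    lintegral_const_mul _ mL, add_left_comm]
  congr 2
  exact StabA.tonelli mL mG a p.1

theorem dd_Duh_src_le {a : ℝ} {f D β β' : PF} (hf : Measurable f) (hβ : Measurable β)
    (hβ' : Measurable β') (p : Ph) :
    dd (Duh a f D β p) (Duh a f D β' p) ≤ Ia a (ddF β β') p := by
  refine (dd_add_le _ _ _ _).trans ?_
  rw [dd_self, zero_add]
  refine (dd_lintegral_le _ _ _ (StabA.meas_int hf hβ p) (StabA.meas_int hf hβ' p)).trans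
    (lintegral_mono fun s => (dd_mul_le _ _ _ _).trans ?_)
  rw [dd_self, zero_mul, add_zero]
  refine (mul_le_of_le_one_left' (ex_le_one _)).trans ((dd_add_le _ _ _ _).trans ?_)
  rw [dd_self, zero_add]
  exact le_rfl

theorem Duh_add_datum {a : ℝ} (f D D' β : PF) (p : Ph) :
    Duh a f (fun q => D q + D' q) β p = D (fl p a) * ex (Lam f p a) + Duh a f D' β p := by
  simp only [Duh, add_mul, add_assoc]

/-- `Duh a` at `p` only depends on the partner and source at times in `(a, p.1)` and on the datum at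
time `a`. -/
theorem Duh_congr {a : ℝ} {f f' D D' β β' : PF} (p : Ph)
    (h1 : ∀ q : Ph, q.1 ∈ Ioo a p.1 → f q = f' q) (h2 : ∀ q : Ph, q.1 = a → D q = D' q)
    (h3 : ∀ q : Ph, q.1 ∈ Ioo a p.1 → β q = β' q) : Duh a f D β p = Duh a f' D' β' p := by
  have hs : ∀ τ ∈ Ioo a p.1, sec f (fl p τ) = sec f' (fl p τ) := fun τ hτ =>
    funext fun η => h1 _ hτ
  have hL : ∀ s, a ≤ s → Lam f p s = Lam f' p s := fun s hs' =>
    setLIntegral_congr_fun measurableSet_Ioo fun τ hτ => by
      simp only [LF, hs τ ⟨hs'.trans_lt hτ.1, hτ.2⟩]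
  unfold Duh
  rw [hL a le_rfl, h2 (fl p a) rfl]
  congr 1
  refine setLIntegral_congr_fun measurableSet_Ioo fun s hs' => ?_
  simp only [QF, hs s hs', hL s hs'.1.le, h3 (fl p s) hs']

/-- semigroup property -/
theorem Duh_split {a b : ℝ} {f D β : PF} (hf : Measurable f) (hβ : Measurable β) (p : Ph)
    (hab : a ≤ b) (hb : b ≤ p.1) :
    Duh a f D β p = Duh b f (Duh a f D β) β p := by
  have _ := hβ
  have hne : ex (Lam f p b) ≠ ⊤ := ne_top_of_le_ne_top ENNReal.one_ne_top (ex_le_one _)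
  simp only [Duh, fl_fl]
  rw [StabA.split _ hab hb, add_mul, mul_assoc, ← ex_add, ← Lam_add f hf p hab hb,
    ← lintegral_mul_const' _ _ hne, add_assoc]
  congr 2
  refine setLIntegral_congr_fun measurableSet_Ioo fun s hs => ?_
  rw [Lam_add f hf p hs.2.le hb, ex_add, mul_right_comm]

theorem Mild.glue {F β : PF} (hF : Measurable F) (hβ : Measurable β) {a b c : ℝ} (hab : a ≤ b)
    (h1 : Mild F β a b) (h2 : Mild F β b c) : Mild F β a c := by
  intro p hp
  rcases le_total p.1 b with hb | hb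
  · exact h1 p ⟨hp.1, hb⟩
  · rw [Duh_split hF hβ p hab hb, h2 p ⟨hb, hp.2⟩]
    exact Duh_congr p (fun _ _ => rfl) (fun q hq => h1 q ⟨hq ▸ hab, hq.le⟩) fun _ _ => rfl

theorem Mild.mono {F β : PF} {a b c : ℝ} (h : Mild F β a c) (hbc : b ≤ c) : Mild F β a b :=
  fun p hp => h p ⟨hp.1, hp.2.trans hbc⟩

/-- One-sided linearised inequality used for compactness.  `f`, `g` are the partners, `c` the reference
medium, `G ≥ ddF f c, ddF g c`.  With `a₁ = ex (Lam f p s)`, `a₂ = ex (Lam g p s)`, `a₀ = ex (Lam c p s)`: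
pointwise in the pair `(η, ζ)`,
`a₁ f f' + a₀ (c g' + g c') ≤ a₁ g g' + a₀ (c f' + f c') + (dd a₁ a₀ · c + G) d' + d (dd a₁ a₀ · c' + G')`
(`f f' - g g' = f (f' - g') + (f - g) g'`), and `a₁ ≤ a₂ + dd a₁ a₂` is treated as in `dd_Duh_le`;
`dd a₁ a₀ ≤ min 1 (Lam G p a)`. Work with `ℝ≥0∞` inequalities (`dd_le_iff`), or with reals when
`E` is finite (use `FinSec E` and `Qp_mono_ae`, or prove the scalar inequality by cases). -/
theorem Duh_lin_le {a : ℝ} {f g c E G D β : PF} (hf : Measurable f) (hg : Measurable g)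
    (hc : Measurable c) (hE : Measurable E) (hG : Measurable G) (hD : Measurable D)
    (hβ : Measurable β) (hEf : FinSec E) (h1 : f ≤ E) (h2 : g ≤ E) (h3 : c ≤ E)
    (h4 : ddF f c ≤ G) (h5 : ddF g c ≤ G) (p : Ph) :
    Duh a f D β p + ∫⁻ s in Ioo a p.1, 2 * ex (Lam c p s) * QF c g (fl p s) ≤
      Duh a g D 0 p + (∫⁻ s in Ioo a p.1, 2 * ex (Lam c p s) * QF c f (fl p s)) +
        (Ia a (fun q => 2 * QF G (ddF f g) q + Maj a E D 0 q * LF (ddF f g) q) p +
          min 1 (Lam G p a) * Ia a (fun q => 2 * QF c (ddF f g) q) p) + Ia a β p := by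
  have _ := hD
  have _ := hEf
  have _ := h1
  have _ := h3
  exact StabB.Duh_lin_le' hf hg hc hE hG hβ h2 h4 h5 p

end
end Crest.Agent.R68
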