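import Crest.Agent.R68.Symm
import Crest.Agent.R68.Torus
import Crest.Agent.R68.OneD

/-! # Row 68: positive operators -/

set_option autoImplicit false
open MeasureTheory Set Filter Topology
open scoped ENNReal NNReal
open Crest.AnalysisR.VecCalc3 Crest.AnalysisR.PDE.Boltzmann

namespace Crest.Agent.R68
noncomputable section

namespace PosA

theorem measurable_lint_Ioo {α : Type*} [MeasurableSpace α] {lo hi : α → ℝ} (hlo : Measurable lo)
    (hhi : Measurable hi) {g : α → ℝ → ℝ≥0∞} (hg : Measurable (fun x : α × ℝ => g x.1 x.2)) :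
    Measurable fun x => ∫⁻ s in Ioo (lo x) (hi x), g x s := by
  have hs : MeasurableSet {x : α × ℝ | lo x.1 < x.2 ∧ x.2 < hi x.1} :=
    (measurableSet_lt (hlo.comp measurable_fst) measurable_snd).inter
      (measurableSet_lt measurable_snd (hhi.comp measurable_fst))
  have h := (hg.indicator hs).lintegral_prod_right' (ν := (volume : Measure ℝ))
  convert h using 2 with x
  rw [← lintegral_indicator measurableSet_Ioo]
  rfl

theorem measurable_fl' (p : Ph) : Measurable (fl p) :=
  measurable_fl.comp (f := fun s => (p, s)) measurable_prodMk_left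

theorem measurable_fl_at (a : ℝ) : Measurable (fun p => fl p a) :=
  measurable_fl.comp (f := fun p => (p, a)) measurable_prodMk_right

/-- the kernel of `LL` -/
def kL (v vs : R3) : ℝ≥0∞ := ∫⁻ w, ab v vs w ∂sphereMeasure

theorem measurable_kL (v : R3) : Measurable (kL v) :=
  (measurable_ab.comp (f := fun x : R3 × R3 => (v, x))
    measurable_prodMk_left).lintegral_prod_right'

theorem LL_eq (f : R3 → ℝ≥0∞) (v : R3) : LL f v = ∫⁻ vs, kL v vs * f vs := by
  refine lintegral_congr fun vs => lintegral_mul_const _ ?_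
  exact measurable_ab.comp (f := fun w : R3 => (v, vs, w)) (by fun_prop)

theorem measurable_pair {F G : PF} (hF : Measurable F) (hG : Measurable G) (p : Ph) :
    Measurable fun q : R3 × R3 => sec F p q.1 * sec G p q.2 :=
  ((measurable_sec hF p).comp measurable_fst).mul ((measurable_sec hG p).comp measurable_snd)

theorem measurable_kL_mul {F : PF} (hF : Measurable F) (p : Ph) :
    Measurable fun η => kL p.2.2 η * sec F p η := (measurable_kL _).mul (measurable_sec hF p)

theorem QF_mono {F F' G G' : PF} (h1 : F ≤ F') (h2 : G ≤ G') : QF F G ≤ QF F' G' := fun p =>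
  QH_mono (H := fun q => sec F p q.1 * sec G p q.2) (H' := fun q => sec F' p q.1 * sec G' p q.2)
    (fun _ => mul_le_mul' (h1 _) (h2 _)) p.2.2

theorem fl_lat (t : ℝ) (x v : R3) (m : Fin 3 → ℤ) (s : ℝ) :
    fl (t, x + lat m, v) s = (s, (x - (t - s) • v) + lat m, v) := by
  simp only [fl]
  rw [add_sub_right_comm]

theorem per_fl {F : PF} (hF : Per F) (t : ℝ) (x v : R3) (m : Fin 3 → ℤ) (s : ℝ) :
    F (fl (t, x + lat m, v) s) = F (fl (t, x, v) s) := by
  rw [fl_lat, hF]
  rfl

theorem per_sec {F : PF} (hF : Per F) (t : ℝ) (x v : R3) (m : Fin 3 → ℤ) :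
    sec F (t, x + lat m, v) = sec F (t, x, v) := funext fun η => hF t x η m

end PosA

theorem PosOp.id : PosOp (fun f => f) := by
  exact ⟨fun _ h => h, fun _ _ _ _ h => h, fun _ _ _ _ => rfl, fun _ _ _ => rfl, fun _ _ _ => rfl⟩

theorem PosOp.comp {S T : PF → PF} (hS : PosOp S) (hT : PosOp T) : PosOp (fun f => S (T f)) := by
  refine ⟨fun f hf => hS.meas _ (hT.meas f hf),
    fun f g hf hg h => hS.mono _ _ (hT.meas f hf) (hT.meas g hg) (hT.mono f g hf hg h),
    fun f g hf hg => ?_, fun c f hf => ?_, fun f hf hm => ?_⟩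
  · rw [hT.add f g hf hg, hS.add _ _ (hT.meas f hf) (hT.meas g hg)]
  · rw [hT.smul c f hf, hS.smul c _ (hT.meas f hf)]
  · rw [hT.iSup f hf hm, hS.iSup (fun n => T (f n)) (fun n => hT.meas _ (hf n))
      fun i j h => hT.mono _ _ (hf i) (hf j) (hm h)]

theorem PosOp.plus {S T : PF → PF} (hS : PosOp S) (hT : PosOp T) :
    PosOp (fun f p => S f p + T f p) := by
  refine ⟨fun f hf => (hS.meas f hf).add (hT.meas f hf),
    fun f g hf hg h p => add_le_add (hS.mono f g hf hg h p) (hT.mono f g hf hg h p),
    fun f g hf hg => ?_, fun c f hf => ?_, fun f hf hm => ?_⟩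
  · funext p
    rw [hS.add f g hf hg, hT.add f g hf hg]
    exact add_add_add_comm _ _ _ _
  · funext p
    rw [hS.smul c f hf, hT.smul c f hf, mul_add]
  · funext p
    rw [hS.iSup f hf hm, hT.iSup f hf hm]
    exact ENNReal.iSup_add_iSup_of_monotone (f := fun n => S (f n) p) (g := fun n => T (f n) p)
      (fun i j h => hS.mono _ _ (hf i) (hf j) (hm h) p)
      (fun i j h => hT.mono _ _ (hf i) (hf j) (hm h) p)

theorem PosOp.mul {T : PF → PF} (hT : PosOp T) {w : PF} (hw : Measurable w) :
    PosOp (fun f p => w p * T f p) := by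
  refine ⟨fun f hf => hw.mul (hT.meas f hf),
    fun f g hf hg h p => mul_le_mul_right (hT.mono f g hf hg h p) _,
    fun f g hf hg => ?_, fun c f hf => ?_, fun f hf hm => ?_⟩
  · funext p
    rw [hT.add f g hf hg]
    exact mul_add _ _ _
  · funext p
    rw [hT.smul c f hf, mul_left_comm]
  · funext p
    rw [hT.iSup f hf hm, ENNReal.mul_iSup]

theorem PosOp.map_zero {T : PF → PF} (hT : PosOp T) (p : Ph) : T (fun _ => 0) p = 0 := by
  have h := congrFun (hT.smul 0 (fun _ => 0) measurable_const) p
  simpa using h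

theorem PosA.posOp_Iw (a : ℝ) (k : Ph → ℝ → ℝ≥0∞)
    (hk : Measurable (fun x : Ph × ℝ => k x.1 x.2)) :
    PosOp (fun f p => ∫⁻ s in Ioo a p.1, k p s * f (fl p s)) := by
  have hm : ∀ f : PF, Measurable f → ∀ p, Measurable fun s => k p s * f (fl p s) :=
    fun f hf p => (hk.comp (f := fun s => (p, s)) measurable_prodMk_left).mul
      (hf.comp (PosA.measurable_fl' p))
  refine ⟨fun f hf => PosA.measurable_lint_Ioo measurable_const measurable_fst
      (g := fun p s => k p s * f (fl p s)) (hk.mul (hf.comp measurable_fl)),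
    fun f g _ _ h p => lintegral_mono fun s => mul_le_mul_right (h _) _,
    fun f g hf _ => ?_, fun c f hf => ?_, fun f hf hmono => ?_⟩
  · funext p
    simp only [Pi.add_apply, mul_add]
    exact lintegral_add_left (hm f hf p) _
  · funext p
    simp only [mul_left_comm _ c]
    exact lintegral_const_mul _ (hm f hf p)
  · funext p
    simp only [ENNReal.mul_iSup]
    exact lintegral_iSup (fun n => hm _ (hf n) p)
      fun i j h s => mul_le_mul_right (hmono h _) _

theorem posOp_Ia (a : ℝ) : PosOp (Ia a) := by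
  have h := PosA.posOp_Iw a (fun _ _ => 1) measurable_const
  simp only [one_mul] at h
  exact h

/-- integral along the characteristic with a measurable weight depending on the end point -/
theorem posOp_Iw (a : ℝ) (k : Ph → ℝ → ℝ≥0∞) (hk : Measurable (fun x : Ph × ℝ => k x.1 x.2)) :
    PosOp (fun f p => ∫⁻ s in Ioo a p.1, k p s * f (fl p s)) := by
  exact PosA.posOp_Iw a k hk

theorem posOp_QF {E : PF} (hE : Measurable E) : PosOp (fun f => QF E f) := by
  refine ⟨fun f hf => measurable_QF hE hf,
    fun f g _ _ h => PosA.QF_mono le_rfl h,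
    fun f g hf _ => ?_, fun c f hf => ?_, fun f hf hmono => ?_⟩
  · funext p
    rw [Pi.add_apply, QF, QF, QF, Qp, Qp, Qp, ← QH_add (PosA.measurable_pair hE hf p)]
    congr 1
    funext q
    exact mul_add _ _ _
  · funext p
    rw [QF, QF, Qp, Qp, ← QH_const_mul _ (PosA.measurable_pair hE hf p)]
    congr 1
    funext q
    exact mul_left_comm _ _ _
  · funext p
    simp only [QF, Qp]
    rw [← QH_iSup (fun n => PosA.measurable_pair hE (hf n) p)
      fun i j h q => mul_le_mul_right (hmono h _) _]
    congr 1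
    funext q
    exact ENNReal.mul_iSup _ _

theorem posOp_LF : PosOp LF := by
  have hm : ∀ f : PF, Measurable f → ∀ p : Ph,
      Measurable fun η => PosA.kL p.2.2 η * sec f p η :=
    fun f hf p => (PosA.measurable_kL _).mul (measurable_sec hf p)
  refine ⟨fun f hf => measurable_LF hf,
    fun f g _ _ h p => lintegral_mono fun _ => lintegral_mono fun _ => mul_le_mul_right (h _) _,
    fun f g hf _ => ?_, fun c f hf => ?_, fun f hf hmono => ?_⟩
  · funext p
    rw [Pi.add_apply, LF, LF, LF, PosA.LL_eq, PosA.LL_eq, PosA.LL_eq,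
      ← lintegral_add_left (hm f hf p)]
    exact lintegral_congr fun η => mul_add _ _ _
  · funext p
    rw [LF, LF, PosA.LL_eq, PosA.LL_eq, ← lintegral_const_mul _ (hm f hf p)]
    exact lintegral_congr fun η => mul_left_comm _ _ _
  · funext p
    simp only [LF, PosA.LL_eq]
    rw [← lintegral_iSup (fun n => hm _ (hf n) p) fun i j h η => mul_le_mul_right (hmono h _) _]
    exact lintegral_congr fun η => ENNReal.mul_iSup _ _

theorem killsNull_QF {E : PF} (hE : Measurable E) : KillsNull (fun f => QF E f) := by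
  intro f hf hn p
  refine le_antisymm ?_ bot_le
  refine (Qp_mono_ae (f' := sec E p) (g' := fun _ => 0) (measurable_sec hE p) (measurable_sec hE p)
    (measurable_sec hf p) measurable_const (Eventually.of_forall fun _ => le_rfl)
    ((hn p.1 p.2.1).mono fun η h => h.le) p.2.2).trans ?_
  simp [Qp, QH]

theorem killsNull_LF : KillsNull LF := by
  intro f _ hn p
  refine le_antisymm ?_ bot_le
  refine (LL_mono_ae (f' := fun _ => 0) ((hn p.1 p.2.1).mono fun η h => h.le) p.2.2).trans ?_
  simp [LL]

theorem KillsNull.comp {S T : PF → PF} (hS : PosOp S) (hT : KillsNull T) :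
    KillsNull (fun f => S (T f)) := by
  intro f hf hn p
  have h : T f = fun _ => 0 := funext (hT f hf hn)
  simp only [h]
  exact hS.map_zero p

theorem KillsNull.plus {S T : PF → PF} (hS : KillsNull S) (hT : KillsNull T) :
    KillsNull (fun f p => S f p + T f p) := by
  intro f hf hn p
  simp only [hS f hf hn p, hT f hf hn p, add_zero]

theorem KillsNull.mul {T : PF → PF} (hT : KillsNull T) (w : PF) :
    KillsNull (fun f p => w p * T f p) := by
  intro f hf hn p
  simp only [hT f hf hn p, mul_zero]

theorem QF_mono {F F' G G' : PF} (h1 : F ≤ F') (h2 : G ≤ G') : QF F G ≤ QF F' G' := by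
  exact PosA.QF_mono h1 h2

theorem LF_mono {F F' : PF} (h : F ≤ F') : LF F ≤ LF F' := by
  exact fun p => lintegral_mono fun _ => lintegral_mono fun _ => mul_le_mul_right (h _) _

theorem QF_add_right {F G G' : PF} (hF : Measurable F) (hG : Measurable G) (p : Ph) :
    QF F (fun q => G q + G' q) p = QF F G p + QF F G' p := by
  rw [QF, QF, QF, Qp, Qp, Qp, ← QH_add (PosA.measurable_pair hF hG p)]
  congr 1
  funext q
  exact mul_add _ _ _

theorem QF_add_left {F F' G : PF} (hF : Measurable F) (hG : Measurable G) (p : Ph) :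
    QF (fun q => F q + F' q) G p = QF F G p + QF F' G p := by
  rw [QF, QF, QF, Qp, Qp, Qp, ← QH_add (PosA.measurable_pair hF hG p)]
  congr 1
  funext q
  exact add_mul _ _ _

theorem LF_add {F G : PF} (hF : Measurable F) (p : Ph) :
    LF (fun q => F q + G q) p = LF F p + LF G p := by
  rw [LF, LF, LF, PosA.LL_eq, PosA.LL_eq, PosA.LL_eq,
    ← lintegral_add_left (PosA.measurable_kL_mul hF p)]
  exact lintegral_congr fun η => mul_add _ _ _

/-- factors depending only on `(t, x)` come out of `QF` and `LF` -/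
theorem QF_mul_tx {F G : PF} (hF : Measurable F) (hG : Measurable G) (φ ψ : ℝ × R3 → ℝ≥0∞) (p : Ph) :
    QF (fun q => φ (q.1, q.2.1) * F q) (fun q => ψ (q.1, q.2.1) * G q) p =
      φ (p.1, p.2.1) * ψ (p.1, p.2.1) * QF F G p := by
  rw [QF, QF, Qp, Qp, ← QH_const_mul _ (PosA.measurable_pair hF hG p)]
  congr 1
  funext q
  exact mul_mul_mul_comm _ _ _ _

theorem LF_mul_tx {F : PF} (hF : Measurable F) (φ : ℝ × R3 → ℝ≥0∞) (p : Ph) :
    LF (fun q => φ (q.1, q.2.1) * F q) p = φ (p.1, p.2.1) * LF F p := by
  rw [LF, LF, PosA.LL_eq, PosA.LL_eq,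
    ← lintegral_const_mul _ (PosA.measurable_kL_mul hF p)]
  exact lintegral_congr fun η => mul_left_comm _ _ _

theorem Per.QF {F G : PF} (hF : Per F) (hG : Per G) : Per (QF F G) := by
  intro t x v m
  simp only [R68.QF, PosA.per_sec hF, PosA.per_sec hG]

theorem Per.LF {F : PF} (hF : Per F) : Per (LF F) := by
  intro t x v m
  simp only [R68.LF, PosA.per_sec hF]

theorem Per.Ia {F : PF} (hF : Per F) (a : ℝ) : Per (Ia a F) := by
  intro t x v m
  simp only [R68.Ia, PosA.per_fl hF]

theorem Per.Duh {Fb D β : PF} (h1 : Per Fb) (h2 : Per D) (h3 : Per β) (a : ℝ) :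
    Per (Duh a Fb D β) := by
  intro t x v m
  simp only [R68.Duh, Lam, PosA.per_fl h1.LF, PosA.per_fl (h1.QF h1), PosA.per_fl h2,
    PosA.per_fl h3]

theorem measurable_Lam {F : PF} (hF : Measurable F) :
    Measurable (fun x : Ph × ℝ => Lam F x.1 x.2) := by
  exact PosA.measurable_lint_Ioo measurable_snd measurable_fst.fst
    (g := fun (x : Ph × ℝ) τ => LF F (fl x.1 τ)) ((measurable_LF hF).comp
      (measurable_fl.comp (f := fun y : (Ph × ℝ) × ℝ => (y.1.1, y.2)) (by fun_prop)))

theorem measurable_Duh {Fb D β : PF} (h1 : Measurable Fb) (h2 : Measurable D) (h3 : Measurable β)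
    (a : ℝ) : Measurable (Duh a Fb D β) := by
  have hL := measurable_ex.comp (measurable_Lam h1)
  refine ((h2.comp (PosA.measurable_fl_at a)).mul
    (hL.comp (f := fun p => (p, a)) measurable_prodMk_right)).add ?_
  exact PosA.measurable_lint_Ioo measurable_const measurable_fst
    (g := fun p s => ex (Lam Fb p s) * (QF Fb Fb (fl p s) + β (fl p s)))
    (hL.mul (((measurable_QF h1 h1).comp measurable_fl).add (h3.comp measurable_fl)))

theorem measurable_Maj {E D β : PF} (h1 : Measurable E) (h2 : Measurable D) (h3 : Measurable β)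
    (a : ℝ) : Measurable (Maj a E D β) := by
  refine (h2.comp (PosA.measurable_fl_at a)).add ?_
  exact PosA.measurable_lint_Ioo measurable_const measurable_fst
    (g := fun p s => QF E E (fl p s) + β (fl p s))
    (((measurable_QF h1 h1).comp measurable_fl).add (h3.comp measurable_fl))

theorem PosOp.aux_zero {T : PF → PF} (hT : PosOp T) (p : Ph) : T (fun _ => 0) p = 0 := by
  have h := congrFun (hT.smul 0 (fun _ => 0) measurable_const) p
  simpa using h

theorem PosOp.aux_sum {T : PF → PF} (hT : PosOp T) (g : ℕ → PF) (hg : ∀ i, Measurable (g i))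
    (p : Ph) (n : ℕ) :
    T (fun q => ∑ i ∈ Finset.range n, g i q) p = ∑ i ∈ Finset.range n, T (g i) p := by
  induction n with
  | zero => simpa using hT.aux_zero p
  | succ n ih =>
    have hm : Measurable (fun q => ∑ i ∈ Finset.range n, g i q) :=
      Finset.measurable_sum _ (fun i _ => hg i)
    have h := congrFun (hT.add _ _ hm (hg n)) p
    have e : (fun q => ∑ i ∈ Finset.range (n + 1), g i q) =
        (fun q => ∑ i ∈ Finset.range n, g i q) + g n := by
      funext q
      simp [Finset.sum_range_succ]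
    rw [e, h, Finset.sum_range_succ, Pi.add_apply, ih]

theorem PosOp.aux_tsum {T : PF → PF} (hT : PosOp T) (g : ℕ → PF) (hg : ∀ i, Measurable (g i))
    (p : Ph) : T (fun q => ∑' i, g i q) p = ∑' i, T (g i) p := by
  have hm : ∀ n, Measurable (fun q => ∑ i ∈ Finset.range n, g i q) := fun n =>
    Finset.measurable_sum _ (fun i _ => hg i)
  have hmono : Monotone (fun n => (fun q => ∑ i ∈ Finset.range n, g i q : PF)) := by
    intro a b hab q
    exact Finset.sum_le_sum_of_subset (Finset.range_mono hab)
  have h := congrFun (hT.iSup _ hm hmono) p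
  simp only [ENNReal.tsum_eq_iSup_nat]
  rw [h]
  exact iSup_congr fun n => hT.aux_sum g hg p n

/-- a positive operator evaluated at a point is integration against a measure
(`Measure.ofMeasurable` with `A ↦ T (indicator A 1) p`, then `Measurable.ennreal_induction`). -/
theorem PosOp.exists_measure {T : PF → PF} (hT : PosOp T) (p : Ph) :
    ∃ ν : Measure Ph, ∀ f : PF, Measurable f → T f p = ∫⁻ q, f q ∂ν := by
  let ν : Measure Ph := Measure.ofMeasurable (fun A _ => T (A.indicator 1) p)
    (by
      have e : ((∅ : Set Ph).indicator 1 : PF) = fun _ => 0 := by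
        funext q
        simp
      simp only [e]
      exact hT.aux_zero p)
    (by
      intro A hA hd
      have e : ((⋃ i, A i).indicator 1 : PF) = fun q => ∑' i, (A i).indicator (1 : PF) q := by
        funext q
        by_cases hq : q ∈ ⋃ i, A i
        · obtain ⟨j, hj⟩ := mem_iUnion.1 hq
          rw [indicator_of_mem hq, tsum_eq_single j, indicator_of_mem hj]
          intro i hi
          exact indicator_of_notMem (fun hi' => Set.disjoint_left.1 (hd hi) hi' hj) _
        · rw [indicator_of_notMem hq]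
          symm
          rw [ENNReal.tsum_eq_zero]
          intro i
          exact indicator_of_notMem (fun hi => hq (mem_iUnion.2 ⟨i, hi⟩)) _
      simp only [e]
      exact hT.aux_tsum _ (fun i => measurable_one.indicator (hA i)) p)
  refine ⟨ν, fun f hf => ?_⟩
  refine Measurable.ennreal_induction (motive := fun f => T f p = ∫⁻ q, f q ∂ν) ?_ ?_ ?_ hf
  · intro c A hA
    have e : (A.indicator (fun _ => c) : PF) = fun q => c * A.indicator (1 : PF) q := by
      funext q
      by_cases hq : q ∈ A <;> simp [hq]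
    rw [lintegral_indicator_const hA, Measure.ofMeasurable_apply _ hA, e,
      hT.smul c _ (measurable_one.indicator hA)]
  · intro f g _ hf hg h1 h2
    rw [hT.add f g hf hg, Pi.add_apply, h1, h2]
    exact (lintegral_add_left hf g).symm
  · intro f hf hm h
    rw [hT.iSup f hf hm, lintegral_iSup hf hm]
    exact iSup_congr h

/-- decreasing limits (`lintegral_iInf`) -/
theorem PosOp.iInf {T : PF → PF} (hT : PosOp T) (f : ℕ → PF) (hf : ∀ n, Measurable (f n))
    (hanti : Antitone f) (p : Ph) (hfin : T (f 0) p ≠ ⊤) :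
    T (fun q => ⨅ n, f n q) p = ⨅ n, T (f n) p := by
  obtain ⟨ν, hν⟩ := hT.exists_measure p
  rw [hν _ (Measurable.iInf hf), lintegral_iInf hf hanti (by rw [← hν _ (hf 0)]; exact hfin)]
  exact iInf_congr fun n => (hν _ (hf n)).symm

/-- dominated convergence: `d n ≤ G`, `d n → 0` where `G < ⊤`, `G` finite a.e. on sections -/
theorem PosOp.tendsto_zero {T : PF → PF} (hT : PosOp T) (hK : KillsNull T) (d : ℕ → PF)
    (hd : ∀ n, Measurable (d n)) (G : PF) (hG : Measurable G) (hGf : FinSec G)
    (hle : ∀ n, d n ≤ G) (hlim : ∀ q, G q ≠ ⊤ → Tendsto (fun n => d n q) atTop (𝓝 0))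
    (p : Ph) (hp : T G p ≠ ⊤) : Tendsto (fun n => T (d n) p) atTop (𝓝 0) := by
  obtain ⟨ν, hν⟩ := hT.exists_measure p
  have hfin : ∫⁻ q, G q ∂ν ≠ ⊤ := by rw [← hν _ hG]; exact hp
  have h := tendsto_lintegral_of_dominated_convergence (μ := ν) (F := d) (f := fun _ => 0) G hd
    (fun n => Eventually.of_forall (hle n)) hfin
    ((ae_lt_top hG hfin).mono fun q hq => hlim q hq.ne)
  simp only [lintegral_zero] at h
  simpa only [hν _ (hd _)] using h

end
end Crest.Agent.R68
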