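import Crest.Agent.R68.Conc
import Crest.Agent.R68.PrePost

/-! # Row 68: auxiliary lemmas for the thermal lemma -/

set_option autoImplicit false
open MeasureTheory Set Filter Topology
open scoped ENNReal NNReal
open Crest.AnalysisR.VecCalc3 Crest.AnalysisR.PDE.Boltzmann

namespace Crest.Agent.R68.ThB
noncomputable section

/-- crude bound that only looks at the pairs which can produce the velocity `v` -/
theorem QH_loc (H : R3 × R3 → ℝ≥0∞) (v : R3) (lam : ℝ) (hl : 0 ≤ lam) (B : ℝ≥0∞)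
    (h : ∀ η ζ : R3, (∀ u, ‖v - u‖ ≤ ‖η - u‖ + ‖ζ - u‖) → H (η, ζ) ≠ 0 →
      H (η, ζ) ≤ B ∧ ‖η - v‖ ≤ lam ∧ ‖ζ - v‖ ≤ lam) :
    QH H v ≤ 2000 * B * ENNReal.ofReal (lam ^ 4) := by
  classical
  set H' : R3 × R3 → ℝ≥0∞ := fun q =>
    if ∀ u, ‖v - u‖ ≤ ‖q.1 - u‖ + ‖q.2 - u‖ then H q else 0 with hH'
  have h1 : QH H v ≤ QH H' v := by
    refine lintegral_mono fun vs => lintegral_mono_ae (ae_norm_one.mono fun w hw => ?_)
    refine le_of_eq (congrArg _ (if_pos fun u => ?_).symm)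
    have h3 := post_energy v vs w u hw
    refine le_of_pow_le_pow_left₀ two_ne_zero (by positivity) ?_
    nlinarith [sq_nonneg ‖vs - u‖,
      mul_nonneg (norm_nonneg (postVel v vs w - u)) (norm_nonneg (postVelStar v vs w - u))]
  have h2 := QH_crude H' v lam hl B (fun q => ?_) (fun q hq => ?_) v
  · rw [if_pos (by rw [sub_self, norm_zero]; positivity)] at h2
    exact h1.trans h2
  · simp only [hH']
    split_ifs with hq
    · by_cases h0 : H q = 0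
      · rw [h0]; exact zero_le
      · exact (h q.1 q.2 hq h0).1
    · exact zero_le
  · simp only [hH'] at hq
    split_ifs at hq with hq'
    · exact (h q.1 q.2 hq' hq).2
    · exact absurd rfl hq

theorem lev_mono {P : Par} {b : Bool} {j j' : ℕ} {t : ℝ} {y v : R3} (h : Lev P b j t y v)
    (ht : 0 ≤ t) (hj : j ≤ j') : Lev P b j' t y v := by
  have h1 : (8 : ℝ) ^ j ≤ 8 ^ j' := pow_le_pow_right₀ (by norm_num) hj
  exact ⟨h.1, h.2.1, h.2.2.1.trans (by gcongr), h.2.2.2.trans (by gcongr)⟩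

theorem r0_le {P : Par} (hP : P.Basic) : P.r0 ≤ 1 / 10 ^ 50 := by
  have := hP.r0_K
  rw [cK] at this
  linarith

theorem x1_le {P : Par} (hP : P.Basic) {b : Bool} {j : ℕ} {t : ℝ} {y v : R3}
    (h : Lev P b j t y v) (hj : j ≤ P.N) (ht : 0 ≤ t) : |x1 y| ≤ 11 / 10 * P.r0 := by
  obtain ⟨y', hy', h1⟩ := h.near hP hj ht
  have h2 := (abs_x1_le (y - y')).trans h1
  rw [x1_sub, cH] at h2
  have h3 := abs_sub_abs_le_abs_sub (x1 y) (x1 y')
  have h4 := hy'.2.1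
  linarith [abs_nonneg (x1 y), hP.r0_pos]

/-- the envelope is controlled by the lowest level that is occupied -/
theorem sZ_le {P : Par} (hP : P.Basic) {p : Ph} (ht : 0 ≤ p.1) (h : sZ P p ≠ 0) :
    ∃ (b : Bool) (j : ℕ), j ≤ P.N ∧ Lev P b j p.1 (lbl p) p.2.2 ∧ sZ P p ≤
      ENNReal.ofReal (2 * (P.N + 1) * (cC * |x1 (lbl p)| ^ (2 * j) / |x1 (lbl p)| ^ 13)) := by
  classical
  have hc : ∀ b, |x1 (lbl p)| ≤ P.rstar p.1 → cold0 P b (lbl p) p.2.2 ≠ 0 →
      Lev P b 0 p.1 (lbl p) p.2.2 := fun b hr h0 => lev_of_cold0 hP h0 ht hr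
  have hex : ∃ j, j ≤ P.N ∧ ∃ b, Lev P b j p.1 (lbl p) p.2.2 := by
    by_contra hn
    push Not at hn
    refine h (add_eq_zero.2 ⟨?_, Finset.sum_eq_zero fun b _ => Finset.sum_eq_zero fun j hj =>
      if_neg (hn j (Finset.mem_Icc.1 hj).2 b)⟩)
    unfold csm
    split_ifs with hr
    · exact Finset.sum_eq_zero fun b _ => by_contra fun h0 => hn 0 (Nat.zero_le _) b (hc b hr h0)
    · rfl
  obtain ⟨h1, b, h2⟩ := Nat.find_spec hex
  have hmin : ∀ j b, j ≤ P.N → Lev P b j p.1 (lbl p) p.2.2 → Nat.find hex ≤ j :=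
    fun j b hj hl => Nat.find_min' hex ⟨hj, b, hl⟩
  generalize Nat.find hex = j₀ at h1 h2 hmin
  refine ⟨b, j₀, h1, h2, ?_⟩
  have hρ : |x1 (lbl p)| ≤ 1 := by linarith [x1_le hP h2 h1 ht, r0_le hP]
  have hC : 0 < cC := by unfold cC; positivity
  set T := ENNReal.ofReal (cC * |x1 (lbl p)| ^ (2 * j₀) / |x1 (lbl p)| ^ 13) with hT
  have a1 : csm P p ≤ 2 * T := by
    unfold csm
    split_ifs with hr
    · refine (Finset.sum_le_card_nsmul _ _ T fun b' _ => ?_).trans (by simp)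
      by_cases h0 : cold0 P b' (lbl p) p.2.2 = 0
      · rw [h0]; exact zero_le
      · obtain rfl : j₀ = 0 := Nat.le_zero.1 (hmin 0 b' (Nat.zero_le _) (hc b' hr h0))
        simpa [hT] using (cold0_small hP h0).2.2.2.2.2
    · exact zero_le
  have a2 : ZZ P p ≤ 2 * (P.N * T) := by
    refine (Finset.sum_le_card_nsmul _ _ (P.N * T) fun b' _ => ?_).trans (by simp)
    refine (Finset.sum_le_card_nsmul _ _ T fun j hj => ?_).trans (by simp)
    split_ifs with hl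
    · refine ENNReal.ofReal_le_ofReal (div_le_div_of_nonneg_right
        (mul_le_mul_of_nonneg_left (pow_le_pow_of_le_one (abs_nonneg _) hρ ?_) hC.le)
        (by positivity))
      have := hmin j b' (Finset.mem_Icc.1 hj).2 hl
      omega
    · exact zero_le
  refine (add_le_add a1 a2).trans (le_of_eq ?_)
  rw [ENNReal.ofReal_mul (by positivity), ENNReal.ofReal_mul (by positivity),
    ENNReal.ofReal_add (by positivity) zero_le_one, ENNReal.ofReal_ofNat, ENNReal.ofReal_natCast,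
    ENNReal.ofReal_one, ← hT]
  ring

/-- geometry of a collision between two particles of level `j` -/
theorem pair {P : Par} (hP : P.Basic) {b : Bool} {j : ℕ} {s t : ℝ} {y₁ y₂ η ζ v y : R3}
    (hs : 0 ≤ s) (hst : s ≤ t) (hj : j ≤ P.N) (h1 : Lev P b j s y₁ η) (h2 : Lev P b j s y₂ ζ)
    (e1 : y + s • v = y₁ + s • η) (e2 : y + s • v = y₂ + s • ζ)
    (hE : ∀ u, ‖v - u‖ ≤ ‖η - u‖ + ‖ζ - u‖) :
    ‖y‖ ≤ 1 / 50 ∧ ‖v‖ ≤ 2 ∧ |x1 y| < 2 * P.r0 ∧ |x1 y₁| ≤ 2 * |x1 y| ∧ |x1 y| ≤ 2 * |x1 y₁| ∧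
      ‖η - v‖ ≤ 16 * 8 ^ P.N * x1 y ^ 4 ∧
      Metric.infDist y (SS P.r0 b) ≤ (1 + t) * (4 * 8 ^ (j + 1)) * x1 y ^ 4 ∧
      ‖ww b t y v‖ ≤ (4 * 8 ^ (j + 1)) * x1 y ^ 4 := by
  set u := uu b s (y + s • v) with hu
  set L : ℝ := 4 * 8 ^ j with hL
  have hL0 : 0 < L := by positivity
  have w1 : ‖η - u‖ ≤ L * x1 y₁ ^ 4 := by rw [hu, e1]; exact h1.2.2.2
  have w2 : ‖ζ - u‖ ≤ L * x1 y₂ ^ 4 := by rw [hu, e2]; exact h2.2.2.2
  have t1 := h1.tiny hP hj hs
  have t2 := h2.tiny hP hj hs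
  have c1 := h1.x1_close hP hj hs
  have c2 := h2.x1_close hP hj hs
  have b1 := x1_le hP h1 hj hs
  have b0 := r0_le hP
  have b3 := hP.r0_pos
  rw [← e1] at c1
  rw [← e2] at c2
  rw [← hL, mul_assoc] at t1 t2
  rw [cH] at t1 t2 c1 c2
  have d1 := abs_sub_abs_le_abs_sub (x1 (y + s • v)) (x1 y₁)
  have d2 := abs_sub_abs_le_abs_sub (x1 y₁) (x1 (y + s • v))
  have d3 := abs_sub_abs_le_abs_sub (x1 (y + s • v)) (x1 y₂)
  have d4 := abs_sub_abs_le_abs_sub (x1 y₂) (x1 (y + s • v))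
  rw [abs_sub_comm] at d2 d4
  have v1 := hE u
  have v2 : ‖η - v‖ ≤ ‖η - u‖ + ‖v - u‖ := by
    rw [← sub_sub_sub_cancel_right _ _ u]; exact norm_sub_le _ _
  have p1 : 0 ≤ L * x1 y₁ ^ 4 := by positivity
  have p2 : 0 ≤ L * x1 y₂ ^ 4 := by positivity
  have n1 : ‖y - y₁‖ = s * ‖η - v‖ := by
    rw [show y - y₁ = s • (η - v) by rw [smul_sub, sub_eq_sub_iff_add_eq_add, e1, add_comm],
      norm_smul, Real.norm_of_nonneg hs]
  have n2 : s * ‖η - v‖ ≤ s * (2 * (L * x1 y₁ ^ 4) + L * x1 y₂ ^ 4) :=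
    mul_le_mul_of_nonneg_left (by linarith) hs
  have ρ1 := abs_nonneg (x1 y₁)
  have n3 : ‖y - y₁‖ ≤ 1 / 1000 * |x1 y₁| := by linarith
  have n4 := (abs_x1_le (y - y₁)).trans n3
  rw [x1_sub] at n4
  have d5 := abs_sub_abs_le_abs_sub (x1 y) (x1 y₁)
  have d6 := abs_sub_abs_le_abs_sub (x1 y₁) (x1 y)
  rw [abs_sub_comm] at d6
  have q : ∀ a : ℝ, |a| ≤ 101 / 100 * |x1 y| → L * a ^ 4 ≤ 105 / 100 * (L * x1 y ^ 4) := by
    intro a ha
    have := pow_le_pow_left₀ (abs_nonneg _) ha 4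
    rw [mul_pow, Even.pow_abs (by decide : Even 4), Even.pow_abs (by decide : Even 4)] at this
    have h0 : 0 ≤ x1 y ^ 4 := by positivity
    nlinarith [mul_le_mul_of_nonneg_left this hL0.le, mul_nonneg hL0.le h0]
  have q1 := q (x1 y₁) (by linarith)
  have q2 := q (x1 y₂) (by linarith)
  have p3 : 0 ≤ L * x1 y ^ 4 := by positivity
  have eL : (4 * 8 ^ (j + 1) : ℝ) = 8 * L := by rw [hL, pow_succ]; ring
  have sp1 := mul_nonneg hs p1
  have sp2 := mul_nonneg hs p2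
  refine ⟨?_, ?_, by linarith, by linarith, by linarith, ?_, ?_, ?_⟩
  · linarith [norm_sub_norm_le y y₁, (h1.small hP hj hs).2.1]
  · linarith [norm_sub_norm_le v u, norm_uu_le b s (y + s • v)]
  · have h8 : (8 : ℝ) ^ j ≤ 8 ^ P.N := pow_le_pow_right₀ (by norm_num) hj
    have : 4 * (L * x1 y ^ 4) ≤ 16 * 8 ^ P.N * x1 y ^ 4 := by
      rw [hL, ← mul_assoc, ← mul_assoc]
      exact mul_le_mul_of_nonneg_right (by linarith) (by positivity)
    linarith
  · have i1 := Metric.infDist_le_infDist_add_dist (x := y) (y := y₁) (s := SS P.r0 b)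
    have i2 := h1.2.2.1
    rw [dist_eq_norm] at i1
    rw [← hL, mul_assoc] at i2
    have i3 := mul_le_mul_of_nonneg_left q1 hs
    have i4 := mul_le_mul_of_nonneg_left q2 hs
    have i5 := mul_le_mul_of_nonneg_right hst p3
    have i6 := mul_nonneg hs p3
    rw [eL]
    linarith
  · have := ww_flight b hs hst y v
    rw [show ww b s y v = v - u from rfl] at this
    rw [eL]
    linarith

/-- the product of the collision is seen by one of the three envelopes -/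
theorem target {P : Par} (hP : P.Basic) {b : Bool} {j : ℕ} {p : Ph} {s : ℝ} (hs : 0 ≤ s)
    (hst : s ≤ p.1) (hj : j ≤ P.N) (h0 : x1 (lbl p) ≠ 0) (hy : ‖lbl p‖ ≤ 1 / 50) (hv : ‖p.2.2‖ ≤ 2)
    (hr : |x1 (lbl p)| < 2 * P.r0)
    (hd : Metric.infDist (lbl p) (SS P.r0 b) ≤ (1 + p.1) * (4 * 8 ^ (j + 1)) * x1 (lbl p) ^ 4)
    (hw : ‖ww b p.1 (lbl p) p.2.2‖ ≤ (4 * 8 ^ (j + 1)) * x1 (lbl p) ^ 4) :
    ENNReal.ofReal (cC * |x1 (lbl p)| ^ (2 * (j + 1)) / |x1 (lbl p)| ^ 13) ≤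
      ZZ P p + Big P p + leak P (fl p s) := by
  classical
  have b0 := r0_le hP
  have hC : 0 < cC := by unfold cC; positivity
  have hr0 : 0 < |x1 (lbl p)| := abs_pos.2 h0
  have hr1 : |x1 (lbl p)| ≤ 1 := by linarith
  rcases lt_or_ge (P.rstar p.1) |x1 (lbl p)| with hb | hb
  · refine le_trans ?_ (le_add_right le_add_self)
    unfold Big
    rw [if_pos ⟨hb.trans hr, by linarith⟩]
    have hz' : 0 < P.rstar p.1 := div_pos hP.cs_pos (pow_pos (by linarith) _)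
    refine ENNReal.ofReal_le_ofReal (div_le_div₀ (by positivity) ?_ (by positivity)
      (pow_le_pow_left₀ hz'.le hb.le _))
    have h1 := pow_le_one₀ (n := 2 * (j + 1)) hr0.le hr1
    have h2 : (0 : ℝ) ≤ P.N := Nat.cast_nonneg _
    nlinarith [mul_le_mul_of_nonneg_left h1 hC.le, mul_nonneg h2 hC.le]
  rcases hj.lt_or_eq with hj | rfl
  · refine le_trans ?_ (le_add_right le_self_add)
    refine le_trans ?_ (Finset.single_le_sum (f := fun b => zed0 P b p.1 (lbl p) p.2.2)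
      (fun _ _ => zero_le) (Finset.mem_univ b))
    refine le_trans (le_of_eq (if_pos (show Lev P b (j + 1) p.1 (lbl p) p.2.2 from
      ⟨h0, hb, hd, hw⟩)).symm) (Finset.single_le_sum (f := fun j => if Lev P b j p.1 (lbl p) p.2.2
        then ENNReal.ofReal (cC * |x1 (lbl p)| ^ (2 * j) / |x1 (lbl p)| ^ 13) else 0)
      (fun _ _ => zero_le) (Finset.mem_Icc.2 ⟨by omega, hj⟩))
  · refine le_trans ?_ le_add_self
    unfold leak
    rw [if_pos (show ‖(fl p s).2.2‖ ≤ 2 from hv)]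
    refine ENNReal.ofReal_le_ofReal ?_
    have h1 : |x1 (lbl p)| ≤ min 1 (ell (fl p s)) := by
      refine le_min hr1 ?_
      change _ ≤ 8 * s + tn (fl p s).2.1
      rcases le_or_gt s (1 / 10) with h | h
      · obtain ⟨m, hm⟩ := exists_red_eq (p.2.1 - p.1 • p.2.2)
        have e : (fl p s).2.1 - lat m = lbl p + s • p.2.2 := by
          rw [lbl, hm]
          simp only [fl]
          module
        have n1 : ‖s • p.2.2‖ ≤ s * 2 := by
          rw [norm_smul, Real.norm_of_nonneg hs]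
          exact mul_le_mul_of_nonneg_left hv hs
        have n2 := norm_add_le (lbl p) (s • p.2.2)
        have n3 := norm_sub_le (lbl p + s • p.2.2) (s • p.2.2)
        rw [add_sub_cancel_right] at n3
        rw [tn, red_eq_of_short (m := m) (by rw [e]; linarith), e]
        linarith [abs_x1_le (lbl p)]
      · linarith [tn_nonneg (fl p s).2.1]
    refine le_trans ?_ (pow_le_pow_left₀ hr0.le h1 _)
    rw [div_le_iff₀ (by positivity), Par.N,
      show 2 * (P.k3 + 20 + 1) = P.k3 + 13 + (P.k3 + 28 + 1) by ring, pow_add, pow_add,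
      mul_left_comm]
    refine mul_le_of_le_one_right (by positivity) ?_
    have h2 := pow_le_one₀ (n := P.k3 + 28) hr0.le hr1
    have h3 : cC * |x1 (lbl p)| ≤ 1 := by rw [cC]; linarith
    rw [pow_succ, mul_left_comm]
    exact mul_le_one₀ h2 (by positivity) h3

theorem prod_le {r ρ₁ ρ₂ : ℝ} {j₁ j₂ j N : ℕ} (hr : 0 < r) (hr1 : 2 * r ≤ 1) (a1 : ρ₁ ≤ 2 * r)
    (a2 : r ≤ 2 * ρ₁) (b1 : ρ₂ ≤ 2 * r) (b2 : r ≤ 2 * ρ₂) (hj : j ≤ j₁ + j₂) (hN : j ≤ N) :
    ρ₁ ^ (2 * j₁) / ρ₁ ^ 13 * (ρ₂ ^ (2 * j₂) / ρ₂ ^ 13) ≤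
      4 ^ N * 2 ^ 26 / r ^ 15 * (r ^ (2 * (j + 1)) / r ^ 13) := by
  have h : ∀ (ρ : ℝ) (i : ℕ), ρ ≤ 2 * r → r ≤ 2 * ρ →
      ρ ^ (2 * i) / ρ ^ 13 ≤ (2 * r) ^ (2 * i) / (r / 2) ^ 13 := fun ρ i h1 h2 =>
    div_le_div₀ (by positivity) (pow_le_pow_left₀ (by linarith) h1 _) (by positivity)
      (pow_le_pow_left₀ (by positivity) (by linarith) _)
  have h2 : 0 < ρ₂ := by linarith
  refine (mul_le_mul (h _ _ a1 a2) (h _ _ b1 b2) (by positivity) (by positivity)).trans ?_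
  have h3 : (2 * r) ^ (2 * j₁) * (2 * r) ^ (2 * j₂) ≤ 4 ^ N * r ^ (2 * j) := by
    rw [← pow_add]
    refine (pow_le_pow_of_le_one (by positivity) hr1 (by omega : 2 * j ≤ _)).trans ?_
    rw [mul_pow, pow_mul, show (2 : ℝ) ^ 2 = 4 by norm_num]
    exact mul_le_mul_of_nonneg_right (pow_le_pow_right₀ (by norm_num) hN) (by positivity)
  calc _ = (2 * r) ^ (2 * j₁) * (2 * r) ^ (2 * j₂) * (2 ^ 26 / r ^ 26) := by
        generalize (2 * r) ^ (2 * j₁) = A
        generalize (2 * r) ^ (2 * j₂) = B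
        field_simp
    _ ≤ 4 ^ N * r ^ (2 * j) * (2 ^ 26 / r ^ 26) := mul_le_mul_of_nonneg_right h3 (by positivity)
    _ = _ := by
        rw [mul_add, pow_add]
        field_simp

/-- the constant of the thermal lemma -/
def cT (N : ℕ) : ℝ := (2 * (N + 1)) ^ 2 * cC * (4 ^ N * 2 ^ 26)

theorem cT_pos (N : ℕ) : 0 < cT N := by unfold cT cC; positivity

theorem main {P : Par} (hP : P.Basic)
    (hN : ∀ (b b' : Bool) (j j' : ℕ) (t : ℝ) (y y' v v' : R3) (m : Fin 3 → ℤ), 0 ≤ t → j ≤ P.N →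
      j' ≤ P.N → Lev P b j t y v → Lev P b' j' t y' v' → y + t • v = y' + t • v' + lat m →
      m = 0 ∧ b = b') (p : Ph) (s : ℝ) (hs : 0 ≤ s) (hst : s ≤ p.1) :
    QF (sZ P) (sZ P) (fl p s) ≤ ENNReal.ofReal (2000 * cT P.N * (16 * 8 ^ P.N) ^ 4 * (2 * P.r0)) *
      (ZZ P p + Big P p + leak P (fl p s)) := by
  set W := ZZ P p + Big P p + leak P (fl p s) with hW
  set r := |x1 (lbl p)| with hr
  set z := (fl p s).2.1 with hz
  have hc := cT_pos P.N
  have hC : 0 < cC := by unfold cC; positivity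
  have h := QH_loc (fun q => sZ P (s, z, q.1) * sZ P (s, z, q.2)) p.2.2
    (16 * 8 ^ P.N * x1 (lbl p) ^ 4) (by positivity)
    (if r < 2 * P.r0 then ENNReal.ofReal (cT P.N / r ^ 15) * W else 0) fun η ζ hE h0 => ?_
  · refine le_trans h ?_
    split_ifs with hlt
    · rw [mul_right_comm, ← mul_assoc, ← ENNReal.ofReal_ofNat 2000,
        ← ENNReal.ofReal_mul (by norm_num), ← ENNReal.ofReal_mul (by positivity)]
      refine mul_le_mul_left (ENNReal.ofReal_le_ofReal ?_) _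
      rw [← Even.pow_abs (by decide : Even 4) (x1 (lbl p)), ← hr]
      have hr0 : 0 ≤ r := abs_nonneg _
      rcases hr0.eq_or_lt with h0 | h0
      · rw [← h0]
        have := hP.r0_pos
        simp only [zero_pow (by norm_num : 4 ≠ 0), mul_zero, zero_mul]
        positivity
      · calc _ = 2000 * cT P.N * (16 * 8 ^ P.N) ^ 4 * r := by field_simp
          _ ≤ _ := mul_le_mul_of_nonneg_left hlt.le (by positivity)
    · simp
  obtain ⟨b₁, j₁, hj₁, l₁, s₁⟩ := sZ_le hP (p := (s, z, η)) hs (left_ne_zero_of_mul h0)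
  obtain ⟨b₂, j₂, hj₂, l₂, s₂⟩ := sZ_le hP (p := (s, z, ζ)) hs (right_ne_zero_of_mul h0)
  obtain ⟨m₁, e₁⟩ : ∃ m, lbl (s, z, η) = z - s • η - lat m := exists_red_eq _
  obtain ⟨m₂, e₂⟩ : ∃ m, lbl (s, z, ζ) = z - s • ζ - lat m := exists_red_eq _
  generalize lbl (s, z, η) = y₁ at *
  generalize lbl (s, z, ζ) = y₂ at *
  obtain ⟨hm, rfl⟩ := hN b₁ b₂ j₁ j₂ s y₁ y₂ η ζ (m₂ + -m₁) hs hj₁ hj₂ l₁ l₂
    (by rw [e₁, e₂, lat_add, lat_neg]; abel)
  obtain rfl : m₂ = m₁ := by rwa [← sub_eq_add_neg, sub_eq_zero] at hm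
  have hj : max j₁ j₂ ≤ P.N := max_le hj₁ hj₂
  have k₁ := lev_mono l₁ hs (le_max_left j₁ j₂)
  have k₂ := lev_mono l₂ hs (le_max_right j₁ j₂)
  have f₁ : z - s • p.2.2 - lat m₂ + s • p.2.2 = y₁ + s • η := by rw [e₁]; abel
  have f₂ : z - s • p.2.2 - lat m₂ + s • p.2.2 = y₂ + s • ζ := by rw [e₂]; abel
  obtain ⟨a1, a2, a3, a4, a5, a6, a7, a8⟩ := pair hP hs hst hj k₁ k₂ f₁ f₂ hE
  obtain ⟨-, -, -, c4, c5, c6, -, -⟩ := pair hP hs hst hj k₂ k₁ f₂ f₁
    fun u => (hE u).trans_eq (add_comm _ _)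
  have ey : lbl p = z - s • p.2.2 - lat m₂ := by
    rw [← lbl_fl p s]
    exact red_eq_of_short (a1.trans_lt (by norm_num))
  rw [← ey] at a1 a3 a4 a5 a6 a7 a8 c4 c5 c6
  have r0 : 0 < r := by linarith [abs_pos.2 l₁.1]
  refine ⟨?_, a6, c6⟩
  rw [if_pos a3]
  refine (mul_le_mul' s₁ s₂).trans (le_trans ?_
    (mul_le_mul_right (target hP hs hst hj (abs_pos.1 r0) a1 a2 a3 a7 a8) _))
  rw [← ENNReal.ofReal_mul (by positivity), ← ENNReal.ofReal_mul (by positivity)]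
  refine ENNReal.ofReal_le_ofReal ?_
  have key := prod_le r0 (by linarith [r0_le hP]) a4 a5 c4 c5
    (max_le (Nat.le_add_right j₁ j₂) (Nat.le_add_left j₂ j₁)) hj
  refine le_of_eq_of_le ?_ ((mul_le_mul_of_nonneg_left key
    (show 0 ≤ (2 * ((P.N : ℝ) + 1)) ^ 2 * cC ^ 2 by positivity)).trans_eq ?_)
  · ring
  · rw [cT]; ring

end
end Crest.Agent.R68.ThB
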