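import Crest.Agent.R68.Conc
import Crest.Agent.R68.PosOps
import Crest.Agent.R68.PrePost
import Crest.Agent.R68.Ball
import Crest.Agent.R68.ThermalB

/-! # Row 68: collisions inside the medium -/

set_option autoImplicit false
open MeasureTheory Set Filter Topology
open scoped ENNReal NNReal
open Crest.AnalysisR.VecCalc3 Crest.AnalysisR.PDE.Boltzmann

namespace Crest.Agent.R68
noncomputable section

/-- particles in the thermal levels only meet particles of the same lift and of the same stream -/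
def Par.Normal (P : Par) : Prop := ∀ (b b' : Bool) (j j' : ℕ) (t : ℝ) (y y' v v' : R3)
  (m : Fin 3 → ℤ), 0 ≤ t → j ≤ P.N → j' ≤ P.N → Lev P b j t y v → Lev P b' j' t y' v' →
    y + t • v = y' + t • v' + lat m → m = 0 ∧ b = b'

/-- `|x1 (lat m)| ≤ 2(|x1 y| + |x1 y'|) ≤ 4 cs/(1+t)²` (`Lev.x1_close`), `‖lat m‖ ≤ 4(1+t)`
(`Lev.small`), `dioph`: `m = 0` once `64 cs < c`.  Then `Lev.near`, `Lev.x1_close`, `lane_sep`. -/
theorem ev_normal : ∀ᶠ P in parF, P.Normal := by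
  obtain ⟨c, hc, hd⟩ := dioph
  filter_upwards [ev_basic, ev_cs (p := fun _ _ cs => 100 * cs ≤ c)
    fun _ _ => FrameAux.ev_le (by fun_prop) (by simpa using hc)] with P hP hcs
  intro b b' j j' t y y' v v' m ht hj hj' h h' e
  have hH : cH = 1 / 10 ^ 47 := rfl
  have a1 := h.x1_close hP hj ht
  have a2 := h'.x1_close hP hj' ht
  have p1 := abs_pos.2 h.1
  have p2 := abs_pos.2 h'.1
  have a3 := abs_sub_abs_le_abs_sub (x1 (y + t • v)) (x1 y)
  have a4 := abs_sub_abs_le_abs_sub (x1 (y' + t • v')) (x1 y')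
  rw [hH] at a1 a2
  have hm : m = 0 := by
    by_contra hm
    have e1 : lat m = (y + t • v) - (y' + t • v') := by rw [e, add_sub_cancel_left]
    have h1 : ‖lat m‖ ≤ 4 * (1 + t) := by
      rw [e1]
      linarith [norm_sub_le (y + t • v) (y' + t • v'), (h.occ hP hj ht).2.2.2,
        (h'.occ hP hj' ht).2.2.2]
    have h2 : |x1 (lat m)| ≤ 4 * P.rstar t := by
      rw [e1, x1_sub]
      linarith [abs_sub (x1 (y + t • v)) (x1 (y' + t • v')), h.2.1, h'.2.1]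
    have h3 := (hd m hm).trans (mul_le_mul h2 (pow_le_pow_left₀ (norm_nonneg _) h1 2)
      (by positivity) ((abs_nonneg _).trans h2))
    have h4 : 4 * P.rstar t * (4 * (1 + t)) ^ 2 = 64 * P.cs := by
      have : 0 < 1 + t := by linarith
      rw [Par.rstar]
      field_simp
      ring
    linarith [hP.cs_pos]
  refine ⟨hm, ?_⟩
  by_contra hb
  rw [hm, lat_zero, add_zero] at e
  obtain ⟨z, hz, h1⟩ := h.near hP hj ht
  obtain ⟨z', hz', h2⟩ := h'.near hP hj' ht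
  have h3 := lane_sep hb hz.1 hz'.1
  have h4 := abs_x1_le (y - z)
  have h5 := abs_x1_le (y' - z')
  rw [x1_sub] at h4 h5
  rw [hH] at h1 h2 h3
  rw [← e] at a2 a4
  have h6 := abs_sub_abs_le_abs_sub (x1 y) (x1 z)
  have h7 := abs_sub_abs_le_abs_sub (x1 y') (x1 (y + t • v))
  rw [abs_sub_comm] at h7
  have h8 : |x1 z - x1 z'| ≤ |x1 y - x1 z| + |x1 (y + t • v) - x1 y| +
      |x1 (y + t • v) - x1 y'| + |x1 y' - x1 z'| := by
    have k1 := abs_sub_le (x1 z) (x1 y) (x1 z')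
    have k2 := abs_sub_le (x1 y) (x1 (y + t • v)) (x1 z')
    have k3 := abs_sub_le (x1 (y + t • v)) (x1 y') (x1 z')
    rw [abs_sub_comm (x1 z) (x1 y)] at k1
    rw [abs_sub_comm (x1 y) (x1 (y + t • v))] at k2
    linarith
  linarith

/-- Thermal lemma.  `sZ P (s, z, η) ≤ Σ_{b, j ≤ N} 1{Lev b j s y η} cC r_y^{2j-13}` with `y = lbl (s,z,η)`
(level `0` is the cold part: `lev_of_cold0`, `cold0_small`).  By normality the product
`sZ(η) sZ(ζ)` is at most the sum over `m ∈ img (1+2s) z`, `b`, `j₁`, `j₂` of functions `H` supported on pairs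
with labels `z - lat m - sη`, `z - lat m - sζ` in levels `j₁`, `j₂` of stream `b`.  With `x̃ = z - lat m`,
`r = |x1 x̃|`, `j = max j₁ j₂`, `lam = 1.1·4·8^j r⁴`, `QH_crude` bounds each term by
`1{‖v - u‖ ≤ 1.5 lam} c_N cC r · cC r^{2(j+1)-13}`.  If such a term is nonzero then `y' = x̃ - s v` is short,
so `y' = lbl p` (`red_eq_of_short`; only one `m` contributes), `|x1 y'| ≈ r`,
`‖ww b t y' v‖ ≤ 3 ‖ww b s y' v‖ ≤ 4·8^{j+1} (x1 y')⁴` and
`infDist y' SS ≤ infDist y₁ SS + s ‖η₁ - v‖ ≤ (1+t) 4·8^{j+1} (x1 y')⁴`: level `j+1` at time `t` if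
`j < N` and `|x1 y'| ≤ rstar t`; `Big` if `|x1 y'| > rstar t`; `leak` if `j = N`
(`r ≤ min 1 (ell (fl p s))`: for `s ≤ 1/10` the lift `x̃` is short so `tn z = ‖x̃‖ ≥ r`). -/
theorem thermal (η : ℝ≥0∞) (hη : 0 < η) : ∀ᶠ P in parF, ∀ (p : Ph) (s : ℝ), 0 ≤ s → s ≤ p.1 →
    QF (sZ P) (sZ P) (fl p s) ≤ η * (ZZ P p + Big P p + leak P (fl p s)) := by
  have h : ∀ᶠ P in parF,
      ENNReal.ofReal (2000 * ThB.cT P.N * (16 * 8 ^ P.N) ^ 4 * (2 * P.r0)) ≤ η := by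
    refine ev_r0 fun k2 k3 cs t0 d0 R _ _ _ => ?_
    have hc : Continuous fun r : ℝ =>
        ENNReal.ofReal (2000 * ThB.cT (k3 + 20) * (16 * 8 ^ (k3 + 20)) ^ 4 * (2 * r)) :=
      ENNReal.continuous_ofReal.comp (by fun_prop)
    exact ((hc.tendsto 0).eventually (ge_mem_nhds (by simpa using hη))).filter_mono
      nhdsWithin_le_nhds
  filter_upwards [h, ev_basic, ev_normal] with P h1 h2 h3 p s hs hst
  exact (ThB.main h2 h3 p s hs hst).trans (mul_le_mul_left h1 _)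

/-- a cold particle only meets its own stream, at relative speed `≤ 10 r⁴` and density `≤ 10²⁶/r`
(`csm_le_sum`, normality, `conc_csec`, `LL_conc`). -/
theorem LF_c0_cold (η : ℝ≥0∞) (hη : 0 < η) : ∀ᶠ P in parF, ∀ (p : Ph) (s : ℝ), 0 ≤ s → s ≤ 1 →
    c0 P p ≠ 0 → LF (c0 P) (fl p s) ≤ η := by
  obtain ⟨ε, -, hε, hεη⟩ := ENNReal.lt_iff_exists_real_btwn.1 hη
  rw [ENNReal.ofReal_pos] at hε
  filter_upwards [ev_basic, ev_normal, ev_r0 (p := fun P => 10 ^ 31 * P.r0 ^ 3 ≤ ε)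
    fun _ _ _ _ _ _ _ _ _ => FrameAux.ev_le (f := fun r => 10 ^ 31 * r ^ 3) (by fun_prop)
      (by simpa using hε)] with P hP hN hr
  intro p s hs hs1 hp
  obtain ⟨b, -, hb⟩ := Finset.exists_ne_zero_of_sum_ne_zero hp
  have hrs : P.r0 ≤ P.rstar s := by
    have h1 : (1 + s) ^ 2 ≤ 4 := by nlinarith
    have h2 : 0 < 1 + s := by linarith
    rw [Par.rstar, le_div_iff₀ (pow_pos h2 _)]
    linarith [mul_le_mul_of_nonneg_left h1 hP.r0_pos.le, hP.r0_cs, hP.r0_pos]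
  have hL := lev_of_cold0 hP hb hs ((cold0_small hP hb).2.1.trans hrs)
  obtain ⟨m, hm, -⟩ := MB.exists_lbl s (fl p s).2.1 p.2.2
  rw [show lbl (s, (fl p s).2.1, p.2.2) = lbl p from lbl_fl p s] at hm
  have key : ∀ ζ, sec (c0 P) (fl p s) ζ ≤ csec P b s ((fl p s).2.1 - lat m) ζ := by
    intro ζ
    obtain ⟨m', hm', -⟩ := MB.exists_lbl s (fl p s).2.1 ζ
    have h1 : ∀ b', cold0 P b' (lbl (s, (fl p s).2.1, ζ)) ζ ≠ 0 → m' = m ∧ b = b' := by
      intro b' hb'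
      have hL' := lev_of_cold0 hP hb' hs ((cold0_small hP hb').2.1.trans hrs)
      have h2 := hN b b' 0 0 s _ _ _ _ (m' + -m) hs (Nat.zero_le _) (Nat.zero_le _) hL hL'
        (by rw [hm, hm', lat_add, lat_neg]; abel)
      exact ⟨by simpa [add_neg_eq_zero] using h2.1, h2.2⟩
    show ∑ b' : Bool, cold0 P b' (lbl (s, (fl p s).2.1, ζ)) ζ ≤ _
    rw [Finset.sum_eq_single b (fun b' _ hne => by
      by_contra hc
      exact hne (h1 b' hc).2.symm) (fun h => absurd (Finset.mem_univ _) h)]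
    by_cases h0 : cold0 P b (lbl (s, (fl p s).2.1, ζ)) ζ = 0
    · exact h0.trans_le zero_le
    have e : lbl (s, (fl p s).2.1, ζ) = (fl p s).2.1 - lat m - s • ζ := by
      rw [← (h1 b h0).1, ← hm', add_sub_cancel_right]
    rw [csec, ← e, if_pos ((cold0_small hP h0).2.1.trans hrs)]
  refine (LL_mono_ae (.of_forall key) p.2.2).trans ?_
  rw [← hm]
  rcases conc_csec hP b hs (lbl p + s • p.2.2) with h0 | ⟨hO, hC⟩
  · rw [show csec P b s (lbl p + s • p.2.2) = fun _ => 0 from funext h0]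
    simp [LL]
  refine (LL_conc _ _ _ (by positivity) _ _ _ hC).trans (le_trans ?_ hεη.le)
  have hH : cH = 1 / 10 ^ 47 := rfl
  have a1 := hL.x1_close hP (Nat.zero_le _) hs
  have a2 := abs_sub_abs_le_abs_sub (x1 (lbl p)) (x1 (lbl p + s • p.2.2))
  rw [abs_sub_comm] at a2
  rw [hH] at a1
  have a3 : ‖p.2.2 - uu b s (lbl p + s • p.2.2)‖ ≤ 4 * 8 ^ 0 * x1 (lbl p) ^ 4 := hL.2.2.2
  have a4 := abs_x1_le (lbl p + s • p.2.2)
  have a5 := abs_pos.2 hO.1
  have a6 := hO.2.1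
  have a7 := abs_nonneg (x1 (lbl p))
  rw [← Even.pow_abs (by decide : Even 4) (x1 (lbl p))] at a3
  rw [← Even.pow_abs (by decide : Even 4) (x1 (lbl p + s • p.2.2))]
  generalize |x1 (lbl p + s • p.2.2)| = r at *
  have a8 : |x1 (lbl p)| ^ 4 ≤ (2 * r) ^ 4 := pow_le_pow_left₀ a7 (by linarith) 4
  have a9 : r ^ 3 ≤ (3 * P.r0) ^ 3 := pow_le_pow_left₀ a5.le a6 3
  have b1 : (10 : ℝ) ^ 26 / (8 * s + ‖lbl p + s • p.2.2‖) ≤ 10 ^ 26 / r :=
    div_le_div_of_nonneg_left (by positivity) a5 (by linarith)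
  have b2 : ‖p.2.2 - uu b s (lbl p + s • p.2.2)‖ + 4 * r ^ 4 ≤ 68 * r ^ 4 := by linarith
  refine (mul_le_mul' (mul_le_mul_right (ENNReal.ofReal_le_ofReal b1) _)
    (ENNReal.ofReal_le_ofReal b2)).trans ?_
  rw [← ENNReal.ofReal_ofNat 13, ← ENNReal.ofReal_mul (by norm_num),
    ← ENNReal.ofReal_mul (by positivity)]
  refine ENNReal.ofReal_le_ofReal ?_
  have b3 : (13 : ℝ) * (10 ^ 26 / r) * (68 * r ^ 4) = 13 * 68 * 10 ^ 26 * r ^ 3 := by
    field_simp
  have b4 : 0 ≤ P.r0 ^ 3 := pow_nonneg hP.r0_pos.le _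
  rw [b3]
  linarith

end
end Crest.Agent.R68
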