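import Crest.Agent.R68.Src
import Crest.Agent.R68.Thermal
import Crest.Agent.R68.Flight
import Crest.Agent.R68.Stab

/-! # Row 68: early operator estimates, part A3 (`small_ops`, `Ia_leak`, `Ia_thermal`) -/

set_option autoImplicit false
open MeasureTheory Set Filter Topology
open scoped ENNReal NNReal
open Crest.AnalysisR.VecCalc3 Crest.AnalysisR.PDE.Boltzmann

namespace Crest.Agent.R68.OAC
noncomputable section

theorem QF_wY' (P : Par) {f : PF} (hf : Measurable f) (ω : ℝ → ℝ≥0∞) (q : Ph) :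
    QF f (wY P ω) q = ω (lst q) * QF f (GS (aT P.k3 q.1)) q := by
  have h := QF_mul_tx hf (measurable_GS (aT P.k3 q.1)) (fun _ => 1)
    (fun z => ω (z.1 ^ (3 / 4 : ℝ) + tn z.2)) q
  simp only [one_mul] at h
  exact h

theorem QF_YY (P : Par) (g : PF) (q : Ph) : QF (YY P) g q = QF (GS (aT P.k3 q.1)) g q := rfl

theorem lint_le_const {t : ℝ} {f : ℝ → ℝ≥0∞} {C : ℝ≥0∞}
    (h : ∀ s ∈ Ioo 0 t, f s ≤ C) : ∫⁻ s in Ioo 0 t, f s ≤ ENNReal.ofReal t * C := by
  calc _ ≤ ∫⁻ _ in Ioo 0 t, C := setLIntegral_mono' measurableSet_Ioo h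
    _ = _ := by rw [setLIntegral_const, Real.volume_Ioo, sub_zero, mul_comm]

theorem one_le_jb (v : R3) : 1 ≤ jb v := le_add_of_nonneg_right (norm_nonneg v)

theorem one_le_npw {s : ℝ} (hs : s ≤ 1) : 1 ≤ npw s (1 / 2) :=
  (MB.npw_one (1 / 2)).ge.trans (MB.npw_anti (by norm_num) hs)

theorem pow_le_two {s : ℝ} (h0 : 0 ≤ s) (h1 : s ≤ 1 / 100) {k : ℕ} (hk : k ≤ 8) :
    ENNReal.ofReal ((1 + s) ^ k) ≤ 2 := by
  have h2 : (1 + s) ^ k ≤ 2 :=
    calc (1 + s) ^ k ≤ (1 + s) ^ 8 := pow_le_pow_right₀ (by linarith) hk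
      _ ≤ (1 + 1 / 100) ^ 8 := by gcongr
      _ ≤ 2 := by norm_num
  exact (ENNReal.ofReal_le_ofReal h2).trans (by simp)

theorem ev_quarter {K η : ℝ≥0∞} (hK : K ≠ ⊤) (hη : 0 < η) :
    ∀ᶠ P in parF, ∀ t ∈ Icc (0 : ℝ) P.t0, K * ENNReal.ofReal (100 * t ^ (1 / 4 : ℝ)) ≤ η := by
  refine ev_t0 (p := fun _ _ _ t0 => ∀ t ∈ Icc (0 : ℝ) t0,
    K * ENNReal.ofReal (100 * t ^ (1 / 4 : ℝ)) ≤ η) fun _ _ _ _ => ?_
  have hc : Continuous fun r : ℝ => K.toReal * (100 * r ^ (1 / 4 : ℝ)) :=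
    continuous_const.mul (continuous_const.mul (Real.continuous_rpow_const (by norm_num)))
  filter_upwards [MB.ev_small hc (by simp) hη] with r hr t ht
  refine le_trans ?_ hr
  rw [ENNReal.ofReal_mul ENNReal.toReal_nonneg, ENNReal.ofReal_toReal hK]
  gcongr
  · exact ht.1
  · exact ht.2

theorem sqrt_npw_ell {q : Ph} (hq : 0 < q.1) :
    ENNReal.ofReal √q.1 * npw (ell q) 1 ≤ npw q.1 (1 / 2) := by
  have h1 : q.1 ≤ ell q := by
    have := tn_nonneg q.2.1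
    unfold ell; linarith
  have h2 : npw q.1 1 = ENNReal.ofReal (q.1⁻¹) := by
    rw [npw, ENNReal.rpow_neg_one, ENNReal.ofReal_inv_of_pos hq]
  have hs : 0 < √q.1 := Real.sqrt_pos.2 hq
  calc _ ≤ ENNReal.ofReal √q.1 * npw q.1 1 := by gcongr; exact MB.npw_anti zero_le_one h1
    _ = _ := by
      rw [h2, fA_npw_half hq, ← ENNReal.ofReal_mul hs.le]
      congr 1
      have h3 : q.1 = √q.1 * √q.1 := (Real.mul_self_sqrt hq.le).symm
      field_simp
      rw [sq, ← h3]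

theorem small_ops (η : ℝ≥0∞) (hη : 0 < η) : ∀ᶠ P in parF, ∀ ω, Adm P.k3 ω →
    ∀ p : Ph, p.1 ∈ Icc 0 P.t0 →
    Ia 0 (QF (ZZ P) (wY P ω)) p ≤ η * wY P ω p ∧ Ia 0 (QF (YY P) (wY P ω)) p ≤ η * wY P ω p ∧
      Ia 0 (fun q => ENNReal.ofReal √q.1 * QF (c0 P) (wY P ω) q) p ≤ η * wY P ω p := by
  obtain ⟨K₁, hK₁, H₁⟩ := src_GS_same
  obtain ⟨K₂, hK₂, H₂⟩ := src_c0
  filter_upwards [ev_basic, src_ZZ η hη, ev_quarter (K := K₁ * 2) (by finiteness) hη,
    ev_quarter hK₂ hη] with P hP hZ hq₁ hq₂ ω hω p hp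
  have ht : p.1 ≤ 1 / 100 := hp.2.trans hP.t0_le
  have hp1 : p.1 ∈ Icc (0 : ℝ) 1 := ⟨hp.1, by linarith⟩
  have hk : 1 ≤ P.k3 := by have := hP.k3_ge; omega
  have ha : ∀ s ∈ Ioo 0 p.1, aT P.k3 s ∈ Icc (1 / 16 : ℝ) (1 / 4) := fun s hs => by
    have := aT_mem hP (t := s) ⟨hs.1.le, hs.2.le.trans hp.2⟩
    exact ⟨by linarith [this.1], this.2⟩
  have hw : wY P ω p = ω (lst p) * Ga (aT P.k3 p.1) p.2.2 * Sg p := by
    rw [mul_assoc]; rfl
  have hw' : ω (lst p) * Ga (aT P.k3 p.1) p.2.2 ≤ wY P ω p := by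
    rw [hw]; exact le_mul_of_one_le_right' (one_le_Sg p)
  have hf2 := flight2 hk hω p hp1
  have hm : Measurable fun s : ℝ => ENNReal.ofReal (jb p.2.2) * npw s (1 / 2) *
      (ω (lst (fl p s)) * Ga (aT P.k3 s) p.2.2) := by
    refine (measurable_const.mul (mba_npw measurable_id _)).mul
      ((hω.1.comp (measurable_lst.comp (PosA.measurable_fl' p))).mul (mba_Ga ?_ measurable_const))
    unfold aT
    fun_prop
  refine ⟨?_, ?_, ?_⟩
  · refine (lint_le_const (C := 2 * (η * wY P ω p)) fun s hs => ?_).trans ?_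
    · rw [QF_wY' P (measurable_ZZ P)]
      calc _ ≤ ω (lst (fl p s)) * (η * ENNReal.ofReal ((1 + s) ^ 8) * Ga (aT P.k3 s) p.2.2 * Sg p) :=
            mul_le_mul_right (hZ p s hs.1.le hs.2.le _ (ha s hs)) _
        _ = ENNReal.ofReal ((1 + s) ^ 8) *
            (η * (ω (lst (fl p s)) * Ga (aT P.k3 s) p.2.2 * Sg p)) := by ring
        _ ≤ _ := by
          rw [hw]
          exact mul_le_mul' (pow_le_two hs.1.le (hs.2.le.trans ht) le_rfl)
            (mul_le_mul_right (mul_le_mul_left (flight0 hω p hs.1.le hs.2.le) _) _)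
    · rw [← mul_assoc]
      refine mul_le_of_le_one_left' ?_
      rw [← ENNReal.ofReal_ofNat 2, ← ENNReal.ofReal_mul hp.1]
      exact ENNReal.ofReal_le_one.2 (by linarith)
  · calc _ ≤ ∫⁻ s in Ioo 0 p.1, K₁ * 2 * (ENNReal.ofReal (jb p.2.2) * npw s (1 / 2) *
            (ω (lst (fl p s)) * Ga (aT P.k3 s) p.2.2)) := by
          refine setLIntegral_mono' measurableSet_Ioo fun s hs => ?_
          rw [QF_wY' P (measurable_YY P), QF_YY]
          calc _ ≤ ω (lst (fl p s)) * (K₁ * ENNReal.ofReal ((1 + s) ^ 6) *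
                ENNReal.ofReal (jb p.2.2) * Ga (aT P.k3 s) p.2.2) :=
                mul_le_mul_right (H₁ (fl p s) hs.1.le _
                  ⟨(ha s hs).1, (ha s hs).2.trans (by norm_num)⟩) _
            _ = K₁ * ENNReal.ofReal ((1 + s) ^ 6) * (ENNReal.ofReal (jb p.2.2) * 1 *
                (ω (lst (fl p s)) * Ga (aT P.k3 s) p.2.2)) := by ring
            _ ≤ _ := by
              gcongr
              · exact pow_le_two hs.1.le (hs.2.le.trans ht) (by norm_num)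
              · exact one_le_npw (hs.2.le.trans hp1.2)
      _ ≤ K₁ * 2 * (ENNReal.ofReal (100 * p.1 ^ (1 / 4 : ℝ)) *
            (ω (lst p) * Ga (aT P.k3 p.1) p.2.2)) := by
          rw [lintegral_const_mul _ hm]; gcongr
      _ ≤ _ := by rw [← mul_assoc]; exact mul_le_mul' (hq₁ _ hp) hw'
  · calc _ ≤ ∫⁻ s in Ioo 0 p.1, K₂ * Sg p * (ENNReal.ofReal (jb p.2.2) * npw s (1 / 2) *
            (ω (lst (fl p s)) * Ga (aT P.k3 s) p.2.2)) := by
          refine setLIntegral_mono' measurableSet_Ioo fun s hs => ?_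
          dsimp only
          rw [QF_wY' P (measurable_c0 P)]
          have h1 : npw (jb p.2.2) 1 ≤ ENNReal.ofReal (jb p.2.2) :=
            ((MB.npw_anti zero_le_one (one_le_jb _)).trans (MB.npw_one 1).le).trans
              (ENNReal.one_le_ofReal.2 (one_le_jb _))
          calc _ ≤ ENNReal.ofReal √s * (ω (lst (fl p s)) * (K₂ * npw (ell (fl p s)) 1 *
                npw (jb p.2.2) 1 * Ga (aT P.k3 s) p.2.2 * Sg p)) :=
                mul_le_mul_right (mul_le_mul_right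
                  (H₂ P hP p s hs.1 hs.2.le (hs.2.le.trans hp1.2) _ (ha s hs)) _) _
            _ = K₂ * Sg p * (npw (jb p.2.2) 1 * (ENNReal.ofReal √s * npw (ell (fl p s)) 1) *
                (ω (lst (fl p s)) * Ga (aT P.k3 s) p.2.2)) := by ring
            _ ≤ _ := by
              gcongr
              exact sqrt_npw_ell (q := fl p s) hs.1
      _ ≤ K₂ * Sg p * (ENNReal.ofReal (100 * p.1 ^ (1 / 4 : ℝ)) *
            (ω (lst p) * Ga (aT P.k3 p.1) p.2.2)) := by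
          rw [lintegral_const_mul _ hm]; gcongr
      _ = K₂ * ENNReal.ofReal (100 * p.1 ^ (1 / 4 : ℝ)) * wY P ω p := by rw [hw]; ring
      _ ≤ _ := by gcongr; exact hq₂ _ hp

theorem leak_le {P : Par} (hP : P.Basic) {q : Ph} (hq : q.1 ∈ Icc 0 P.t0) :
    leak P q ≤ ENNReal.ofReal (3 * 8 ^ P.k3) * (wbF P (lst q) * Ga (aT P.k3 q.1) q.2.2) := by
  unfold leak
  split_ifs with hv
  swap
  · exact zero_le
  have hq1 : q.1 ∈ Icc (0 : ℝ) 1 := ⟨hq.1, by linarith [hq.2, hP.t0_le]⟩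
  have hl := lst_nonneg hq.1
  have hd := hP.d0_pos
  have hell : 0 ≤ ell q := by
    have := tn_nonneg q.2.1
    have := hq.1
    unfold ell; positivity
  have h1 : min 1 (ell q) ≤ 8 * min (lst q / P.d0) 1 := by
    rw [mul_min_of_nonneg _ _ (by norm_num : (0 : ℝ) ≤ 8)]
    refine le_min ((min_le_right _ _).trans ((ell_le_lst hq1).trans ?_))
      ((min_le_left _ _).trans (by norm_num))
    have : lst q ≤ lst q / P.d0 := by
      rw [le_div_iff₀ hd]
      exact mul_le_of_le_one_right hl (by linarith [hP.d0_le])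
    linarith
  have h2 : 1 ≤ 3 * Real.exp (-(aT P.k3 q.1 * ‖q.2.2‖ ^ 2)) := by
    have ha := aT_mem hP hq
    have h3 : ‖q.2.2‖ ^ 2 ≤ 2 ^ 2 := pow_le_pow_left₀ (norm_nonneg _) hv 2
    have h4 : aT P.k3 q.1 * ‖q.2.2‖ ^ 2 ≤ 1 / 4 * 2 ^ 2 :=
      mul_le_mul ha.2 h3 (by positivity) (by norm_num)
    have h5 : Real.exp (-1) ≤ Real.exp (-(aT P.k3 q.1 * ‖q.2.2‖ ^ 2)) :=
      Real.exp_le_exp.2 (by linarith)
    linarith [Real.exp_neg_one_gt_d9]
  have hm : 0 ≤ min (lst q / P.d0) 1 := le_min (by positivity) zero_le_one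
  rw [wbF, Ga, ← ENNReal.ofReal_mul (by positivity), ← ENNReal.ofReal_mul (by positivity)]
  refine ENNReal.ofReal_le_ofReal ?_
  calc min 1 (ell q) ^ P.k3 ≤ (8 * min (lst q / P.d0) 1) ^ P.k3 * 1 := by
        rw [mul_one]; exact pow_le_pow_left₀ (le_min zero_le_one hell) h1 _
    _ ≤ (8 * min (lst q / P.d0) 1) ^ P.k3 * (3 * Real.exp (-(aT P.k3 q.1 * ‖q.2.2‖ ^ 2))) := by
        gcongr
    _ = _ := by rw [mul_pow]; ring

theorem Ia_leak (η : ℝ≥0∞) (hη : 0 < η) : ∀ᶠ P in parF, ∀ p : Ph, p.1 ∈ Icc 0 P.t0 →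
    Ia 0 (leak P) p ≤ η * (wbF P (lst p) * Ga (aT P.k3 p.1) p.2.2) := by
  have h0 : ∀ᶠ P in parF, ENNReal.ofReal (P.t0 * (3 * 8 ^ P.k3)) ≤ η :=
    ev_t0 (p := fun _ k3 _ t0 => ENNReal.ofReal (t0 * (3 * 8 ^ k3)) ≤ η) fun _ k3 _ _ =>
      MB.ev_small (f := fun t => t * (3 * 8 ^ k3)) (by fun_prop) (by simp) hη
  filter_upwards [ev_basic, h0] with P hP h0 p hp
  refine (lint_le_const (C := ENNReal.ofReal (3 * 8 ^ P.k3) *
    (wbF P (lst p) * Ga (aT P.k3 p.1) p.2.2)) fun s hs => ?_).trans ?_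
  · exact (leak_le hP (q := fl p s) ⟨hs.1.le, hs.2.le.trans hp.2⟩).trans
      (mul_le_mul_right (flight0 (adm_wbF hP) p hs.1.le hs.2.le) _)
  · rw [← mul_assoc, ← ENNReal.ofReal_mul hp.1]
    refine mul_le_mul_left (le_trans (ENNReal.ofReal_le_ofReal ?_) h0) _
    exact mul_le_mul_of_nonneg_right hp.2 (by positivity)

theorem Ia_thermal (η : ℝ≥0∞) (hη : 0 < η) : ∀ᶠ P in parF, ∀ (p : Ph) (s : ℝ), s ∈ Icc 0 P.t0 →
    s ≤ p.1 → Ia 0 (QF (cZ P) (cZ P)) (fl p s) ≤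
      η * (ZZ P p + Big P p + wbF P (lst (fl p s)) * Ga (aT P.k3 s) p.2.2) := by
  filter_upwards [ev_basic, thermal η hη, Ia_leak 1 one_pos] with P hP hT hL p s hs hsp
  have hs1 : s ≤ 1 := by linarith [hs.2, hP.t0_le]
  have hm : Measurable fun τ => leak P (fl (fl p s) τ) := StabA.meas_fl (measurable_leak P) _
  calc _ ≤ ∫⁻ τ in Ioo 0 s, η * (ZZ P p + Big P p + leak P (fl (fl p s) τ)) := by
        refine setLIntegral_mono' measurableSet_Ioo fun τ hτ => ?_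
        rw [fl_fl]
        have e : sec (cZ P) (fl p τ) = sec (sZ P) (fl p τ) := funext fun ζ => by
          simp only [sec, cZ, sZ]
          rw [csm_eq_c0 hP (p := ((fl p τ).1, (fl p τ).2.1, ζ)) ⟨hτ.1.le, hτ.2.le.trans hs1⟩]
        have e' : QF (cZ P) (cZ P) (fl p τ) = QF (sZ P) (sZ P) (fl p τ) := by
          unfold QF; rw [e]
        rw [e']
        exact hT p τ hτ.1.le (hτ.2.le.trans hsp)
    _ = η * (ENNReal.ofReal s * (ZZ P p + Big P p) + Ia 0 (leak P) (fl p s)) := by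
        rw [lintegral_const_mul _ (hm.const_add _), lintegral_add_left measurable_const,
          setLIntegral_const, Real.volume_Ioo, sub_zero, mul_comm (ENNReal.ofReal s)]
        rfl
    _ ≤ _ := by
        refine mul_le_mul_right (add_le_add (mul_le_of_le_one_left' (ENNReal.ofReal_le_one.2 hs1))
          ((hL (fl p s) hs).trans (one_mul _).le)) _

end
end Crest.Agent.R68.OAC
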