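import Crest.Agent.R68.Src
import Crest.Agent.R68.Flight

/-! # Row 68: the background weight under the multiplication operator (for `TT_wb`) -/

set_option autoImplicit false
open MeasureTheory Set Filter Topology
open scoped ENNReal NNReal
open Crest.AnalysisR.VecCalc3 Crest.AnalysisR.PDE.Boltzmann

namespace Crest.Agent.R68
noncomputable section
namespace Wb

theorem young (x y : ℝ≥0∞) : x ^ (1 / 9 : ℝ) * y ^ (8 / 9 : ℝ) ≤ x + y :=
  calc x ^ (1 / 9 : ℝ) * y ^ (8 / 9 : ℝ) ≤ (x + y) ^ (1 / 9 : ℝ) * (x + y) ^ (8 / 9 : ℝ) :=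
        mul_le_mul' (ENNReal.rpow_le_rpow le_self_add (by norm_num))
          (ENNReal.rpow_le_rpow le_add_self (by norm_num))
    _ = x + y := by
        rw [← ENNReal.rpow_add_of_nonneg _ _ (by norm_num) (by norm_num)]
        norm_num

theorem one_le_J (v : R3) : 1 ≤ ENNReal.ofReal (jb v) :=
  ENNReal.one_le_ofReal.2 (by unfold jb; linarith [norm_nonneg v])

theorem J_ne (v : R3) : ENNReal.ofReal (jb v) ≠ 0 := (zero_lt_one.trans_le (one_le_J v)).ne'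

theorem npw_one_le (v : R3) : npw (jb v) 1 ≤ npw (jb v) (1 / 2) :=
  ENNReal.rpow_le_rpow_of_exponent_le (one_le_J v) (by norm_num)

theorem J_mul_le (v : R3) :
    ENNReal.ofReal (jb v) ^ (1 / 12 : ℝ) * npw (jb v) 1 ≤ npw (jb v) (1 / 2) := by
  unfold npw
  rw [← ENNReal.rpow_add _ _ (J_ne v) ENNReal.ofReal_ne_top]
  exact ENNReal.rpow_le_rpow_of_exponent_le (one_le_J v) (by norm_num)

theorem J_le {v : R3} (h : ‖v‖ ≤ 3) :
    ENNReal.ofReal (jb v) ^ (1 / 12 : ℝ) ≤ 4 * npw (jb v) (1 / 2) := by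
  have h1 : ENNReal.ofReal (jb v) ≤ 4 := by
    rw [← ENNReal.ofReal_ofNat]
    exact ENNReal.ofReal_le_ofReal (by unfold jb; linarith)
  calc ENNReal.ofReal (jb v) ^ (1 / 12 : ℝ) ≤ ENNReal.ofReal (jb v) ^ (1 + -(1 / 2) : ℝ) :=
        ENNReal.rpow_le_rpow_of_exponent_le (one_le_J v) (by norm_num)
    _ = ENNReal.ofReal (jb v) * npw (jb v) (1 / 2) := by
        rw [ENNReal.rpow_add _ _ (J_ne v) ENNReal.ofReal_ne_top, ENNReal.rpow_one]
        rfl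
    _ ≤ _ := mul_le_mul_left h1 _

theorem DS_le_Sg (p : Ph) : DS p ≤ Sg p := le_add_self

theorem rest_le (p : Ph) : npw (jb p.2.2) 1 + DS p ≤ 5 * (npw (jb p.2.2) (1 / 2) * Sg p) := by
  have h1 : npw (jb p.2.2) 1 ≤ npw (jb p.2.2) (1 / 2) * Sg p :=
    (npw_one_le _).trans (le_mul_of_one_le_right' (one_le_Sg p))
  have h2 : DS p ≤ 4 * (npw (jb p.2.2) (1 / 2) * Sg p) := by
    rcases DS_eq_zero_or p with h | h
    · rw [h]; exact zero_le
    · rw [← mul_assoc]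
      refine (DS_le_Sg p).trans (le_mul_of_one_le_left' (le_trans ?_ (J_le h.2)))
      exact ENNReal.one_le_rpow (one_le_J _) (by norm_num)
  refine (add_le_add h1 h2).trans (le_of_eq ?_)
  ring

theorem core_le (p : Ph) :
    ENNReal.ofReal (jb p.2.2) ^ (1 / 12 : ℝ) * npw |x1 p.2.2| (1 / 4) ^ (1 / 9 : ℝ) *
      (npw (jb p.2.2) 1 + DS p ^ (8 / 9 : ℝ)) ≤ 5 * (npw (jb p.2.2) (1 / 2) * Sg p) := by
  set a := npw |x1 p.2.2| (1 / 4) with ha
  have hS : Sg p = 1 + a + DS p := rfl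
  have h1 : a ^ (1 / 9 : ℝ) ≤ Sg p := by
    have := young a 1
    rw [ENNReal.one_rpow, mul_one, add_comm] at this
    exact this.trans (hS ▸ le_self_add)
  have h2 : a ^ (1 / 9 : ℝ) * DS p ^ (8 / 9 : ℝ) ≤ Sg p :=
    (young a _).trans (by rw [hS, add_assoc]; exact le_add_self)
  have h3 : ENNReal.ofReal (jb p.2.2) ^ (1 / 12 : ℝ) * a ^ (1 / 9 : ℝ) * npw (jb p.2.2) 1 ≤
      npw (jb p.2.2) (1 / 2) * Sg p := by
    rw [mul_right_comm]
    exact mul_le_mul' (J_mul_le _) h1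
  have h4 : ENNReal.ofReal (jb p.2.2) ^ (1 / 12 : ℝ) * a ^ (1 / 9 : ℝ) * DS p ^ (8 / 9 : ℝ) ≤
      4 * (npw (jb p.2.2) (1 / 2) * Sg p) := by
    rcases DS_eq_zero_or p with h | h
    · rw [h, ENNReal.zero_rpow_of_pos (by norm_num), mul_zero]; exact zero_le
    · rw [mul_assoc, ← mul_assoc 4]
      exact mul_le_mul' (J_le h.2) h2
  rw [mul_add]
  refine (add_le_add h3 h4).trans (le_of_eq ?_)
  ring

theorem slab_le : ∃ K : ℝ≥0∞, K ≠ ⊤ ∧ ∀ (p : Ph) (r : ℝ), p.1 ∈ Icc (0 : ℝ) 1 → 0 < r →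
    volume {s : ℝ | s ∈ Ioo 0 p.1 ∧ fl p s ∈ slabS (3 * r)} *
        (npw (jb p.2.2) 1 + DS p ^ (8 / 9 : ℝ)) ≤
      (K * ENNReal.ofReal r) ^ (1 / 36 : ℝ) * (5 * (npw (jb p.2.2) (1 / 2) * Sg p)) := by
  obtain ⟨K, hK, h⟩ := slab_time
  refine ⟨K * 24, ENNReal.mul_ne_top hK (by norm_num), fun p r ht hr => ?_⟩
  set A := volume {s : ℝ | s ∈ Ioo 0 p.1 ∧ fl p s ∈ slabS (3 * r)} with hA
  have hA1 : A ≤ 1 := by
    refine (measure_mono (t := Ioo 0 p.1) fun s hs => hs.1).trans ?_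
    rw [Real.volume_Ioo, sub_zero]
    exact ENNReal.ofReal_le_one.2 ht.2
  have hj : 0 ≤ jb p.2.2 := by unfold jb; positivity
  have hA2 : A ≤ K * 24 * ENNReal.ofReal r * (ENNReal.ofReal (jb p.2.2) ^ (3 : ℝ) *
      npw |x1 p.2.2| (1 / 4) ^ (4 : ℝ)) := by
    refine (h p (3 * r) ht.1 (by positivity)).trans ?_
    have e1 : npw |x1 p.2.2| (1 / 4) ^ (4 : ℝ) = npw |x1 p.2.2| 1 := by
      unfold npw
      rw [← ENNReal.rpow_mul]
      norm_num
    have e2 : ENNReal.ofReal ((1 + p.1) ^ 3 * jb p.2.2 ^ 3 * (3 * r)) ≤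
        24 * ENNReal.ofReal r * ENNReal.ofReal (jb p.2.2) ^ (3 : ℝ) := by
      rw [ENNReal.ofReal_rpow_of_nonneg hj (by norm_num), ← ENNReal.ofReal_ofNat,
        ← ENNReal.ofReal_mul (by norm_num), ← ENNReal.ofReal_mul (by positivity)]
      refine ENNReal.ofReal_le_ofReal ?_
      have h8 : (1 + p.1) ^ 3 ≤ 2 ^ 3 := pow_le_pow_left₀ (by linarith [ht.1]) (by linarith [ht.2]) 3
      have e3 : jb p.2.2 ^ (3 : ℝ) = jb p.2.2 ^ 3 := by
        rw [← Real.rpow_natCast]; norm_num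
      rw [e3]
      have : 0 ≤ jb p.2.2 ^ 3 * (3 * r) := by positivity
      nlinarith
    rw [e1]
    refine (mul_le_mul_left (mul_le_mul_right e2 K) _).trans (le_of_eq ?_)
    ring
  have hA3 : A ≤ (K * 24 * ENNReal.ofReal r) ^ (1 / 36 : ℝ) *
      (ENNReal.ofReal (jb p.2.2) ^ (1 / 12 : ℝ) * npw |x1 p.2.2| (1 / 4) ^ (1 / 9 : ℝ)) := by
    calc A = A ^ (1 : ℝ) := (ENNReal.rpow_one _).symm
      _ ≤ A ^ (1 / 36 : ℝ) := ENNReal.rpow_le_rpow_of_exponent_ge hA1 (by norm_num)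
      _ ≤ _ := ENNReal.rpow_le_rpow hA2 (by norm_num)
      _ = _ := by
        rw [ENNReal.mul_rpow_of_nonneg _ _ (by norm_num),
          ENNReal.mul_rpow_of_nonneg (_ ^ (3 : ℝ)) _ (by norm_num), ← ENNReal.rpow_mul,
          ← ENNReal.rpow_mul]
        norm_num
  refine (mul_le_mul_left hA3 _).trans ?_
  rw [mul_assoc]
  exact mul_le_mul_right (core_le p) _

theorem ell_ge {q : Ph} {d : ℝ} (hq : 0 < q.1) (hd : 0 < d) (hd1 : d ≤ 1) (h : d < lst q) :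
    npw (ell q) 1 ≤ ENNReal.ofReal (4 / d ^ 2) := by
  have htn := tn_nonneg q.2.1
  have h1 : d ^ 2 / 4 ≤ ell q := by
    unfold ell
    unfold lst at h
    rcases le_or_gt (d / 2) (tn q.2.1) with h2 | h2
    · nlinarith
    · have h3 : d / 2 ≤ q.1 ^ (3 / 4 : ℝ) := by linarith
      have h4 : (d / 2) ^ (2 : ℝ) ≤ (d / 2) ^ (4 / 3 : ℝ) :=
        Real.rpow_le_rpow_of_exponent_ge (by positivity) (by linarith) (by norm_num)
      have h5 : (d / 2) ^ (4 / 3 : ℝ) ≤ (q.1 ^ (3 / 4 : ℝ)) ^ (4 / 3 : ℝ) :=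
        Real.rpow_le_rpow (by positivity) h3 (by norm_num)
      rw [← Real.rpow_mul hq.le] at h5
      norm_num at h5
      rw [Real.rpow_two] at h4
      nlinarith
  have h2 : 0 < d ^ 2 / 4 := by positivity
  unfold npw
  rw [ENNReal.rpow_neg_one, ← ENNReal.ofReal_inv_of_pos (h2.trans_le h1)]
  refine ENNReal.ofReal_le_ofReal ((inv_anti₀ h2 h1).trans (le_of_eq ?_))
  rw [inv_div]

theorem main : ∃ K₁ K₂ K₃ : ℝ≥0∞, K₁ ≠ ⊤ ∧ K₂ ≠ ⊤ ∧ K₃ ≠ ⊤ ∧ ∀ P : Par, P.Basic →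
    (∀ q, QF (c0 P) (wY P (wbF P)) q = wbF P (lst q) * QF (c0 P) (GS (aT P.k3 q.1)) q) →
    ∀ p : Ph, p.1 ∈ Icc 0 P.t0 → TT P (wY P (wbF P)) p ≤
      (K₁ * ENNReal.ofReal (100 / P.k3) + K₂ * (ENNReal.ofReal (4 / P.d0 ^ 2) *
        (K₃ * ENNReal.ofReal P.r0) ^ (1 / 36 : ℝ) + ENNReal.ofReal P.r0)) *
        npw (jb p.2.2) (1 / 2) * wY P (wbF P) p := by
  obtain ⟨K₁, hK₁, h₁⟩ := src_c0
  obtain ⟨K₂, hK₂, h₂⟩ := src_csm
  obtain ⟨K₃, hK₃, h₃⟩ := slab_le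
  refine ⟨2 * K₁, 2560 * K₂, K₃, ENNReal.mul_ne_top (by norm_num) hK₁,
    ENNReal.mul_ne_top (by norm_num) hK₂, hK₃, fun P hP hQ p ht => ?_⟩
  have ht1 : p.1 ∈ Icc (0 : ℝ) 1 := ⟨ht.1, by linarith [ht.2, hP.t0_le]⟩
  set W := wbF P (lst p) * Ga (aT P.k3 p.1) p.2.2 with hW
  set g : ℝ → ℝ≥0∞ := fun s => if lst (fl p s) ≤ P.d0 then npw (ell (fl p s)) 1 *
    (ENNReal.ofReal ((lst (fl p s) / P.d0) ^ P.k3) * Ga (aT P.k3 s) p.2.2) else 0 with hg
  set c₁ := 2 * K₁ * npw (jb p.2.2) 1 * Sg p with hc₁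
  set c₂ := 512 * K₂ * W * ENNReal.ofReal (4 / P.d0 ^ 2) *
    (npw (jb p.2.2) 1 + DS p ^ (8 / 9 : ℝ)) with hc₂
  set c₃ := 512 * K₂ * W * (ENNReal.ofReal P.r0 * (npw (jb p.2.2) 1 + DS p)) with hc₃
  have hfl : Measurable (fl p) := by unfold fl; fun_prop
  have hS : MeasurableSet (fl p ⁻¹' slabS (3 * P.r0)) := hfl (measurableSet_slabS _)
  have hgm : Measurable g := by
    have h1 : Measurable fun s => lst (fl p s) := measurable_lst.comp hfl
    have h2 : Measurable fun s : ℝ => aT P.k3 s := by unfold aT; fun_prop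
    exact Measurable.ite (measurableSet_le h1 measurable_const)
      ((mba_npw (measurable_ell.comp hfl) 1).mul
        (((h1.div_const _).pow_const _).ennreal_ofReal.mul (mba_Ga h2 measurable_const)))
      measurable_const
  have hpt : ∀ s ∈ Ioo 0 p.1, 2 * QF (c0 P) (wY P (wbF P)) (fl p s) ≤
      c₁ * g s + c₂ * (fl p ⁻¹' slabS (3 * P.r0)).indicator 1 s + c₃ := by
    intro s hs
    have hs1 : s ≤ 1 := hs.2.le.trans ht1.2
    have ha : aT P.k3 s ∈ Icc (1 / 16 : ℝ) (1 / 4) := by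
      have := aT_mem hP (t := s) ⟨hs.1.le, hs.2.le.trans ht.2⟩
      exact ⟨by linarith [this.1], this.2⟩
    rw [hQ, show (fl p s).1 = s from rfl]
    by_cases hl : lst (fl p s) ≤ P.d0
    · refine le_add_right (le_add_right ?_)
      have e : wbF P (lst (fl p s)) = ENNReal.ofReal ((lst (fl p s) / P.d0) ^ P.k3) := by
        unfold wbF
        rw [min_eq_left ((div_le_one hP.d0_pos).2 hl)]
      refine (mul_le_mul_right (mul_le_mul_right (h₁ P hP p s hs.1 hs.2.le hs1 _ ha) _) _).trans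
        (le_of_eq ?_)
      simp only [hg, hc₁, if_pos hl, e]
      ring
    · rw [add_assoc]
      refine le_add_left ?_
      have e : QF (c0 P) (GS (aT P.k3 s)) (fl p s) = QF (csm P) (GS (aT P.k3 s)) (fl p s) := by
        have : sec (c0 P) (fl p s) = sec (csm P) (fl p s) :=
          funext fun η => (csm_eq_c0 hP (p := (s, (fl p s).2.1, η)) ⟨hs.1.le, hs1⟩).symm
        unfold QF
        rw [this]
      have h8 : ENNReal.ofReal ((1 + s) ^ 8) ≤ 256 := by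
        rw [← ENNReal.ofReal_ofNat]
        refine ENNReal.ofReal_le_ofReal ?_
        have : (1 + s) ^ 8 ≤ 2 ^ 8 := pow_le_pow_left₀ (by linarith [hs.1]) (by linarith) 8
        linarith
      have hell := ell_ge (q := fl p s) hs.1 hP.d0_pos (by linarith [hP.d0_le]) (not_le.1 hl)
      have hfl0 := flight0 (adm_wbF hP) p hs.1.le hs.2.le
      have e2 : (slabS (3 * P.r0)).indicator (1 : Ph → ℝ≥0∞) (fl p s) =
          (fl p ⁻¹' slabS (3 * P.r0)).indicator 1 s := rfl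
      rw [e]
      refine (mul_le_mul_right (mul_le_mul_right (h₂ P hP p s hs.1 hs.2.le _ ha) _) _).trans ?_
      rw [e2]
      calc _ = 2 * K₂ * ENNReal.ofReal ((1 + s) ^ 8) *
              (wbF P (lst (fl p s)) * Ga (aT P.k3 s) p.2.2) *
              ((fl p ⁻¹' slabS (3 * P.r0)).indicator 1 s * npw (ell (fl p s)) 1 *
                (npw (jb p.2.2) 1 + DS p ^ (8 / 9 : ℝ)) +
                ENNReal.ofReal P.r0 * (npw (jb p.2.2) 1 + DS p)) := by ring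
        _ ≤ 2 * K₂ * 256 * W * ((fl p ⁻¹' slabS (3 * P.r0)).indicator 1 s *
              ENNReal.ofReal (4 / P.d0 ^ 2) * (npw (jb p.2.2) 1 + DS p ^ (8 / 9 : ℝ)) +
                ENNReal.ofReal P.r0 * (npw (jb p.2.2) 1 + DS p)) := by gcongr
        _ = _ := by rw [hc₂, hc₃]; ring
  have hI : ∫⁻ s in Ioo 0 p.1, (fl p ⁻¹' slabS (3 * P.r0)).indicator (1 : ℝ → ℝ≥0∞) s =
      volume {s : ℝ | s ∈ Ioo 0 p.1 ∧ fl p s ∈ slabS (3 * P.r0)} := by
    rw [lintegral_indicator_one hS, Measure.restrict_apply hS, inter_comm]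
    rfl
  have hvol : volume (Ioo (0 : ℝ) p.1) ≤ 1 := by
    rw [Real.volume_Ioo, sub_zero]
    exact ENNReal.ofReal_le_one.2 ht1.2
  have hk : 2 ≤ P.k3 := by have := hP.k3_ge; omega
  have hwY : wY P (wbF P) p = W * Sg p := by
    rw [hW, mul_assoc]; rfl
  set N := npw (jb p.2.2) (1 / 2) with hN
  calc TT P (wY P (wbF P)) p
      ≤ ∫⁻ s in Ioo 0 p.1, (c₁ * g s + c₂ * (fl p ⁻¹' slabS (3 * P.r0)).indicator 1 s + c₃) :=
        setLIntegral_mono' measurableSet_Ioo hpt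
    _ = c₁ * (∫⁻ s in Ioo 0 p.1, g s) +
          c₂ * volume {s : ℝ | s ∈ Ioo 0 p.1 ∧ fl p s ∈ slabS (3 * P.r0)} +
          c₃ * volume (Ioo (0 : ℝ) p.1) := by
        rw [lintegral_add_right _ measurable_const, lintegral_add_left (hgm.const_mul _),
          lintegral_const_mul _ hgm, lintegral_const_mul _ (measurable_one.indicator hS), hI,
          setLIntegral_const]
    _ ≤ 2 * K₁ * N * Sg p * (ENNReal.ofReal (100 / P.k3) * W) +
          512 * K₂ * W * ENNReal.ofReal (4 / P.d0 ^ 2) *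
            ((K₃ * ENNReal.ofReal P.r0) ^ (1 / 36 : ℝ) * (5 * (N * Sg p))) +
          512 * K₂ * W * (ENNReal.ofReal P.r0 * (5 * (N * Sg p))) * 1 := by
        refine add_le_add (add_le_add (mul_le_mul' ?_ (flight4 hk hP.d0_pos p ht1)) ?_)
          (mul_le_mul' ?_ hvol)
        · exact mul_le_mul_left (mul_le_mul_right (npw_one_le _) _) _
        · rw [hc₂, mul_assoc _ (_ + _), mul_comm (_ + _)]
          exact mul_le_mul_right (h₃ p P.r0 ht1 hP.r0_pos) _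
        · exact mul_le_mul_right (mul_le_mul_right (rest_le p) _) _
    _ = _ := by rw [hwY]; ring

theorem ev_small {K₁ K₂ K₃ : ℝ≥0∞} (h₁ : K₁ ≠ ⊤) (h₂ : K₂ ≠ ⊤) (h₃ : K₃ ≠ ⊤) (η : ℝ≥0∞)
    (hη : 0 < η) : ∀ᶠ P in parF, K₁ * ENNReal.ofReal (100 / P.k3) +
      K₂ * (ENNReal.ofReal (4 / P.d0 ^ 2) * (K₃ * ENNReal.ofReal P.r0) ^ (1 / 36 : ℝ) +
        ENNReal.ofReal P.r0) ≤ η := by
  have hη2 : 0 < η / 2 := ENNReal.half_pos hη.ne'
  have t1 : Tendsto (fun k : ℕ => K₁ * ENNReal.ofReal (100 / k)) atTop (𝓝 0) := by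
    have h := ENNReal.Tendsto.const_mul (a := K₁)
      (ENNReal.tendsto_ofReal (tendsto_const_div_atTop_nhds_zero_nat (100 : ℝ))) (Or.inr h₁)
    simpa using h
  have t0 : Tendsto (fun r : ℝ => ENNReal.ofReal r) (𝓝[>] 0) (𝓝 0) := by
    have h := ENNReal.tendsto_ofReal (tendsto_id.mono_left (nhdsWithin_le_nhds (a := (0 : ℝ))
      (s := Ioi 0)))
    simpa using h
  have t2 : ∀ d : ℝ, Tendsto (fun r : ℝ => K₂ * (ENNReal.ofReal (4 / d ^ 2) *
      (K₃ * ENNReal.ofReal r) ^ (1 / 36 : ℝ) + ENNReal.ofReal r)) (𝓝[>] 0) (𝓝 0) := by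
    intro d
    have a1 := ENNReal.Tendsto.const_mul (a := K₃) t0 (Or.inr h₃)
    rw [mul_zero] at a1
    have a2 := (ENNReal.continuous_rpow_const (y := (1 / 36 : ℝ))).continuousAt.tendsto.comp a1
    rw [ENNReal.zero_rpow_of_pos (by norm_num)] at a2
    have a3 := ENNReal.Tendsto.const_mul (a := ENNReal.ofReal (4 / d ^ 2)) a2
      (Or.inr ENNReal.ofReal_ne_top)
    have a4 := ENNReal.Tendsto.const_mul (a := K₂) (a3.add t0) (Or.inr h₂)
    simpa using a4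
  have e1 := ev_k3 (p := fun _ k => K₁ * ENNReal.ofReal (100 / k) ≤ η / 2) fun _ =>
    (t1.eventually (ge_mem_nhds hη2))
  have e2 := ev_r0 (p := fun P => K₂ * (ENNReal.ofReal (4 / P.d0 ^ 2) *
      (K₃ * ENNReal.ofReal P.r0) ^ (1 / 36 : ℝ) + ENNReal.ofReal P.r0) ≤ η / 2)
    fun _ _ _ _ d _ _ _ _ => (t2 d).eventually (ge_mem_nhds hη2)
  filter_upwards [e1, e2] with P e1 e2
  exact (add_le_add e1 e2).trans_eq (ENNReal.add_halves η)

end Wb
end
end Crest.Agent.R68
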