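import Crest.Agent.R68.Src
import Crest.Agent.R68.Thermal
import Crest.Agent.R68.Flight
import Crest.Agent.R68.Stab
import Crest.Agent.R68.OpsAAuxWb
import Crest.Agent.R68.OpsA1
import Crest.Agent.R68.OpsAAuxC

/-! # Row 68: early operator estimates, part A -/

set_option autoImplicit false
open MeasureTheory Set Filter Topology
open scoped ENNReal NNReal
open Crest.AnalysisR.VecCalc3 Crest.AnalysisR.PDE.Boltzmann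

namespace Crest.Agent.R68
noncomputable section

theorem QF_wY (P : Par) {f : PF} (hf : Measurable f) (ω : ℝ → ℝ≥0∞) (q : Ph) :
    QF f (wY P ω) q = ω (lst q) * QF f (GS (aT P.k3 q.1)) q :=
  OpsA1.QF_wY P hf ω q

theorem LF_wY (P : Par) (ω : ℝ → ℝ≥0∞) (q : Ph) :
    LF (wY P ω) q = ω (lst q) * LF (GS (aT P.k3 q.1)) q :=
  OpsA1.LF_wY P ω q

theorem posOp_TT (P : Par) : PosOp (TT P) :=
  OpsA1.posOp_TT P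

theorem killsNull_TT (P : Par) : KillsNull (TT P) :=
  OpsA1.killsNull_TT P

/-- (O1) `src_c0` + `flight1` -/
theorem TT_pw : ∃ K : ℝ≥0∞, K ≠ ⊤ ∧ ∀ P : Par, P.Basic → ∀ k : ℕ, 2 ≤ k → k ≤ P.k3 →
    ∀ p : Ph, p.1 ∈ Icc 0 P.t0 →
    TT P (wY P (pw k)) p ≤ K * ENNReal.ofReal (1 / k) * npw (jb p.2.2) 1 * wY P (pw k) p :=
  OpsA1.TT_pw

theorem TT_wn : ∃ K : ℝ≥0∞, K ≠ ⊤ ∧ ∀ P : Par, P.Basic → ∀ p : Ph, p.1 ∈ Icc 0 P.t0 →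
    TT P (wY P (wnF P)) p ≤ K * npw (jb p.2.2) 1 * wY P (wnF P) p :=
  OpsA1.TT_wn

/-- above `2 s₁` the steep part dominates: `s₁^{k2} u^{2400} ≤ 2^{2400 - k2} s₁^{2400} u^{k2}`. -/
theorem TT_wn_far (η : ℝ≥0∞) (hη : 0 < η) : ∀ᶠ P in parF, ∀ p : Ph, p.1 ∈ Icc 0 P.t0 →
    2 * P.s1 ≤ lst p → TT P (wY P (wnF P)) p ≤ η * wY P (wnF P) p :=
  OpsA1.TT_wn_far η hη

/-- parents below scale `u²`: `1{w < u²} w^k ≤ u² w^{k-1}`, `TT_pw` with `k - 1`. -/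
theorem TT_wn_low (η : ℝ≥0∞) (hη : 0 < η) : ∀ᶠ P in parF, ∀ p : Ph, p.1 ∈ Icc 0 P.t0 →
    lst p ≤ 2 * P.s1 →
    TT P (fun q => if lst q < lst p ^ 2 then wY P (wnF P) q else 0) p ≤ η * wY P (wnF P) p :=
  OpsA1.TT_wn_low η hη

/-- pointwise version (`ell ≥ 8 s`, `flight0`) -/
theorem TT_point : ∃ K : ℝ≥0∞, K ≠ ⊤ ∧ ∀ P : Par, P.Basic → ∀ ω, Adm P.k3 ω →
    ∀ p : Ph, p.1 ∈ Icc 0 P.t0 → ∀ s ∈ Ioo 0 p.1,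
    2 * QF (c0 P) (wY P ω) (fl p s) ≤ K * npw s 1 * wY P ω p :=
  OpsA1.TT_point

/-- (O2) times with `lst ≤ d0`: `src_c0` + `flight4`.  Times with `lst > d0`: `ell ≥ d0²/4`, `src_csm`,
`flight0`, `slab_time` with `min 1 x ≤ x^{1/36}`, Young `DS^{8/9} |v₁|^{-1/36} ≤ DS + |v₁|^{-1/4}`,
`|v₁|^{-1/36} ≤ 1 + |v₁|^{-1/4}`. -/
theorem TT_wb (η : ℝ≥0∞) (hη : 0 < η) : ∀ᶠ P in parF, ∀ p : Ph, p.1 ∈ Icc 0 P.t0 →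
    TT P (wY P (wbF P)) p ≤ η * npw (jb p.2.2) (1 / 2) * wY P (wbF P) p := by
  obtain ⟨K₁, K₂, K₃, h₁, h₂, h₃, h⟩ := Wb.main
  filter_upwards [Wb.ev_small h₁ h₂ h₃ η hη, ev_basic] with P hs hP p hp
  exact (h P hP (QF_wY P (measurable_c0 P) _) p hp).trans
    (mul_le_mul_left (mul_le_mul_left hs _) _)

theorem TT_om : ∃ K : ℝ≥0∞, K ≠ ⊤ ∧ ∀ᶠ P in parF, ∀ b : ℝ≥0∞, ∀ p : Ph, p.1 ∈ Icc 0 P.t0 →
    TT P (wY P (omF P b)) p ≤ K * npw (jb p.2.2) (1 / 2) * wY P (omF P b) p :=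
  OpsA1.TT_om (TT_wb 1 one_pos)

/-- (O3) `src_ZZ` + `flight0`; `src_GS_same` + `flight2`; `src_c0` (`√s/ℓ ≤ s^{-1/2}`) + `flight2`. -/
theorem small_ops (η : ℝ≥0∞) (hη : 0 < η) : ∀ᶠ P in parF, ∀ ω, Adm P.k3 ω →
    ∀ p : Ph, p.1 ∈ Icc 0 P.t0 →
    Ia 0 (QF (ZZ P) (wY P ω)) p ≤ η * wY P ω p ∧ Ia 0 (QF (YY P) (wY P ω)) p ≤ η * wY P ω p ∧
      Ia 0 (fun q => ENNReal.ofReal √q.1 * QF (c0 P) (wY P ω) q) p ≤ η * wY P ω p :=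
  OAC.small_ops η hη

/-- `min 1 ℓ ^ k3 ≤ 8^{k3} wbF (lst)`, `1{‖v‖ ≤ 2} ≤ 3 Ga`, `flight0`, `t0 8^{k3} 3 ≤ η`. -/
theorem Ia_leak (η : ℝ≥0∞) (hη : 0 < η) : ∀ᶠ P in parF, ∀ p : Ph, p.1 ∈ Icc 0 P.t0 →
    Ia 0 (leak P) p ≤ η * (wbF P (lst p) * Ga (aT P.k3 p.1) p.2.2) :=
  OAC.Ia_leak η hη

/-- (O4) two-time thermal estimate (`s ≤ t0`, any later `t`): `thermal`, `csm_eq_c0`, `Ia_leak`. -/
theorem Ia_thermal (η : ℝ≥0∞) (hη : 0 < η) : ∀ᶠ P in parF, ∀ (p : Ph) (s : ℝ), s ∈ Icc 0 P.t0 →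
    s ≤ p.1 → Ia 0 (QF (cZ P) (cZ P)) (fl p s) ≤
      η * (ZZ P p + Big P p + wbF P (lst (fl p s)) * Ga (aT P.k3 s) p.2.2) :=
  OAC.Ia_thermal η hη

end
end Crest.Agent.R68
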