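import Crest.Agent.R68.OpsA

/-! # Row 68: auxiliary lemmas for `OpsB` (majorant of the background, `TT` on the envelope) -/

set_option autoImplicit false
open MeasureTheory Set Filter Topology
open scoped ENNReal NNReal
open Crest.AnalysisR.VecCalc3 Crest.AnalysisR.PDE.Boltzmann

namespace Crest.Agent.R68
noncomputable section
namespace OBB

theorem npw_jb_le (v : R3) {γ : ℝ} (hγ : 0 ≤ γ) : npw (jb v) γ ≤ 1 :=
  (MB.npw_anti hγ (OAC.one_le_jb v)).trans_eq (MB.npw_one γ)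

theorem mul_npw_le (K : ℝ≥0∞) (v : R3) {γ : ℝ} (hγ : 0 ≤ γ) (w : ℝ≥0∞) :
    K * npw (jb v) γ * w ≤ K * w := by
  calc K * npw (jb v) γ * w ≤ K * 1 * w := by gcongr; exact npw_jb_le v hγ
    _ = K * w := by rw [mul_one]

theorem wY_omF (P : Par) (b : ℝ≥0∞) (q : Ph) :
    wY P (omF P b) q = 2 * wY P (wbF P) q + b * wY P (wnF P) q := by
  simp only [wY, omF]
  ring

theorem QF_env (P : Par) (b : ℝ≥0∞) (r : Ph) :
    QF (env P b) (env P b) r = QF (cZ P) (cZ P) r + 2 * QF (c0 P) (wY P (omF P b)) r +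
      2 * QF (ZZ P) (wY P (omF P b)) r + QF (wY P (omF P b)) (wY P (omF P b)) r := by
  have hW := measurable_wY P (measurable_omF P b)
  have hc := measurable_cZ P
  have e : env P b = fun q => cZ P q + wY P (omF P b) q := rfl
  have h1 : QF (env P b) (env P b) r =
      QF (cZ P) (env P b) r + QF (wY P (omF P b)) (env P b) r := by
    conv_lhs => rw [e]
    exact QF_add_left hc (measurable_env P b) r
  have h2 : QF (cZ P) (env P b) r = QF (cZ P) (cZ P) r + QF (cZ P) (wY P (omF P b)) r :=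
    QF_add_right hc hc r
  have h3 : QF (wY P (omF P b)) (env P b) r =
      QF (wY P (omF P b)) (cZ P) r + QF (wY P (omF P b)) (wY P (omF P b)) r :=
    QF_add_right hW hc r
  have h4 : QF (cZ P) (wY P (omF P b)) r =
      QF (c0 P) (wY P (omF P b)) r + QF (ZZ P) (wY P (omF P b)) r :=
    QF_add_left (measurable_c0 P) hW r
  rw [h1, h2, h3, QF_comm hW hc, h4]
  ring

theorem QF_WW (P : Par) {ω : ℝ → ℝ≥0∞} (hω : Measurable ω) (r : Ph) :
    QF (wY P ω) (wY P ω) r = ω (lst r) * QF (YY P) (wY P ω) r := by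
  have hW := measurable_wY P hω
  rw [QF_wY P hW ω r, QF_comm (measurable_YY P) hW]
  rfl

theorem Ia_env (P : Par) (b : ℝ≥0∞) (hom : ∀ u ∈ Icc (0 : ℝ) 2, omF P b u ≤ 3) (q : Ph)
    (hq : q.1 ≤ 1) :
    Ia 0 (QF (env P b) (env P b)) q ≤ Ia 0 (QF (cZ P) (cZ P)) q + TT P (wY P (omF P b)) q +
      2 * Ia 0 (QF (ZZ P) (wY P (omF P b))) q + 3 * Ia 0 (QF (YY P) (wY P (omF P b))) q := by
  have hW := measurable_wY P (measurable_omF P b)
  have hf := PosA.measurable_fl' q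
  have m1 : Measurable fun s => QF (cZ P) (cZ P) (fl q s) :=
    (measurable_QF (measurable_cZ P) (measurable_cZ P)).comp hf
  have m3 : Measurable fun s => QF (ZZ P) (wY P (omF P b)) (fl q s) :=
    (measurable_QF (measurable_ZZ P) hW).comp hf
  have m4 : Measurable fun s => QF (YY P) (wY P (omF P b)) (fl q s) :=
    (measurable_QF (measurable_YY P) hW).comp hf
  unfold TT Ia
  rw [← lintegral_const_mul 2 m3, ← lintegral_const_mul 3 m4, ← lintegral_add_left m1,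
    ← lintegral_add_right _ (m3.const_mul 2), ← lintegral_add_right _ (m4.const_mul 3)]
  refine setLIntegral_mono' measurableSet_Ioo fun s hs => ?_
  rw [QF_env, QF_WW P (measurable_omF P b)]
  have hs' : (fl q s).1 ∈ Icc (0 : ℝ) 1 := ⟨hs.1.le, hs.2.le.trans hq⟩
  have := hom _ ⟨lst_nonneg hs'.1, lst_le_two hs'⟩
  gcongr

theorem TT_omF (P : Par) (b : ℝ≥0∞) (q : Ph) :
    TT P (wY P (omF P b)) q = 2 * TT P (wY P (wbF P)) q + b * TT P (wY P (wnF P)) q := by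
  have hb := measurable_wY P (measurable_wbF P)
  have hn := measurable_wY P (measurable_wnF P)
  have e : wY P (omF P b) = (fun q => 2 * wY P (wbF P) q) + fun q => b * wY P (wnF P) q :=
    funext fun q => wY_omF P b q
  rw [e, (posOp_TT P).add _ _ (hb.const_mul 2) (hn.const_mul b), (posOp_TT P).smul 2 _ hb,
    (posOp_TT P).smul b _ hn]
  rfl

theorem thermal_le {P : Par} (hP : P.Basic) {p : Ph} (hp : p.1 ∈ Icc 0 P.t0) (s : ℝ) :
    ZZ P p + Big P p + wbF P (lst (fl p s)) * Ga (aT P.k3 s) p.2.2 ≤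
      ZZ P p + wY P (wbF P) (fl p s) := by
  have h1 : p.1 ∈ Icc (0 : ℝ) 1 := ⟨hp.1, hp.2.trans (hP.t0_le.trans (by norm_num))⟩
  rw [Big_eq_zero hP h1, add_zero]
  refine add_le_add le_rfl (mul_le_mul_right ?_ _)
  exact le_mul_of_one_le_right' (one_le_Sg _)

theorem core (hom : ∀ᶠ P in parF, ∀ b : ℝ≥0∞, b ≤ 1 → ∀ u ∈ Icc (0 : ℝ) 2, omF P b u ≤ 3) :
    ∃ K : ℝ≥0∞, K ≠ ⊤ ∧ ∀ᶠ P in parF, ∀ b : ℝ≥0∞, b ≤ 1 → ∀ p : Ph,
    p.1 ∈ Icc 0 P.t0 → ∀ s ∈ Icc 0 p.1, Maj 0 (env P b) (g0 P) 0 (fl p s) ≤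
      1 / 4 * ZZ P p + 6 / 5 * wY P (wbF P) (fl p s) + K * b * wY P (wnF P) (fl p s) := by
  obtain ⟨K, hK, hn⟩ := TT_wn
  obtain ⟨η, hη, h1, h2, h3⟩ : ∃ η : ℝ≥0∞, 0 < η ∧ η ≤ 1 / 4 ∧ 1 + 13 * η ≤ 6 / 5 ∧ 5 * η ≤ 1 := by
    refine ⟨((1 / 100 : ℝ≥0) : ℝ≥0∞), by norm_num, ?_, ?_, ?_⟩
    · rw [show (1 / 4 : ℝ≥0∞) = ((1 / 4 : ℝ≥0) : ℝ≥0∞) by simp]
      exact ENNReal.coe_le_coe.2 (by rw [← NNReal.coe_le_coe]; norm_num)
    · rw [show (6 / 5 : ℝ≥0∞) = ((6 / 5 : ℝ≥0) : ℝ≥0∞) by simp]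
      norm_cast
      rw [← NNReal.coe_le_coe]; norm_num
    · norm_cast
      rw [← NNReal.coe_le_coe]; norm_num
  refine ⟨K + 1, ENNReal.add_ne_top.2 ⟨hK, ENNReal.one_ne_top⟩, ?_⟩
  filter_upwards [hom, ev_basic, Ia_thermal η hη, TT_wb η hη, small_ops η hη] with P hom hP hth hb
    hsm b hb1 p hp s hs
  have hs0 : s ∈ Icc 0 P.t0 := ⟨hs.1, hs.2.trans hp.2⟩
  have hq : (fl p s).1 ∈ Icc 0 P.t0 := hs0
  have hq1 : (fl p s).1 ≤ 1 := hq.2.trans (hP.t0_le.trans (by norm_num))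
  have e : Maj 0 (env P b) (g0 P) 0 (fl p s) =
      g0 P (fl p s) + Ia 0 (QF (env P b) (env P b)) (fl p s) := by
    simp only [Maj, Ia, g0_fl, Pi.zero_apply, add_zero]
  obtain ⟨s1, s2, -⟩ := hsm _ (adm_omF hP b) _ hq
  have t1 := (hth p s hs0 hs.2).trans (mul_le_mul_right (thermal_le hP hp s) η)
  have t2 := (hb _ hq).trans (mul_npw_le η _ (by norm_num) _)
  have t3 := (hn P hP _ hq).trans (mul_npw_le K _ (by norm_num) _)
  have t0 := g0_le hP (fl p s) hs.1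
  rw [wY_omF] at s1 s2
  rw [e]
  set Z := ZZ P p
  set B := wY P (wbF P) (fl p s)
  set N := wY P (wnF P) (fl p s)
  calc _ ≤ B + (η * (Z + B) + (2 * (η * B) + b * (K * N)) + 2 * (η * (2 * B + b * N)) +
        3 * (η * (2 * B + b * N))) := by
        refine add_le_add t0 ((Ia_env P b (hom b hb1) _ hq1).trans ?_)
        rw [TT_omF]
        gcongr
    _ = η * Z + (1 + 13 * η) * B + (K + 5 * η) * b * N := by ring
    _ ≤ _ := by gcongr

theorem Maj_g0 (hom : ∀ᶠ P in parF, ∀ b : ℝ≥0∞, b ≤ 1 → ∀ u ∈ Icc (0 : ℝ) 2, omF P b u ≤ 3) :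
    ∃ K : ℝ≥0∞, K ≠ ⊤ ∧ ∀ᶠ P in parF, ∀ b : ℝ≥0∞, b ≤ 1 → ∀ p : Ph,
    p.1 ∈ Icc 0 P.t0 → Maj 0 (env P b) (g0 P) 0 p ≤
      1 / 4 * ZZ P p + 6 / 5 * wY P (wbF P) p + K * b * wY P (wnF P) p := by
  obtain ⟨K, hK, h⟩ := core hom
  refine ⟨K, hK, h.mono fun P h b hb p hp => ?_⟩
  simpa only [fl_self] using h b hb p hp p.1 ⟨hp.1, le_rfl⟩

theorem Maj_g0_two (hom : ∀ᶠ P in parF, ∀ b : ℝ≥0∞, b ≤ 1 → ∀ u ∈ Icc (0 : ℝ) 2, omF P b u ≤ 3) :
    ∃ K : ℝ≥0∞, K ≠ ⊤ ∧ ∀ᶠ P in parF, ∀ b : ℝ≥0∞, b ≤ 1 → ∀ p : Ph,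
    p.1 ∈ Icc 0 P.t0 → ∀ s ∈ Icc 0 p.1, Maj 0 (env P b) (g0 P) 0 (fl p s) ≤
      ZZ P p + K * (omF P b (lst (fl p s)) * Ga (aT P.k3 s) p.2.2) * Sg p := by
  obtain ⟨K, hK, h⟩ := core hom
  refine ⟨(K + 1) * 12, ENNReal.mul_ne_top (ENNReal.add_ne_top.2 ⟨hK, ENNReal.one_ne_top⟩)
    (by norm_num), h.mono fun P h b hb p hp s hs => (h b hb p hp s hs).trans ?_⟩
  have h1 : (1 / 4 : ℝ≥0∞) ≤ 1 := by
    rw [one_div]; exact ENNReal.inv_le_one.2 (by norm_num)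
  have h2 : (6 / 5 : ℝ≥0∞) ≤ (K + 1) * 2 := by
    refine le_trans ?_ (le_mul_of_one_le_left' le_add_self)
    exact ENNReal.div_le_of_le_mul (by norm_num)
  have h3 := Sg_fl_le p hs.1 hs.2
  have e : wY P (omF P b) (fl p s) =
      omF P b (lst (fl p s)) * Ga (aT P.k3 s) p.2.2 * Sg (fl p s) := (mul_assoc _ _ _).symm
  calc _ ≤ 1 * ZZ P p + (K + 1) * 2 * wY P (wbF P) (fl p s) +
        (K + 1) * b * wY P (wnF P) (fl p s) := by gcongr; exact le_self_add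
    _ = ZZ P p + (K + 1) * wY P (omF P b) (fl p s) := by rw [wY_omF]; ring
    _ ≤ ZZ P p + (K + 1) * (omF P b (lst (fl p s)) * Ga (aT P.k3 s) p.2.2 * (12 * Sg p)) := by
        rw [e]; gcongr
    _ = _ := by ring

theorem TT_cZ (η : ℝ≥0∞) (hη : 0 < η) : ∀ᶠ P in parF, ∀ p : Ph, p.1 ∈ Icc 0 P.t0 →
    TT P (cZ P) p ≤ η * (ZZ P p + wY P (wbF P) p) := by
  filter_upwards [ev_basic, Ia_thermal (η / 2) (ENNReal.half_pos hη.ne')] with P hP hth p hp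
  have t1 := (hth p p.1 hp le_rfl).trans (mul_le_mul_right (thermal_le hP hp p.1) _)
  rw [fl_self] at t1
  have m1 : Measurable fun s => QF (cZ P) (cZ P) (fl p s) :=
    (measurable_QF (measurable_cZ P) (measurable_cZ P)).comp (PosA.measurable_fl' p)
  calc TT P (cZ P) p ≤ 2 * Ia 0 (QF (cZ P) (cZ P)) p := by
        unfold TT Ia
        rw [← lintegral_const_mul 2 m1]
        exact lintegral_mono fun s =>
          mul_le_mul_right (QF_mono (fun q => le_self_add) le_rfl (fl p s)) 2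
    _ ≤ 2 * (η / 2 * (ZZ P p + wY P (wbF P) p)) := mul_le_mul_right t1 2
    _ = _ := by rw [← mul_assoc, two_mul, ENNReal.add_halves]

theorem TT_env : ∃ K : ℝ≥0∞, K ≠ ⊤ ∧ ∀ᶠ P in parF, ∀ b : ℝ≥0∞, ∀ p : Ph, p.1 ∈ Icc 0 P.t0 →
    TT P (env P b) p ≤ K * (ZZ P p + wY P (omF P b) p) := by
  obtain ⟨K, hK, h⟩ := TT_om
  refine ⟨1 + K, ENNReal.add_ne_top.2 ⟨ENNReal.one_ne_top, hK⟩, ?_⟩
  filter_upwards [h, TT_cZ 1 one_pos] with P h hc b p hp
  have e : env P b = cZ P + wY P (omF P b) := rfl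
  have t1 := (h b p hp).trans (mul_npw_le K _ (by norm_num) _)
  have t2 : wY P (wbF P) p ≤ wY P (omF P b) p := by
    rw [wY_omF, two_mul, add_assoc]; exact le_self_add
  rw [e, (posOp_TT P).add _ _ (measurable_cZ P) (measurable_wY P (measurable_omF P b))]
  calc TT P (cZ P) p + TT P (wY P (omF P b)) p
      ≤ 1 * (ZZ P p + wY P (omF P b) p) + K * (ZZ P p + wY P (omF P b) p) := by
        refine add_le_add ((hc p hp).trans ?_) (t1.trans ?_)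
        · gcongr
        · exact mul_le_mul_right le_add_self K
    _ = _ := by ring

end OBB
end
end Crest.Agent.R68
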