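import Crest.Agent.R68.OpsA
import Crest.Agent.R68.OpsBAuxB

/-! # Row 68: early operator estimates, part B -/

set_option autoImplicit false
open MeasureTheory Set Filter Topology
open scoped ENNReal NNReal
open Crest.AnalysisR.VecCalc3 Crest.AnalysisR.PDE.Boltzmann

namespace Crest.Agent.R68
noncomputable section

theorem ob1_small {K η : ℝ≥0∞} (hK : K ≠ ⊤) (hη : 0 < η) {f : ℝ → ℝ} (hf : Continuous f)
    (h0 : f 0 = 0) : ∀ᶠ P in parF, K * ENNReal.ofReal (f P.t0) ≤ η := by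
  refine ev_t0 (p := fun _ _ _ t => K * ENNReal.ofReal (f t) ≤ η) fun _ _ _ _ => ?_
  have h1 := ENNReal.Tendsto.const_mul (a := K) (ENNReal.tendsto_ofReal (hf.tendsto 0)) (Or.inr hK)
  rw [h0, ENNReal.ofReal_zero, mul_zero] at h1
  exact (h1.eventually_le_const hη).filter_mono nhdsWithin_le_nhds

theorem ob1_cube {t : ℝ} (h0 : 0 ≤ t) (h1 : t ≤ 1) : ENNReal.ofReal ((1 + t) ^ 3) ≤ 8 := by
  rw [← ENNReal.ofReal_ofNat 8]
  refine ENNReal.ofReal_le_ofReal ?_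
  have := pow_le_pow_left₀ (by linarith) (show 1 + t ≤ 2 by linarith) 3
  linarith

theorem ob1_lint {t : ℝ} (ht : 0 ≤ t) :
    ∫⁻ s in Ioo 0 t, npw s (1 / 2) = 2 * ENNReal.ofReal √t := by
  rw [setLIntegral_congr_fun measurableSet_Ioo fun s hs => fA_npw_half hs.1,
    fA_lint_deriv (g := fun s => 2 * √s) ht (by fun_prop) (fun s hs => ?_)
      (fun s _ => by positivity), Real.sqrt_zero, mul_zero, sub_zero,
    ENNReal.ofReal_mul zero_le_two, ENNReal.ofReal_ofNat]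
  have h2 := Real.sqrt_pos.2 hs.1
  refine ((Real.hasDerivAt_sqrt hs.1.ne').const_mul 2).congr_deriv ?_
  field_simp

theorem ob1_jb {v : R3} (h : ‖v‖ ≤ 2) : ENNReal.ofReal (jb v) ≤ 3 := by
  rw [← ENNReal.ofReal_ofNat 3]
  exact ENNReal.ofReal_le_ofReal (by unfold jb; linarith)

theorem ev_omF_le : ∀ᶠ P in parF, ∀ b : ℝ≥0∞, b ≤ 1 → ∀ u ∈ Icc (0 : ℝ) 2, omF P b u ≤ 3 := by
  filter_upwards [ev_basic, ev_wnF_le 1 one_pos] with P hP h b hb u hu
  calc omF P b u ≤ 2 * 1 + 1 * 1 :=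
        add_le_add (mul_le_mul_right (wbF_le_one hP hu.1) _) (mul_le_mul' hb (h u hu))
    _ = 3 := by norm_num

theorem Gh_le_env {P : Par} (hP : P.Basic) (b : ℝ≥0∞) {p : Ph} (hp : p.1 ∈ Icc 0 P.t0) :
    Gh P b p ≤ env P b p := by
  refine add_le_add (add_le_add (mul_le_of_le_one_left' (ENNReal.ofReal_le_one.2
    (Real.sqrt_le_one.2 ?_))) le_rfl) le_rfl
  linarith [hp.2, hP.t0_le]

/-- (O5) -/
theorem LF_rest : ∃ K : ℝ≥0∞, K ≠ ⊤ ∧ ∀ᶠ P in parF, ∀ b : ℝ≥0∞, b ≤ 1 → ∀ q : Ph,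
    q.1 ∈ Icc 0 P.t0 →
    LF (fun q => ZZ P q + wY P (omF P b) q) q ≤ K * ENNReal.ofReal (jb q.2.2) := by
  obtain ⟨K, hK, h⟩ := LF_GS
  refine ⟨1 * 8 + 3 * (K * 8), by finiteness, ?_⟩
  filter_upwards [ev_basic, ev_omF_le, LF_ZZ 1 one_pos] with P hP h1 h2 b hb q hq
  have h3 : q.1 ≤ 1 := by linarith [hq.2, hP.t0_le]
  have h4 := ob1_cube hq.1 h3
  rw [LF_add (measurable_ZZ P), LF_wY, add_mul, mul_assoc 3]
  refine add_le_add ((h2 q hq.1).trans (by gcongr)) (mul_le_mul'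
    (h1 b hb _ ⟨lst_nonneg hq.1, lst_le_two ⟨hq.1, h3⟩⟩)
    ((h q hq.1 _ (by linarith [(aT_mem hP hq).1])).trans (by gcongr)))

theorem LF_Gh : ∃ K : ℝ≥0∞, K ≠ ⊤ ∧ ∀ᶠ P in parF, ∀ b : ℝ≥0∞, b ≤ 1 → ∀ q : Ph,
    q.1 ∈ Ioc 0 P.t0 → LF (Gh P b) q ≤ K * ENNReal.ofReal (jb q.2.2) * npw q.1 (1 / 2) := by
  obtain ⟨K₁, hK₁, h₁⟩ := LF_csm
  obtain ⟨K₂, hK₂, h₂⟩ := LF_rest
  refine ⟨K₁ * 8 + K₂, by finiteness, ?_⟩
  filter_upwards [ev_basic, h₂] with P hP h₂ b hb q hq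
  have h3 : q.1 ≤ 1 := by linarith [hq.2, hP.t0_le]
  have h4 := ob1_cube hq.1.le h3
  have hs := Real.sqrt_pos.2 hq.1
  have e : Gh P b = fun q => ENNReal.ofReal √q.1 * c0 P q + (ZZ P q + wY P (omF P b) q) :=
    funext fun q => add_assoc _ _ _
  have e2 : LF (c0 P) q = LF (csm P) q := by
    unfold LF
    congr 1
    exact funext fun η => (csm_eq_c0 hP (p := (q.1, q.2.1, η)) ⟨hq.1.le, h3⟩).symm
  have h5 : ENNReal.ofReal √q.1 * ((slabS (3 * P.r0)).indicator 1 q * npw (ell q) 1) ≤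
      npw q.1 (1 / 2) := by
    have h6 : q.1 ≤ ell q := by
      unfold ell
      linarith [tn_nonneg q.2.1, hq.1]
    have h7 : (slabS (3 * P.r0)).indicator (1 : Ph → ℝ≥0∞) q ≤ 1 := indicator_le_self _ _ q
    have h8 : npw (ell q) 1 ≤ ENNReal.ofReal (q.1)⁻¹ := by
      rw [npw, ENNReal.rpow_neg_one, ENNReal.ofReal_inv_of_pos hq.1]
      exact ENNReal.inv_le_inv.2 (ENNReal.ofReal_le_ofReal h6)
    refine (mul_le_mul_right ((mul_le_mul' h7 h8).trans_eq (one_mul _)) _).trans_eq ?_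
    rw [fA_npw_half hq.1, ← ENNReal.ofReal_mul hs.le]
    congr 1
    field_simp
    rw [Real.sq_sqrt hq.1.le, div_self hq.1.ne']
  have h6 : 1 ≤ npw q.1 (1 / 2) := by
    rw [fA_npw_half hq.1]
    exact ENNReal.one_le_ofReal.2 ((one_le_div hs).2 (Real.sqrt_le_one.2 h3))
  rw [e, LF_add (F := fun q => ENNReal.ofReal √q.1 * c0 P q)
    (Measurable.mul (by fun_prop) (measurable_c0 P)),
    LF_mul_tx (measurable_c0 P) (fun z => ENNReal.ofReal √z.1), e2, add_mul, add_mul]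
  refine add_le_add ((mul_le_mul_right (h₁ P hP q hq.1) _).trans ?_)
    ((h₂ b hb q ⟨hq.1.le, hq.2⟩).trans (le_mul_of_one_le_right' h6))
  rw [mul_left_comm]
  gcongr

theorem Lam_Gh : ∃ K : ℝ≥0∞, K ≠ ⊤ ∧ ∀ᶠ P in parF, ∀ b : ℝ≥0∞, b ≤ 1 → ∀ p : Ph,
    p.1 ∈ Icc 0 P.t0 → Lam (Gh P b) p 0 ≤ K * ENNReal.ofReal (jb p.2.2 * √p.1) := by
  obtain ⟨K, hK, h⟩ := LF_Gh
  refine ⟨K * 2, by finiteness, ?_⟩
  filter_upwards [h] with P h b hb p hp
  refine (setLIntegral_mono' measurableSet_Ioo fun s hs =>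
    h b hb (fl p s) ⟨hs.1, hs.2.le.trans hp.2⟩).trans_eq ?_
  change ∫⁻ s in Ioo 0 p.1, K * ENNReal.ofReal (jb p.2.2) * npw s (1 / 2) = _
  rw [lintegral_const_mul' _ _ (by finiteness), ob1_lint hp.1,
    ENNReal.ofReal_mul (by unfold jb; positivity)]
  ring

/-- depletion of the cold medium (`LF_c0_cold`, `LF_rest`, `supp_c0`) -/
theorem Lam_cold (η : ℝ≥0∞) (hη : 0 < η) : ∀ᶠ P in parF, ∀ b : ℝ≥0∞, b ≤ 1 → ∀ p : Ph,
    p.1 ∈ Icc 0 P.t0 → c0 P p ≠ 0 → Lam (env P b) p 0 ≤ η * ENNReal.ofReal √p.1 := by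
  obtain ⟨K, hK, h⟩ := LF_rest
  filter_upwards [ev_basic, h, LF_c0_cold 1 one_pos, ob1_small (K := 1 + K * 3) (by finiteness) hη
    Real.continuous_sqrt Real.sqrt_zero] with P hP h h1 h2 b hb p hp hc
  have e : env P b = fun q => c0 P q + (ZZ P q + wY P (omF P b) q) :=
    funext fun q => add_assoc _ _ _
  have h3 : ∀ s ∈ Ioo 0 p.1, LF (env P b) (fl p s) ≤ 1 + K * 3 := by
    intro s hs
    rw [e, LF_add (measurable_c0 P)]
    exact add_le_add (h1 p s hs.1.le (by linarith [hs.2, hp.2, hP.t0_le]) hc)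
      ((h b hb (fl p s) ⟨hs.1.le, hs.2.le.trans hp.2⟩).trans
        (mul_le_mul_right (ob1_jb (supp_c0 hP hc).1) _))
  refine (setLIntegral_mono' measurableSet_Ioo h3).trans ?_
  rw [setLIntegral_const, Real.volume_Ioo, sub_zero]
  calc _ = (1 + K * 3) * ENNReal.ofReal √p.1 * ENNReal.ofReal √p.1 := by
        rw [mul_assoc, ← ENNReal.ofReal_mul (Real.sqrt_nonneg _), Real.mul_self_sqrt hp.1]
    _ ≤ _ := mul_le_mul_left ((mul_le_mul_right
        (ENNReal.ofReal_le_ofReal (Real.sqrt_le_sqrt hp.2)) _).trans h2) _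

/-- (O6) `QF env env = QF cZ cZ + 2 QF c0 (ΩY) + 2 QF ZZ (ΩY) + QF (ΩY) (ΩY)`, `g0_le`, `Ia_thermal`,
`TT_wb`, `TT_wn`, `small_ops`, `ev_omF_le`. -/
theorem Maj_g0 : ∃ K : ℝ≥0∞, K ≠ ⊤ ∧ ∀ᶠ P in parF, ∀ b : ℝ≥0∞, b ≤ 1 → ∀ p : Ph,
    p.1 ∈ Icc 0 P.t0 → Maj 0 (env P b) (g0 P) 0 p ≤
      1 / 4 * ZZ P p + 6 / 5 * wY P (wbF P) p + K * b * wY P (wnF P) p :=
  OBB.Maj_g0 ev_omF_le

/-- two-time version (`Sg_fl_le`) -/
theorem Maj_g0_two : ∃ K : ℝ≥0∞, K ≠ ⊤ ∧ ∀ᶠ P in parF, ∀ b : ℝ≥0∞, b ≤ 1 → ∀ p : Ph,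
    p.1 ∈ Icc 0 P.t0 → ∀ s ∈ Icc 0 p.1, Maj 0 (env P b) (g0 P) 0 (fl p s) ≤
      ZZ P p + K * (omF P b (lst (fl p s)) * Ga (aT P.k3 s) p.2.2) * Sg p :=
  OBB.Maj_g0_two ev_omF_le

/-- (P2) `LF_Gh`, `supp_ZZ`, `flight2` -/
theorem loss_small (Km : ℝ≥0∞) (hKm : Km ≠ ⊤) (η : ℝ≥0∞) (hη : 0 < η) :
    ∀ᶠ P in parF, ∀ b : ℝ≥0∞, b ≤ 1 → ∀ p : Ph, p.1 ∈ Icc 0 P.t0 →
    ∫⁻ s in Ioo 0 p.1, (ZZ P p + Km * (omF P b (lst (fl p s)) * Ga (aT P.k3 s) p.2.2) * Sg p) *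
        LF (Gh P b) (fl p s) ≤ η * (ZZ P p + wY P (omF P b) p) := by
  obtain ⟨K, hK, h⟩ := LF_Gh
  filter_upwards [ev_basic, h, ob1_small (K := K * 3 * 2) (by finiteness) hη
    Real.continuous_sqrt Real.sqrt_zero, ob1_small (K := Km * K) (by finiteness) hη
    (f := fun t => 100 * t ^ (1 / 4 : ℝ))
    (continuous_const.mul (Real.continuous_rpow_const (by norm_num))) (by simp)]
    with P hP h h1 h2 b hb p hp
  have h3 : p.1 ≤ 1 := by linarith [hp.2, hP.t0_le]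
  have hm : Measurable fun s : ℝ => npw s (1 / 2) := mba_npw measurable_id _
  have hm2 : Measurable fun s : ℝ => ENNReal.ofReal (jb p.2.2) * npw s (1 / 2) *
      (omF P b (lst (fl p s)) * Ga (aT P.k3 s) p.2.2) :=
    (hm.const_mul _).mul (((measurable_omF P b).comp (measurable_lst.comp
      (PosA.measurable_fl' p))).mul (mba_Ga (by unfold aT; fun_prop) measurable_const))
  calc _ ≤ ∫⁻ s in Ioo 0 p.1, ZZ P p * (K * ENNReal.ofReal (jb p.2.2)) * npw s (1 / 2) +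
        Km * K * Sg p * (ENNReal.ofReal (jb p.2.2) * npw s (1 / 2) *
          (omF P b (lst (fl p s)) * Ga (aT P.k3 s) p.2.2)) := by
        refine setLIntegral_mono' measurableSet_Ioo fun s hs => ?_
        refine (mul_le_mul_right (h b hb (fl p s) ⟨hs.1, hs.2.le.trans hp.2⟩) _).trans_eq ?_
        change _ * (K * ENNReal.ofReal (jb p.2.2) * npw s (1 / 2)) = _
        ring
    _ ≤ _ := by
        rw [lintegral_add_left (hm.const_mul _), lintegral_const_mul _ hm,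
          lintegral_const_mul _ hm2, ob1_lint hp.1, mul_add]
        refine add_le_add ?_ ?_
        · by_cases hz : ZZ P p = 0
          · simp [hz]
          have h4 := ob1_jb (supp_ZZ hP hp.1 hz).1
          have h5 := ENNReal.ofReal_le_ofReal (Real.sqrt_le_sqrt hp.2)
          calc _ ≤ ZZ P p * (K * 3) * (2 * ENNReal.ofReal √P.t0) := by gcongr
            _ = K * 3 * 2 * ENNReal.ofReal √P.t0 * ZZ P p := by ring
            _ ≤ _ := mul_le_mul_left h1 _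
        · have h4 := flight2 (K := P.k3) (by linarith [hP.k3_ge]) (adm_omF hP b) p ⟨hp.1, h3⟩
          have h5 : ENNReal.ofReal (100 * p.1 ^ (1 / 4 : ℝ)) ≤
              ENNReal.ofReal (100 * P.t0 ^ (1 / 4 : ℝ)) :=
            ENNReal.ofReal_le_ofReal (mul_le_mul_of_nonneg_left
              (Real.rpow_le_rpow hp.1 hp.2 (by norm_num)) (by norm_num))
          calc _ ≤ Km * K * Sg p * (ENNReal.ofReal (100 * P.t0 ^ (1 / 4 : ℝ)) *
                (omF P b (lst p) * Ga (aT P.k3 p.1) p.2.2)) :=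
                mul_le_mul_right (h4.trans (mul_le_mul_left h5 _)) _
            _ = Km * K * ENNReal.ofReal (100 * P.t0 ^ (1 / 4 : ℝ)) * wY P (omF P b) p := by
                unfold wY YY
                ring
            _ ≤ _ := mul_le_mul_left h2 _

/-- everything in `2 QF env Gh` except the multiplication term -/
def Rest (P : Par) (b : ℝ≥0∞) : PF := fun q =>
  2 * QF (fun q => ZZ P q + wY P (omF P b) q) (Gh P b) q +
    2 * QF (c0 P) (fun q => ENNReal.ofReal √q.1 * c0 P q + ZZ P q) q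

theorem measurable_Rest (P : Par) (b : ℝ≥0∞) : Measurable (Rest P b) := by
  have hc := measurable_c0 P
  have hZ := measurable_ZZ P
  exact ((measurable_QF (hZ.add (measurable_wY P (measurable_omF P b))) (measurable_Gh P b)).const_mul
    2).add ((measurable_QF hc ((measurable_fst.sqrt.ennreal_ofReal.mul hc).add hZ)).const_mul 2)

theorem QF_env_Gh (P : Par) (b : ℝ≥0∞) (q : Ph) :
    2 * QF (env P b) (Gh P b) q = 2 * QF (c0 P) (wY P (omF P b)) q + Rest P b q := by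
  have hc := measurable_c0 P
  have hZ := measurable_ZZ P
  have h1 : env P b = fun q => c0 P q + (ZZ P q + wY P (omF P b) q) := funext fun _ => add_assoc _ _ _
  have h2 := QF_add_right (G := fun q => ENNReal.ofReal √q.1 * c0 P q + ZZ P q) (G' := wY P (omF P b))
    hc ((measurable_fst.sqrt.ennreal_ofReal.mul hc).add hZ) q
  rw [h1, QF_add_left hc (measurable_Gh P b), show QF (c0 P) (Gh P b) q = _ from h2, Rest]
  ring

theorem obc_mono {F F' G G' : PF} (q : Ph) (h1 : ∀ η, F (q.1, q.2.1, η) ≤ F' (q.1, q.2.1, η))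
    (h2 : ∀ η, G (q.1, q.2.1, η) ≤ G' (q.1, q.2.1, η)) : QF F G q ≤ QF F' G' q :=
  QH_mono (H := fun z => sec F q z.1 * sec G q z.2) (H' := fun z => sec F' q z.1 * sec G' q z.2)
    (fun _ => mul_le_mul' (h1 _) (h2 _)) q.2.2

/-- the common majorant of the small terms -/
def obcM (P : Par) (b : ℝ≥0∞) : PF := fun q =>
  QF (cZ P) (cZ P) q + QF (ZZ P) (wY P (omF P b)) q + QF (YY P) (wY P (omF P b)) q +
    ENNReal.ofReal √q.1 * QF (c0 P) (wY P (omF P b)) q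

theorem obc_pt (P : Par) (b : ℝ≥0∞) {q : Ph} (hq : q.1 ≤ 1) (h3 : omF P b (lst q) ≤ 3) :
    Rest P b q ≤ 6 * obcM P b q ∧ QF (Gh P b) (Gh P b) q ≤ 6 * obcM P b q := by
  have hc := measurable_c0 P
  have hZ := measurable_ZZ P
  have hW := measurable_wY P (measurable_omF P b)
  have hr : Measurable fun q : Ph => ENNReal.ofReal √q.1 * c0 P q :=
    measurable_fst.sqrt.ennreal_ofReal.mul hc
  have hU : Measurable fun q : Ph => ENNReal.ofReal √q.1 * c0 P q + ZZ P q := hr.add hZ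
  have hG := measurable_Gh P b
  have h1 : ∀ η, ENNReal.ofReal √q.1 * c0 P (q.1, q.2.1, η) + ZZ P (q.1, q.2.1, η) ≤
      cZ P (q.1, q.2.1, η) := fun η =>
    add_le_add (mul_le_of_le_one_left' (ENNReal.ofReal_le_one.2 (Real.sqrt_le_one.2 hq))) le_rfl
  have a1 : QF (ZZ P) (fun q => ENNReal.ofReal √q.1 * c0 P q + ZZ P q) q ≤ QF (cZ P) (cZ P) q :=
    obc_mono q (fun _ => le_add_self) h1
  have a2 : QF (c0 P) (fun q => ENNReal.ofReal √q.1 * c0 P q + ZZ P q) q ≤ QF (cZ P) (cZ P) q :=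
    obc_mono q (fun _ => le_self_add) h1
  have a3 : QF (fun q => ENNReal.ofReal √q.1 * c0 P q + ZZ P q)
      (fun q => ENNReal.ofReal √q.1 * c0 P q + ZZ P q) q ≤ QF (cZ P) (cZ P) q := obc_mono q h1 h1
  have a4 : QF (fun q => ENNReal.ofReal √q.1 * c0 P q + ZZ P q) (wY P (omF P b)) q =
      ENNReal.ofReal √q.1 * QF (c0 P) (wY P (omF P b)) q + QF (ZZ P) (wY P (omF P b)) q := by
    have h := QF_mul_tx hc hW (fun z => ENNReal.ofReal √z.1) (fun _ => 1) q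
    simp only [one_mul, mul_one] at h
    rw [QF_add_left hr hW, h]
  have a5 : QF (wY P (omF P b)) (wY P (omF P b)) q ≤ 3 * QF (YY P) (wY P (omF P b)) q := by
    have h := QF_mul_tx (measurable_YY P) hW (fun _ => 3) (fun _ => 1) q
    simp only [one_mul, mul_one] at h
    rw [← h]
    exact obc_mono q (fun _ => mul_le_mul_left h3 _) fun _ => le_rfl
  have a6 : ∀ {F : PF}, Measurable F → QF F (Gh P b) q =
      QF F (fun q => ENNReal.ofReal √q.1 * c0 P q + ZZ P q) q + QF F (wY P (omF P b)) q :=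
    fun hF => QF_add_right hF hU q
  have a7 : QF (Gh P b) (Gh P b) q = QF (fun q => ENNReal.ofReal √q.1 * c0 P q + ZZ P q) (Gh P b) q +
      QF (wY P (omF P b)) (Gh P b) q := QF_add_left hU hG q
  rw [a7, Rest, QF_add_left hZ hG, a6 hZ, a6 hW, a6 hU, QF_comm hW hU, a4, obcM]
  generalize QF (cZ P) (cZ P) q = A at *
  generalize QF (ZZ P) (wY P (omF P b)) q = B at *
  generalize QF (YY P) (wY P (omF P b)) q = C at *
  generalize ENNReal.ofReal √q.1 * QF (c0 P) (wY P (omF P b)) q = D at *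
  constructor
  · calc _ ≤ 2 * (A + B + (D + B + 3 * C)) + 2 * A := by gcongr
      _ ≤ 2 * (A + B + (D + B + 3 * C)) + 2 * A + (2 * A + 2 * B + 4 * D) := le_self_add
      _ = _ := by ring
  · calc _ ≤ A + (D + B) + (D + B + 3 * C) := by gcongr
      _ ≤ A + (D + B) + (D + B + 3 * C) + (5 * A + 4 * B + 3 * C + 4 * D) := le_self_add
      _ = _ := by ring

theorem obc_small (η : ℝ≥0∞) (hη : 0 < η) : ∀ᶠ P in parF, ∀ b : ℝ≥0∞, b ≤ 1 → ∀ p : Ph,
    p.1 ∈ Icc 0 P.t0 → ∀ f : PF, (∀ q : Ph, q.1 ≤ 1 → omF P b (lst q) ≤ 3 → f q ≤ 6 * obcM P b q) →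
    Ia 0 f p ≤ η * (ZZ P p + wY P (omF P b) p) := by
  have h0 : 0 < η / 24 := ENNReal.div_pos hη.ne' (by norm_num)
  filter_upwards [ev_basic, ev_omF_le, small_ops _ h0, Ia_thermal _ h0] with P hP h1 h2 h3 b hb p hp f hf
  have hp1 : p.1 ≤ 1 := by linarith [hp.2, hP.t0_le]
  have hW := measurable_wY P (measurable_omF P b)
  have mA := measurable_QF (measurable_cZ P) (measurable_cZ P)
  have mB := measurable_QF (measurable_ZZ P) hW
  have mC := measurable_QF (measurable_YY P) hW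
  have mD : Measurable fun q : Ph => ENNReal.ofReal √q.1 * QF (c0 P) (wY P (omF P b)) q :=
    measurable_fst.sqrt.ennreal_ofReal.mul (measurable_QF (measurable_c0 P) hW)
  have hI := posOp_Ia 0
  have e1 : Ia 0 (fun q => 6 * obcM P b q) p = 6 * (Ia 0 (QF (cZ P) (cZ P)) p +
      Ia 0 (QF (ZZ P) (wY P (omF P b))) p + Ia 0 (QF (YY P) (wY P (omF P b))) p +
      Ia 0 (fun q => ENNReal.ofReal √q.1 * QF (c0 P) (wY P (omF P b)) q) p) := by
    have e2 : obcM P b = QF (cZ P) (cZ P) + QF (ZZ P) (wY P (omF P b)) + QF (YY P) (wY P (omF P b)) +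
        fun q : Ph => ENNReal.ofReal √q.1 * QF (c0 P) (wY P (omF P b)) q := rfl
    rw [hI.smul 6 (obcM P b) (((mA.add mB).add mC).add mD), e2, hI.add _ _ ((mA.add mB).add mC) mD,
      hI.add _ _ (mA.add mB) mC, hI.add _ _ mA mB]
    rfl
  obtain ⟨b1, b2, b3⟩ := h2 _ (adm_omF hP b) p hp
  have b4 := h3 p p.1 hp le_rfl
  have b5 : wbF P (lst p) * Ga (aT P.k3 p.1) p.2.2 ≤ wY P (omF P b) p :=
    mul_le_mul' ((le_mul_of_one_le_left' one_le_two).trans le_self_add)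
      (le_mul_of_one_le_right' (one_le_Sg p))
  rw [fl_self, Big_eq_zero hP ⟨hp.1, hp1⟩, add_zero] at b4
  have b6 : Ia 0 f p ≤ Ia 0 (fun q => 6 * obcM P b q) p :=
    setLIntegral_mono' measurableSet_Ioo fun s hs => hf (fl p s) (hs.2.le.trans hp1)
      (h1 b hb _ ⟨lst_nonneg hs.1.le, lst_le_two ⟨hs.1.le, hs.2.le.trans hp1⟩⟩)
  have e3 : η = 24 * (η / 24) := (ENNReal.mul_div_cancel (by norm_num) (by norm_num)).symm
  refine b6.trans ?_
  rw [e1, e3]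
  generalize η / 24 = e at *
  generalize ZZ P p = Z at *
  generalize wY P (omF P b) p = W at *
  calc _ ≤ 6 * (e * (Z + W) + e * W + e * W + e * W) := by
        gcongr
        exact b4.trans (by gcongr)
    _ ≤ 6 * (e * (Z + W) + e * W + e * W + e * W) + 18 * e * Z := le_self_add
    _ = _ := by ring

/-- (P1) -/
theorem Rest_small (η : ℝ≥0∞) (hη : 0 < η) : ∀ᶠ P in parF, ∀ b : ℝ≥0∞, b ≤ 1 → ∀ p : Ph,
    p.1 ∈ Icc 0 P.t0 → Ia 0 (Rest P b) p ≤ η * (ZZ P p + wY P (omF P b) p) := by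
  filter_upwards [obc_small η hη] with P h b hb p hp
  exact h b hb p hp _ fun q h1 h2 => (obc_pt P b h1 h2).1

/-- (P5) -/
theorem QF_Gh_small (η : ℝ≥0∞) (hη : 0 < η) : ∀ᶠ P in parF, ∀ b : ℝ≥0∞, b ≤ 1 → ∀ p : Ph,
    p.1 ∈ Icc 0 P.t0 → Ia 0 (QF (Gh P b) (Gh P b)) p ≤ η * (ZZ P p + wY P (omF P b) p) := by
  filter_upwards [obc_small η hη] with P h b hb p hp
  exact h b hb p hp _ fun q h1 h2 => (obc_pt P b h1 h2).2

theorem TT_cZ (η : ℝ≥0∞) (hη : 0 < η) : ∀ᶠ P in parF, ∀ p : Ph, p.1 ∈ Icc 0 P.t0 →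
    TT P (cZ P) p ≤ η * (ZZ P p + wY P (wbF P) p) :=
  OBB.TT_cZ η hη

theorem TT_env : ∃ K : ℝ≥0∞, K ≠ ⊤ ∧ ∀ᶠ P in parF, ∀ b : ℝ≥0∞, ∀ p : Ph, p.1 ∈ Icc 0 P.t0 →
    TT P (env P b) p ≤ K * (ZZ P p + wY P (omF P b) p) :=
  OBB.TT_env

end
end Crest.Agent.R68
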