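import Crest.Agent.R68.Core

/-! # Row 68: the sphere measure -/

set_option autoImplicit false
open MeasureTheory Set Filter Topology
open scoped ENNReal NNReal
open Crest.AnalysisR.VecCalc3 Crest.AnalysisR.PDE.Boltzmann

namespace Crest.Agent.R68
noncomputable section

instance isFiniteMeasure_sphereMeasure : IsFiniteMeasure sphereMeasure := by
  unfold sphereMeasure; infer_instance

theorem SphereAux.univ_eq : sphereMeasure univ = ENNReal.ofReal (4 * Real.pi) := by
  rw [sphereMeasure, Measure.map_apply measurable_subtype_coe MeasurableSet.univ, preimage_univ,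
    Measure.toSphere_apply_univ, EuclideanSpace.volume_ball_fin_three, finrank_euclideanSpace,
    Fintype.card_fin, ENNReal.ofReal_one, one_pow, one_mul, ← ENNReal.ofReal_natCast,
    ← ENNReal.ofReal_mul (Nat.cast_nonneg _)]
  congr 1
  push_cast
  ring

open scoped Pointwise in
theorem SphereAux.apply {A : Set R3} (hA : MeasurableSet A) :
    sphereMeasure A = 3 * volume (Ioo (0 : ℝ) 1 • (A ∩ Metric.sphere 0 1)) := by
  rw [sphereMeasure, Measure.map_apply measurable_subtype_coe hA,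
    Measure.toSphere_apply' _ (measurable_subtype_coe hA), Subtype.image_preimage_coe, inter_comm,
    finrank_euclideanSpace, Fintype.card_fin, Nat.cast_ofNat]

open scoped Pointwise in
theorem SphereAux.preserving (R : R3 ≃ₗᵢ[ℝ] R3) :
    MeasurePreserving R sphereMeasure sphereMeasure := by
  have hf : Measurable R := R.continuous.measurable
  refine ⟨hf, ?_⟩
  ext A hA
  rw [Measure.map_apply hf hA, SphereAux.apply hA, SphereAux.apply (hf hA)]
  congr 1
  rw [← R.measurePreserving.measure_preimage_emb R.toHomeomorph.measurableEmbedding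
    (Ioo (0 : ℝ) 1 • (A ∩ Metric.sphere 0 1))]
  congr 1
  ext y
  constructor
  · rintro ⟨t, ht, a, ⟨ha, ha1⟩, rfl⟩
    exact ⟨t, ht, R a, ⟨ha, by simpa using ha1⟩, by simp⟩
  · rintro ⟨t, ht, a, ⟨ha, ha1⟩, h⟩
    refine ⟨t, ht, R.symm a, ⟨by simpa using ha, by simpa using ha1⟩, ?_⟩
    apply R.injective
    simpa using h

theorem SphereAux.meas_ray {g : ℝ → ℝ≥0∞} (hg : Measurable g) {f : R3 → ℝ≥0∞} (hf : Measurable f)
    (μ : Measure ℝ) [SFinite μ] : Measurable fun p : R3 => ∫⁻ r, g r * f (r • p) ∂μ :=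
  Measurable.lintegral_prod_right' (f := fun z : R3 × ℝ => g z.2 * f (z.2 • z.1))
    ((hg.comp measurable_snd).mul (hf.comp (by fun_prop)))

/-- polar coordinates in `ℝ³` -/
theorem SphereAux.polar {f : R3 → ℝ≥0∞} (hf : Measurable f) :
    ∫⁻ x, f x = ∫⁻ p, (∫⁻ r in Ioi (0 : ℝ), ENNReal.ofReal (r ^ 2) * f (r • p)) ∂sphereMeasure := by
  let G : Metric.sphere (0 : R3) 1 × Ioi (0 : ℝ) → ℝ≥0∞ := fun y => f (y.2.1 • y.1.1)
  have hG : Measurable G := hf.comp (by fun_prop)
  have h1 := (volume : Measure R3).measurePreserving_homeomorphUnitSphereProd.lintegral_comp hG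
  have h0 : ∫⁻ x, f x = ∫⁻ x : ({0}ᶜ : Set R3), f x ∂(Measure.comap Subtype.val volume) := by
    rw [lintegral_subtype_comap (measurableSet_singleton _).compl, restrict_compl_singleton]
  have h2 : ∀ x : ({0}ᶜ : Set R3), f x = G (homeomorphUnitSphereProd _ x) := fun x => by
    have hx : ‖x.1‖ ≠ 0 := norm_ne_zero_iff.2 x.2
    simp [G, smul_smul, hx]
  rw [h0]
  simp only [h2]
  rw [h1, lintegral_prod _ hG.aemeasurable, sphereMeasure,
    lintegral_map (SphereAux.meas_ray (by fun_prop) hf _) measurable_subtype_coe]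
  refine lintegral_congr fun ω => ?_
  have hω : Measurable fun r => G (ω, r) := hG.comp measurable_prodMk_left
  rw [Measure.volumeIoiPow, lintegral_withDensity_eq_lintegral_mul _ (by fun_prop) hω,
    finrank_euclideanSpace, Fintype.card_fin]
  exact lintegral_subtype_comap measurableSet_Ioi fun r : ℝ =>
    ENNReal.ofReal (r ^ 2) * f (r • ω.1)

/-- total mass `4π ≤ 13` (`toSphere_apply_univ`, `EuclideanSpace.volume_ball_fin_three`) -/
theorem sphere_univ_le : sphereMeasure univ ≤ 13 := by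
  rw [SphereAux.univ_eq, ← ENNReal.ofReal_ofNat]
  exact ENNReal.ofReal_le_ofReal (by linarith [Real.pi_lt_d2])

theorem sphere_univ_ge : 12 ≤ sphereMeasure univ := by
  rw [SphereAux.univ_eq, ← ENNReal.ofReal_ofNat]
  exact ENNReal.ofReal_le_ofReal (by linarith [Real.pi_gt_three])

theorem ae_norm_one : ∀ᵐ w ∂sphereMeasure, ‖w‖ = 1 := by
  rw [sphereMeasure, ae_map_iff measurable_subtype_coe.aemeasurable
    (isClosed_eq continuous_norm continuous_const).measurableSet]
  exact Eventually.of_forall fun s => by simp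

/-- invariance under linear isometries (`toSphere_apply'`: the cone over `R⁻¹ A` is `R⁻¹` of the cone). -/
theorem lint_sphere_iso (R : R3 ≃ₗᵢ[ℝ] R3) (φ : R3 → ℝ≥0∞) (hφ : Measurable φ) :
    ∫⁻ w, φ (R w) ∂sphereMeasure = ∫⁻ w, φ w ∂sphereMeasure :=
  (SphereAux.preserving R).lintegral_comp hφ

/-- there is a linear isometry moving a unit vector to the first basis vector
(a reflection, `reflection_sub`, or `LinearIsometryEquiv` from an orthonormal basis). -/
theorem exists_iso_e0 (e : R3) (he : ‖e‖ = 1) :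
    ∃ R : R3 ≃ₗᵢ[ℝ] R3, R e = EuclideanSpace.single 0 1 :=
  ⟨(ℝ ∙ (e - EuclideanSpace.single 0 1))ᗮ.reflection, Submodule.reflection_sub (by simp [he])⟩

theorem SphereAux.inner_iso {R : R3 ≃ₗᵢ[ℝ] R3} {e : R3} (h : R e = EuclideanSpace.single 0 1)
    (w : R3) : (inner ℝ e w : ℝ) = R w 0 := by
  rw [← R.inner_map_map, h, EuclideanSpace.inner_single_left]
  simp

theorem lint_abs_inner (g : R3) :
    ∫⁻ w, ENNReal.ofReal |inner ℝ g w| ∂sphereMeasure = cz * ENNReal.ofReal ‖g‖ := by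
  rcases eq_or_ne g 0 with rfl | hg
  · simp
  have hn : ‖g‖ ≠ 0 := norm_ne_zero_iff.2 hg
  obtain ⟨R, hR⟩ := exists_iso_e0 (‖g‖⁻¹ • g) (norm_smul_inv_norm hg)
  have hm : Measurable fun w : R3 => ENNReal.ofReal |w 0| := by fun_prop
  rw [cz, ← lint_sphere_iso R _ hm, ← lintegral_mul_const _ (by fun_prop)]
  refine lintegral_congr fun w => ?_
  rw [← SphereAux.inner_iso hR, ← ENNReal.ofReal_mul (abs_nonneg _),
    real_inner_smul_left, abs_mul, abs_inv, abs_norm, mul_right_comm, inv_mul_cancel₀ hn, one_mul]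

/-- the cone over the band lies in the box `|x₀| ≤ s, |x₁|, |x₂| ≤ 1`. -/
theorem sphere_band (e : R3) (he : ‖e‖ = 1) (s : ℝ) (hs : 0 ≤ s) :
    sphereMeasure {w | |inner ℝ e w| ≤ s} ≤ ENNReal.ofReal (24 * s) := by
  obtain ⟨R, hR⟩ := exists_iso_e0 e he
  have hm : MeasurableSet {w : R3 | |w 0| ≤ s} := measurableSet_le (by fun_prop) measurable_const
  have e1 : {w : R3 | |inner ℝ e w| ≤ s} = R ⁻¹' {w : R3 | |w 0| ≤ s} := by
    ext w; simp [SphereAux.inner_iso hR]
  have e2 : (volume : Measure R3) (WithLp.ofLp ⁻¹' Icc ![-s, -1, -1] ![s, 1, 1]) =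
      ENNReal.ofReal (8 * s) := by
    rw [(PiLp.volume_preserving_ofLp (Fin 3)).measure_preimage measurableSet_Icc.nullMeasurableSet,
      Real.volume_Icc_pi, Fin.prod_univ_three, ← ENNReal.ofReal_mul (by simp; linarith),
      ← ENNReal.ofReal_mul (by simp; linarith)]
    congr 1
    simp
    ring
  rw [e1, (SphereAux.preserving R).measure_preimage hm.nullMeasurableSet, SphereAux.apply hm,
    show 24 * s = 3 * (8 * s) by ring, ENNReal.ofReal_mul (by norm_num), ENNReal.ofReal_ofNat, ← e2]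
  refine mul_le_mul_right (measure_mono ?_) _
  rintro _ ⟨t, ht, a, ⟨ha, ha1⟩, rfl⟩
  have h1 : ∀ i, |(t • a) i| ≤ |a i| := fun i => by
    rw [PiLp.smul_apply, smul_eq_mul, abs_mul, abs_of_pos ht.1]
    exact mul_le_of_le_one_left (abs_nonneg _) ht.2.le
  have h2 : ∀ i, |a i| ≤ 1 := fun i =>
    (PiLp.norm_apply_le a i).trans (mem_sphere_zero_iff_norm.1 ha1).le
  have b0 := abs_le.1 ((h1 0).trans ha)
  have b1 := abs_le.1 ((h1 1).trans (h2 1))
  have b2 := abs_le.1 ((h1 2).trans (h2 2))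
  constructor <;> intro i <;> fin_cases i
  exacts [b0.1, b1.1, b2.1, b0.2, b1.2, b2.2]

theorem cz_le : cz ≤ 13 := by
  refine le_trans ?_ sphere_univ_le
  rw [← lintegral_one]
  refine lintegral_mono_ae (ae_norm_one.mono fun w hw => ?_)
  exact ENNReal.ofReal_le_one.2 ((PiLp.norm_apply_le w 0).trans hw.le)

/-- `c₀ ≥ (1/4) (12 - 24/4)` -/
theorem one_le_cz : 1 ≤ cz := by
  have h1 := sphere_band (EuclideanSpace.single 0 1) (by simp) (1 / 4) (by norm_num)
  have h2 := mul_meas_ge_le_lintegral (μ := sphereMeasure)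
    (f := fun w : R3 => ENNReal.ofReal |w 0|) (by fun_prop) (ENNReal.ofReal (1 / 4))
  have h3 : sphereMeasure univ ≤ sphereMeasure
      {w : R3 | |inner ℝ (EuclideanSpace.single 0 1 : R3) w| ≤ (1 / 4 : ℝ)} +
      sphereMeasure {w : R3 | ENNReal.ofReal (1 / 4) ≤ ENNReal.ofReal |w 0|} := by
    refine le_trans (measure_mono fun w _ => ?_) (measure_union_le _ _)
    rcases le_total |w 0| (1 / 4) with h | h
    · left
      simpa [EuclideanSpace.inner_single_left] using h
    · exact Or.inr (ENNReal.ofReal_le_ofReal h)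
  have h4 : 6 + 6 ≤ 6 + sphereMeasure {w : R3 | ENNReal.ofReal (1 / 4) ≤ ENNReal.ofReal |w 0|} := by
    refine le_trans (by norm_num) (sphere_univ_ge.trans (h3.trans (add_le_add_left (h1.trans ?_) _)))
    norm_num
  refine le_trans ?_ ((mul_le_mul_right ((ENNReal.add_le_add_iff_left (by norm_num)).1 h4) _).trans h2)
  rw [← ENNReal.ofReal_ofNat 6, ← ENNReal.ofReal_mul (by norm_num)]
  exact ENNReal.one_le_ofReal.2 (by norm_num)

/-- polar coordinates (`measurePreserving_homeomorphUnitSphereProd`; split `a > 0`, `a < 0`, use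
`lint_sphere_iso` with `R = neg`). -/
theorem polar (φ : R3 → ℝ≥0∞) (hφ : Measurable φ) :
    ∫⁻ w, (∫⁻ a : ℝ, ENNReal.ofReal |a| * φ (a • w)) ∂sphereMeasure =
      2 * ∫⁻ p, npw ‖p‖ 1 * φ p := by
  have hm : Measurable fun w : R3 => ∫⁻ a in Ioi (0 : ℝ), ENNReal.ofReal |a| * φ (a • w) :=
    SphereAux.meas_ray (by fun_prop) hφ _
  have e1 : ∀ w : R3, ∫⁻ a : ℝ, ENNReal.ofReal |a| * φ (a • w) =
      (∫⁻ a in Ioi (0 : ℝ), ENNReal.ofReal |a| * φ (a • w)) +
        ∫⁻ a in Ioi (0 : ℝ), ENNReal.ofReal |a| * φ (a • -w) := fun w => by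
    rw [← lintegral_add_compl _ (measurableSet_Ioi (a := (0 : ℝ))), compl_Ioi,
      ← setLIntegral_congr Iio_ae_eq_Iic, ← lintegral_indicator measurableSet_Iio,
      ← lintegral_neg_eq_self (indicator _ _), ← lintegral_indicator (f := fun a => _ * φ (a • -w))
        measurableSet_Ioi]
    congr 2
    funext a
    by_cases h : a ∈ Ioi (0 : ℝ)
    · rw [indicator_of_mem (show -a ∈ Iio 0 by simpa using h), indicator_of_mem h, abs_neg, neg_smul,
        smul_neg]
    · rw [indicator_of_notMem (show -a ∉ Iio 0 by simpa using h), indicator_of_notMem h]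
  have e2 : ∫⁻ p, npw ‖p‖ 1 * φ p =
      ∫⁻ w, (∫⁻ a in Ioi (0 : ℝ), ENNReal.ofReal |a| * φ (a • w)) ∂sphereMeasure := by
    rw [SphereAux.polar (by unfold npw; fun_prop)]
    refine lintegral_congr_ae (ae_norm_one.mono fun w hw => ?_)
    refine setLIntegral_congr_fun measurableSet_Ioi fun a (ha : 0 < a) => ?_
    rw [norm_smul, hw, mul_one, Real.norm_of_nonneg ha.le, abs_of_pos ha, npw,
      ENNReal.rpow_neg_one, ← mul_assoc, sq, ENNReal.ofReal_mul ha.le, mul_assoc _ _ _⁻¹,
      ENNReal.mul_inv_cancel (ENNReal.ofReal_pos.2 ha).ne' ENNReal.ofReal_ne_top, mul_one]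
  simp only [e1]
  rw [lintegral_add_left hm, e2, two_mul]
  congr 1
  exact lint_sphere_iso (LinearIsometryEquiv.neg ℝ) _ hm

theorem SphereAux.exists_perp {n : R3} (hn : ‖n‖ = 1) :
    ∃ e : R3, ‖e‖ = 1 ∧ ∀ w : R3, ‖w‖ = 1 → |inner ℝ e w| ≤ sn n w := by
  obtain ⟨R, hR⟩ := exists_iso_e0 n hn
  refine ⟨R.symm (EuclideanSpace.single 1 1), by simp, fun w hw => ?_⟩
  set e := R.symm (EuclideanSpace.single 1 1)
  have h0 : (inner ℝ e n : ℝ) = 0 := by
    rw [real_inner_comm, SphereAux.inner_iso hR]; simp [e]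
  have h1 : sn n w = ‖w - (inner ℝ n w : ℝ) • n‖ := by
    rw [sn, ← sq_eq_sq₀ (norm_nonneg _) (norm_nonneg _), norm_sub_sq_real, norm_sub_sq_real,
      norm_smul, norm_smul, real_inner_smul_right, real_inner_smul_right, hn, hw,
      real_inner_comm n w]
  have h2 := abs_real_inner_le_norm e (w - (inner ℝ n w : ℝ) • n)
  rwa [inner_sub_right, real_inner_smul_right, h0, mul_zero, sub_zero, ← h1,
    show ‖e‖ = 1 by simp [e], one_mul] at h2

/-- `∫_{S²} sin(∠(n, ω))^{-1/2} dω < ∞`, uniformly in `n` (rotate to `n = e₀`; by `polar` applied to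
`φ p = 1{‖p‖ ≤ 1} ‖p‖ · npw (sn n (dir p)) (1/2)`, and `sn e₀ (dir p) = ‖(p₁,p₂)‖/‖p‖ ≥ |p₁|` on the
unit ball, `∫_{-1}^{1} |x|^{-1/2} < ∞`; or bands `sphere_band` and a dyadic sum). -/
theorem sphere_sin : ∃ C : ℝ≥0∞, C ≠ ⊤ ∧ ∀ n : R3, ‖n‖ = 1 →
    ∫⁻ w, npw (sn n w) (1 / 2) ∂sphereMeasure ≤ C := by
  refine ⟨∑' k : ℕ, ENNReal.ofReal (48 * (1 / 2) ^ k), ?_, fun n hn => ?_⟩
  · rw [← ENNReal.ofReal_tsum_of_nonneg (fun k => by positivity)
      (summable_geometric_two.mul_left 48)]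
    exact ENNReal.ofReal_ne_top
  obtain ⟨e, he, h⟩ := SphereAux.exists_perp hn
  have hm : ∀ s : ℝ, MeasurableSet {w : R3 | |inner ℝ e w| ≤ s} := fun s =>
    measurableSet_le (by fun_prop) measurable_const
  have h0 : ∀ᵐ w ∂sphereMeasure, 0 < |inner ℝ e w| := by
    rw [ae_iff]
    simpa only [not_lt, mul_zero, ENNReal.ofReal_zero, nonpos_iff_eq_zero] using
      sphere_band e he 0 le_rfl
  calc _ ≤ ∫⁻ w, ∑' k : ℕ, {w : R3 | |inner ℝ e w| ≤ (1 / 4) ^ k}.indicator
        (fun _ => ENNReal.ofReal (2 ^ (k + 1))) w ∂sphereMeasure := by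
        refine lintegral_mono_ae ?_
        filter_upwards [h0, ae_norm_one] with w h0 hw
        have h1 : |inner ℝ e w| ≤ 1 := by simpa [he, hw] using abs_real_inner_le_norm e w
        obtain ⟨k, hk1, hk2⟩ := exists_nat_pow_near_of_lt_one h0 h1 (y := (1 / 4 : ℝ))
          (by norm_num) (by norm_num)
        refine le_trans ?_ (ENNReal.le_tsum k)
        have h2 : (0 : ℝ) < (1 / 4) ^ (k + 1) := by positivity
        have h3 := hk1.le.trans (h w hw)
        rw [indicator_of_mem (show w ∈ {w : R3 | |inner ℝ e w| ≤ (1 / 4) ^ k} from hk2), npw,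
          ENNReal.ofReal_rpow_of_pos (h2.trans_le h3)]
        refine ENNReal.ofReal_le_ofReal ((Real.rpow_le_rpow_of_nonpos h2 h3 (by norm_num)).trans
          (le_of_eq ?_))
        rw [show (1 / 4 : ℝ) = 2 ^ (-2 : ℝ) by norm_num, ← Real.rpow_natCast,
          ← Real.rpow_mul zero_le_two, ← Real.rpow_mul zero_le_two, ← Real.rpow_natCast]
        congr 1
        ring
    _ ≤ _ := by
        rw [lintegral_tsum fun k => (measurable_const.indicator (hm _)).aemeasurable]
        refine ENNReal.tsum_le_tsum fun k => ?_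
        rw [lintegral_indicator_const (hm _)]
        refine (mul_le_mul_right (sphere_band e he _ (by positivity)) _).trans (le_of_eq ?_)
        rw [← ENNReal.ofReal_mul (by positivity), show (1 / 4 : ℝ) = 1 / 2 * (1 / 2) by norm_num,
          mul_pow, one_div_pow (2 : ℝ) k]
        congr 1
        field_simp
        ring

theorem LL_eq (f : R3 → ℝ≥0∞) (hf : Measurable f) (v : R3) :
    LL f v = cz * ∫⁻ η, ENNReal.ofReal ‖v - η‖ * f η := by
  rw [LL, ← lintegral_const_mul _ (by fun_prop)]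
  refine lintegral_congr fun η => ?_
  simp only [ab]
  rw [lintegral_mul_const _ (by fun_prop), lint_abs_inner, mul_assoc]

end
end Crest.Agent.R68
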