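import Crest.Agent.R68.Conc
import Crest.Agent.R68.Ball

/-! # Row 68: the source produced by the cold medium (auxiliary lemmas for `Src`) -/

set_option autoImplicit false
open MeasureTheory Set Filter Topology
open scoped ENNReal NNReal
open Crest.AnalysisR.VecCalc3 Crest.AnalysisR.PDE.Boltzmann

namespace Crest.Agent.R68.SrcA
noncomputable section

theorem QH_zero (v : R3) : QH (fun _ => 0) v = 0 := by
  simp [QH]

theorem QH_sum {ι : Type*} (S : Finset ι) (H : ι → R3 × R3 → ℝ≥0∞) (hH : ∀ i, Measurable (H i))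
    (v : R3) : QH (fun q => ∑ i ∈ S, H i q) v = ∑ i ∈ S, QH (H i) v := by
  classical
  induction S using Finset.induction_on with
  | empty => simpa using QH_zero v
  | insert i S hi ih =>
    simp only [Finset.sum_insert hi]
    rw [QH_add (hH i), ih]

theorem Qp_le_sum {ι : Type*} (S : Finset ι) {f g : R3 → ℝ≥0∞} (F : ι → R3 → ℝ≥0∞)
    (hF : ∀ i, Measurable (F i)) (hg : Measurable g) (h : ∀ η, f η ≤ ∑ i ∈ S, F i η) (v : R3) :
    Qp f g v ≤ ∑ i ∈ S, Qp (F i) g v := by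
  unfold Qp
  rw [← QH_sum S (fun i q => F i q.1 * g q.2)
    fun i => ((hF i).comp measurable_fst).mul (hg.comp measurable_snd)]
  refine QH_mono (fun q => ?_) v
  rw [← Finset.sum_mul]
  exact mul_le_mul' (h _) le_rfl

theorem Qp_le_two {f g g' : R3 → ℝ≥0∞} (hf : Measurable f) (hg : Measurable g')
    (h : ∀ ζ, g ζ ≤ 2 * g' ζ) (v : R3) : Qp f g v ≤ 2 * Qp f g' v := by
  unfold Qp
  rw [← QH_const_mul 2 (H := fun q => f q.1 * g' q.2)
    ((hf.comp measurable_fst).mul (hg.comp measurable_snd))]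
  refine QH_mono (fun q => ?_) v
  rw [mul_left_comm]
  exact mul_le_mul' le_rfl (h _)

theorem npw_one_eq {x : ℝ} (hx : 0 < x) : npw x 1 = ENNReal.ofReal x⁻¹ := by
  rw [npw, ENNReal.rpow_neg_one, ENNReal.ofReal_inv_of_pos hx]

theorem one_le_npw {x c : ℝ} (hc : 0 < c) (h : x ≤ c) : 1 ≤ ENNReal.ofReal c * npw x 1 := by
  refine le_trans (le_of_eq ?_) (mul_le_mul' le_rfl (BallA.npw_anti zero_le_one h))
  rw [npw_one_eq hc, ← ENNReal.ofReal_mul hc.le, mul_inv_cancel₀ hc.ne', ENNReal.ofReal_one]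

theorem DS_rpow_le (p : Ph) {α β : ℝ} (h0 : 0 < α) (h : α ≤ β) : DS p ^ α ≤ DS p ^ β := by
  rcases DS_eq_zero_or p with h1 | h1
  · rw [h1, ENNReal.zero_rpow_of_pos h0]
    exact zero_le
  · exact ENNReal.rpow_le_rpow_of_exponent_le h1.1 h

/-- the weight on the right of the source estimate -/
def W (P : Par) (p : Ph) (s : ℝ) : ℝ≥0∞ :=
  (slabS (3 * P.r0)).indicator 1 (fl p s) * npw (ell (fl p s)) 1 *
      (npw (jb p.2.2) 1 + DS p ^ (8 / 9 : ℝ)) +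
    ENNReal.ofReal P.r0 * (npw (jb p.2.2) 1 + DS p)

theorem height_le {r r0 : ℝ} (hr : r ≠ 0) (hr0 : |r| ≤ 3 * r0) :
    ENNReal.ofReal (2 * cC / |r| ^ 13) * ENNReal.ofReal ((4 * r ^ 4) ^ 2) ≤
      ENNReal.ofReal (10 ^ 18) * ENNReal.ofReal r0 * npw (8 * (4 * r ^ 4)) (3 / 2) := by
  have ha : 0 < |r| := abs_pos.2 hr
  have e4 : r ^ 4 = |r| ^ 4 := (Even.pow_abs (by decide : Even 4) r).symm
  rw [e4]
  generalize |r| = a at ha hr0 ⊢
  have h0 : 0 ≤ r0 := by linarith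
  have hC : cC = 10 ^ 13 := rfl
  have hC0 : 0 < cC := by rw [hC]; positivity
  rw [npw, ENNReal.ofReal_rpow_of_pos (by positivity), ← ENNReal.ofReal_mul (by positivity),
    ← ENNReal.ofReal_mul (by positivity), ← ENNReal.ofReal_mul (by positivity)]
  refine ENNReal.ofReal_le_ofReal ?_
  have h1 : (8 * (4 * a ^ 4)) ^ (3 / 2 : ℝ) ≤ 1024 * a ^ 6 := by
    rw [← mul_assoc, Real.mul_rpow (by norm_num) (by positivity), ← Real.rpow_natCast a 4,
      ← Real.rpow_mul ha.le, ← Real.rpow_natCast a 6]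
    refine mul_le_mul ?_ (le_of_eq (by norm_num)) (by positivity) (by norm_num)
    exact (Real.rpow_le_rpow_of_exponent_le (by norm_num)
      (show (3 / 2 : ℝ) ≤ 2 by norm_num)).trans (by norm_num)
  rw [Real.rpow_neg (by positivity), ← div_eq_mul_inv, le_div_iff₀ (by positivity)]
  refine (mul_le_mul_of_nonneg_left h1 (by positivity)).trans ?_
  have e : 2 * cC / a ^ 13 * (4 * a ^ 4) ^ 2 * (1024 * a ^ 6) = 32768 * cC * a := by
    field_simp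
    ring
  rw [e, hC]
  linarith

theorem ballB_le : ∃ K : ℝ≥0∞, K ≠ ⊤ ∧ ∀ (P : Par) (b : Bool) (p : Ph) (s : ℝ) (m : Fin 3 → ℤ),
    0 < s → s ≤ p.1 → Occ P b s ((fl p s).2.1 - lat m) →
    ballB (uu b s ((fl p s).2.1 - lat m)) (4 * x1 ((fl p s).2.1 - lat m) ^ 4)
        (ENNReal.ofReal (2 * cC / |x1 ((fl p s).2.1 - lat m)| ^ 13))
        (ENNReal.ofReal (10 ^ 26 / (8 * s + ‖(fl p s).2.1 - lat m‖))) p.2.2 ≤
      K * ENNReal.ofReal ((1 + s) ^ 2) * W P p s := by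
  obtain ⟨K, hK, hw⟩ := wlink
  refine ⟨ENNReal.ofReal (10 ^ 26) * 2 * K, ENNReal.mul_ne_top (ENNReal.mul_ne_top
    ENNReal.ofReal_ne_top ENNReal.ofNat_ne_top) hK, fun P b p s m hs hst ho => ?_⟩
  have h := hw b p s m hs.le hst ho.2.2.1
  unfold ballB
  split_ifs with hc
  · have h1 := h 1 ⟨le_rfl, by norm_num⟩
    have h2 := h (4 / 3) ⟨by norm_num, by norm_num⟩
    rw [show (2 * (4 / 3) / 3 : ℝ) = 8 / 9 by norm_num] at h2
    have h3 := h1.trans (mul_le_mul' le_rfl (add_le_add le_rfl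
      (DS_rpow_le p (β := 8 / 9) (by norm_num) (by norm_num))))
    have h4 : ENNReal.ofReal (10 ^ 26 / (8 * s + ‖(fl p s).2.1 - lat m‖)) ≤
        ENNReal.ofReal (10 ^ 26) * npw (ell (fl p s)) 1 := by
      refine le_trans (le_of_eq ?_) (mul_le_mul' le_rfl (BallA.npw_anti zero_le_one
        (show ell (fl p s) ≤ 8 * s + ‖(fl p s).2.1 - lat m‖ from
          add_le_add le_rfl (tn_le_norm_sub _ m))))
      rw [npw_one_eq (by positivity), ← ENNReal.ofReal_mul (by positivity), div_eq_mul_inv]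
    have h5 : fl p s ∈ slabS (3 * P.r0) := ⟨m, ho.2.2.2, ho.2.1⟩
    refine (mul_le_mul' h4 (add_le_add h3 h2)).trans ?_
    rw [W, indicator_of_mem h5, Pi.one_apply, one_mul]
    refine le_trans (le_of_eq ?_) (mul_le_mul' le_rfl le_self_add)
    ring
  · have h1 := h (3 / 2) ⟨by norm_num, le_rfl⟩
    rw [show (2 * (3 / 2) / 3 : ℝ) = 1 by norm_num, ENNReal.rpow_one] at h1
    refine ((height_le ho.1 ho.2.1).trans (mul_le_mul' le_rfl
      ((BallA.npw_anti (by norm_num) (not_le.1 hc).le).trans h1))).trans ?_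
    have h2 : ENNReal.ofReal (10 ^ 18) ≤ ENNReal.ofReal (10 ^ 26) * 2 :=
      (ENNReal.ofReal_le_ofReal (by norm_num)).trans
        (le_mul_of_one_le_right' (by norm_num))
    rw [W]
    refine le_trans ?_ (mul_le_mul' le_rfl le_add_self)
    calc _ = ENNReal.ofReal (10 ^ 18) * K * ENNReal.ofReal ((1 + s) ^ 2) *
          (ENNReal.ofReal P.r0 * (npw (jb p.2.2) 1 + DS p)) := by ring
      _ ≤ _ := by gcongr

theorem card_le {s : ℝ} (hs : 0 ≤ s) (z : R3) :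
    ((img (1 + 2 * s) z).card : ℝ≥0∞) ≤ 64 * ENNReal.ofReal ((1 + s) ^ 3) := by
  have h := card_img_le (ϱ := 1 + 2 * s) (by linarith) z
  rw [← ENNReal.ofReal_natCast, ← ENNReal.ofReal_ofNat 64, ← ENNReal.ofReal_mul (by norm_num)]
  refine ENNReal.ofReal_le_ofReal (h.trans ?_)
  calc _ ≤ (4 * (1 + s)) ^ 3 := by gcongr; linarith
    _ = _ := by ring

theorem core : ∃ K : ℝ≥0∞, K ≠ ⊤ ∧ ∀ P : Par, P.Basic → ∀ (p : Ph) (s : ℝ), 0 < s → s ≤ p.1 →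
    ∀ (g : R3 → ℝ≥0∞) (B : ℝ≥0∞), Measurable g →
    (∀ (u : R3) (lam : ℝ) (H ρ : ℝ≥0∞) (f : R3 → ℝ≥0∞), inner ℝ nn u = (0 : ℝ) → ‖u‖ ≤ 2 →
      0 < lam → lam ≤ 1 → Conc f u lam H ρ → Qp f g p.2.2 ≤ B * ballB u lam H ρ p.2.2) →
    Qp (sec (csm P) (fl p s)) g p.2.2 ≤ K * ENNReal.ofReal ((1 + s) ^ 5) * B * W P p s := by
  obtain ⟨K, hK, hb⟩ := ballB_le
  refine ⟨128 * K, ENNReal.mul_ne_top ENNReal.ofNat_ne_top hK,
    fun P hP p s hs hst g B hg h => ?_⟩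
  have h1 := Qp_le_sum (f := sec (csm P) (fl p s))
    (img (1 + 2 * s) (fl p s).2.1 ×ˢ (Finset.univ : Finset Bool))
    (fun i => csec P i.2 s ((fl p s).2.1 - lat i.1)) (fun i => measurable_csec _ _ _ _) hg
    (fun η => by
      rw [Finset.sum_product]
      exact csm_le_sum hP hs.le _ η) p.2.2
  refine h1.trans ((Finset.sum_le_card_nsmul _ _
    (B * (K * ENNReal.ofReal ((1 + s) ^ 2) * W P p s)) fun i _ => ?_).trans ?_)
  · rcases conc_csec hP i.2 hs.le ((fl p s).2.1 - lat i.1) with h0 | ⟨ho, hc⟩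
    · have : Qp (csec P i.2 s ((fl p s).2.1 - lat i.1)) g p.2.2 = 0 := by
        simp only [Qp, h0, zero_mul]
        exact QH_zero _
      rw [this]
      exact zero_le
    · refine (h _ _ _ _ _ (x1_uu _ _ _) ((norm_uu_le _ _ _).trans (by norm_num))
        (by have := ho.1; positivity) ?_ hc).trans (mul_le_mul' le_rfl (hb P _ p s _ hs hst ho))
      have h2 : |x1 ((fl p s).2.1 - lat i.1)| ≤ 1 / 2 := by
        linarith [ho.2.1, hP.r0_cs, hP.cs_le]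
      have h3 := pow_le_pow_left₀ (abs_nonneg _) h2 4
      rw [Even.pow_abs (by decide : Even 4)] at h3
      linarith
  · rw [nsmul_eq_mul, Finset.card_product, Finset.card_univ, Fintype.card_bool, Nat.cast_mul,
      show (1 + s) ^ 5 = (1 + s) ^ 3 * (1 + s) ^ 2 by ring, ENNReal.ofReal_mul (by positivity)]
    refine (mul_le_mul' (mul_le_mul' (card_le hs.le _) le_rfl) le_rfl).trans (le_of_eq ?_)
    push_cast
    ring

theorem W_le {P : Par} (hP : P.Basic) (p : Ph) {s : ℝ} (hs : s ≤ 1) :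
    W P p s ≤ 40 * npw (ell (fl p s)) 1 * npw (jb p.2.2) 1 * Sg p := by
  have h1 : 1 ≤ ENNReal.ofReal 9 * npw (ell (fl p s)) 1 :=
    one_le_npw (by norm_num) (by
      have := tn_le_one (fl p s).2.1
      show 8 * s + tn (fl p s).2.1 ≤ 9
      linarith)
  rw [ENNReal.ofReal_ofNat] at h1
  have h2 : npw (jb p.2.2) 1 + DS p ≤ 4 * npw (jb p.2.2) 1 * Sg p := by
    have h3 : DS p ≤ 4 * npw (jb p.2.2) 1 * DS p := by
      rcases DS_eq_zero_or p with h | h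
      · simp [h]
      · have h4 : 1 ≤ ENNReal.ofReal 4 * npw (jb p.2.2) 1 :=
          one_le_npw (by norm_num) (by unfold jb; linarith [h.2])
        rw [ENNReal.ofReal_ofNat] at h4
        exact le_mul_of_one_le_left' h4
    calc _ ≤ 4 * npw (jb p.2.2) 1 * 1 + 4 * npw (jb p.2.2) 1 * DS p := by
          refine add_le_add ?_ h3
          rw [mul_one]
          exact le_mul_of_one_le_left' (by norm_num)
      _ = 4 * npw (jb p.2.2) 1 * (1 + DS p) := by ring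
      _ ≤ _ := mul_le_mul' le_rfl (add_le_add le_self_add le_rfl)
  have h3 : DS p ^ (8 / 9 : ℝ) ≤ DS p := by
    simpa using DS_rpow_le p (α := 8 / 9) (β := 1) (by norm_num) (by norm_num)
  have h4 : (slabS (3 * P.r0)).indicator (1 : Ph → ℝ≥0∞) (fl p s) ≤ 1 :=
    indicator_le_self' (fun _ _ => zero_le_one) _
  have h5 : ENNReal.ofReal P.r0 ≤ 1 :=
    ENNReal.ofReal_le_one.2 (by linarith [hP.r0_cs, hP.cs_le])
  calc W P p s ≤ 1 * npw (ell (fl p s)) 1 * (4 * npw (jb p.2.2) 1 * Sg p) +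
        9 * npw (ell (fl p s)) 1 * (4 * npw (jb p.2.2) 1 * Sg p) :=
        add_le_add (mul_le_mul' (mul_le_mul' h4 le_rfl) ((add_le_add le_rfl h3).trans h2))
          (mul_le_mul' (h5.trans h1) h2)
    _ = _ := by ring

theorem sec_GS_le (a : ℝ) (p : Ph) {s : ℝ} (hs : 0 ≤ s) (ζ : R3) :
    sec (GS a) (fl p s) ζ ≤ 2 * (Ga a ζ * SgA nn (Cs s (fl p s).2.1) ζ) := by
  rw [mul_left_comm]
  exact mul_le_mul' le_rfl (Sg_le_SgA hs _ ζ)

theorem sec_c0 {P : Par} (hP : P.Basic) (p : Ph) {s : ℝ} (hs : s ∈ Icc (0 : ℝ) 1) :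
    sec (c0 P) (fl p s) = sec (csm P) (fl p s) :=
  funext fun _ => (csm_eq_c0 hP hs).symm

theorem pow_le {s : ℝ} (hs : s ∈ Icc (0 : ℝ) 1) (k : ℕ) :
    ENNReal.ofReal ((1 + s) ^ k) ≤ 2 ^ k := by
  rw [← ENNReal.ofReal_ofNat 2, ← ENNReal.ofReal_pow (by norm_num)]
  exact ENNReal.ofReal_le_ofReal (pow_le_pow_left₀ (by linarith [hs.1]) (by linarith [hs.2]) k)

theorem src_csm : ∃ K : ℝ≥0∞, K ≠ ⊤ ∧ ∀ P : Par, P.Basic → ∀ (p : Ph) (s : ℝ), 0 < s → s ≤ p.1 →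
    ∀ a ∈ Icc (1 / 16 : ℝ) (1 / 4),
    QF (csm P) (GS a) (fl p s) ≤ K * ENNReal.ofReal ((1 + s) ^ 8) * Ga a p.2.2 * W P p s := by
  obtain ⟨K, hK, hc⟩ := core
  obtain ⟨C, hC, hb⟩ := ball_SgA
  refine ⟨1000 * K * C, ENNReal.mul_ne_top (ENNReal.mul_ne_top ENNReal.ofNat_ne_top hK) hC,
    fun P hP p s hs hst a ha => ?_⟩
  have hm := (measurable_Ga a).fun_mul (measurable_SgA nn (Cs s (fl p s).2.1))
  refine (Qp_le_two (measurable_sec (measurable_csm P) _) hm (sec_GS_le a p hs.le) _).trans ?_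
  refine (mul_le_mul' le_rfl (hc P hP p s hs hst _ _ hm fun u lam H ρ f h1 h2 h3 h4 h5 =>
    hb nn u p.2.2 lam H ρ f _ norm_nn h1 h2 h3 h4 h5 a ha)).trans ?_
  rw [show (1 + s) ^ 8 = (1 + s) ^ 5 * (1 + s) ^ 3 by ring, ENNReal.ofReal_mul (by positivity)]
  calc _ ≤ 2 * (K * ENNReal.ofReal ((1 + s) ^ 5) *
        (C * (500 * ENNReal.ofReal ((1 + s) ^ 3)) * Ga a p.2.2) * W P p s) := by
        gcongr
        exact card_Cs_le hs.le _
    _ = _ := by ring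

theorem src_c0 : ∃ K : ℝ≥0∞, K ≠ ⊤ ∧ ∀ P : Par, P.Basic → ∀ (p : Ph) (s : ℝ), 0 < s → s ≤ p.1 →
    s ≤ 1 → ∀ a ∈ Icc (1 / 16 : ℝ) (1 / 4),
    QF (c0 P) (GS a) (fl p s) ≤
      K * npw (ell (fl p s)) 1 * npw (jb p.2.2) 1 * Ga a p.2.2 * Sg p := by
  obtain ⟨K, hK, h⟩ := src_csm
  refine ⟨K * 2 ^ 8 * 40, ENNReal.mul_ne_top (ENNReal.mul_ne_top hK (by simp))
    ENNReal.ofNat_ne_top, fun P hP p s hs hst hs1 a ha => ?_⟩
  have e : QF (c0 P) (GS a) (fl p s) = QF (csm P) (GS a) (fl p s) := by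
    unfold QF
    rw [sec_c0 hP p ⟨hs.le, hs1⟩]
  rw [e]
  refine (h P hP p s hs hst a ha).trans ((mul_le_mul' (mul_le_mul' (mul_le_mul' le_rfl
    (pow_le ⟨hs.le, hs1⟩ 8)) le_rfl) (W_le hP p hs1)).trans (le_of_eq ?_))
  ring

theorem src_c0_trunc : ∃ K : ℝ≥0∞, K ≠ ⊤ ∧ ∀ P : Par, P.Basic → ∀ (p : Ph) (s : ℝ), 0 < s →
    s ≤ p.1 → s ≤ 1 → ∀ a ∈ Icc (1 / 16 : ℝ) (1 / 4), ∀ ϑ ∈ Ioc (0 : ℝ) 1,
    Qp (sec (c0 P) (fl p s))
        (fun ζ => if ‖ζ - p.2.2‖ < ϑ ∨ ϑ ^ (-(1 / 4 : ℝ)) < ‖ζ - p.2.2‖ then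
          sec (GS a) (fl p s) ζ else 0) p.2.2 ≤
      K * ENNReal.ofReal (ϑ ^ (1 / 9 : ℝ)) * npw (ell (fl p s)) 1 * npw (jb p.2.2) 1 * Ga a p.2.2 *
        Sg p := by
  obtain ⟨K, hK, hc⟩ := core
  obtain ⟨C, hC, hb⟩ := ball_SgA_trunc
  refine ⟨2 * K * 2 ^ 5 * C * (500 * 2 ^ 3) ^ 2 * 40, ?_, fun P hP p s hs hst hs1 a ha ϑ hϑ => ?_⟩
  · refine ENNReal.mul_ne_top (ENNReal.mul_ne_top (ENNReal.mul_ne_top (ENNReal.mul_ne_top
      (ENNReal.mul_ne_top ENNReal.ofNat_ne_top hK) (by simp)) hC) ?_) ENNReal.ofNat_ne_top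
    exact ENNReal.pow_ne_top (ENNReal.mul_ne_top ENNReal.ofNat_ne_top (by simp))
  have hm : Measurable fun ζ : R3 =>
      if ‖ζ - p.2.2‖ < ϑ ∨ ϑ ^ (-(1 / 4 : ℝ)) < ‖ζ - p.2.2‖ then
        Ga a ζ * SgA nn (Cs s (fl p s).2.1) ζ else 0 :=
    Measurable.ite ((measurable_sub_const p.2.2) (BallB.meas_E ϑ))
      ((measurable_Ga a).fun_mul (measurable_SgA nn _)) measurable_const
  rw [sec_c0 hP p ⟨hs.le, hs1⟩]
  refine (Qp_le_two (measurable_sec (measurable_csm P) _) hm (fun ζ => ?_) _).trans ?_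
  · split_ifs
    · exact sec_GS_le a p hs.le ζ
    · exact zero_le
  refine (mul_le_mul' le_rfl (hc P hP p s hs hst _ _ hm fun u lam H ρ f h1 h2 h3 h4 h5 =>
    hb nn u p.2.2 lam H ρ f _ norm_nn h1 h2 h3 h4 h5 a ha ϑ hϑ)).trans ?_
  calc _ ≤ 2 * (K * 2 ^ 5 * (C * (500 * 2 ^ 3) ^ 2 * ENNReal.ofReal (ϑ ^ (1 / 9 : ℝ)) *
        Ga a p.2.2) * (40 * npw (ell (fl p s)) 1 * npw (jb p.2.2) 1 * Sg p)) := by
        gcongr
        · exact pow_le ⟨hs.le, hs1⟩ 5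
        · exact (card_Cs_le hs.le _).trans (mul_le_mul' le_rfl (pow_le ⟨hs.le, hs1⟩ 3))
        · exact W_le hP p hs1
    _ = _ := by ring

end
end Crest.Agent.R68.SrcA
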