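import Crest.Agent.R68.Conc
import Crest.Agent.R68.PosOps
import Crest.Agent.R68.Bil

/-! # Row 68: auxiliary lemmas for the source estimates (part 2) -/

set_option autoImplicit false
open MeasureTheory Set Filter Topology
open scoped ENNReal NNReal
open Crest.AnalysisR.VecCalc3 Crest.AnalysisR.PDE.Boltzmann

namespace Crest.Agent.R68
noncomputable section

namespace SrcB

theorem Qp_mono {f f' g g' : R3 → ℝ≥0∞} (h1 : ∀ η, f η ≤ f' η) (h2 : ∀ η, g η ≤ g' η) (v : R3) :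
    Qp f g v ≤ Qp f' g' v :=
  QH_mono (H := fun q => f q.1 * g q.2) (H' := fun q => f' q.1 * g' q.2)
    (fun _ => mul_le_mul' (h1 _) (h2 _)) v

theorem meas_pair {f g : R3 → ℝ≥0∞} (hf : Measurable f) (hg : Measurable g) :
    Measurable fun q : R3 × R3 => f q.1 * g q.2 :=
  (hf.comp measurable_fst).mul (hg.comp measurable_snd)

theorem Qp_of_zero {f : R3 → ℝ≥0∞} (hf : ∀ η, f η = 0) (g : R3 → ℝ≥0∞) (v : R3) :
    Qp f g v = 0 := by
  simp [Qp, QH, hf]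

theorem Qp_const {f g : R3 → ℝ≥0∞} (hf : Measurable f) (hg : Measurable g) (c d : ℝ≥0∞) (v : R3) :
    Qp (fun η => c * f η) (fun ζ => d * g ζ) v = c * d * Qp f g v := by
  rw [Qp, Qp, ← QH_const_mul _ (meas_pair hf hg)]
  simp only [mul_mul_mul_comm c _ d]

theorem Qp_sum {ι : Type} (s : Finset ι) {f : ι → R3 → ℝ≥0∞} (hf : ∀ i, Measurable (f i))
    {g : R3 → ℝ≥0∞} (hg : Measurable g) (v : R3) :
    Qp (fun η => ∑ i ∈ s, f i η) g v = ∑ i ∈ s, Qp (f i) g v := by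
  classical
  induction s using Finset.induction_on with
  | empty => exact Qp_of_zero (fun _ => rfl) g v
  | insert i s hi ih =>
    simp only [Finset.sum_insert hi]
    rw [← ih, Qp, Qp, Qp, ← QH_add (meas_pair (hf i) hg)]
    simp only [add_mul]

/-- a sum over the lifts and the two streams -/
theorem Qp_le_of_sum {F g : R3 → ℝ≥0∞} {s : Finset (Fin 3 → ℤ)}
    {f : (Fin 3 → ℤ) → Bool → R3 → ℝ≥0∞} (hf : ∀ m b, Measurable (f m b)) (hg : Measurable g)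
    (hF : ∀ η, F η ≤ ∑ m ∈ s, ∑ b : Bool, f m b η) (v : R3) {B : ℝ≥0∞}
    (hB : ∀ m b, Qp (f m b) g v ≤ B) : Qp F g v ≤ s.card * (2 * B) := by
  refine (Qp_mono hF (fun _ => le_rfl) v).trans ?_
  rw [Qp_sum s (fun m => Finset.measurable_sum _ fun b _ => hf m b) hg, ← nsmul_eq_mul]
  refine Finset.sum_le_card_nsmul _ _ _ fun m _ => ?_
  rw [Qp_sum _ (hf m) hg, Fintype.sum_bool, two_mul]
  exact add_le_add (hB _ _) (hB _ _)

theorem card_img {t : ℝ} (ht : 0 ≤ t) (z : R3) :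
    ((img (1 + 2 * t) z).card : ℝ≥0∞) ≤ 64 * ENNReal.ofReal ((1 + t) ^ 3) := by
  rw [← ENNReal.ofReal_natCast, ← ENNReal.ofReal_ofNat 64, ← ENNReal.ofReal_mul (by norm_num)]
  refine ENNReal.ofReal_le_ofReal ((card_img_le (by positivity) z).trans ?_)
  rw [show (64 : ℝ) * (1 + t) ^ 3 = (4 * (1 + t)) ^ 3 by ring]
  exact pow_le_pow_left₀ (by positivity) (by linarith) 3

theorem meas_W (a : ℝ) (S : Finset R3) : Measurable fun ζ => Ga a ζ * SgA nn S ζ :=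
  (measurable_Ga a).mul (measurable_SgA nn S)

theorem sec_GS_le {q : Ph} (hq : 0 ≤ q.1) (a : ℝ) (ζ : R3) :
    sec (GS a) q ζ ≤ 2 * (Ga a ζ * SgA nn (Cs q.1 q.2.1) ζ) := by
  rw [mul_left_comm]
  exact mul_le_mul_right (Sg_le_SgA hq _ _) _

theorem QF_GS_le {q : Ph} (hq : 0 ≤ q.1) (a a' : ℝ) : QF (GS a') (GS a) q ≤ 2 * 2 *
    Qp (fun η => Ga a' η * SgA nn (Cs q.1 q.2.1) η) (fun ζ => Ga a ζ * SgA nn (Cs q.1 q.2.1) ζ)
      q.2.2 := by
  rw [← Qp_const (meas_W _ _) (meas_W _ _)]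
  exact Qp_mono (sec_GS_le hq a') (sec_GS_le hq a) _

theorem ofReal_pow_add {t : ℝ} (ht : 0 ≤ t) (i j : ℕ) : ENNReal.ofReal ((1 + t) ^ (i + j)) =
    ENNReal.ofReal ((1 + t) ^ i) * ENNReal.ofReal ((1 + t) ^ j) := by
  rw [pow_add, ENNReal.ofReal_mul (by positivity)]

theorem link_le (p : Ph) {θ : ℝ} (h0 : 0 < θ) (h1 : θ ≤ 1) :
    npw (jb p.2.2) 1 + DS p ^ θ ≤ Sg p := by
  have e1 : npw (jb p.2.2) 1 ≤ 1 :=
    (BilA.npw_anti zero_le_one (le_add_of_nonneg_right (norm_nonneg _))).trans_eq (BilA.npw_one 1)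
  have e2 : DS p ^ θ ≤ DS p := by
    rcases DS_eq_zero_or p with h | h
    · rw [h, ENNReal.zero_rpow_of_pos h0]
    · exact (ENNReal.rpow_le_rpow_of_exponent_le h.1 h1).trans_eq (ENNReal.rpow_one _)
  exact add_le_add (e1.trans le_self_add) e2

theorem ballB_le {u v : R3} {lam : ℝ} (hl : 0 < lam) {H η B : ℝ≥0∞}
    (hH : H * ENNReal.ofReal (lam ^ 2) * ENNReal.ofReal ((8 * lam) ^ (3 / 2 : ℝ)) ≤ η)
    (hB : ∀ γ ∈ Icc (1 : ℝ) (3 / 2), npw ‖v - u‖ γ ≤ B) : ballB u lam H η v ≤ η * (2 * B) := by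
  unfold ballB
  split_ifs with h
  · rw [two_mul]
    exact mul_le_mul_right (add_le_add (hB _ ⟨le_rfl, by norm_num⟩)
      (hB _ ⟨by norm_num, by norm_num⟩)) _
  · have h8 : 0 < 8 * lam := by positivity
    have e : ENNReal.ofReal ((8 * lam) ^ (3 / 2 : ℝ)) * npw (8 * lam) (3 / 2) = 1 := by
      rw [npw, ← ENNReal.ofReal_rpow_of_pos h8, ← ENNReal.rpow_add _ _
        (ENNReal.ofReal_pos.2 h8).ne' ENNReal.ofReal_ne_top, add_neg_cancel, ENNReal.rpow_zero]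
    calc H * ENNReal.ofReal (lam ^ 2) = H * ENNReal.ofReal (lam ^ 2) *
          ENNReal.ofReal ((8 * lam) ^ (3 / 2 : ℝ)) * npw (8 * lam) (3 / 2) := by
          rw [mul_assoc _ _ (npw _ _), e, mul_one]
      _ ≤ η * (2 * B) := mul_le_mul' hH (((BilA.npw_anti (by norm_num) (not_le.1 h).le).trans
          (hB _ ⟨by norm_num, le_rfl⟩)).trans (by rw [two_mul]; exact le_self_add))

theorem src_ZZ' (η : ℝ≥0∞) (hη : 0 < η) : ∀ᶠ P in parF, ∀ (p : Ph) (s : ℝ), 0 ≤ s → s ≤ p.1 →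
    ∀ a ∈ Icc (1 / 16 : ℝ) (1 / 4),
    QF (ZZ P) (GS a) (fl p s) ≤ η * ENNReal.ofReal ((1 + s) ^ 8) * Ga a p.2.2 * Sg p := by
  obtain ⟨C, hC, hball⟩ := ball_SgA
  obtain ⟨K, hK, hlink⟩ := wlink
  have hM : 64 * 2 * 2 * 500 * 2 * C * K ≠ ⊤ := by finiteness
  filter_upwards [ev_basic, conc_zed (η / (64 * 2 * 2 * 500 * 2 * C * K))
    (ENNReal.div_pos hη.ne' hM)] with P hP hz p s hs hsp a ha
  set η' := η / (64 * 2 * 2 * 500 * 2 * C * K) with hη'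
  have hmeas : ∀ (m : Fin 3 → ℤ) (b : Bool), Measurable fun ζ =>
      zed0 P b s ((fl p s).2.1 - lat m - s • ζ) ζ := fun m b =>
    (measurable_zed0 P b).comp (f := fun ζ : R3 => (s, (fl p s).2.1 - lat m - s • ζ, ζ))
      (by fun_prop)
  have h1 := Qp_le_of_sum (F := sec (ZZ P) (fl p s)) hmeas (meas_W a (Cs s (fl p s).2.1))
    (ZZ_le_sum hP hs (fl p s).2.1) p.2.2 (B := C * (500 * ENNReal.ofReal ((1 + s) ^ 3)) *
      Ga a p.2.2 * (η' * (2 * (K * ENNReal.ofReal ((1 + s) ^ 2) * Sg p)))) fun m b => by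
    rcases hz b s ((fl p s).2.1 - lat m) hs with h | ⟨hocc, lam, H, hl, hl', hc, hH⟩
    · rw [Qp_of_zero h]
      exact zero_le
    · refine (hball nn _ _ lam H η' _ _ norm_nn (x1_uu _ _ _)
        ((norm_uu_le _ _ _).trans (by norm_num)) hl (by linarith) hc a ha).trans ?_
      refine mul_le_mul' (mul_le_mul_left (mul_le_mul_right (card_Cs_le hs _) _) _)
        (ballB_le hl hH fun γ hγ => (hlink b p s m hs hsp hocc.2.2.1 γ hγ).trans ?_)
      exact mul_le_mul_right (link_le p (by linarith [hγ.1]) (by linarith [hγ.2])) _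
  have h2 : QF (ZZ P) (GS a) (fl p s) ≤ 1 * 2 * Qp (sec (ZZ P) (fl p s))
      (fun ζ => Ga a ζ * SgA nn (Cs s (fl p s).2.1) ζ) p.2.2 := by
    rw [← Qp_const (measurable_sec (measurable_ZZ P) _) (meas_W _ _)]
    exact Qp_mono (fun _ => (one_mul _).ge) (sec_GS_le (q := fl p s) hs a) _
  refine h2.trans ((mul_le_mul_right (h1.trans (mul_le_mul_left (card_img hs _) _)) _).trans ?_)
  rw [show 8 = 3 + 3 + 2 from rfl, ofReal_pow_add hs, ofReal_pow_add hs]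
  calc _ = 64 * 2 * 2 * 500 * 2 * C * K * η' * (ENNReal.ofReal ((1 + s) ^ 3) *
        ENNReal.ofReal ((1 + s) ^ 3) * ENNReal.ofReal ((1 + s) ^ 2)) * Ga a p.2.2 * Sg p := by ring
    _ ≤ _ := by
      gcongr
      exact ENNReal.mul_div_le

theorem src_GS_same' : ∃ K : ℝ≥0∞, K ≠ ⊤ ∧ ∀ q : Ph, 0 ≤ q.1 → ∀ a ∈ Icc (1 / 16 : ℝ) 1,
    QF (GS a) (GS a) q ≤
      K * ENNReal.ofReal ((1 + q.1) ^ 6) * ENNReal.ofReal (jb q.2.2) * Ga a q.2.2 := by
  obtain ⟨C, hC, h⟩ := Qp_SgA_same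
  refine ⟨2 * 2 * C * 500 * 500, by finiteness, fun q hq a ha => (QF_GS_le hq a a).trans ?_⟩
  have h1 := card_Cs_le hq q.2.1
  rw [show 6 = 3 + 3 from rfl, ofReal_pow_add hq]
  calc _ ≤ 2 * 2 * (C * (500 * ENNReal.ofReal ((1 + q.1) ^ 3)) *
        (500 * ENNReal.ofReal ((1 + q.1) ^ 3)) * ENNReal.ofReal (jb q.2.2) * Ga a q.2.2) :=
        mul_le_mul_right ((h nn _ _ _ norm_nn a ha).trans (by gcongr)) _
    _ = _ := by ring

theorem src_GS_gap' : ∃ K : ℝ≥0∞, K ≠ ⊤ ∧ ∀ q : Ph, 0 ≤ q.1 → ∀ a ∈ Icc (1 / 16 : ℝ) 1,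
    ∀ a' : ℝ, a + 1 / 64 ≤ a' →
    QF (GS a') (GS a) q ≤ K * ENNReal.ofReal ((1 + q.1) ^ 6) * Ga a q.2.2 := by
  obtain ⟨C, hC, h⟩ := Qp_SgA_gap
  refine ⟨2 * 2 * C * 500 * 500, by finiteness, fun q hq a ha a' ha' =>
    (QF_GS_le hq a a').trans ?_⟩
  have h1 := card_Cs_le hq q.2.1
  rw [show 6 = 3 + 3 from rfl, ofReal_pow_add hq]
  calc _ ≤ 2 * 2 * (C * (500 * ENNReal.ofReal ((1 + q.1) ^ 3)) *
        (500 * ENNReal.ofReal ((1 + q.1) ^ 3)) * Ga a q.2.2) :=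
        mul_le_mul_right ((h nn _ _ _ norm_nn a ha a' ha').trans (by gcongr)) _
    _ = _ := by ring

theorem kernel_c0' : ∃ K : ℝ≥0∞, K ≠ ⊤ ∧ ∀ P : Par, P.Basic → ∀ q : Ph,
    q.1 ∈ Icc (0 : ℝ) (1 / 10) →
    ‖q.2.1‖ ≤ 1 / 4 → ∀ ϱ : ℝ, 0 < ϱ → ϱ ≤ |x1 q.2.1| → ∀ g : R3 → ℝ≥0∞, Measurable g →
    Qp (sec (c0 P) q) g q.2.2 ≤ K * npw ϱ 5 * ∫⁻ ζ, npw ‖ζ - q.2.2‖ 1 * g ζ := by
  refine ⟨64 * ENNReal.ofReal 2 * (2 * (8 * ENNReal.ofReal (32 * cC))), by finiteness,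
    fun P hP q hq hz ϱ hϱ hϱ' g hg => ?_⟩
  obtain ⟨t, z, v⟩ := q
  obtain ⟨ht, ht'⟩ : 0 ≤ t ∧ t ≤ 1 / 10 := hq
  have h1 := Qp_le_of_sum (F := sec (c0 P) (t, z, v)) (s := img (1 + 2 * t) z)
    (fun m b => measurable_csec P b t (z - lat m)) hg (fun η =>
      (csm_eq_c0 hP (p := (t, z, η)) ⟨ht, by linarith⟩).ge.trans (csm_le_sum hP ht z η)) v
    (B := 8 * ENNReal.ofReal (32 * cC) * npw ϱ 5 * ∫⁻ ζ, npw ‖ζ - v‖ 1 * g ζ) fun m b => by
    rcases conc_csec hP b ht (z - lat m) with h | ⟨hocc, hc⟩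
    · rw [Qp_of_zero h]
      exact zero_le
    · obtain rfl : m = 0 := by
        by_contra hm
        have e1 := one_le_norm_lat hm
        have e2 := hocc.2.2.1
        have e3 : ‖t • uu b t (z - lat m)‖ ≤ 1 / 10 * (11 / 10) := by
          rw [norm_smul, Real.norm_of_nonneg ht]
          exact mul_le_mul ht' (norm_uu_le _ _ _) (norm_nonneg _) (by norm_num)
        have e4 := norm_sub_le (z - (z - lat m - t • uu b t (z - lat m))) (t • uu b t (z - lat m))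
        have e5 := norm_sub_le z (z - lat m - t • uu b t (z - lat m))
        rw [show z - (z - lat m - t • uu b t (z - lat m)) - t • uu b t (z - lat m) = lat m by abel]
          at e4
        have e6 : ‖z‖ ≤ 1 / 4 := hz
        linarith
      refine (Qp_conc_kernel _ v _ (by positivity) _ _ _ g hc hg).trans (mul_le_mul_left ?_ _)
      have hc0 : 0 < cC := by unfold cC; positivity
      have hr : ϱ ≤ |x1 z| := hϱ'
      have hr0 := hϱ.trans_le hr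
      rw [lat_zero, sub_zero, mul_assoc, mul_assoc, npw, ENNReal.ofReal_rpow_of_pos hϱ,
        ← ENNReal.ofReal_mul (by positivity), ← ENNReal.ofReal_mul (by positivity)]
      refine mul_le_mul_right (ENNReal.ofReal_le_ofReal ?_) _
      rw [Real.rpow_neg hϱ.le, Real.rpow_ofNat, ← (by decide : Even 4).pow_abs (x1 z)]
      calc _ = 32 * cC * (|x1 z| ^ 5)⁻¹ := by field_simp; ring
        _ ≤ _ := by gcongr
  refine h1.trans ((mul_le_mul_left ((card_img ht z).trans (mul_le_mul_right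
    (ENNReal.ofReal_le_ofReal (q := 2) ?_) _)) _).trans_eq (by ring))
  exact (pow_le_pow_left₀ (by positivity) (show 1 + t ≤ 11 / 10 by linarith) 3).trans (by norm_num)

end SrcB

end
end Crest.Agent.R68
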