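import Crest.Agent.R68.Conc
import Crest.Agent.R68.PosOps
import Crest.Agent.R68.Bil

/-! # Row 68: the hole of the background is invisible after `t0` -/

set_option autoImplicit false
open MeasureTheory Set Filter Topology
open scoped ENNReal NNReal
open Crest.AnalysisR.VecCalc3 Crest.AnalysisR.PDE.Boltzmann

namespace Crest.Agent.R68.SrcHl
noncomputable section

theorem small {K η : ℝ≥0∞} (hK : K ≠ ⊤) (hη : 0 < η) :
    ∃ θ : ℝ, 0 < θ ∧ θ ≤ 1 ∧ K * ENNReal.ofReal θ ≤ η := by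
  obtain ⟨n, hn, h⟩ := ENNReal.exists_nnreal_pos_mul_lt hK hη.ne'
  refine ⟨min n 1, lt_min hn one_pos, min_le_right _ _, le_trans ?_ h.le⟩
  rw [mul_comm, ← ENNReal.ofReal_coe_nnreal]
  gcongr
  exact min_le_left _ _

/-- the Gaussian restricted to the hole -/
def hf (d s : ℝ) (z η : R3) : ℝ≥0∞ := if tn (z - s • η) ≤ d then Ga (3 / 8) η else 0

theorem measurable_hf (d s : ℝ) (z : R3) : Measurable (hf d s z) :=
  Measurable.ite (measurableSet_le (mba_tn.comp (by fun_prop)) measurable_const)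
    (mba_Ga measurable_const measurable_id) measurable_const

theorem mass {δ : ℝ≥0∞} (hδ : 0 < δ) {t0 : ℝ} (ht0 : 0 < t0) : ∀ᶠ d in 𝓝[>] (0 : ℝ),
    ∀ (s : ℝ) (z : R3), t0 ≤ s → ∫⁻ η, ENNReal.ofReal (jb η) * hf d s z η ≤ δ := by
  obtain ⟨C, hC, H⟩ := lint_Ga_slab 2
  have hδ2 : 0 < δ / 2 := ENNReal.half_pos hδ.ne'
  obtain ⟨θ, hθ, -, h1⟩ := small hC hδ2
  obtain ⟨ε, hε, -, h2⟩ := small (K := ENNReal.ofReal (1 + θ⁻¹) *
    ENNReal.ofReal ((2 * θ⁻¹ + 2 / t0) ^ 3)) (by finiteness) hδ2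
  filter_upwards [FrameAux.ev_le (f := fun d => 5 * d ^ 3) (by fun_prop) (c := ε) (by simpa using hε),
    FrameAux.ev_pos] with d hd hd0 s z hs
  have hs0 : 0 < s := ht0.trans_le hs
  set φ : R3 → ℝ≥0∞ := fun x => if tn x ≤ d then 1 else 0 with hφ
  have mφ : Measurable φ :=
    Measurable.ite (measurableSet_le mba_tn measurable_const) measurable_const measurable_const
  have mB : MeasurableSet {ζ : R3 | ‖ζ‖ ≤ θ⁻¹} := measurableSet_le (by fun_prop) measurable_const
  have a1 : ∫⁻ x in cell, φ x ≤ ENNReal.ofReal ε := by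
    have mψ : MeasurableSet {η : R3 | ‖η - 0‖ ≤ d} := BilA.meas_ball 0 d
    calc _ = ∫⁻ x in cell, {η : R3 | ‖η - 0‖ ≤ d}.indicator 1 (red x) := by
          refine lintegral_congr fun x => ?_
          by_cases hx : tn x ≤ d
          · rw [indicator_of_mem (by simpa [tn] using hx)]
            exact if_pos hx
          · rw [indicator_of_notMem (by simpa [tn] using hx)]
            exact if_neg hx
      _ ≤ _ := lint_cell_red _ (measurable_one.indicator mψ)
      _ ≤ ∫⁻ x, {η : R3 | ‖η - 0‖ ≤ d}.indicator 1 x := setLIntegral_le_lintegral _ _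
      _ = _ := lintegral_indicator_one mψ
      _ ≤ _ := (vol_ball_le 0 d hd0.le).trans (ENNReal.ofReal_le_ofReal hd)
  have a2 : ∫⁻ ζ in {ζ : R3 | ‖ζ‖ ≤ θ⁻¹}, φ (z - s • ζ) ≤
      ENNReal.ofReal ((2 * θ⁻¹ + 2 / t0) ^ 3) * ENNReal.ofReal ε := by
    refine (lint_vel_change φ mφ (fun x m => by simp only [hφ, mba_tn_lat]) z s hs0 _
      (by positivity)).trans (mul_le_mul' (ENNReal.ofReal_le_ofReal ?_) a1)
    rw [show (s ^ 3)⁻¹ * (2 * s * θ⁻¹ + 2) ^ 3 = (2 * θ⁻¹ + 2 / s) ^ 3 by field_simp]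
    gcongr
  calc _ ≤ ∫⁻ η, (ENNReal.ofReal θ * (ENNReal.ofReal (jb η ^ 2) * Ga (3 / 8) η *
          (1 + npw |inner ℝ nn η| 0)) + {ζ : R3 | ‖ζ‖ ≤ θ⁻¹}.indicator
            (fun ζ => ENNReal.ofReal (1 + θ⁻¹) * φ (z - s • ζ)) η) := by
        refine lintegral_mono fun η => ?_
        simp only [hf, hφ]
        split_ifs with h
        swap
        · simp
        by_cases hη : ‖η‖ ≤ θ⁻¹
        · refine le_add_left ?_
          rw [indicator_of_mem (by exact hη), if_pos h]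
          exact mul_le_mul' (ENNReal.ofReal_le_ofReal (by unfold jb; linarith))
            (BilA.Ga_le_one (by norm_num) _)
        · refine le_add_right ?_
          rw [← mul_assoc, ← mul_assoc, ← ENNReal.ofReal_mul hθ.le]
          refine le_trans (mul_le_mul_left (ENNReal.ofReal_le_ofReal ?_) _)
            (le_mul_of_one_le_right' le_self_add)
          have b1 : 1 ≤ θ * jb η := by
            rw [← inv_mul_le_iff₀ hθ, mul_one]
            unfold jb
            linarith [not_le.1 hη]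
          nlinarith [BilB.jb_pos η]
    _ = ENNReal.ofReal θ * (∫⁻ η, ENNReal.ofReal (jb η ^ 2) * Ga (3 / 8) η *
          (1 + npw |inner ℝ nn η| 0)) + ENNReal.ofReal (1 + θ⁻¹) *
            ∫⁻ ζ in {ζ : R3 | ‖ζ‖ ≤ θ⁻¹}, φ (z - s • ζ) := by
        have m1 : Measurable fun ζ : R3 => ENNReal.ofReal (1 + θ⁻¹) * φ (z - s • ζ) :=
          measurable_const.mul (mφ.comp (by fun_prop))
        rw [lintegral_add_right _ (m1.indicator mB),
          lintegral_const_mul' _ _ ENNReal.ofReal_ne_top, lintegral_indicator mB,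
          lintegral_const_mul' _ _ ENNReal.ofReal_ne_top]
    _ ≤ δ / 2 + δ / 2 := by
        refine add_le_add (le_trans ?_ h1) (le_trans ?_ h2)
        · rw [mul_comm]
          exact mul_le_mul_left (H nn norm_nn _ (by norm_num) 0 ⟨le_rfl, by norm_num⟩) _
        · rw [mul_assoc]
          exact mul_le_mul_right a2 _
    _ = δ := ENNReal.add_halves δ

theorem npw_split {ρ θ : ℝ} (hρ : 0 ≤ ρ) (hθ : 0 < θ) (hθ1 : θ ≤ 1) : npw ρ 1 ≤
    ENNReal.ofReal θ * (if ρ ≤ 1 then npw ρ (3 / 2) else 0) + npw (θ ^ 2) 1 := by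
  rcases le_total (θ ^ 2) ρ with h | h
  · exact le_add_left (PB.npw_anti zero_le_one h)
  refine le_add_right ?_
  rw [if_pos (h.trans (pow_le_one₀ hθ.le hθ1))]
  rcases hρ.eq_or_lt with rfl | hρ
  · rw [PB.npw_top (γ := 3 / 2) (by norm_num), ENNReal.mul_top (by simpa using hθ)]
    exact le_top
  rw [PB.npw_pos hρ, PB.npw_pos hρ, ← ENNReal.ofReal_mul hθ.le,
    show (-1 : ℝ) = 1 / 2 + -(3 / 2) by norm_num, Real.rpow_add hρ, ← Real.sqrt_eq_rpow]
  gcongr
  exact Real.sqrt_le_iff.2 ⟨hθ.le, h⟩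

theorem main (η : ℝ≥0∞) (hη : 0 < η) : ∀ᶠ P in parF, ∀ q : Ph, P.t0 ≤ q.1 →
    QF (Hl P) (GS (1 / 8)) q ≤ η * ENNReal.ofReal ((1 + q.1) ^ 3) * Ga (1 / 8) q.2.2 ∧
      LF (Hl P) q ≤ η * ENNReal.ofReal (jb q.2.2) := by
  obtain ⟨C₁, hC₁, H₁⟩ := Qp_SgA_gen
  obtain ⟨C₂, hC₂, H₂⟩ := BilA.Ga_line
  have hη2 : 0 < η / 2 := ENNReal.half_pos hη.ne'
  obtain ⟨θ, hθ, hθ1, h1⟩ := small (K := 2000 * C₁ * C₂) (by finiteness) hη2
  have hT : npw (θ ^ 2) 1 ≠ ⊤ := by
    rw [PB.npw_pos (by positivity)]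
    exact ENNReal.ofReal_ne_top
  obtain ⟨δ, hδ, -, h2⟩ := small (K := 13 + 2000 * C₁ * npw (θ ^ 2) 1) (by finiteness) hη2
  filter_upwards [ev_basic, ev_d0 (p := fun _ _ _ t0 d => ∀ (s : ℝ) (z : R3), t0 ≤ s →
    ∫⁻ ζ, ENNReal.ofReal (jb ζ) * hf d s z ζ ≤ ENNReal.ofReal δ)
    fun _ _ _ _ _ ht0 => mass (ENNReal.ofReal_pos.2 hδ) ht0] with P hP hm ⟨t, z, v⟩ ht
  have ht0 : 0 ≤ t := hP.t0_pos.le.trans ht
  have hM := hm t z ht
  have mf := measurable_hf P.d0 t z
  have b1 : ∀ ζ, sec (Hl P) (t, z, v) ζ ≤ Ga (1 / 8) ζ * hf P.d0 t z ζ := fun ζ => by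
    simp only [sec, Hl, hf]
    split_ifs
    · rw [← BilA.Ga_add]
      exact (mu_le_Ga ζ).trans_eq (by norm_num)
    · exact zero_le
  refine ⟨?_, (LL_le_moment _ (measurable_sec (measurable_Hl P) _) v).trans ?_⟩
  · have b2 : ∫⁻ ζ, hf P.d0 t z ζ * npw ‖ζ - v‖ 1 * (1 + npw (sn nn (dir (ζ - v))) (1 / 4)) ≤
        2 * (ENNReal.ofReal θ * C₂ + npw (θ ^ 2) 1 * ENNReal.ofReal δ) := by
      calc _ ≤ ∫⁻ ζ, 2 * (ENNReal.ofReal θ * (Ga (3 / 8) ζ * (if BilA.rho nn (ζ - v) ≤ 1 then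
            npw (BilA.rho nn (ζ - v)) (3 / 2) else 0)) +
            npw (θ ^ 2) 1 * (ENNReal.ofReal (jb ζ) * hf P.d0 t z ζ)) := by
            refine lintegral_mono_ae ?_
            filter_upwards [Measure.ae_ne volume v] with ζ hζ
            rw [mul_assoc]
            refine (mul_le_mul_right ((BilA.ker_le' norm_nn (sub_ne_zero.2 hζ)).trans
              (mul_le_mul_right (npw_split (ρ := BilA.rho nn (ζ - v)) (norm_nonneg _) hθ hθ1) 2)) _).trans ?_
            rw [mul_left_comm, mul_add, mul_left_comm (hf _ _ _ _), mul_comm (hf _ _ _ _) (npw _ _)]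
            gcongr
            · unfold hf
              split_ifs <;> simp
            · exact le_mul_of_one_le_left' (ENNReal.one_le_ofReal.2 (BilB.one_le_jb ζ))
        _ ≤ _ := by
            have m0 : Measurable fun ζ => ENNReal.ofReal (jb ζ) := by
              simpa using BilB.measurable_jb_pow 1
            have m1 : Measurable fun ζ => npw (θ ^ 2) 1 * (ENNReal.ofReal (jb ζ) * hf P.d0 t z ζ) :=
              measurable_const.mul (m0.mul mf)
            rw [lintegral_const_mul' _ _ (by norm_num), lintegral_add_right _ m1,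
              lintegral_const_mul' _ _ ENNReal.ofReal_ne_top, lintegral_const_mul' _ _ hT]
            gcongr
            exact H₂ nn v norm_nn _ (by norm_num)
    calc _ ≤ QH (fun w => 2 * ((Ga (1 / 8) w.1 * hf P.d0 t z w.1) *
          (Ga (1 / 8) w.2 * SgA nn (Cs t z) w.2))) v := by
          unfold QF Qp
          refine QH_mono (fun w => ?_) v
          rw [mul_left_comm]
          refine mul_le_mul' (b1 _) ?_
          rw [mul_left_comm]
          exact mul_le_mul_right (Sg_le_SgA ht0 z w.2) (Ga (1 / 8) w.2)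
      _ = 2 * Qp (fun ζ => Ga (1 / 8) ζ * hf P.d0 t z ζ)
          (fun ζ => Ga (1 / 8) ζ * SgA nn (Cs t z) ζ) v :=
          QH_const_mul _ ((((measurable_Ga _).mul mf).comp measurable_fst).mul
            (((measurable_Ga _).mul (measurable_SgA _ _)).comp measurable_snd)) v
      _ ≤ 2 * (C₁ * (500 * ENNReal.ofReal ((1 + t) ^ 3)) * Ga (1 / 8) v *
          (2 * (ENNReal.ofReal θ * C₂ + npw (θ ^ 2) 1 * ENNReal.ofReal δ))) := by
          refine mul_le_mul_right ((H₁ nn v _ _ norm_nn mf _ ⟨by norm_num, by norm_num⟩).trans ?_) 2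
          gcongr
          exact card_Cs_le ht0 z
      _ = (2000 * C₁ * C₂ * ENNReal.ofReal θ + 2000 * C₁ * npw (θ ^ 2) 1 * ENNReal.ofReal δ) *
          ENNReal.ofReal ((1 + t) ^ 3) * Ga (1 / 8) v := by ring
      _ ≤ (η / 2 + η / 2) * ENNReal.ofReal ((1 + t) ^ 3) * Ga (1 / 8) v := by
          gcongr
          exact le_trans (mul_le_mul_left le_add_self _) h2
      _ = _ := by rw [ENNReal.add_halves]
  · calc _ ≤ 13 * ENNReal.ofReal (jb v) * ENNReal.ofReal δ := by
          refine mul_le_mul_right (le_trans (lintegral_mono fun ζ => mul_le_mul_right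
            ((b1 ζ).trans (mul_le_of_le_one_left' (BilA.Ga_le_one (by norm_num) _))) _) hM) _
      _ = 13 * ENNReal.ofReal δ * ENNReal.ofReal (jb v) := by ring
      _ ≤ _ := mul_le_mul_left (((mul_le_mul_left le_self_add _).trans h2).trans
          ENNReal.half_le_self) _

end
end Crest.Agent.R68.SrcHl
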