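import Crest.Agent.R68.Conc
import Crest.Agent.R68.PosOps
import Crest.Agent.R68.Bil
import Crest.Agent.R68.SrcAuxB
import Crest.Agent.R68.SrcHl
import Crest.Agent.R68.SrcAuxA

/-! # Row 68: pointwise source estimates -/

set_option autoImplicit false
open MeasureTheory Set Filter Topology
open scoped ENNReal NNReal
open Crest.AnalysisR.VecCalc3 Crest.AnalysisR.PDE.Boltzmann

namespace Crest.Agent.R68
noncomputable section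

/-- (E1) `csm_le_sum`, `conc_csec`, `Sg_le_SgA`, `card_Cs_le`, `card_img_le`, `ball_SgA`, `wlink`
(`γ = 1, 4/3` in the first branch of `ballB`; in the second branch
`H lam² ≤ c cC r (8 lam)^{-3/2} ≤ c cC r ‖w‖^{-3/2}`, `γ = 3/2`); `DS^{2/3} ≤ DS^{8/9}` as `DS ∈ {0} ∪ [1,∞]`. -/
theorem src_csm : ∃ K : ℝ≥0∞, K ≠ ⊤ ∧ ∀ P : Par, P.Basic → ∀ (p : Ph) (s : ℝ), 0 < s → s ≤ p.1 →
    ∀ a ∈ Icc (1 / 16 : ℝ) (1 / 4),
    QF (csm P) (GS a) (fl p s) ≤ K * ENNReal.ofReal ((1 + s) ^ 8) * Ga a p.2.2 *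
      ((slabS (3 * P.r0)).indicator 1 (fl p s) * npw (ell (fl p s)) 1 *
          (npw (jb p.2.2) 1 + DS p ^ (8 / 9 : ℝ)) +
        ENNReal.ofReal P.r0 * (npw (jb p.2.2) 1 + DS p)) := by
  exact SrcA.src_csm

/-- early form (`ell ≤ 9`, `DS ≤ 4 ⟨v⟩⁻¹ DS`) -/
theorem src_c0 : ∃ K : ℝ≥0∞, K ≠ ⊤ ∧ ∀ P : Par, P.Basic → ∀ (p : Ph) (s : ℝ), 0 < s → s ≤ p.1 →
    s ≤ 1 → ∀ a ∈ Icc (1 / 16 : ℝ) (1 / 4),
    QF (c0 P) (GS a) (fl p s) ≤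
      K * npw (ell (fl p s)) 1 * npw (jb p.2.2) 1 * Ga a p.2.2 * Sg p := by
  exact SrcA.src_c0

/-- the same with `ball_SgA_trunc` -/
theorem src_c0_trunc : ∃ K : ℝ≥0∞, K ≠ ⊤ ∧ ∀ P : Par, P.Basic → ∀ (p : Ph) (s : ℝ), 0 < s →
    s ≤ p.1 → s ≤ 1 → ∀ a ∈ Icc (1 / 16 : ℝ) (1 / 4), ∀ ϑ ∈ Ioc (0 : ℝ) 1,
    Qp (sec (c0 P) (fl p s))
        (fun ζ => if ‖ζ - p.2.2‖ < ϑ ∨ ϑ ^ (-(1 / 4 : ℝ)) < ‖ζ - p.2.2‖ then sec (GS a) (fl p s) ζ else 0)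
        p.2.2 ≤
      K * ENNReal.ofReal (ϑ ^ (1 / 9 : ℝ)) * npw (ell (fl p s)) 1 * npw (jb p.2.2) 1 * Ga a p.2.2 *
        Sg p := by
  exact SrcA.src_c0_trunc

/-- (E2) `ZZ_le_sum`, `conc_zed`, `ball_SgA`, `wlink` -/
theorem src_ZZ (η : ℝ≥0∞) (hη : 0 < η) : ∀ᶠ P in parF, ∀ (p : Ph) (s : ℝ), 0 ≤ s → s ≤ p.1 →
    ∀ a ∈ Icc (1 / 16 : ℝ) (1 / 4),
    QF (ZZ P) (GS a) (fl p s) ≤ η * ENNReal.ofReal ((1 + s) ^ 8) * Ga a p.2.2 * Sg p :=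
  SrcB.src_ZZ' η hη

theorem src_GS_same : ∃ K : ℝ≥0∞, K ≠ ⊤ ∧ ∀ q : Ph, 0 ≤ q.1 → ∀ a ∈ Icc (1 / 16 : ℝ) 1,
    QF (GS a) (GS a) q ≤ K * ENNReal.ofReal ((1 + q.1) ^ 6) * ENNReal.ofReal (jb q.2.2) * Ga a q.2.2 :=
  SrcB.src_GS_same'

theorem src_GS_gap : ∃ K : ℝ≥0∞, K ≠ ⊤ ∧ ∀ q : Ph, 0 ≤ q.1 → ∀ a ∈ Icc (1 / 16 : ℝ) 1,
    ∀ a' : ℝ, a + 1 / 64 ≤ a' →
    QF (GS a') (GS a) q ≤ K * ENNReal.ofReal ((1 + q.1) ^ 6) * Ga a q.2.2 :=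
  SrcB.src_GS_gap'

theorem SrcM_sum {f : R3 → ℝ≥0∞} {g : (Fin 3 → ℤ) → Bool → R3 → ℝ≥0∞} {S : Finset (Fin 3 → ℤ)}
    {c : ℝ≥0∞} {N : ℝ} (hS : (S.card : ℝ) ≤ N) (hf : ∀ η, f η ≤ ∑ m ∈ S, ∑ b : Bool, g m b η)
    (hg : ∀ m b, Measurable (g m b)) (hc : ∀ m b, ∫⁻ η, g m b η ≤ c) :
    ∫⁻ η, f η ≤ ENNReal.ofReal N * (2 * c) := by
  refine (lintegral_mono hf).trans ?_
  rw [lintegral_finsetSum _ fun m _ => Finset.measurable_sum _ fun b _ => hg m b]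
  refine (Finset.sum_le_card_nsmul _ _ (2 * c) fun m _ => ?_).trans ?_
  · rw [lintegral_finsetSum _ fun b _ => hg m b, Fintype.sum_bool, two_mul]
    exact add_le_add (hc _ _) (hc _ _)
  · rw [nsmul_eq_mul, ← ENNReal.ofReal_natCast]
    gcongr

theorem SrcM_card {t : ℝ} (ht : 0 ≤ t) (z : R3) :
    ((img (1 + 2 * t) z).card : ℝ) ≤ 64 * (1 + t) ^ 3 := by
  refine (card_img_le (by positivity) z).trans ?_
  rw [show (64 : ℝ) * (1 + t) ^ 3 = (4 * (1 + t)) ^ 3 by ring]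
  exact pow_le_pow_left₀ (by positivity) (by linarith) 3

theorem SrcM_csec {P : Par} (hP : P.Basic) {q : Ph} (hq : 0 < q.1) (m : Fin 3 → ℤ) (b : Bool) :
    ∫⁻ η, csec P b q.1 (q.2.1 - lat m) η ≤
      (slabS (3 * P.r0)).indicator 1 q * ENNReal.ofReal (10 ^ 26 / ell q) := by
  rcases conc_csec hP b hq.le (q.2.1 - lat m) with h | ⟨h1, h2⟩
  · simp [h]
  · rw [indicator_of_mem (show q ∈ slabS (3 * P.r0) from ⟨m, h1.2.2.2, h1.2.1⟩), Pi.one_apply,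
      one_mul]
    refine h2.mass.trans (ENNReal.ofReal_le_ofReal ?_)
    have h3 := tn_le_norm_sub q.2.1 m
    have h4 := tn_nonneg q.2.1
    unfold ell
    gcongr

theorem SrcM_meas {F : PF} (hF : Measurable F) (q : Ph) : Measurable (sec F q) :=
  hF.comp (measurable_const.prodMk (measurable_const.prodMk measurable_id))

theorem SrcM_LF {F : PF} (hF : Measurable F) (q : Ph) (h : ∀ η, sec F q η ≠ 0 → ‖η‖ ≤ 2) :
    LF F q ≤ 39 * ENNReal.ofReal (jb q.2.2) * ∫⁻ η, sec F q η := by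
  refine (LL_le_moment _ (SrcM_meas hF q) _).trans ?_
  have h1 : ∫⁻ η, ENNReal.ofReal (jb η) * sec F q η ≤ 3 * ∫⁻ η, sec F q η := by
    rw [← lintegral_const_mul _ (SrcM_meas hF q)]
    refine lintegral_mono fun η => ?_
    by_cases h0 : sec F q η = 0
    · simp [h0]
    · have := h η h0
      refine mul_le_mul_left (ENNReal.ofReal_le_of_le_toReal ?_) _
      simp only [jb, ENNReal.toReal_ofNat]
      linarith
  refine (mul_le_mul_right h1 _).trans_eq ?_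
  ring

theorem mass_csm : ∃ K : ℝ≥0∞, K ≠ ⊤ ∧ ∀ P : Par, P.Basic → ∀ q : Ph, 0 < q.1 →
    ∫⁻ η, sec (csm P) q η ≤
      K * ENNReal.ofReal ((1 + q.1) ^ 3) * ((slabS (3 * P.r0)).indicator 1 q * npw (ell q) 1) := by
  refine ⟨128 * ENNReal.ofReal (10 ^ 26), ENNReal.mul_ne_top (by norm_num) ENNReal.ofReal_ne_top,
    fun P hP q hq => ?_⟩
  refine (SrcM_sum (SrcM_card hq.le q.2.1) (csm_le_sum hP hq.le q.2.1)
    (fun m b => measurable_csec P b _ _) (SrcM_csec hP hq)).trans_eq ?_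
  have h1 : 0 < ell q := add_pos_of_pos_of_nonneg (by positivity) (tn_nonneg _)
  rw [ENNReal.ofReal_mul (by norm_num), ENNReal.ofReal_div_of_pos h1, npw, ENNReal.rpow_neg_one,
    div_eq_mul_inv, ENNReal.ofReal_ofNat]
  ring

/-- at most `40` lattice points, two streams -/
theorem mass_c0 {P : Par} (hP : P.Basic) (q : Ph) (hq : q.1 ∈ Ioc (0 : ℝ) (1 / 10)) :
    ∫⁻ η, sec (c0 P) q η ≤ ENNReal.ofReal (cK2 / ell q) := by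
  have h1 : 0 < ell q := add_pos_of_pos_of_nonneg (by linarith [hq.1]) (tn_nonneg _)
  have h2 : ((img (1 + 2 * q.1) q.2.1).card : ℝ) ≤ (17 / 5) ^ 3 :=
    (card_img_le (by linarith [hq.1]) _).trans
      (pow_le_pow_left₀ (by linarith [hq.1]) (by linarith [hq.2]) 3)
  refine (SrcM_sum (c := ENNReal.ofReal (10 ^ 26 / ell q)) h2 (fun η => ?_)
    (fun m b => measurable_csec P b q.1 (q.2.1 - lat m)) fun m b => ?_).trans ?_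
  · exact (csm_eq_c0 hP (p := (q.1, q.2.1, η)) ⟨hq.1.le, by linarith [hq.2]⟩).symm.trans_le
      (csm_le_sum hP hq.1.le q.2.1 η)
  · exact (SrcM_csec hP hq.1 m b).trans (mul_le_of_le_one_left' (indicator_le_self _ _ q))
  · rw [← ENNReal.ofReal_ofNat 2, ← ENNReal.ofReal_mul (by norm_num),
      ← ENNReal.ofReal_mul (by norm_num), ← mul_assoc, ← mul_div_assoc]
    refine ENNReal.ofReal_le_ofReal (div_le_div_of_nonneg_right ?_ h1.le)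
    norm_num [cK2]

theorem mass_ZZ (η : ℝ≥0∞) (hη : 0 < η) : ∀ᶠ P in parF, ∀ q : Ph, 0 ≤ q.1 →
    ∫⁻ ζ, sec (ZZ P) q ζ ≤ η * ENNReal.ofReal ((1 + q.1) ^ 3) := by
  filter_upwards [ev_basic, conc_zed (η / 128) (ENNReal.div_pos hη.ne' (by norm_num))]
    with P hP h q hq
  refine (SrcM_sum (c := η / 128) (SrcM_card hq q.2.1) (ZZ_le_sum hP hq q.2.1)
    (fun m b => ?_) fun m b => ?_).trans_eq ?_
  · have h1 : Measurable fun ζ : R3 => ((q.1, q.2.1 - lat m - q.1 • ζ, ζ) : ℝ × R3 × R3) := by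
      fun_prop
    have h2 := (measurable_zed0 P b).comp h1
    exact h2
  · rcases h b q.1 (q.2.1 - lat m) hq with h | ⟨-, lam, H, -, -, h, -⟩
    · simp [h]
    · exact h.mass
  · rw [ENNReal.ofReal_mul (by norm_num), ENNReal.ofReal_ofNat]
    conv_rhs => rw [← ENNReal.mul_div_cancel (a := 128) (b := η) (by norm_num) (by norm_num)]
    ring

theorem moment_GS (k : ℕ) : ∃ K : ℝ≥0∞, K ≠ ⊤ ∧ ∀ q : Ph, 0 ≤ q.1 → ∀ a : ℝ, 1 / 64 ≤ a →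
    ∫⁻ η, ENNReal.ofReal (jb η ^ k) * sec (GS a) q η ≤ K * ENNReal.ofReal ((1 + q.1) ^ 3) := by
  obtain ⟨C, hC, h⟩ := lint_SgA k
  refine ⟨1000 * C, ENNReal.mul_ne_top (by norm_num) hC, fun q hq a ha => ?_⟩
  calc _ ≤ ∫⁻ η, 2 * (ENNReal.ofReal (jb η ^ k) * (Ga a η * SgA nn (Cs q.1 q.2.1) η)) := by
        refine lintegral_mono fun η => ?_
        refine (mul_le_mul_right (mul_le_mul_right (Sg_le_SgA hq q.2.1 η) (Ga a η)) _).trans_eq ?_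
        ring
    _ ≤ 2 * (C * (500 * ENNReal.ofReal ((1 + q.1) ^ 3))) := by
        rw [lintegral_const_mul' _ _ (by norm_num)]
        exact mul_le_mul_right ((h _ _ norm_nn a ha).trans
          (mul_le_mul_right (card_Cs_le hq _) _)) _
    _ = _ := by ring

theorem LF_csm : ∃ K : ℝ≥0∞, K ≠ ⊤ ∧ ∀ P : Par, P.Basic → ∀ q : Ph, 0 < q.1 →
    LF (csm P) q ≤ K * ENNReal.ofReal ((1 + q.1) ^ 3) * ENNReal.ofReal (jb q.2.2) *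
      ((slabS (3 * P.r0)).indicator 1 q * npw (ell q) 1) := by
  obtain ⟨K, hK, h⟩ := mass_csm
  refine ⟨39 * K, ENNReal.mul_ne_top (by norm_num) hK, fun P hP q hq => ?_⟩
  refine (SrcM_LF (measurable_csm P) q fun η h0 => (supp_c0 hP (p := (q.1, q.2.1, η))
    fun h1 => h0 (le_zero_iff.1 ((csm_le_c0 P _).trans_eq h1))).1).trans ?_
  refine (mul_le_mul_right (h P hP q hq) _).trans_eq ?_
  ring

theorem LF_ZZ (η : ℝ≥0∞) (hη : 0 < η) : ∀ᶠ P in parF, ∀ q : Ph, 0 ≤ q.1 →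
    LF (ZZ P) q ≤ η * ENNReal.ofReal ((1 + q.1) ^ 3) * ENNReal.ofReal (jb q.2.2) := by
  filter_upwards [ev_basic, mass_ZZ (η / 39) (ENNReal.div_pos hη.ne' (by norm_num))]
    with P hP h q hq
  refine (SrcM_LF (measurable_ZZ P) q fun ζ h0 =>
    (supp_ZZ hP (p := (q.1, q.2.1, ζ)) hq h0).1).trans ?_
  refine (mul_le_mul_right (h q hq) _).trans_eq ?_
  conv_rhs => rw [← ENNReal.mul_div_cancel (a := 39) (b := η) (by norm_num) (by norm_num)]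
  ring

theorem LF_GS : ∃ K : ℝ≥0∞, K ≠ ⊤ ∧ ∀ q : Ph, 0 ≤ q.1 → ∀ a : ℝ, 1 / 64 ≤ a →
    LF (GS a) q ≤ K * ENNReal.ofReal ((1 + q.1) ^ 3) * ENNReal.ofReal (jb q.2.2) := by
  obtain ⟨K, hK, h⟩ := moment_GS 1
  refine ⟨13 * K, ENNReal.mul_ne_top (by norm_num) hK, fun q hq a ha => ?_⟩
  refine (LL_le_moment _ (SrcM_meas (measurable_GS a) q) _).trans ?_
  have h1 := h q hq a ha
  simp only [pow_one] at h1
  refine (mul_le_mul_right h1 _).trans_eq ?_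
  ring

/-- (E10) only the lift `m = 0` is occupied (`Occ` gives `‖z - lat m‖ ≤ 1/20 + 2s`); `Qp_conc_kernel`. -/
theorem kernel_c0 : ∃ K : ℝ≥0∞, K ≠ ⊤ ∧ ∀ P : Par, P.Basic → ∀ q : Ph, q.1 ∈ Icc (0 : ℝ) (1 / 10) →
    ‖q.2.1‖ ≤ 1 / 4 → ∀ ϱ : ℝ, 0 < ϱ → ϱ ≤ |x1 q.2.1| → ∀ g : R3 → ℝ≥0∞, Measurable g →
    Qp (sec (c0 P) q) g q.2.2 ≤ K * npw ϱ 5 * ∫⁻ ζ, npw ‖ζ - q.2.2‖ 1 * g ζ :=
  SrcB.kernel_c0'

/-- The hole is invisible after `t0`.  `mu ≤ Ga (1/8) · Ga (3/8)`; `Qp_SgA_gen`; with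
`k = ‖η-v‖⁻¹ (1 + sn^{-1/4})`, Young `k 1_H ≤ θ k^{9/8} + θ^{-8} 1_H`, `∫ Ga (3/8) k^{9/8} ≤ C`
(as in `pot_SgA`), and `∫ jb · Ga (3/8) 1{tn (z - sη) ≤ d0} ≤ tail(R') + (1+R') (2R' + 2/t0)³ · 5 d0³`
(`lint_vel_change`, `lint_cell_red`). -/
theorem src_Hl (η : ℝ≥0∞) (hη : 0 < η) : ∀ᶠ P in parF, ∀ q : Ph, P.t0 ≤ q.1 →
    QF (Hl P) (GS (1 / 8)) q ≤ η * ENNReal.ofReal ((1 + q.1) ^ 3) * Ga (1 / 8) q.2.2 ∧
      LF (Hl P) q ≤ η * ENNReal.ofReal (jb q.2.2) :=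
  SrcHl.main η hη

end
end Crest.Agent.R68
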