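import Crest.Agent.R68.Core

/-! # Row 68: plane integrals as graphs, and the symmetry of `δ(⟪p, q⟫) dp dq` -/

set_option autoImplicit false
open MeasureTheory Set Filter Topology
open scoped ENNReal NNReal
open Crest.AnalysisR.VecCalc3 Crest.AnalysisR.PDE.Boltzmann

namespace Crest.Agent.R68.SymmAux
noncomputable section

/-- coordinates -/
def c3 (z : ℝ × ℝ × ℝ) : Fin 3 → ℝ := ![z.1, z.2.1, z.2.2]

/-- coordinates in `R3` -/
def e3 (z : ℝ × ℝ × ℝ) : R3 := WithLp.toLp 2 (c3 z)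

theorem mp_c3 : MeasurePreserving c3 volume volume := by
  have h1 := (volume_preserving_piFinSuccAbove (fun _ : Fin 3 => ℝ) 0).symm
  have h2 := (MeasurePreserving.id (volume : Measure ℝ)).prod
    (volume_preserving_finTwoArrow ℝ).symm
  have h3 := h1.comp h2
  have h4 : c3 = (MeasurableEquiv.piFinSuccAbove (fun _ : Fin 3 => ℝ) 0).symm ∘
      Prod.map id (MeasurableEquiv.finTwoArrow (α := ℝ)).symm := by
    funext z i
    fin_cases i <;> rfl
  rw [h4]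
  exact h3

theorem mp_e3 : MeasurePreserving e3 volume volume :=
  (PiLp.volume_preserving_toLp (Fin 3)).comp mp_c3

theorem measurable_e3 : Measurable e3 := mp_e3.measurable

theorem lint_e3 (F : R3 → ℝ≥0∞) (hF : Measurable F) :
    ∫⁻ p, F p = ∫⁻ a : ℝ, ∫⁻ y : ℝ × ℝ, F (e3 (a, y)) := by
  rw [← mp_e3.lintegral_comp hF, Measure.volume_eq_prod]
  exact lintegral_prod _ (hF.comp measurable_e3).aemeasurable

theorem inner_e3 (z : ℝ × ℝ × ℝ) (ν : R3) :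
    (inner ℝ (e3 z) ν : ℝ) = z.1 * ν 0 + z.2.1 * ν 1 + z.2.2 * ν 2 := by
  simp [e3, c3, PiLp.inner_apply, Fin.sum_univ_three]
  ring

/-- the plane orthogonal to `ν` as a graph -/
theorem Pl_graph (ν : R3) (hν : ‖ν‖ = 1) (h0 : ν 0 ≠ 0) (φ : R3 → ℝ≥0∞) (hφ : Measurable φ) :
    Pl ν φ = ENNReal.ofReal |ν 0|⁻¹ *
      ∫⁻ y : ℝ × ℝ, φ (e3 (-(ν 1 * y.1 + ν 2 * y.2) / ν 0, y)) := by
  have hsq : ν 0 ^ 2 + ν 1 ^ 2 + ν 2 ^ 2 = 1 := by
    have := EuclideanSpace.real_norm_sq_eq ν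
    rw [hν, Fin.sum_univ_three] at this
    linarith
  set M : Matrix (Fin 3) (Fin 3) ℝ := !![ν 0, -ν 1 / ν 0, -ν 2 / ν 0; ν 1, 1, 0; ν 2, 0, 1] with hM
  have hdet : M.det = (ν 0)⁻¹ := by
    rw [hM, Matrix.det_fin_three]
    simp
    field_simp
    linarith
  have hmap := Real.map_matrix_volume_pi_eq_smul_volume_pi (M := M)
    (by rw [hdet]; exact inv_ne_zero h0)
  rw [hdet, inv_inv] at hmap
  set F : R3 → ℝ≥0∞ := fun q =>
    φ (q - (inner ℝ q ν : ℝ) • ν) * (Icc (0 : ℝ) 1).indicator 1 (inner ℝ q ν : ℝ) with hF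
  have hFm : Measurable F :=
    (hφ.comp (by fun_prop)).mul ((measurable_one.indicator measurableSet_Icc).comp (by fun_prop))
  have hMm : Measurable (Matrix.toLin' M) := (LinearMap.continuous_of_finiteDimensional _).measurable
  have hG : Measurable fun x : Fin 3 → ℝ => F (WithLp.toLp 2 x) :=
    hFm.comp (PiLp.volume_preserving_toLp (Fin 3)).measurable
  have h1 : ∫⁻ x : Fin 3 → ℝ, F (WithLp.toLp 2 (Matrix.toLin' M x)) =
      ENNReal.ofReal |ν 0| * Pl ν φ := by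
    rw [← lintegral_map hG hMm, hmap, lintegral_smul_measure,
      (PiLp.volume_preserving_toLp (Fin 3)).lintegral_comp hFm]
    rfl
  have h2 : ∀ z : ℝ × ℝ × ℝ, (WithLp.toLp 2 (Matrix.toLin' M (c3 z)) : R3) =
      z.1 • ν + e3 (-(ν 1 * z.2.1 + ν 2 * z.2.2) / ν 0, z.2) := by
    intro z
    ext i
    fin_cases i <;> simp [hM, e3, c3, Matrix.mulVec, dotProduct, Fin.sum_univ_three] <;> ring
  have h3 : ∀ z : ℝ × ℝ × ℝ, F (WithLp.toLp 2 (Matrix.toLin' M (c3 z))) =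
      (Icc (0 : ℝ) 1).indicator 1 z.1 * φ (e3 (-(ν 1 * z.2.1 + ν 2 * z.2.2) / ν 0, z.2)) := by
    intro z
    have h4 : (inner ℝ (z.1 • ν + e3 (-(ν 1 * z.2.1 + ν 2 * z.2.2) / ν 0, z.2)) ν : ℝ) = z.1 := by
      rw [inner_add_left, real_inner_smul_left, real_inner_self_eq_norm_sq, hν, inner_e3]
      field_simp
      ring
    rw [h2, hF]
    simp only [h4, add_sub_cancel_left]
    rw [mul_comm]
  have h5 : Measurable fun y : ℝ × ℝ => φ (e3 (-(ν 1 * y.1 + ν 2 * y.2) / ν 0, y)) :=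
    hφ.comp (measurable_e3.comp (by fun_prop))
  have hGM : Measurable fun x : Fin 3 → ℝ => F (WithLp.toLp 2 (Matrix.toLin' M x)) := hG.comp hMm
  rw [← mp_c3.lintegral_comp hGM] at h1
  simp only [h3] at h1
  rw [Measure.volume_eq_prod, lintegral_prod_mul
    (f := fun a : ℝ => (Icc (0 : ℝ) 1).indicator (1 : ℝ → ℝ≥0∞) a)
    (g := fun y : ℝ × ℝ => φ (e3 (-(ν 1 * y.1 + ν 2 * y.2) / ν 0, y)))
    (measurable_one.indicator measurableSet_Icc).aemeasurable h5.aemeasurable,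
    lintegral_indicator_one measurableSet_Icc, Real.volume_Icc, sub_zero, ENNReal.ofReal_one,
    one_mul] at h1
  rw [h1, ← mul_assoc, ← ENNReal.ofReal_mul (by positivity),
    inv_mul_cancel₀ (abs_ne_zero.2 h0), ENNReal.ofReal_one, one_mul]

theorem npw_Pl_graph (p : R3) (h0 : p 0 ≠ 0) (φ : R3 → ℝ≥0∞) (hφ : Measurable φ) :
    npw ‖p‖ 1 * Pl (dir p) φ = ENNReal.ofReal |p 0|⁻¹ *
      ∫⁻ y : ℝ × ℝ, φ (e3 (-(p 1 * y.1 + p 2 * y.2) / p 0, y)) := by
  have hp : p ≠ 0 := fun h => h0 (by simp [h])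
  have hn : 0 < ‖p‖ := norm_pos_iff.2 hp
  have h1 : ‖dir p‖ = 1 := by
    rw [dir, norm_smul, norm_inv, norm_norm, inv_mul_cancel₀ hn.ne']
  have h2 : ∀ i, dir p i = ‖p‖⁻¹ * p i := fun i => by simp [dir]
  rw [Pl_graph _ h1 (by rw [h2]; exact mul_ne_zero (inv_ne_zero hn.ne') h0) φ hφ, ← mul_assoc]
  congr 1
  · rw [npw, ENNReal.rpow_neg_one, ← ENNReal.ofReal_inv_of_pos hn,
      ← ENNReal.ofReal_mul (by positivity), h2, abs_mul, abs_inv, abs_norm]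
    congr 1
    field_simp
  · refine lintegral_congr fun y => ?_
    congr 3
    simp only [h2]
    field_simp

/-- invariance of `da / |a|` under `a ↦ s / a` -/
theorem lint_inv (s : ℝ) (hs : s ≠ 0) (G : ℝ → ℝ → ℝ≥0∞) :
    ∫⁻ a : ℝ, ENNReal.ofReal |a|⁻¹ * G a (s / a) = ∫⁻ a : ℝ, ENNReal.ofReal |a|⁻¹ * G (s / a) a := by
  have hS : MeasurableSet ({0}ᶜ : Set ℝ) := (measurableSet_singleton 0).compl
  have h1 := lintegral_image_eq_lintegral_abs_deriv_mul (f := fun a : ℝ => s / a)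
    (f' := fun a => -s / a ^ 2) hS
    (fun a ha => by
      have := ((hasDerivAt_inv (x := a) ha).const_mul s).hasDerivWithinAt (s := {0}ᶜ)
      simpa [div_eq_mul_inv] using this)
    (fun a ha b hb h => by
      have ha' : a ≠ 0 := ha
      have hb' : b ≠ 0 := hb
      have h' : s / a = s / b := h
      rw [div_eq_div_iff ha' hb'] at h'
      exact (mul_left_cancel₀ hs h').symm)
    (fun a => ENNReal.ofReal |a|⁻¹ * G a (s / a))
  have h2 : (fun a : ℝ => s / a) '' {0}ᶜ = {0}ᶜ := by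
    ext b
    constructor
    · rintro ⟨a, ha, rfl⟩
      exact div_ne_zero hs ha
    · intro hb
      have hb' : b ≠ 0 := hb
      exact ⟨s / b, div_ne_zero hs hb', by field_simp⟩
  rw [h2, restrict_compl_singleton] at h1
  rw [h1]
  have h3 : ∀ᵐ a : ℝ, a ≠ 0 := by simp [ae_iff]
  refine lintegral_congr_ae (h3.mono fun a ha => ?_)
  have ha' : 0 < |a| := abs_pos.2 ha
  have hs' : 0 < |s| := abs_pos.2 hs
  simp only
  rw [← mul_assoc, ← ENNReal.ofReal_mul (abs_nonneg _), show s / (s / a) = a by field_simp]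
  congr 2
  rw [abs_div, abs_div, abs_neg, abs_pow]
  field_simp

theorem ae_dot_ne : ∀ᵐ z : (ℝ × ℝ) × (ℝ × ℝ), -(z.1.1 * z.2.1 + z.1.2 * z.2.2) ≠ 0 := by
  rw [Measure.volume_eq_prod]
  refine (Measure.ae_prod_iff_ae_ae
    (p := fun z : (ℝ × ℝ) × (ℝ × ℝ) => -(z.1.1 * z.2.1 + z.1.2 * z.2.2) ≠ 0)
    (measurableSet_eq_fun (f := fun z : (ℝ × ℝ) × (ℝ × ℝ) => -(z.1.1 * z.2.1 + z.1.2 * z.2.2))
      (by fun_prop) measurable_const).compl).2 ?_
  have h1 : ∀ᵐ x : ℝ × ℝ, x ≠ 0 := by simp [ae_iff]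
  refine h1.mono fun x hx => ?_
  let L : (ℝ × ℝ) →ₗ[ℝ] ℝ := x.1 • LinearMap.fst ℝ ℝ ℝ + x.2 • LinearMap.snd ℝ ℝ ℝ
  have h2 := Measure.addHaar_submodule (volume : Measure (ℝ × ℝ)) (LinearMap.ker L) (by
    intro h
    have h3 : x ∈ LinearMap.ker L := h ▸ Submodule.mem_top
    have h4 : x.1 * x.1 + x.2 * x.2 = 0 := by simpa [L] using h3
    exact hx (Prod.ext (by simp; nlinarith) (by simp; nlinarith)))
  rw [ae_iff]
  refine measure_mono_null (fun y hy => ?_) h2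
  have h3 : -(x.1 * y.1 + x.2 * y.2) = 0 := not_not.1 hy
  simpa [L] using neg_eq_zero.1 h3

/-- the symmetric form of the Carleman integral -/
theorem carl_eq (K : R3 × R3 → ℝ≥0∞) (hK : Measurable K) :
    ∫⁻ p, npw ‖p‖ 1 * Pl (dir p) (fun q => K (p, q)) =
      ∫⁻ z : (ℝ × ℝ) × (ℝ × ℝ), ∫⁻ a : ℝ, ENNReal.ofReal |a|⁻¹ *
        K (e3 (a, z.1), e3 (-(z.1.1 * z.2.1 + z.1.2 * z.2.2) / a, z.2)) := by
  have hΦ : Measurable fun w : ℝ × (ℝ × ℝ) × (ℝ × ℝ) => ENNReal.ofReal |w.1|⁻¹ *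
      K (e3 (w.1, w.2.1), e3 (-(w.2.1.1 * w.2.2.1 + w.2.1.2 * w.2.2.2) / w.1, w.2.2)) :=
    Measurable.mul (by fun_prop) (hK.comp ((measurable_e3.comp (by fun_prop)).prodMk
      (measurable_e3.comp (by fun_prop))))
  have hΨ : Measurable fun w : R3 × (ℝ × ℝ) => ENNReal.ofReal |w.1 0|⁻¹ *
      K (w.1, e3 (-(w.1 1 * w.2.1 + w.1 2 * w.2.2) / w.1 0, w.2)) :=
    Measurable.mul (by fun_prop) (hK.comp (measurable_fst.prodMk
      (measurable_e3.comp (by fun_prop))))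
  have h0 : ∀ᵐ p : R3, p 0 ≠ 0 := by
    have h1 := Measure.addHaar_submodule (volume : Measure R3)
      (LinearMap.ker (EuclideanSpace.projₗ (𝕜 := ℝ) (0 : Fin 3))) (by
        intro h
        have h3 : (EuclideanSpace.single 0 1 : R3) ∈
          LinearMap.ker (EuclideanSpace.projₗ (𝕜 := ℝ) (0 : Fin 3)) := h ▸ Submodule.mem_top
        simp at h3)
    rw [ae_iff]
    refine measure_mono_null (fun y hy => ?_) h1
    simpa using hy
  have h1 : ∫⁻ p, npw ‖p‖ 1 * Pl (dir p) (fun q => K (p, q)) =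
      ∫⁻ p : R3, ∫⁻ y : ℝ × ℝ, ENNReal.ofReal |p 0|⁻¹ *
        K (p, e3 (-(p 1 * y.1 + p 2 * y.2) / p 0, y)) := by
    refine lintegral_congr_ae (h0.mono fun p hp => ?_)
    simp only
    rw [npw_Pl_graph p hp (fun q => K (p, q)) (hK.comp measurable_prodMk_left),
      lintegral_const_mul' _ _ ENNReal.ofReal_ne_top]
  rw [h1, lint_e3 _ hΨ.lintegral_prod_right',
    lintegral_lintegral_swap (f := fun (z : (ℝ × ℝ) × (ℝ × ℝ)) (a : ℝ) => ENNReal.ofReal |a|⁻¹ *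
        K (e3 (a, z.1), e3 (-(z.1.1 * z.2.1 + z.1.2 * z.2.2) / a, z.2)))
      (hΦ.comp measurable_swap).aemeasurable]
  refine lintegral_congr fun a => ?_
  rw [Measure.volume_eq_prod (ℝ × ℝ) (ℝ × ℝ)]
  exact (lintegral_prod _ (hΦ.comp measurable_prodMk_left).aemeasurable).symm

theorem carl_swap (K : R3 × R3 → ℝ≥0∞) (hK : Measurable K) :
    ∫⁻ p, npw ‖p‖ 1 * Pl (dir p) (fun q => K (p, q)) =
      ∫⁻ p, npw ‖p‖ 1 * Pl (dir p) (fun q => K (q, p)) := by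
  refine Eq.trans ?_ (carl_eq (fun q => K q.swap) (hK.comp measurable_swap)).symm
  rw [carl_eq K hK, Measure.volume_eq_prod (ℝ × ℝ) (ℝ × ℝ), ← lintegral_prod_swap]
  rw [← Measure.volume_eq_prod]
  refine lintegral_congr_ae (ae_dot_ne.mono fun z hz => ?_)
  simp only [Prod.fst_swap, Prod.snd_swap, Prod.swap_prod_mk]
  rw [show z.2.1 * z.1.1 + z.2.2 * z.1.2 = z.1.1 * z.2.1 + z.1.2 * z.2.2 by ring]
  exact lint_inv _ hz fun a b => K (e3 (a, z.2), e3 (b, z.1))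

end
end Crest.Agent.R68.SymmAux
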