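import Crest.Agent.R68.Carleman
import Crest.Agent.R68.SymmAux

/-! # Row 68: symmetry of the gain operator -/

set_option autoImplicit false
open MeasureTheory Set Filter Topology
open scoped ENNReal NNReal
open Crest.AnalysisR.VecCalc3 Crest.AnalysisR.PDE.Boltzmann

namespace Crest.Agent.R68
noncomputable section

/-- The measure `‖p‖⁻¹ dp dq_{p^⊥} = δ(⟪p,q⟫) dp dq` is symmetric.  Sketch: WLOG `v = 0` in the
Carleman form.  Let `m` be the finite measure on `R3 × R3` with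
`∫⁻ H dm = ∫⁻ p, npw ‖p‖ 1 * Pl (dir p) (fun q => Ga 1 p * Ga 1 q * H (p, q))`
(map of a `withDensity` product measure).  For bounded continuous `H : (R3 × R3) →ᵇ ℝ≥0` and `ε > 0`
let `I ε H = ∫⁻ p, ∫⁻ q, (2ε)⁻¹ 1{|⟪p,q⟫| < ε} Ga 1 p Ga 1 q H (p,q)`; `I ε H = I ε (H ∘ swap)` by Tonelli,
and by `lint_split` + the substitution `a = ε b / ‖p‖`,
`I ε H = ∫⁻ p, npw ‖p‖ 1 * ∫⁻ b in Ioo (-1) 1, 2⁻¹ * Pl (dir p) (q ↦ Ga 1 p Ga 1 (q + (εb/‖p‖) dir p) H (p, q + (εb/‖p‖) dir p))`
which tends to `∫⁻ H dm` by dominated convergence (`Ga 1 (q + c ν) ≤ Ga 1 q` for `q ⊥ ν`).  Hence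
`m = m.map swap` (`ext_of_forall_lintegral_eq_of_IsFiniteMeasure`); remove the Gaussians by applying this
to `H / (Ga 1 p Ga 1 q)`. -/
theorem QH_swap (H : R3 × R3 → ℝ≥0∞) (hH : Measurable H) (v : R3) :
    QH H v = QH (fun q => H q.swap) v := by
  rw [QH_eq_p H hH, QH_eq_p (fun q => H q.swap) (hH.comp measurable_swap)]
  congr 1
  exact SymmAux.carl_swap (fun q => H (v + q.1, v + q.2)) (hH.comp (by fun_prop))

theorem Qp_comm {f g : R3 → ℝ≥0∞} (hf : Measurable f) (hg : Measurable g) (v : R3) :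
    Qp f g v = Qp g f v := by
  unfold Qp
  rw [QH_swap (fun q => f q.1 * g q.2) ((hf.comp measurable_fst).mul (hg.comp measurable_snd))]
  simp only [Prod.fst_swap, Prod.snd_swap, mul_comm]

theorem Qp_mono_ae_left {f f' g : R3 → ℝ≥0∞} (hf : Measurable f) (hf' : Measurable f')
    (hg : Measurable g) (h1 : ∀ᵐ η, f η ≤ f' η) (v : R3) : Qp f g v ≤ Qp f' g v := by
  unfold Qp
  rw [QH_eq_p (fun q => f q.1 * g q.2) ((hf.comp measurable_fst).mul (hg.comp measurable_snd)),
    QH_eq_p (fun q => f' q.1 * g q.2) ((hf'.comp measurable_fst).mul (hg.comp measurable_snd))]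
  have h2 := (measurePreserving_add_left (volume : Measure R3) v).quasiMeasurePreserving.ae h1
  refine mul_le_mul_right (lintegral_mono_ae (h2.mono fun p hp => ?_)) _
  refine mul_le_mul_right (lintegral_mono fun q => ?_) _
  exact mul_le_mul_left (mul_le_mul_left hp _) _

/-- monotone with respect to a.e. inequalities (Carleman form in the first slot, then `Qp_comm`). -/
theorem Qp_mono_ae {f f' g g' : R3 → ℝ≥0∞} (hf : Measurable f) (hf' : Measurable f')
    (hg : Measurable g) (hg' : Measurable g') (h1 : ∀ᵐ η, f η ≤ f' η) (h2 : ∀ᵐ η, g η ≤ g' η)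
    (v : R3) : Qp f g v ≤ Qp f' g' v := by
  refine (Qp_mono_ae_left hf hf' hg h1 v).trans ?_
  rw [Qp_comm hf' hg, Qp_comm hf' hg']
  exact Qp_mono_ae_left hg hg' hf' h2 v

theorem LL_mono_ae {f f' : R3 → ℝ≥0∞} (h : ∀ᵐ η, f η ≤ f' η) (v : R3) : LL f v ≤ LL f' v :=
  lintegral_mono_ae (h.mono fun _ hp => lintegral_mono fun _ => mul_le_mul_right hp _)

theorem QF_comm {F G : PF} (hF : Measurable F) (hG : Measurable G) : QF F G = QF G F :=
  funext fun p => Qp_comm (measurable_sec hF p) (measurable_sec hG p) _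

end
end Crest.Agent.R68
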