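import Crest.Agent.R68.PosOps
import Crest.Agent.R68.PrePost
import Crest.Agent.R68.Bil

/-! # Row 68: weak-solution module, part 1: integrability and the linear mild form -/

set_option autoImplicit false
open MeasureTheory Set Filter Topology
open scoped ENNReal NNReal
open Crest.AnalysisR.VecCalc3 Crest.AnalysisR.PDE.Boltzmann

namespace Crest.Agent.R68
noncomputable section

/-- the strip `(0,T) × cell × ℝ³` -/
def strip (T : ℝ) : Set Ph := Ioo (0 : ℝ) T ×ˢ (cell ×ˢ (univ : Set R3))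

/-- real collision term `Q⁺ - Q⁻` -/
def Qr (F : PF) (p : Ph) : ℝ := (QF F F p).toReal - (F p * LF F p).toReal

namespace W1H

/-- velocity moment at a space-time point -/
def mom (F : PF) (k : ℕ) (z : ℝ × R3) : ℝ≥0∞ := ∫⁻ v, F (z.1, z.2, v) * ENNReal.ofReal (jb v ^ k)

theorem one_le_jb (v : R3) : 1 ≤ jb v := le_add_of_nonneg_right (norm_nonneg v)

theorem jb_nonneg (v : R3) : 0 ≤ jb v := zero_le_one.trans (one_le_jb v)

theorem measurable_jb (k : ℕ) : Measurable fun v : R3 => ENNReal.ofReal (jb v ^ k) := by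
  unfold jb; fun_prop

theorem measurable_jbP (k : ℕ) : Measurable fun p : Ph => ENNReal.ofReal (jb p.2.2 ^ k) :=
  (measurable_jb k).comp (measurable_snd.comp measurable_snd)

theorem measurable_as : Measurable fun x : (ℝ × R3) × R3 => ((x.1.1, x.1.2, x.2) : Ph) := by
  fun_prop

theorem measurable_mom {F : PF} (hF : Measurable F) (k : ℕ) : Measurable (mom F k) :=
  ((hF.comp measurable_as).mul ((measurable_jb k).comp measurable_snd)).lintegral_prod_right'

theorem lint_strip (T : ℝ) {Φ : PF} (hΦ : Measurable Φ) :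
    ∫⁻ p in strip T, Φ p =
      ∫⁻ z in Ioo (0 : ℝ) T ×ˢ cell, (∫⁻ v, Φ (z.1, z.2, v)) ∂(volume : Measure (ℝ × R3)) := by
  have h1 : Measurable fun z : ℝ × R3 => ∫⁻ v, Φ (z.1, z.2, v) :=
    (hΦ.comp measurable_as).lintegral_prod_right'
  rw [strip, Measure.volume_eq_prod, ← Measure.prod_restrict, lintegral_prod _ hΦ.aemeasurable,
    Measure.volume_eq_prod (α := ℝ), ← Measure.prod_restrict, lintegral_prod _ h1.aemeasurable]
  refine lintegral_congr fun t => ?_
  rw [Measure.volume_eq_prod, ← Measure.prod_restrict, Measure.restrict_univ]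
  exact lintegral_prod _ (hΦ.comp measurable_prodMk_left).aemeasurable

theorem h3' {F : PF} {T : ℝ} (h : H3 F T) (k : ℕ) :
    ∫⁻ z in Ioo (0 : ℝ) T ×ˢ cell, mom F k z * (1 + mom F k z) ∂(volume : Measure (ℝ × R3)) < ⊤ := by
  refine lt_of_le_of_lt (lintegral_mono fun z => ?_) (h k)
  refine mul_le_mul_left (lintegral_mono fun v => mul_le_mul_right (ENNReal.ofReal_le_ofReal ?_) _) _
  exact le_mul_of_one_le_right (pow_nonneg (jb_nonneg v) k)
    (le_add_of_nonneg_right (le_max_right _ _))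

theorem lint_mom {F : PF} {T : ℝ} (h : H3 F T) (k : ℕ) :
    ∫⁻ z in Ioo (0 : ℝ) T ×ˢ cell, mom F k z ∂(volume : Measure (ℝ × R3)) < ⊤ :=
  lt_of_le_of_lt (lintegral_mono fun _ => le_mul_of_one_le_right' le_self_add) (h3' h k)

theorem lint_mom_sq {F : PF} {T : ℝ} (h : H3 F T) (k : ℕ) :
    ∫⁻ z in Ioo (0 : ℝ) T ×ˢ cell, mom F k z ^ 2 ∂(volume : Measure (ℝ × R3)) < ⊤ :=
  lt_of_le_of_lt (lintegral_mono fun _ => by
    rw [sq]; exact mul_le_mul_right le_add_self _) (h3' h k)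

theorem kernel_le (k : ℕ) (η ζ : R3) :
    ∫⁻ w, ab η ζ w * ENNReal.ofReal (jb (postVel η ζ w) ^ k) ∂sphereMeasure ≤
      13 * (ENNReal.ofReal (jb η ^ (k + 1)) * ENNReal.ofReal (jb ζ ^ (k + 1))) := by
  have h1 : ∀ᵐ w ∂sphereMeasure, ab η ζ w * ENNReal.ofReal (jb (postVel η ζ w) ^ k) ≤
      ENNReal.ofReal (jb η ^ (k + 1)) * ENNReal.ofReal (jb ζ ^ (k + 1)) := by
    filter_upwards [ae_norm_one] with w hw
    have hη := norm_nonneg η
    have hζ := norm_nonneg ζ
    have e := post_energy η ζ w 0 hw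
    simp only [sub_zero] at e
    have h2 : ‖postVel η ζ w‖ ≤ ‖η‖ + ‖ζ‖ :=
      abs_le_of_sq_le_sq' (by nlinarith [sq_nonneg ‖postVelStar η ζ w‖, mul_nonneg hη hζ])
        (add_nonneg hη hζ) |>.2
    have h3 : jb (postVel η ζ w) ≤ jb η * jb ζ := by
      unfold jb; nlinarith [mul_nonneg hη hζ]
    have h4 : ‖η - ζ‖ ≤ jb η * jb ζ := by
      unfold jb; nlinarith [mul_nonneg hη hζ, norm_sub_le η ζ]
    refine (mul_le_mul_left (ab_le η ζ w hw) _).trans ?_
    rw [← ENNReal.ofReal_mul (norm_nonneg _), ← ENNReal.ofReal_mul (pow_nonneg (jb_nonneg _) _),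
      ← mul_pow, pow_succ']
    exact ENNReal.ofReal_le_ofReal (mul_le_mul h4 (pow_le_pow_left₀ (jb_nonneg _) h3 k)
      (pow_nonneg (jb_nonneg _) _) (mul_nonneg (jb_nonneg _) (jb_nonneg _)))
  refine (lintegral_mono_ae h1).trans ?_
  rw [lintegral_const, mul_comm]
  exact mul_le_mul_left sphere_univ_le _

theorem gain_le {f : R3 → ℝ≥0∞} (hf : Measurable f) (k : ℕ) :
    ∫⁻ v, ENNReal.ofReal (jb v ^ k) * Qp f f v ≤
      13 * (∫⁻ v, f v * ENNReal.ofReal (jb v ^ (k + 1))) ^ 2 := by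
  have hg : Measurable fun v => f v * ENNReal.ofReal (jb v ^ (k + 1)) :=
    hf.mul (measurable_jb _)
  unfold Qp
  have hH : Measurable fun q : R3 × R3 => f q.1 * f q.2 :=
    (hf.comp measurable_fst).mul (hf.comp measurable_snd)
  rw [lint_QH_mul _ hH _ (measurable_jb k), sq,
    ← lintegral_mul_const _ hg, ← lintegral_const_mul _ (hg.mul_const _)]
  refine lintegral_mono fun η => ?_
  rw [← lintegral_const_mul _ hg, ← lintegral_const_mul _ (hg.const_mul _)]
  refine lintegral_mono fun ζ => (mul_le_mul_right (kernel_le k η ζ) _).trans (le_of_eq ?_)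
  ring

theorem LL_le {f : R3 → ℝ≥0∞} (hf : Measurable f) (k : ℕ) (v : R3) :
    LL f v ≤ 13 * ENNReal.ofReal (jb v) * ∫⁻ η, f η * ENNReal.ofReal (jb η ^ (k + 1)) := by
  refine (LL_le_moment f hf v).trans (mul_le_mul_right (lintegral_mono fun η => ?_) _)
  rw [mul_comm]
  exact mul_le_mul_right (ENNReal.ofReal_le_ofReal
    (le_self_pow₀ (one_le_jb η) (Nat.succ_ne_zero k))) _

theorem loss_le {f : R3 → ℝ≥0∞} (hf : Measurable f) (k : ℕ) :
    ∫⁻ v, ENNReal.ofReal (jb v ^ k) * (f v * LL f v) ≤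
      13 * (∫⁻ v, f v * ENNReal.ofReal (jb v ^ (k + 1))) ^ 2 := by
  have hg : Measurable fun v => f v * ENNReal.ofReal (jb v ^ (k + 1)) :=
    hf.mul (measurable_jb _)
  rw [sq, ← lintegral_mul_const _ hg, ← lintegral_const_mul _ (hg.mul_const _)]
  refine lintegral_mono fun v =>
    (mul_le_mul_right (mul_le_mul_right (LL_le hf k v) _) _).trans (le_of_eq ?_)
  rw [pow_succ (jb v), ENNReal.ofReal_mul (pow_nonneg (jb_nonneg v) k)]
  ring

theorem lint_Ga_jb : ∫⁻ v, Ga 1 v * ENNReal.ofReal (jb v) < ⊤ := by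
  obtain ⟨C, hC, h⟩ := lint_SgA 1
  have h1 := h (EuclideanSpace.single 0 1) ∅ (by simp) 1 (by norm_num)
  refine lt_of_le_of_lt ((lintegral_mono fun v => ?_).trans h1) ?_
  · rw [pow_one, mul_comm]
    refine mul_le_mul_right (le_mul_of_one_le_right' ?_) _
    exact le_self_add.trans le_self_add
  · simpa using hC.lt_top

theorem Ga_ne (v : R3) : Ga 1 v ≠ 0 := (ENNReal.ofReal_pos.2 (Real.exp_pos _)).ne'

theorem measurable_Gm {F : PF} (hF : Measurable F) : Measurable fun p : Ph =>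
    Ga 1 p.2.2 * ENNReal.ofReal (jb p.2.2) * mom F 1 (p.1, p.2.1) :=
  (((measurable_Ga 1).mul (g := fun v => ENNReal.ofReal (jb v))
    (by simpa using measurable_jb 1)).comp
    (measurable_snd.comp measurable_snd)).mul ((measurable_mom hF 1).comp
      (by fun_prop : Measurable fun p : Ph => (p.1, p.2.1)))

theorem lint_Ga_mom {F : PF} {T : ℝ} (h : WSol F T) :
    ∫⁻ p in strip T, Ga 1 p.2.2 * ENNReal.ofReal (jb p.2.2) * mom F 1 (p.1, p.2.1) < ⊤ := by
  have h1 : Measurable fun v : R3 => Ga 1 v * ENNReal.ofReal (jb v) :=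
    (measurable_Ga 1).mul (by simpa using measurable_jb 1)
  rw [lint_strip T (measurable_Gm h.meas)]
  simp only [lintegral_mul_const _ h1]
  rw [lintegral_const_mul _ (measurable_mom h.meas 1)]
  exact ENNReal.mul_lt_top lint_Ga_jb (lint_mom h.h3 1)

theorem lint_Ga_LF {F : PF} {T : ℝ} (h : WSol F T) :
    ∫⁻ p in strip T, Ga 1 p.2.2 * LF F p < ⊤ := by
  refine lt_of_le_of_lt (lintegral_mono (g := fun p : Ph =>
    13 * (Ga 1 p.2.2 * ENNReal.ofReal (jb p.2.2) * mom F 1 (p.1, p.2.1))) fun p => ?_) ?_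
  · refine (mul_le_mul_right (LL_le (measurable_sec h.meas p) 0 p.2.2) _).trans (le_of_eq ?_)
    change _ * (_ * mom F 1 (p.1, p.2.1)) = _
    ring
  · rw [lintegral_const_mul' _ _ (by norm_num)]
    exact ENNReal.mul_lt_top (by norm_num) (lint_Ga_mom h)

theorem ch_zero (q : R3 × R3) : ch q 0 = (0, q.1, q.2) := by simp [ch]

theorem mild_ch {F : PF} {T : ℝ} (h : WSol F T) (q : R3 × R3) {t : ℝ} (ht : t ∈ Icc 0 T) :
    F (ch q t) = F (ch q 0) * ex (∫⁻ τ in Ioo 0 t, LF F (ch q τ)) +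
      ∫⁻ s in Ioo 0 t, ex (∫⁻ τ in Ioo s t, LF F (ch q τ)) * QF F F (ch q s) := by
  have h1 := h.mild (ch q t) ht
  simp only [Duh, Lam, fl_ch, Pi.zero_apply, add_zero] at h1
  exact h1

theorem ae_ch {T : ℝ} {Φ : PF} (hΦ : Measurable Φ) (hp : Per Φ) (h : ∫⁻ p in strip T, Φ p < ⊤) :
    ∀ᵐ q ∂(volume.restrict (cell ×ˢ (univ : Set R3))), ∫⁻ s in Ioo 0 T, Φ (ch q s) < ⊤ :=
  ae_lt_top (hΦ.comp measurable_ch).lintegral_prod_right'
    (by rw [lint_strip_ch Φ hΦ hp 0 T]; exact h.ne)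

end W1H

open W1H

/-- `lint_QH_mul`, `jb v' ≤ 2 jb η jb ζ`, `ab ≤ jb η jb ζ`, `LL_le_moment`; `H3` with `k + 1`. -/
theorem WSol.lint_Q {F : PF} {T : ℝ} (h : WSol F T) (k : ℕ) :
    ∫⁻ p in strip T, ENNReal.ofReal (jb p.2.2 ^ k) * (QF F F p + F p * LF F p) < ⊤ := by
  have hQ := measurable_QF h.meas h.meas
  have hL := h.meas.fun_mul (measurable_LF h.meas)
  rw [lint_strip T ((measurable_jbP k).fun_mul (hQ.fun_add hL))]
  refine lt_of_le_of_lt (lintegral_mono (g := fun z => 26 * mom F (k + 1) z ^ 2) fun z => ?_) ?_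
  · have hf : Measurable fun η => F (z.1, z.2, η) := h.meas.comp (by fun_prop)
    simp only [mul_add]
    have hq : Measurable fun v => QF F F (z.1, z.2, v) := hQ.comp (by fun_prop)
    rw [lintegral_add_left ((measurable_jb k).fun_mul hq)]
    refine (add_le_add (gain_le hf k) (loss_le hf k)).trans (le_of_eq ?_)
    unfold mom
    ring
  · rw [lintegral_const_mul' _ _ (by norm_num)]
    exact ENNReal.mul_lt_top (by norm_num) (lint_mom_sq h.h3 (k + 1))

/-- immediate from `H3` -/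
theorem WSol.lint_rho_sq {F : PF} {T : ℝ} (h : WSol F T) (k : ℕ) :
    ∫⁻ z in Ioo (0 : ℝ) T ×ˢ cell,
      (∫⁻ v, F (z.1, z.2, v) * ENNReal.ofReal (jb v ^ k)) ^ 2 ∂(volume : Measure (ℝ × R3)) < ⊤ := by
  exact lint_mom_sq h.h3 k

/-- immediate from `H3` and Tonelli -/
theorem WSol.lint_F {F : PF} {T : ℝ} (h : WSol F T) (k : ℕ) :
    ∫⁻ p in strip T, ENNReal.ofReal (jb p.2.2 ^ k) * F p < ⊤ := by
  rw [lint_strip T ((measurable_jbP k).fun_mul h.meas)]
  simp only [mul_comm (ENNReal.ofReal _)]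
  exact lint_mom h.h3 k

/-- moments of the datum (bounded velocity support, finite mass) -/
theorem WSol.lint_F0 {F : PF} {T : ℝ} (h : WSol F T) (k : ℕ) :
    ∫⁻ q in cell ×ˢ (univ : Set R3), ENNReal.ofReal (jb q.2 ^ k) * F (0, q.1, q.2) < ⊤ := by
  obtain ⟨R, -, -, -, hs, hi⟩ := h.adm
  refine lt_of_le_of_lt (lintegral_mono (g := fun q : R3 × R3 => ENNReal.ofReal ((1 + |R|) ^ k) *
    ENNReal.ofReal (rl F 0 q.1 q.2 * (1 + ‖q.2‖ ^ 2 + |Real.log (rl F 0 q.1 q.2)|))) fun q => ?_) ?_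
  · have e : F (0, q.1, q.2) = ENNReal.ofReal (rl F 0 q.1 q.2) :=
      (ENNReal.ofReal_toReal (h.fin0 _ _)).symm
    rw [e]
    rcases le_or_gt R ‖q.2‖ with h1 | h1
    · simp [hs _ _ h1]
    · refine mul_le_mul' (ENNReal.ofReal_le_ofReal (pow_le_pow_left₀ (jb_nonneg _) ?_ k))
        (ENNReal.ofReal_le_ofReal (le_mul_of_one_le_right ENNReal.toReal_nonneg ?_))
      · unfold jb; linarith [le_abs_self R]
      · linarith [sq_nonneg ‖q.2‖, abs_nonneg (Real.log (rl F 0 q.1 q.2))]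
  · rw [lintegral_const_mul' _ _ ENNReal.ofReal_ne_top]
    exact ENNReal.mul_lt_top ENNReal.ofReal_lt_top hi

/-- `F(t) ≤ F(0)♯ + ∫ Q⁺♯`, `lint_cell_ch`, `lint_strip_ch` -/
theorem WSol.moment {F : PF} {T : ℝ} (h : WSol F T) (k : ℕ) : ∃ C : ℝ≥0∞, C ≠ ⊤ ∧ ∀ t ∈ Icc 0 T,
    ∫⁻ q in cell ×ˢ (univ : Set R3), ENNReal.ofReal (jb q.2 ^ k) * F (t, q.1, q.2) ≤ C := by
  have hQ := measurable_QF h.meas h.meas
  have hΦ := (measurable_jbP k).fun_mul hQ
  have hfin : ∫⁻ p in strip T, ENNReal.ofReal (jb p.2.2 ^ k) * QF F F p < ⊤ :=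
    lt_of_le_of_lt (lintegral_mono fun p => mul_le_mul_right le_self_add _) (h.lint_Q k)
  refine ⟨_, (ENNReal.add_lt_top.2 ⟨h.lint_F0 k, hfin⟩).ne, fun t ht => ?_⟩
  have e1 := lint_cell_ch _ ((measurable_jbP k).fun_mul h.meas)
    (fun t x v m => by simp only [h.per t x v m]) t
  have e2 := lint_strip_ch _ hΦ (fun t x v m => by simp only [(h.per.QF h.per) t x v m]) 0 T
  refine e1.symm.le.trans ?_
  have hm : Measurable fun q : R3 × R3 => ENNReal.ofReal (jb q.2 ^ k) * F (0, q.1, q.2) :=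
    ((measurable_jb k).comp measurable_snd).mul (h.meas.comp (by fun_prop))
  rw [strip, ← e2, ← lintegral_add_left hm]
  refine lintegral_mono fun q => ?_
  change ENNReal.ofReal (jb q.2 ^ k) * F (ch q t) ≤ ENNReal.ofReal (jb q.2 ^ k) * F (0, q.1, q.2) +
    ∫⁻ s in Ioo 0 T, ENNReal.ofReal (jb q.2 ^ k) * QF F F (ch q s)
  rw [lintegral_const_mul' _ _ ENNReal.ofReal_ne_top, ← mul_add, mild_ch h q ht, ch_zero]
  refine mul_le_mul_right (add_le_add (mul_le_of_le_one_right' (ex_le_one _)) ?_) _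
  exact (lintegral_mono fun s => mul_le_of_le_one_left' (ex_le_one _)).trans
    (lintegral_mono_set (Ioo_subset_Ioo_right ht.2))

/-- along almost every characteristic (for `LF F` integrate against `Ga 1 v`, `LL_le_moment`);
then `mild_linear` with `f s = F (ch q s)` (`fl_ch`), and pass to `toReal`. -/
theorem WSol.linear {F : PF} {T : ℝ} (h : WSol F T) :
    ∀ᵐ q ∂(volume.restrict (cell ×ˢ (univ : Set R3))),
      IntegrableOn (fun s => Qr F (ch q s)) (Ioo 0 T) ∧ (∀ t ∈ Icc 0 T, F (ch q t) ≠ ⊤) ∧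
      ∀ t ∈ Icc 0 T, (F (ch q t)).toReal = (F (ch q 0)).toReal + ∫ s in Ioo 0 t, Qr F (ch q s) := by
  have hQ := measurable_QF h.meas h.meas
  have hL := measurable_LF h.meas
  have h1 := ae_ch (T := T) (hQ.fun_add (h.meas.fun_mul hL))
    (fun t x v m => by simp only [(h.per.QF h.per) t x v m, h.per t x v m, h.per.LF t x v m])
    (by simpa using h.lint_Q 0)
  have h2 := ae_ch (T := T) (Φ := fun p => Ga 1 p.2.2 * LF F p)
    (((measurable_Ga 1).comp (measurable_snd.comp measurable_snd)).mul hL)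
    (fun t x v m => by simp only [h.per.LF t x v m]) (lint_Ga_LF h)
  filter_upwards [h1, h2] with q h1 h2
  have mc : Measurable (ch q) := measurable_ch.comp measurable_prodMk_left
  have h3 : ∫⁻ s in Ioo 0 T, LF F (ch q s) ≠ ⊤ := by
    change ∫⁻ s in Ioo 0 T, Ga 1 q.2 * LF F (ch q s) < ⊤ at h2
    rw [lintegral_const_mul' _ _ (by exact ENNReal.ofReal_ne_top)] at h2
    exact (ENNReal.lt_top_of_mul_ne_top_right h2.ne (Ga_ne _)).ne
  have hq : ∀ t ≤ T, ∫⁻ s in Ioo 0 t, QF F F (ch q s) ≠ ⊤ := fun t ht =>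
    (((lintegral_mono_set (Ioo_subset_Ioo_right ht)).trans
      (lintegral_mono fun s => le_self_add)).trans_lt h1).ne
  have hl : ∀ t ≤ T, ∫⁻ s in Ioo 0 t, F (ch q s) * LF F (ch q s) ≠ ⊤ := fun t ht =>
    (((lintegral_mono_set (Ioo_subset_Ioo_right ht)).trans
      (lintegral_mono fun s => le_add_self)).trans_lt h1).ne
  have mq : Measurable fun s => QF F F (ch q s) := hQ.comp mc
  have ml : Measurable fun s => F (ch q s) * LF F (ch q s) := (h.meas.mul hL).comp mc
  have iq := fun t ht => integrable_toReal_of_lintegral_ne_top mq.aemeasurable (hq t ht)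
  have il := fun t ht => integrable_toReal_of_lintegral_ne_top ml.aemeasurable (hl t ht)
  have h0 : F (ch q 0) ≠ ⊤ := by rw [ch_zero]; exact h.fin0 _ _
  have key := mild_linear (fun s => F (ch q s)) (fun s => LF F (ch q s)) (fun s => QF F F (ch q s))
    (hL.comp mc) mq (F (ch q 0)) T h3 (fun t ht => mild_ch h q ht)
  have hfin : ∀ t ∈ Icc 0 T, F (ch q t) ≠ ⊤ := fun t ht =>
    ne_top_of_le_ne_top (ENNReal.add_ne_top.2 ⟨h0, hq t ht.2⟩) (le_self_add.trans (key t ht).le)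
  refine ⟨(iq T le_rfl).sub (il T le_rfl), hfin, fun t ht => ?_⟩
  have e := congrArg ENNReal.toReal (key t ht)
  rw [ENNReal.toReal_add (hfin t ht) (hl t ht.2), ENNReal.toReal_add h0 (hq t ht.2)] at e
  unfold Qr
  rw [integral_sub (iq t ht.2) (il t ht.2),
    integral_toReal mq.aemeasurable (ae_lt_top mq (hq t ht.2)),
    integral_toReal ml.aemeasurable (ae_lt_top ml (hl t ht.2))]
  linarith

theorem WSol.integrableOn_Qr {F : PF} {T : ℝ} (h : WSol F T) (k : ℕ) :
    IntegrableOn (fun p : Ph => jb p.2.2 ^ k * Qr F p) (strip T) := by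
  have hQ := measurable_QF h.meas h.meas
  have hL := h.meas.fun_mul (measurable_LF h.meas)
  have i1 := integrable_toReal_of_lintegral_ne_top (μ := volume.restrict (strip T))
    ((measurable_jbP k).fun_mul hQ).aemeasurable
    ((lintegral_mono fun p => mul_le_mul_right le_self_add _).trans_lt (h.lint_Q k)).ne
  have i2 := integrable_toReal_of_lintegral_ne_top (μ := volume.restrict (strip T))
    ((measurable_jbP k).fun_mul hL).aemeasurable
    ((lintegral_mono fun p => mul_le_mul_right le_add_self _).trans_lt (h.lint_Q k)).ne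
  refine (i1.sub i2).congr (Eventually.of_forall fun p => ?_)
  simp only [Pi.sub_apply, Qr, ENNReal.toReal_mul,
    ENNReal.toReal_ofReal (pow_nonneg (jb_nonneg p.2.2) k)]
  ring

theorem measurable_Qr {F : PF} (hF : Measurable F) : Measurable (Qr F) := by
  exact (measurable_QF hF hF).ennreal_toReal.sub (hF.mul (measurable_LF hF)).ennreal_toReal

/-- for a.e. `(t, x)` the section is finite a.e., so `ofReal ∘ toReal` changes nothing (`Qp_mono_ae`,
`LL_mono_ae`). -/
theorem WSol.coll_ae {F : PF} {T : ℝ} (h : WSol F T) :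
    ∀ᵐ p ∂(volume.restrict (strip T)),
      collGain (rl F) p.1 p.2.1 p.2.2 = QF F F p ∧ collLoss (rl F) p.1 p.2.1 p.2.2 = F p * LF F p := by
  have h1 := ae_lt_top ((measurable_jbP 0).fun_mul h.meas) (h.lint_F 0).ne
  have h2 := ae_lt_top (measurable_Gm h.meas) (lint_Ga_mom h).ne
  filter_upwards [h1, h2] with p h1 h2
  have hp : F p ≠ ⊤ := by simpa using h1.ne
  have hf := measurable_sec h.meas p
  have h3 : mom F 1 (p.1, p.2.1) ≠ ⊤ :=
    (ENNReal.lt_top_of_mul_ne_top_right h2.ne (mul_ne_zero (Ga_ne _)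
      (ENNReal.ofReal_pos.2 (one_pos.trans_le (one_le_jb _))).ne')).ne
  have h4 : ∀ᵐ η, ENNReal.ofReal (sec F p η).toReal = sec F p η := by
    filter_upwards [ae_lt_top (hf.mul (measurable_jb 1)) h3] with η hη
    exact ENNReal.ofReal_toReal (ENNReal.lt_top_of_mul_ne_top_left hη.ne
      (ENNReal.ofReal_pos.2 (pow_pos (one_pos.trans_le (one_le_jb _)) 1)).ne').ne
  have hg : Measurable fun η => ENNReal.ofReal (sec F p η).toReal :=
    hf.ennreal_toReal.ennreal_ofReal
  have h5 := h4.mono fun _ e => e.le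
  have h6 := h4.mono fun _ e => e.ge
  constructor
  · refine Eq.trans ?_ (le_antisymm (Qp_mono_ae hg hf hg hf h5 h5 p.2.2)
      (Qp_mono_ae hf hg hf hg h6 h6 p.2.2))
    refine lintegral_congr fun vs => lintegral_congr fun w => ?_
    unfold rl
    rw [ENNReal.ofReal_mul (mul_nonneg (abs_nonneg _) ENNReal.toReal_nonneg),
      ENNReal.ofReal_mul (abs_nonneg _), mul_assoc]
    rfl
  · have e : LF F p = LL (fun η => ENNReal.ofReal (sec F p η).toReal) p.2.2 :=
      le_antisymm (LL_mono_ae h6 p.2.2) (LL_mono_ae h5 p.2.2)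
    rw [e, LL, ← lintegral_const_mul' _ _ hp]
    refine lintegral_congr fun vs => ?_
    rw [← lintegral_const_mul' _ _ hp]
    refine lintegral_congr fun w => ?_
    unfold rl
    rw [ENNReal.ofReal_mul (mul_nonneg (abs_nonneg _) ENNReal.toReal_nonneg),
      ENNReal.ofReal_mul (abs_nonneg _), ENNReal.ofReal_toReal (a := F (p.1, p.2.1, p.2.2)) hp,
      mul_comm _ (F (p.1, p.2.1, p.2.2)), mul_assoc]
    rfl

theorem WSol.mono {F : PF} {T T' : ℝ} (h : WSol F T) (hT : T' ≤ T) : WSol F T' := by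
  exact ⟨h.meas, h.per, fun p hp => h.mild p ⟨hp.1, hp.2.trans hT⟩, fun k =>
    (lintegral_mono_set (prod_mono (Ioo_subset_Ioo_right hT) Subset.rfl)).trans_lt (h.h3 k),
    h.fin0, h.adm⟩

end
end Crest.Agent.R68
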