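import Crest.Agent.R68.W2Aux

/-! # Row 68: weak-solution module, part 2: the weak formulation -/

set_option autoImplicit false
open MeasureTheory Set Filter Topology
open scoped ENNReal NNReal
open Crest.AnalysisR.VecCalc3 Crest.AnalysisR.PDE.Boltzmann

namespace Crest.Agent.R68
noncomputable section

theorem W2a_gain (f : R3 → ℝ≥0∞) (hf : Measurable f) (φ : R3 → ℝ≥0∞) (hφ : Measurable φ) :
    ∫⁻ v, φ v * Qp f f v = ∫⁻ q : R3 × R3,
      f q.1 * f q.2 * ∫⁻ w, ab q.1 q.2 w * φ (postVel q.1 q.2 w) ∂sphereMeasure := by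
  have hm : Measurable fun q : R3 × R3 =>
      f q.1 * f q.2 * ∫⁻ w, ab q.1 q.2 w * φ (postVel q.1 q.2 w) ∂sphereMeasure := by
    refine ((hf.comp measurable_fst).mul (hf.comp measurable_snd)).mul ?_
    have h1 : Measurable fun x : (R3 × R3) × R3 => (x.1.1, x.1.2, x.2) := by fun_prop
    exact Measurable.lintegral_prod_right'
      (f := fun x : (R3 × R3) × R3 => ab x.1.1 x.1.2 x.2 * φ (postVel x.1.1 x.1.2 x.2))
      ((measurable_ab.comp h1).mul (hφ.comp (measurable_postVel.comp h1)))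
  have hff : Measurable fun q : R3 × R3 => f q.1 * f q.2 :=
    (hf.comp measurable_fst).mul (hf.comp measurable_snd)
  rw [Measure.volume_eq_prod, lintegral_prod _ hm.aemeasurable]
  exact lint_QH_mul _ hff φ hφ

theorem W2a_meas_ab : Measurable fun q : R3 × R3 => ∫⁻ w, ab q.1 q.2 w ∂sphereMeasure := by
  have h1 : Measurable fun x : (R3 × R3) × R3 => (x.1.1, x.1.2, x.2) := by fun_prop
  have h2 : Measurable fun x : (R3 × R3) × R3 => ab x.1.1 x.1.2 x.2 := by
    simpa only [Function.comp_def] using measurable_ab.comp h1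
  exact h2.lintegral_prod_right'

theorem W2a_meas_ab' (η ζ : R3) : Measurable fun w => ab η ζ w :=
  measurable_ab.comp (f := fun w : R3 => (η, ζ, w)) (by fun_prop)

theorem W2a_loss (f : R3 → ℝ≥0∞) (hf : Measurable f) (φ : R3 → ℝ≥0∞) (hφ : Measurable φ) :
    ∫⁻ v, φ v * (f v * LL f v) = ∫⁻ q : R3 × R3,
      f q.1 * f q.2 * ((∫⁻ w, ab q.1 q.2 w ∂sphereMeasure) * φ q.1) := by
  have hm : Measurable fun q : R3 × R3 =>
      f q.1 * f q.2 * ((∫⁻ w, ab q.1 q.2 w ∂sphereMeasure) * φ q.1) :=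
    ((hf.comp measurable_fst).mul (hf.comp measurable_snd)).mul
      (W2a_meas_ab.mul (hφ.comp measurable_fst))
  rw [Measure.volume_eq_prod, lintegral_prod _ hm.aemeasurable]
  refine lintegral_congr fun v => ?_
  have h2 : Measurable fun ζ => (∫⁻ w, ab v ζ w ∂sphereMeasure) * f ζ :=
    (W2a_meas_ab.comp (f := fun ζ : R3 => (v, ζ)) (by fun_prop)).mul hf
  simp only [LL, lintegral_mul_const _ (W2a_meas_ab' _ _)]
  rw [← mul_assoc, ← lintegral_const_mul _ h2]
  refine lintegral_congr fun ζ => ?_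
  ring

/-- gain and loss agree against a non-negative collision invariant -/
theorem W2a_inv (f : R3 → ℝ≥0∞) (hf : Measurable f) (φ : R3 → ℝ≥0∞) (hφ : Measurable φ)
    (hi : ∀ η ζ w : R3, ‖w‖ = 1 → φ (postVel η ζ w) + φ (postVelStar η ζ w) = φ η + φ ζ) :
    ∫⁻ v, φ v * Qp f f v = ∫⁻ v, φ v * (f v * LL f v) := by
  have h1 : Measurable fun x : (R3 × R3) × R3 => (x.1.1, x.1.2, x.2) := by fun_prop
  have hff : Measurable fun q : R3 × R3 => f q.1 * f q.2 :=
    (hf.comp measurable_fst).mul (hf.comp measurable_snd)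
  have hG : Measurable fun q : R3 × R3 =>
      f q.1 * f q.2 * ∫⁻ w, ab q.1 q.2 w * φ (postVel q.1 q.2 w) ∂sphereMeasure :=
    hff.mul (Measurable.lintegral_prod_right'
      (f := fun x : (R3 × R3) × R3 => ab x.1.1 x.1.2 x.2 * φ (postVel x.1.1 x.1.2 x.2))
      ((measurable_ab.comp h1).mul (hφ.comp (measurable_postVel.comp h1))))
  have hL : Measurable fun q : R3 × R3 =>
      f q.1 * f q.2 * ((∫⁻ w, ab q.1 q.2 w ∂sphereMeasure) * φ q.1) :=
    hff.mul (W2a_meas_ab.mul (hφ.comp measurable_fst))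
  have sw : ∀ Φ : R3 × R3 → ℝ≥0∞, ∫⁻ q, Φ q = ∫⁻ q : R3 × R3, Φ q.swap := fun Φ => by
    rw [Measure.volume_eq_prod, lintegral_prod_swap]
  rw [← ENNReal.mul_right_inj (a := 2) two_ne_zero ENNReal.ofNat_ne_top, two_mul, two_mul,
    W2a_gain f hf φ hφ, W2a_loss f hf φ hφ]
  conv_lhs => enter [2]; rw [sw]
  conv_rhs => enter [2]; rw [sw]
  rw [← lintegral_add_left hG, ← lintegral_add_left hL]
  refine lintegral_congr fun q => ?_
  have h2 : Measurable fun w => ab q.1 q.2 w * φ (postVel q.1 q.2 w) :=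
    (W2a_meas_ab' _ _).mul (hφ.comp
      (measurable_postVel.comp (f := fun w : R3 => (q.1, q.2, w)) (by fun_prop)))
  simp only [Prod.fst_swap, Prod.snd_swap, postVel_swap q.1 q.2, ab_swap q.1 q.2]
  rw [mul_comm (f q.2), ← mul_add, ← mul_add, ← mul_add, ← lintegral_add_left h2,
    ← lintegral_mul_const _ (W2a_meas_ab' _ _)]
  congr 1
  refine lintegral_congr_ae ?_
  filter_upwards [ae_norm_one] with w hw
  rw [← mul_add, hi _ _ _ hw]

theorem W2a_one_le_jb (v : R3) : 1 ≤ jb v := le_add_of_nonneg_right (norm_nonneg v)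

theorem W2a_measurable_jb : Measurable jb := by
  unfold jb
  fun_prop

/-- the real version -/
theorem W2a_real (f : R3 → ℝ≥0∞) (hf : Measurable f)
    (hm : ∫⁻ v, f v * ENNReal.ofReal (jb v ^ 3) ≠ ⊤) (φ : R3 → ℝ) (hφ : Measurable φ)
    (h0 : ∀ v, 0 ≤ φ v) (hb : ∀ v, φ v ≤ 2 * jb v ^ 2)
    (hi : ∀ η ζ w : R3, ‖w‖ = 1 → φ (postVel η ζ w) + φ (postVelStar η ζ w) = φ η + φ ζ) :
    Integrable (fun v => ((Qp f f v).toReal - (f v * LL f v).toReal) * φ v) ∧
      ∫ v, ((Qp f f v).toReal - (f v * LL f v).toReal) * φ v = 0 := by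
  have hφ' : Measurable fun v => ENNReal.ofReal (φ v) := hφ.ennreal_ofReal
  have hQ : Measurable (Qp f f) :=
    measurable_QH_param (fun _ : R3 => fun q : R3 × R3 => f q.1 * f q.2)
      ((hf.comp (measurable_fst.comp measurable_snd)).mul
        (hf.comp (measurable_snd.comp measurable_snd))) id measurable_id
  have hLL : Measurable (LL f) :=
    measurable_LL_param (fun _ : R3 => f) (hf.comp measurable_snd) id measurable_id
  have heq := W2a_inv f hf _ hφ' fun η ζ w hw => by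
    rw [← ENNReal.ofReal_add (h0 _) (h0 _), ← ENNReal.ofReal_add (h0 _) (h0 _), hi _ _ _ hw]
  have hm1 : ∫⁻ η, ENNReal.ofReal (jb η) * f η ≠ ⊤ := by
    refine ne_top_of_le_ne_top hm (lintegral_mono fun η => ?_)
    rw [mul_comm]
    gcongr
    exact le_self_pow₀ (W2a_one_le_jb η) (by norm_num)
  have hfin : ∫⁻ v, ENNReal.ofReal (φ v) * (f v * LL f v) ≠ ⊤ := by
    have h1 : ∀ v, ENNReal.ofReal (φ v) * (f v * LL f v) ≤
        (26 * ∫⁻ η, ENNReal.ofReal (jb η) * f η) * (f v * ENNReal.ofReal (jb v ^ 3)) := fun v => by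
      have h2 : 0 ≤ jb v := zero_le_one.trans (W2a_one_le_jb v)
      have h3 : ENNReal.ofReal (φ v) ≤ 2 * ENNReal.ofReal (jb v) ^ 2 := by
        refine (ENNReal.ofReal_le_ofReal (hb v)).trans (le_of_eq ?_)
        rw [ENNReal.ofReal_mul zero_le_two, ENNReal.ofReal_pow h2, ENNReal.ofReal_ofNat]
      calc _ ≤ (2 * ENNReal.ofReal (jb v) ^ 2) * (f v *
            (13 * ENNReal.ofReal (jb v) * ∫⁻ η, ENNReal.ofReal (jb η) * f η)) := by
            gcongr
            exact LL_le_moment f hf v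
        _ = _ := by
            rw [ENNReal.ofReal_pow h2]
            ring
    refine ne_top_of_le_ne_top ?_ (lintegral_mono h1)
    have h4 : Measurable fun v => f v * ENNReal.ofReal (jb v ^ 3) :=
      hf.mul (W2a_measurable_jb.pow_const 3).ennreal_ofReal
    rw [lintegral_const_mul _ h4]
    exact ENNReal.mul_ne_top (ENNReal.mul_ne_top ENNReal.ofNat_ne_top hm1) hm
  have hfin' : ∫⁻ v, ENNReal.ofReal (φ v) * Qp f f v ≠ ⊤ := heq ▸ hfin
  have m1 : Measurable fun v => ENNReal.ofReal (φ v) * Qp f f v := hφ'.mul hQ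
  have m2 : Measurable fun v => ENNReal.ofReal (φ v) * (f v * LL f v) := hφ'.mul (hf.mul hLL)
  have i1 := integrable_toReal_of_lintegral_ne_top m1.aemeasurable hfin'
  have i2 := integrable_toReal_of_lintegral_ne_top m2.aemeasurable hfin
  have e : (fun v => ((Qp f f v).toReal - (f v * LL f v).toReal) * φ v) = fun v =>
      (ENNReal.ofReal (φ v) * Qp f f v).toReal -
        (ENNReal.ofReal (φ v) * (f v * LL f v)).toReal := by
    funext v
    rw [ENNReal.toReal_mul (a := ENNReal.ofReal _), ENNReal.toReal_mul (a := ENNReal.ofReal _),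
      ENNReal.toReal_ofReal (h0 v)]
    ring
  rw [e]
  refine ⟨i1.sub i2, ?_⟩
  rw [integral_sub i1 i2, integral_toReal m1.aemeasurable (ae_lt_top m1 hfin'),
    integral_toReal m2.aemeasurable (ae_lt_top m2 hfin), heq, sub_self]

theorem W2a_psi {ψ : R3 → ℝ}
    (hψ : ψ = (fun _ => 1) ∨ (∃ i : Fin 3, ψ = fun v => v i) ∨ ψ = fun v => ‖v‖ ^ 2 / 2) :
    Measurable ψ ∧ (∀ v, |ψ v| ≤ 1 + ‖v‖ ^ 2) ∧
      ∀ η ζ w : R3, ‖w‖ = 1 → ψ (postVel η ζ w) + ψ (postVelStar η ζ w) = ψ η + ψ ζ := by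
  rcases hψ with rfl | ⟨i, rfl⟩ | rfl
  · exact ⟨measurable_const, fun v => by simp, fun _ _ _ _ => rfl⟩
  · refine ⟨by fun_prop, fun v => ?_, fun η ζ w _ => ?_⟩
    · have h1 : |v i| ≤ ‖v‖ := by simpa using PiLp.norm_apply_le v i
      nlinarith [sq_nonneg (‖v‖ - 1), norm_nonneg v]
    · have := congrArg (fun v : R3 => v i) (post_add η ζ w)
      simpa using this
  · refine ⟨by fun_prop, fun v => ?_, fun η ζ w hw => ?_⟩
    · rw [abs_of_nonneg (by positivity)]
      nlinarith [sq_nonneg ‖v‖]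
    · have := post_energy η ζ w 0 hw
      simp only [sub_zero] at this
      beta_reduce
      linarith

theorem W2a_sq_le (v : R3) : 1 + ‖v‖ ^ 2 ≤ jb v ^ 2 := by
  unfold jb
  nlinarith [norm_nonneg v]

/-- collision invariants in velocity space.  Each of `ψ Q⁺`, `ψ Q⁻` is integrable; write both as real
integrals over `(η, ζ, w)` (`lint_QH_mul` for `ψ⁺`, `ψ⁻`), symmetrise `η ↔ ζ` (`postVel_swap`, `ab_swap`)
and use `ψ η' + ψ ζ' = ψ η + ψ ζ` (`post_add`, `post_energy`). -/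
theorem coll_invariant (f : R3 → ℝ≥0∞) (hf : Measurable f)
    (hm : ∫⁻ v, f v * ENNReal.ofReal (jb v ^ 3) ≠ ⊤) (ψ : R3 → ℝ)
    (hψ : ψ = (fun _ => 1) ∨ (∃ i : Fin 3, ψ = fun v => v i) ∨ ψ = fun v => ‖v‖ ^ 2 / 2) :
    ∫ v, ((Qp f f v).toReal - (f v * LL f v).toReal) * ψ v = 0 := by
  obtain ⟨h1, h2, h3⟩ := W2a_psi hψ
  have hχ : ∀ η ζ w : R3, ‖w‖ = 1 → (1 + ‖postVel η ζ w‖ ^ 2) + (1 + ‖postVelStar η ζ w‖ ^ 2) =
      (1 + ‖η‖ ^ 2) + (1 + ‖ζ‖ ^ 2) := fun η ζ w hw => by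
    have := post_energy η ζ w 0 hw
    simp only [sub_zero] at this
    linarith
  obtain ⟨i1, e1⟩ := W2a_real f hf hm (fun v => ψ v + (1 + ‖v‖ ^ 2)) (by fun_prop)
    (fun v => by linarith [(abs_le.1 (h2 v)).1])
    (fun v => by linarith [(abs_le.1 (h2 v)).2, W2a_sq_le v])
    (fun η ζ w hw => by linarith [h3 η ζ w hw, hχ η ζ w hw])
  obtain ⟨i2, e2⟩ := W2a_real f hf hm (fun v => 1 + ‖v‖ ^ 2) (by fun_prop)
    (fun v => by positivity) (fun v => by nlinarith [W2a_sq_le v, sq_nonneg (jb v)]) hχ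
  have h4 := integral_sub i1 i2
  rw [e1, e2, sub_zero] at h4
  rw [← h4]
  exact integral_congr_ae (Eventually.of_forall fun v => by ring)

/-- General weak identity for a test function that is `C¹` along characteristics with polynomial
growth: `product_rule_ac` on a.e. characteristic (`WSol.linear`), integrate over `cell × ℝ³`, Fubini,
and the real versions of `lint_cell_ch`, `lint_strip_ch` (split into positive and negative parts, or
show that `q ↦ (red-shifted) ` is measure preserving). -/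
theorem WSol.weak_gen {F : PF} {T : ℝ} (h : WSol F T) (φ φ' : Ph → ℝ) (hφm : Measurable φ)
    (hφm' : Measurable φ')
    (hp : ∀ t x v m, φ (t, x + lat m, v) = φ (t, x, v))
    (hp' : ∀ t x v m, φ' (t, x + lat m, v) = φ' (t, x, v))
    (hd : ∀ q s, HasDerivAt (fun s => φ (ch q s)) (φ' (ch q s)) s)
    (hc : ∀ q, Continuous (fun s => φ' (ch q s)))
    (C : ℝ) (k : ℕ) (hb : ∀ p : Ph, p.1 ∈ Icc 0 T → |φ p| ≤ C * jb p.2.2 ^ k ∧ |φ' p| ≤ C * jb p.2.2 ^ k)
    (t : ℝ) (ht : t ∈ Icc 0 T) :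
    IntegrableOn (fun p : Ph => (F p).toReal * φ' p) (strip t) ∧
    IntegrableOn (fun p : Ph => Qr F p * φ p) (strip t) ∧
    IntegrableOn (fun q : R3 × R3 => rl F t q.1 q.2 * φ (t, q.1, q.2)) (cell ×ˢ univ) ∧
    IntegrableOn (fun q : R3 × R3 => rl F 0 q.1 q.2 * φ (0, q.1, q.2)) (cell ×ˢ univ) ∧
    ∫ q in cell ×ˢ univ, rl F t q.1 q.2 * φ (t, q.1, q.2) =
      (∫ q in cell ×ˢ univ, rl F 0 q.1 q.2 * φ (0, q.1, q.2)) +
        ∫ p in strip t, ((F p).toReal * φ' p + Qr F p * φ p) :=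
  W2Aux_weak_gen h φ φ' hφm hφm' hp hp' hd hc C k hb t ht

/-- the collision term integrates to zero against `ψ(v) ϕ(t,x)` (Fubini + `coll_invariant`) -/
theorem WSol.lint_Qr_invariant {F : PF} {T : ℝ} (h : WSol F T) (ψ : R3 → ℝ)
    (hψ : ψ = (fun _ => 1) ∨ (∃ i : Fin 3, ψ = fun v => v i) ∨ ψ = fun v => ‖v‖ ^ 2 / 2)
    (ϕ : ℝ × R3 → ℝ) (hϕ : Measurable ϕ) (C : ℝ) (hb : ∀ z : ℝ × R3, z.1 ∈ Icc 0 T → |ϕ z| ≤ C) :
    ∫ p in strip T, Qr F p * (ψ p.2.2 * ϕ (p.1, p.2.1)) = 0 := by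
  have hμ : (volume : Measure Ph).restrict (strip T) =
      (volume.restrict (Ioo (0 : ℝ) T)).prod ((volume.restrict cell).prod volume) := by
    rw [strip, Measure.volume_eq_prod, ← Measure.prod_restrict, Measure.volume_eq_prod,
      ← Measure.prod_restrict, Measure.restrict_univ]
  have hA := measurePreserving_prodAssoc (volume.restrict (Ioo (0 : ℝ) T))
    ((volume : Measure R3).restrict cell) (volume : Measure R3)
  rw [hμ, ← hA.integral_comp']
  by_cases hI : Integrable (fun x : (ℝ × R3) × R3 => Qr F (MeasurableEquiv.prodAssoc x) *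
      (ψ (MeasurableEquiv.prodAssoc x).2.2 *
        ϕ ((MeasurableEquiv.prodAssoc x).1, (MeasurableEquiv.prodAssoc x).2.1)))
      (((volume.restrict (Ioo (0 : ℝ) T)).prod (volume.restrict cell)).prod volume)
  swap
  · exact integral_undef hI
  rw [integral_prod _ hI]
  refine integral_eq_zero_of_ae ?_
  have h1 := h.lint_rho_sq 3
  rw [Measure.volume_eq_prod, ← Measure.prod_restrict] at h1
  have h2 : Measurable fun z : ℝ × R3 =>
      (∫⁻ v, F (z.1, z.2, v) * ENNReal.ofReal (jb v ^ 3)) ^ 2 :=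
    (Measurable.lintegral_prod_right'
      (f := fun x : (ℝ × R3) × R3 => F (x.1.1, x.1.2, x.2) * ENNReal.ofReal (jb x.2 ^ 3))
      ((h.meas.comp (by fun_prop)).mul
        ((W2a_measurable_jb.pow_const 3).ennreal_ofReal.comp measurable_snd))).pow_const 2
  filter_upwards [ae_lt_top h2 h1.ne] with z hz
  have h3 := coll_invariant (fun v => F (z.1, z.2, v)) (h.meas.comp (by fun_prop))
    (fun h0 => by rw [h0] at hz; simp at hz) ψ hψ
  change ∫ v, Qr F (z.1, z.2, v) * (ψ v * ϕ (z.1, z.2)) = 0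
  simp only [← mul_assoc]
  rw [integral_mul_const]
  exact mul_eq_zero_of_left h3 _

/-- conservation of mass, momentum and energy -/
theorem WSol.conserved {F : PF} {T : ℝ} (h : WSol F T) (ψ : R3 → ℝ)
    (hψ : ψ = (fun _ => 1) ∨ (∃ i : Fin 3, ψ = fun v => v i) ∨ ψ = fun v => ‖v‖ ^ 2 / 2)
    (t : ℝ) (ht : t ∈ Icc 0 T) :
    IntegrableOn (fun q : R3 × R3 => rl F t q.1 q.2 * ψ q.2) (cell ×ˢ univ) ∧
    ∫ q in cell ×ˢ univ, rl F t q.1 q.2 * ψ q.2 = ∫ q in cell ×ˢ univ, rl F 0 q.1 q.2 * ψ q.2 := by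
  obtain ⟨h1, h2, -⟩ := W2a_psi hψ
  obtain ⟨-, -, h3, -, h4⟩ := h.weak_gen (fun p => ψ p.2.2) (fun _ => 0)
    (h1.comp (measurable_snd.comp measurable_snd)) measurable_const (fun _ _ _ _ => rfl)
    (fun _ _ _ _ => rfl) (fun q s => hasDerivAt_const s (ψ q.2)) (fun _ => continuous_const) 1 2
    (fun p _ => ⟨by rw [one_mul]; exact (h2 _).trans (W2a_sq_le _), by
      rw [abs_zero]; positivity⟩) t ht
  have h5 := (h.mono ht.2).lint_Qr_invariant ψ hψ (fun _ => 1) measurable_const 1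
    fun _ _ => by simp
  simp only [mul_one] at h5
  simp only [mul_zero, zero_add, h5, add_zero] at h4
  exact ⟨h3, h4⟩

end
end Crest.Agent.R68
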