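import Crest.Agent.R68.W1

/-! # Row 68: real-valued versions of the shifts along characteristics -/

set_option autoImplicit false
open MeasureTheory Set Filter Topology
open scoped ENNReal NNReal
open Crest.AnalysisR.VecCalc3 Crest.AnalysisR.PDE.Boltzmann

namespace Crest.Agent.R68
noncomputable section

/-- Transfer of an identity of lower integrals of periodic densities to real functions. -/
theorem W2Aux_transfer {α β : Type*} [MeasurableSpace α] [MeasurableSpace β] {μ : Measure α}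
    {ν : Measure β} {u : α → Ph} {w : β → Ph} (hu : Measurable u) (hw : Measurable w)
    (h : ∀ Φ : PF, Measurable Φ → Per Φ → ∫⁻ a, Φ (u a) ∂μ = ∫⁻ b, Φ (w b) ∂ν)
    (g : Ph → ℝ) (hg : Measurable g) (hp : ∀ t x v m, g (t, x + lat m, v) = g (t, x, v)) :
    (Integrable (fun a => g (u a)) μ ↔ Integrable (fun b => g (w b)) ν) ∧
      ∫ a, g (u a) ∂μ = ∫ b, g (w b) ∂ν := by
  have h1 : Integrable (fun a => g (u a)) μ ↔ Integrable (fun b => g (w b)) ν := by
    have e := h (fun p => ‖g p‖ₑ) hg.enorm fun t x v m => by simp only [hp]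
    refine ⟨fun hi => ⟨(hg.comp hw).aestronglyMeasurable, ?_⟩,
      fun hi => ⟨(hg.comp hu).aestronglyMeasurable, ?_⟩⟩
    · rw [HasFiniteIntegral, ← e]
      exact hi.2
    · rw [HasFiniteIntegral, e]
      exact hi.2
  refine ⟨h1, ?_⟩
  by_cases hi : Integrable (fun a => g (u a)) μ
  · rw [integral_eq_lintegral_pos_part_sub_lintegral_neg_part hi,
      integral_eq_lintegral_pos_part_sub_lintegral_neg_part (h1.1 hi),
      h (fun p => ENNReal.ofReal (g p)) hg.ennreal_ofReal fun t x v m => by simp only [hp],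
      h (fun p => ENNReal.ofReal (-g p)) hg.neg.ennreal_ofReal fun t x v m => by simp only [hp]]
  · rw [integral_undef hi, integral_undef fun h' => hi (h1.2 h')]

theorem W2Aux_measurable_ch (t : ℝ) : Measurable fun q : R3 × R3 => ch q t :=
  measurable_ch.comp (measurable_id.prodMk measurable_const)

/-- integrability transfer along characteristics at a fixed time -/
theorem integrableOn_cell_ch (g : Ph → ℝ) (hg : Measurable g)
    (hp : ∀ t x v m, g (t, x + lat m, v) = g (t, x, v)) (t : ℝ) :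
    IntegrableOn (fun q : R3 × R3 => g (ch q t)) (cell ×ˢ univ) ↔
      IntegrableOn (fun q : R3 × R3 => g (t, q.1, q.2)) (cell ×ˢ univ) :=
  (W2Aux_transfer (w := fun q : R3 × R3 => (t, q.1, q.2)) (W2Aux_measurable_ch t) (by fun_prop)
    (fun Φ h1 h2 => lint_cell_ch Φ h1 h2 t) g hg hp).1

/-- real version of `lint_cell_ch` -/
theorem integral_cell_ch (g : Ph → ℝ) (hg : Measurable g)
    (hp : ∀ t x v m, g (t, x + lat m, v) = g (t, x, v)) (t : ℝ) :
    ∫ q in cell ×ˢ (univ : Set R3), g (ch q t) = ∫ q in cell ×ˢ (univ : Set R3), g (t, q.1, q.2) :=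
  (W2Aux_transfer (w := fun q : R3 × R3 => (t, q.1, q.2)) (W2Aux_measurable_ch t) (by fun_prop)
    (fun Φ h1 h2 => lint_cell_ch Φ h1 h2 t) g hg hp).2

theorem W2Aux_strip (g : Ph → ℝ) (hg : Measurable g)
    (hp : ∀ t x v m, g (t, x + lat m, v) = g (t, x, v)) (a b : ℝ) :
    (Integrable (fun z : (R3 × R3) × ℝ => g (ch z.1 z.2))
        ((volume.restrict (cell ×ˢ (univ : Set R3))).prod (volume.restrict (Ioo a b))) ↔
      IntegrableOn g (Ioo a b ×ˢ (cell ×ˢ (univ : Set R3)))) ∧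
    ∫ z : (R3 × R3) × ℝ, g (ch z.1 z.2)
        ∂((volume.restrict (cell ×ˢ (univ : Set R3))).prod (volume.restrict (Ioo a b))) =
      ∫ p in Ioo a b ×ˢ (cell ×ˢ (univ : Set R3)), g p :=
  W2Aux_transfer (w := id) measurable_ch measurable_id
    (fun Φ h1 h2 => (lintegral_prod _ (h1.comp measurable_ch).aemeasurable).trans
      (lint_strip_ch Φ h1 h2 a b)) g hg hp

/-- integrability transfer along characteristics on a strip -/
theorem integrable_strip_ch (g : Ph → ℝ) (hg : Measurable g)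
    (hp : ∀ t x v m, g (t, x + lat m, v) = g (t, x, v)) (a b : ℝ) :
    Integrable (fun z : (R3 × R3) × ℝ => g (ch z.1 z.2))
        ((volume.restrict (cell ×ˢ (univ : Set R3))).prod (volume.restrict (Ioo a b))) ↔
      IntegrableOn g (Ioo a b ×ˢ (cell ×ˢ (univ : Set R3))) :=
  (W2Aux_strip g hg hp a b).1

/-- real version of `lint_strip_ch`, with the integrability statements of Fubini's theorem -/
theorem integral_strip_ch (g : Ph → ℝ) (hg : Measurable g)
    (hp : ∀ t x v m, g (t, x + lat m, v) = g (t, x, v)) (a b : ℝ)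
    (hi : IntegrableOn g (Ioo a b ×ˢ (cell ×ˢ (univ : Set R3)))) :
    (∀ᵐ q ∂(volume.restrict (cell ×ˢ (univ : Set R3))),
      IntegrableOn (fun s => g (ch q s)) (Ioo a b)) ∧
    IntegrableOn (fun q : R3 × R3 => ∫ s in Ioo a b, g (ch q s)) (cell ×ˢ univ) ∧
    IntegrableOn (fun q : R3 × R3 => ∫ s in Ioo a b, |g (ch q s)|) (cell ×ˢ univ) ∧
    ∫ q in cell ×ˢ (univ : Set R3), ∫ s in Ioo a b, g (ch q s) =
      ∫ p in Ioo a b ×ˢ (cell ×ˢ (univ : Set R3)), g p := by
  obtain ⟨h1, h2⟩ := W2Aux_strip g hg hp a b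
  have h3 := h1.2 hi
  exact ⟨h3.prod_right_ae, h3.integral_prod_left, h3.integral_norm_prod_left,
    (integral_prod _ h3).symm.trans h2⟩

theorem Per.Qr {F : PF} (hF : Per F) (t : ℝ) (x v : R3) (m : Fin 3 → ℤ) :
    Qr F (t, x + lat m, v) = Qr F (t, x, v) := by
  rw [R68.Qr, R68.Qr, hF.QF hF t x v m, hF.LF t x v m, hF t x v m]

theorem W2Aux_strip_mono {t T : ℝ} (h : t ≤ T) : strip t ⊆ strip T :=
  prod_mono (Ioo_subset_Ioo_right h) Subset.rfl

theorem W2Aux_measurableSet_strip (t : ℝ) : MeasurableSet (strip t) :=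
  measurableSet_Ioo.prod (measurableSet_cell.prod MeasurableSet.univ)

theorem W2Aux_jb_pos (v : R3) : 0 < jb v := by
  unfold jb
  positivity

/-- integrability of a density against a function dominated by an integrable weight -/
theorem W2Aux_integrable {α : Type*} [MeasurableSpace α] {μ : Measure α} {f : α → ℝ≥0∞}
    {φ ω : α → ℝ} (hf : Measurable f) (hφ : Measurable φ) {C : ℝ}
    (hb : ∀ᵐ a ∂μ, |φ a| ≤ C * ω a) (hω : ∀ a, 0 ≤ ω a)
    (hi : ∫⁻ a, ENNReal.ofReal (ω a) * f a ∂μ < ⊤) :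
    Integrable (fun a => (f a).toReal * φ a) μ := by
  refine ⟨(hf.ennreal_toReal.mul hφ).aestronglyMeasurable, ?_⟩
  have h1 : ∫⁻ a, ‖(f a).toReal * φ a‖ₑ ∂μ ≤
      ∫⁻ a, ENNReal.ofReal |C| * (ENNReal.ofReal (ω a) * f a) ∂μ := by
    refine lintegral_mono_ae ?_
    filter_upwards [hb] with a ha
    rw [enorm_mul, mul_comm, ← mul_assoc, ← ENNReal.ofReal_mul (abs_nonneg _)]
    refine mul_le_mul' ?_ ?_
    · rw [Real.enorm_eq_ofReal_abs]
      exact ENNReal.ofReal_le_ofReal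
        (ha.trans (mul_le_mul_of_nonneg_right (le_abs_self C) (hω a)))
    · rw [Real.enorm_eq_ofReal ENNReal.toReal_nonneg]
      exact ENNReal.ofReal_toReal_le
  rw [lintegral_const_mul' _ _ ENNReal.ofReal_ne_top] at h1
  exact h1.trans_lt (ENNReal.mul_lt_top ENNReal.ofReal_lt_top hi)

theorem W2Aux_weak_gen {F : PF} {T : ℝ} (h : WSol F T) (φ φ' : Ph → ℝ) (hφm : Measurable φ)
    (hφm' : Measurable φ')
    (hp : ∀ t x v m, φ (t, x + lat m, v) = φ (t, x, v))
    (hp' : ∀ t x v m, φ' (t, x + lat m, v) = φ' (t, x, v))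
    (hd : ∀ q s, HasDerivAt (fun s => φ (ch q s)) (φ' (ch q s)) s)
    (hc : ∀ q, Continuous (fun s => φ' (ch q s)))
    (C : ℝ) (k : ℕ) (hb : ∀ p : Ph, p.1 ∈ Icc 0 T → |φ p| ≤ C * jb p.2.2 ^ k ∧ |φ' p| ≤ C * jb p.2.2 ^ k)
    (t : ℝ) (ht : t ∈ Icc 0 T) :
    IntegrableOn (fun p : Ph => (F p).toReal * φ' p) (strip t) ∧
    IntegrableOn (fun p : Ph => Qr F p * φ p) (strip t) ∧
    IntegrableOn (fun q : R3 × R3 => rl F t q.1 q.2 * φ (t, q.1, q.2)) (cell ×ˢ univ) ∧
    IntegrableOn (fun q : R3 × R3 => rl F 0 q.1 q.2 * φ (0, q.1, q.2)) (cell ×ˢ univ) ∧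
    ∫ q in cell ×ˢ univ, rl F t q.1 q.2 * φ (t, q.1, q.2) =
      (∫ q in cell ×ˢ univ, rl F 0 q.1 q.2 * φ (0, q.1, q.2)) +
        ∫ p in strip t, ((F p).toReal * φ' p + Qr F p * φ p) := by
  have hT : ∀ᵐ p ∂(volume.restrict (strip t)), p.1 ∈ Icc 0 T := by
    filter_upwards [ae_restrict_mem (W2Aux_measurableSet_strip t)] with p hp
    exact ⟨hp.1.1.le, hp.1.2.le.trans ht.2⟩
  have hjb : ∀ v : R3, 0 ≤ jb v ^ k := fun v => pow_nonneg (W2Aux_jb_pos v).le k
  have i1 : IntegrableOn (fun p : Ph => (F p).toReal * φ' p) (strip t) :=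
    W2Aux_integrable (ω := fun p : Ph => jb p.2.2 ^ k) (C := C) h.meas hφm'
      (hT.mono fun p hp => (hb p hp).2) (fun p => hjb _)
      ((lintegral_mono_set (W2Aux_strip_mono ht.2)).trans_lt (h.lint_F k))
  have i2 : IntegrableOn (fun p : Ph => Qr F p * φ p) (strip t) := by
    refine Integrable.mono' (((h.integrableOn_Qr k).mono_set (W2Aux_strip_mono ht.2)).norm.const_mul C)
      ((measurable_Qr h.meas).mul hφm).aestronglyMeasurable ?_
    filter_upwards [hT] with p hp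
    rw [Real.norm_eq_abs, Real.norm_eq_abs, abs_mul, abs_mul, abs_of_nonneg (hjb _), mul_comm,
      ← mul_assoc]
    exact mul_le_mul_of_nonneg_right (hb p hp).1 (abs_nonneg _)
  have i3 : ∀ s ∈ Icc 0 T,
      IntegrableOn (fun q : R3 × R3 => rl F s q.1 q.2 * φ (s, q.1, q.2)) (cell ×ˢ univ) := by
    intro s hs
    obtain ⟨M, hM, hm⟩ := h.moment k
    have hw : Measurable fun q : R3 × R3 => ((s, q.1, q.2) : Ph) := by fun_prop
    exact W2Aux_integrable (f := fun q : R3 × R3 => F (s, q.1, q.2))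
      (ω := fun q : R3 × R3 => jb q.2 ^ k) (C := C) (h.meas.comp hw) (hφm.comp hw)
      (Eventually.of_forall fun q => (hb (s, q.1, q.2) hs).1) (fun q => hjb _)
      ((hm s hs).trans_lt hM.lt_top)
  have h0 : (0 : ℝ) ∈ Icc 0 T := ⟨le_rfl, ht.1.trans ht.2⟩
  refine ⟨i1, i2, i3 t ht, i3 0 h0, ?_⟩
  have gm : Measurable fun p : Ph => (F p).toReal * φ p := h.meas.ennreal_toReal.mul hφm
  have gp : ∀ t x v m, (fun p : Ph => (F p).toReal * φ p) (t, x + lat m, v) =
      (fun p : Ph => (F p).toReal * φ p) (t, x, v) := fun t x v m => by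
    simp only [hp, h.per t x v m]
  have Gm : Measurable fun p : Ph => (F p).toReal * φ' p + Qr F p * φ p :=
    (h.meas.ennreal_toReal.mul hφm').add ((measurable_Qr h.meas).mul hφm)
  have Gp : ∀ t x v m, (fun p : Ph => (F p).toReal * φ' p + Qr F p * φ p) (t, x + lat m, v) =
      (fun p : Ph => (F p).toReal * φ' p + Qr F p * φ p) (t, x, v) := fun t x v m => by
    simp only [hp, hp', h.per t x v m, h.per.Qr]
  obtain ⟨-, j1, -, j2⟩ := integral_strip_ch _ Gm Gp 0 t (i1.add i2)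
  have e1 := integral_cell_ch _ gm gp t
  have e0 := integral_cell_ch _ gm gp 0
  have j0 := (integrableOn_cell_ch _ gm gp 0).2 (i3 0 h0)
  refine e1.symm.trans (Eq.trans ?_ (congrArg₂ (· + ·) e0 j2))
  rw [← integral_add j0 j1]
  refine integral_congr_ae ?_
  filter_upwards [h.linear] with q hq
  exact (product_rule_ac (fun s => (F (ch q s)).toReal) (fun s => Qr F (ch q s)) _ T hq.1 hq.2.2
    (fun s => φ (ch q s)) (fun s => φ' (ch q s)) (hd q) (hc q) t ht).2

end
end Crest.Agent.R68
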