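import Crest.Agent.R68.W2

/-! # Row 68: weak-solution module, part 3: calculus of the test functions -/

set_option autoImplicit false
open MeasureTheory Set Filter Topology
open scoped ENNReal NNReal ContDiff
open Crest.AnalysisR.VecCalc3 Crest.AnalysisR.PDE.Boltzmann

namespace Crest.Agent.R68.W3A
noncomputable section

/-- derivative along the free flow -/
def trD (Φ : Ph → ℝ) (p : Ph) : ℝ := fderiv ℝ Φ p (1, p.2.2, 0)

theorem hasDerivAt_ch (q : R3 × R3) (s : ℝ) : HasDerivAt (ch q) ((1, q.2, 0) : Ph) s := by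
  unfold ch
  refine (hasDerivAt_id s).prodMk (HasDerivAt.prodMk ?_ (hasDerivAt_const s q.2))
  simpa using ((hasDerivAt_id s).smul_const q.2).const_add q.1

theorem hasDerivAt_comp {Φ : Ph → ℝ} (h : Differentiable ℝ Φ) (q : R3 × R3) (s : ℝ) :
    HasDerivAt (fun s => Φ (ch q s)) (trD Φ (ch q s)) s :=
  (h (ch q s)).hasFDerivAt.comp_hasDerivAt s (hasDerivAt_ch q s)

theorem continuous_trD {Φ : Ph → ℝ} (h : ContDiff ℝ ∞ Φ) : Continuous (trD Φ) :=
  (h.continuous_fderiv (by simp)).clm_apply (by fun_prop)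

theorem continuous_ch (q : R3 × R3) : Continuous (ch q) := by unfold ch; fun_prop

theorem transportD_eq {φ : ℝ → R3 → R3 → ℝ}
    (h : Differentiable ℝ (fun p : Ph => φ p.1 p.2.1 p.2.2)) (p : Ph) :
    transportD φ p.1 p.2.1 p.2.2 = trD (fun p : Ph => φ p.1 p.2.1 p.2.2) p := by
  obtain ⟨t, x, v⟩ := p
  set Φ : Ph → ℝ := fun p => φ p.1 p.2.1 p.2.2 with hΦ
  have h0 := (h (t, x, v)).hasFDerivAt
  have h1 : HasDerivAt (fun s => φ s x v) (fderiv ℝ Φ (t, x, v) (1, 0, 0)) t :=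
    h0.comp_hasDerivAt (f := fun s : ℝ => ((s, x, v) : Ph)) t
      ((hasDerivAt_id t).prodMk (hasDerivAt_const t (x, v)))
  have h2 : HasFDerivAt (fun y : R3 => ((t, y, v) : Ph))
      ((0 : R3 →L[ℝ] ℝ).prod ((ContinuousLinearMap.id ℝ R3).prod (0 : R3 →L[ℝ] R3))) x :=
    (hasFDerivAt_const t x).prodMk ((hasFDerivAt_id x).prodMk (hasFDerivAt_const v x))
  have h3 := (h0.comp x h2).fderiv
  have h4 : ∀ i, pderiv (fun y => φ t y v) i x =
      fderiv ℝ Φ (t, x, v) (0, EuclideanSpace.single i 1, 0) := fun i => by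
    unfold pderiv
    rw [show (fun y => φ t y v) = Φ ∘ fun y : R3 => ((t, y, v) : Ph) from rfl, h3]
    simp
  have h5 : ((1, v, 0) : Ph) = (1, 0, 0) + ∑ i : Fin 3, v i • ((0, EuclideanSpace.single i 1, 0) : Ph) := by
    refine Prod.ext (by simp [Prod.fst_sum]) (Prod.ext ?_ (by simp [Prod.snd_sum]))
    ext j
    simp [Prod.fst_sum, Prod.snd_sum, Pi.single_apply]
  simp only [transportD, trD, h1.deriv, h4]
  rw [h5, map_add, map_sum]
  simp only [map_smul, smul_eq_mul]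

theorem fderiv_inv {Φ : Ph → ℝ} {a : Ph} (h : ∀ p, Φ (p + a) = Φ p) (p : Ph) :
    fderiv ℝ Φ (p + a) = fderiv ℝ Φ p := by
  rw [← fderiv_comp_add_right, funext h]

theorem fderiv_per {Φ : Ph → ℝ} (hp : ∀ t x v m, Φ (t, x + lat m, v) = Φ (t, x, v)) (t : ℝ)
    (x v : R3) (m : Fin 3 → ℤ) : fderiv ℝ Φ (t, x + lat m, v) = fderiv ℝ Φ (t, x, v) := by
  have := fderiv_inv (Φ := Φ) (a := (0, lat m, 0)) (fun p => by
    simpa [Prod.add_def] using hp p.1 p.2.1 p.2.2 m) (t, x, v)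
  simpa [Prod.add_def] using this

theorem trD_per {Φ : Ph → ℝ} (hp : ∀ t x v m, Φ (t, x + lat m, v) = Φ (t, x, v)) (t : ℝ)
    (x v : R3) (m : Fin 3 → ℤ) : trD Φ (t, x + lat m, v) = trD Φ (t, x, v) := by
  simp only [trD, fderiv_per hp]

/-- continuous periodic functions are bounded for bounded times and velocities -/
theorem bound {G : Ph → ℝ} (hG : Continuous G) (hp : ∀ t x v m, G (t, x + lat m, v) = G (t, x, v))
    (T R : ℝ) : ∃ C : ℝ, 0 ≤ C ∧ ∀ p : Ph, p.1 ∈ Icc 0 T → ‖p.2.2‖ ≤ R → |G p| ≤ C := by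
  obtain ⟨C, hC⟩ := ((isCompact_Icc (a := (0 : ℝ)) (b := T)).prod
    ((isCompact_closedBall (0 : R3) 1).prod (isCompact_closedBall (0 : R3) R))).exists_bound_of_continuousOn
    hG.continuousOn
  refine ⟨max C 0, le_max_right _ _, ?_⟩
  rintro ⟨t, x, v⟩ ht hv
  obtain ⟨m, hm⟩ := exists_red_eq x
  have e : G (t, x, v) = G (t, red x, v) := by rw [← hp t (red x) v m, hm, sub_add_cancel]
  rw [e]
  refine le_trans (hC (t, red x, v) ⟨ht, ?_, ?_⟩) (le_max_left _ _)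
  · exact mem_closedBall_zero_iff.2 (tn_le_one x)
  · simpa using hv

theorem ch_sub (p : Ph) : ch (p.2.1 - p.1 • p.2.2, p.2.2) p.1 = p := by simp [ch]

theorem trD_eq_zero {Φ : Ph → ℝ} (h : Differentiable ℝ Φ) {p : Ph}
    (h0 : ∀ᶠ s in 𝓝 p.1, ∀ x, Φ (s, x, p.2.2) = 0) : trD Φ p = 0 := by
  have h1 := hasDerivAt_comp h (p.2.1 - p.1 • p.2.2, p.2.2) p.1
  rw [ch_sub] at h1
  refine h1.unique ((hasDerivAt_const p.1 (0 : ℝ)).congr_of_eventuallyEq ?_)
  exact h0.mono fun s hs => hs _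

theorem one_le_jb (v : R3) : 1 ≤ jb v := le_add_of_nonneg_right (norm_nonneg v)

theorem measurableSet_region : MeasurableSet region :=
  measurableSet_Ioi.prod (measurableSet_cell.prod MeasurableSet.univ)

theorem strip_subset (T : ℝ) : strip T ⊆ region := fun _ hp => ⟨hp.1.1, hp.2⟩

theorem le_of_diff {T : ℝ} {p : Ph} (hp : p ∈ region \ strip T) : T ≤ p.1 :=
  not_lt.1 fun h => hp.2 ⟨⟨hp.1.1, h⟩, hp.1.2⟩

theorem integrableOn_region {T : ℝ} {f : Ph → ℝ} (hf : IntegrableOn f (strip T))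
    (h0 : ∀ p : Ph, T ≤ p.1 → f p = 0) : IntegrableOn f region :=
  hf.of_forall_sdiff_eq_zero measurableSet_region fun p hp => h0 p (le_of_diff hp)

theorem integral_region {T : ℝ} {f : Ph → ℝ} (h0 : ∀ p : Ph, T ≤ p.1 → f p = 0) :
    ∫ p in region, f p = ∫ p in strip T, f p :=
  setIntegral_eq_of_subset_of_forall_sdiff_eq_zero measurableSet_region (strip_subset T)
    fun p hp => h0 p (le_of_diff hp)

theorem weak {F : PF} (h : ∀ T, 0 < T → WSol F T) : IsWeakSolution (rl F) (rl F 0) := by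
  rintro φ ⟨hs, hper, T₀, R, h0⟩
  set Φ : Ph → ℝ := fun p => φ p.1 p.2.1 p.2.2 with hΦ
  have hd : Differentiable ℝ Φ := hs.differentiable (by simp)
  have hp : ∀ t x v m, Φ (t, x + lat m, v) = Φ (t, x, v) := fun t x v m =>
    lat_periodic_of_isPeriodic3 (hper t v) x m
  set T := max T₀ 0 + 1 with hT
  have hT0 : 0 < T := by have := le_max_right T₀ 0; linarith
  have hT1 : T₀ < T := by have := le_max_left T₀ 0; linarith
  have z1 : ∀ p : Ph, T ≤ p.1 → Φ p = 0 := fun p hp => h0 _ _ _ (Or.inl (hT1.le.trans hp))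
  have z2 : ∀ p : Ph, T ≤ p.1 → trD Φ p = 0 := fun p hp => trD_eq_zero hd
    ((lt_mem_nhds (hT1.trans_le hp)).mono fun s hs x => h0 _ _ _ (Or.inl hs.le))
  obtain ⟨C₁, hC₁, b₁⟩ := bound hs.continuous hp T R
  obtain ⟨C₂, hC₂, b₂⟩ := bound (continuous_trD hs) (trD_per hp) T R
  have hw := h T hT0
  obtain ⟨i1, i2, -, i4, e⟩ := hw.weak_gen Φ (trD Φ) hs.continuous.measurable
    (continuous_trD hs).measurable hp (trD_per hp) (hasDerivAt_comp hd)
    (fun q => (continuous_trD hs).comp (continuous_ch q)) (C₁ + C₂) 0 (fun p hp => by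
      rw [pow_zero, mul_one]
      rcases le_total ‖p.2.2‖ R with hv | hv
      · exact ⟨(b₁ p hp hv).trans (by linarith), (b₂ p hp hv).trans (by linarith)⟩
      · rw [show Φ p = 0 from h0 _ _ _ (Or.inr hv),
          trD_eq_zero hd (Eventually.of_forall fun s x => h0 _ _ _ (Or.inr hv)), abs_zero]
        exact ⟨by linarith, by linarith⟩) T ⟨hT0.le, le_rfl⟩
  have hae : ∀ᵐ p ∂(volume.restrict (strip T)), Qr F p * Φ p =
      ((collGain (rl F) p.1 p.2.1 p.2.2).toReal - (collLoss (rl F) p.1 p.2.1 p.2.2).toReal) *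
        φ p.1 p.2.1 p.2.2 := hw.coll_ae.mono fun p hp => by rw [hp.1, hp.2]; rfl
  simp only [transportD_eq hd]
  refine ⟨integrableOn_region i1 fun p hp => by rw [z2 p hp, mul_zero],
    integrableOn_region (i2.congr hae) fun p hp => by rw [show φ _ _ _ = 0 from z1 p hp, mul_zero],
    i4, ?_⟩
  rw [integral_region (T := T) fun p hp => by
    rw [z2 p hp, show φ _ _ _ = 0 from z1 p hp, mul_zero, mul_zero, add_zero]]
  have e0 : ∫ q in cell ×ˢ (univ : Set R3), rl F T q.1 q.2 * Φ (T, q.1, q.2) = 0 := by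
    simp only [z1 (T, _, _) le_rfl, mul_zero, integral_zero]
  rw [e0] at e
  refine Eq.trans ?_ e.symm
  rw [add_comm]
  exact congrArg₂ (· + ·) rfl (integral_congr_ae (hae.mono fun p hp =>
    congrArg (fun y => (F p).toReal * trD Φ p + y) hp.symm))

theorem psi_prop {ψ : R3 → ℝ}
    (hψ : ψ = (fun _ => 1) ∨ (∃ i : Fin 3, ψ = fun v => v i) ∨ ψ = fun v => ‖v‖ ^ 2 / 2) :
    Continuous ψ ∧ ∀ v, |ψ v| ≤ jb v ^ 2 := by
  have h1 : ∀ v, jb v ≤ jb v ^ 2 := fun v => le_self_pow₀ (one_le_jb v) two_ne_zero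
  rcases hψ with rfl | ⟨i, rfl⟩ | rfl
  · exact ⟨continuous_const, fun v => by simpa using (one_le_jb v).trans (h1 v)⟩
  · refine ⟨by fun_prop, fun v => le_trans ?_ (h1 v)⟩
    have : |v i| ≤ ‖v‖ := by simpa using PiLp.norm_apply_le v i
    unfold jb; linarith
  · refine ⟨by fun_prop, fun v => ?_⟩
    rw [abs_of_nonneg (by positivity)]
    unfold jb
    nlinarith [norm_nonneg v]

theorem cons {F : PF} (h : ∀ T, 0 < T → WSol F T) : HasLocalConservation (rl F) (rl F 0) := by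
  rintro ψ hψ ϕ hs0 hper ⟨T₀, h0⟩
  obtain ⟨hψc, hψb⟩ := psi_prop hψ
  set Φ : Ph → ℝ := fun p => ϕ p.1 p.2.1 with hΦ
  have hs : ContDiff ℝ ∞ Φ := hs0.comp (f := fun p : Ph => (p.1, p.2.1)) (by fun_prop)
  have hd : Differentiable ℝ Φ := hs.differentiable (by simp)
  have hp : ∀ t x v m, Φ (t, x + lat m, v) = Φ (t, x, v) := fun t x v m =>
    lat_periodic_of_isPeriodic3 (hper t) x m
  set T := max T₀ 0 + 1 with hT
  have hT0 : 0 < T := by have := le_max_right T₀ 0; linarith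
  have hT1 : T₀ < T := by have := le_max_left T₀ 0; linarith
  have z1 : ∀ p : Ph, T ≤ p.1 → Φ p = 0 := fun p hp => h0 _ _ (hT1.le.trans hp)
  have z2 : ∀ p : Ph, T ≤ p.1 → trD Φ p = 0 := fun p hp => trD_eq_zero hd
    ((lt_mem_nhds (hT1.trans_le hp)).mono fun s hs x => h0 _ _ hs.le)
  obtain ⟨C₁, hC₁, b₁⟩ := bound hs.continuous hp T 0
  obtain ⟨C₂, hC₂, b₂⟩ := bound (G := fun p => ‖fderiv ℝ Φ p‖)
    (hs.continuous_fderiv (by simp)).norm (fun t x v m => by rw [fderiv_per hp]) T 0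
  have c₁ : ∀ p : Ph, p.1 ∈ Icc 0 T → |Φ p| ≤ C₁ := fun p hp => b₁ (p.1, p.2.1, 0) hp (by simp)
  have c₂ : ∀ p : Ph, p.1 ∈ Icc 0 T → |trD Φ p| ≤ C₂ * jb p.2.2 := fun p hp => by
    have e : fderiv ℝ Φ p = fderiv ℝ Φ (p.1, p.2.1, 0) := by
      have := fderiv_inv (Φ := Φ) (a := (0, 0, p.2.2)) (fun p => by simp [hΦ]) (p.1, p.2.1, 0)
      simpa [Prod.add_def] using this
    have b := (le_abs_self _).trans (b₂ (p.1, p.2.1, 0) hp (by simp))
    refine ((fderiv ℝ Φ p).le_opNorm _).trans (mul_le_mul (e ▸ b) ?_ (norm_nonneg _) hC₂)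
    simp only [Prod.norm_def, norm_one, norm_zero, jb]
    exact max_le (le_add_of_nonneg_right (norm_nonneg _))
      (max_le (le_add_of_nonneg_left zero_le_one) (by positivity))
  have hw := h T hT0
  have hψ' : Continuous fun p : Ph => ψ p.2.2 := hψc.comp (by fun_prop)
  obtain ⟨i1, i2, -, i4, e⟩ := hw.weak_gen (fun p => ψ p.2.2 * Φ p) (fun p => ψ p.2.2 * trD Φ p)
    (hψ'.mul hs.continuous).measurable (hψ'.mul (continuous_trD hs)).measurable
    (fun t x v m => by simp only [hp]) (fun t x v m => by simp only [trD_per hp])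
    (fun q s => (hasDerivAt_comp hd q s).const_mul (ψ q.2))
    (fun q => (hψ'.mul (continuous_trD hs)).comp (continuous_ch q)) (C₁ + C₂) 3 (fun p hp => by
      have j1 := one_le_jb p.2.2
      have j2 : jb p.2.2 ^ 2 ≤ jb p.2.2 ^ 3 := pow_le_pow_right₀ j1 (by norm_num)
      have j3 := hψb p.2.2
      rw [abs_mul, abs_mul]
      constructor
      · calc _ ≤ jb p.2.2 ^ 3 * C₁ := mul_le_mul (j3.trans j2) (c₁ p hp) (abs_nonneg _) (by positivity)
          _ ≤ _ := by rw [mul_comm]; gcongr; linarith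
      · calc _ ≤ jb p.2.2 ^ 2 * (C₂ * jb p.2.2) := mul_le_mul j3 (c₂ p hp) (abs_nonneg _) (by positivity)
          _ = C₂ * jb p.2.2 ^ 3 := by ring
          _ ≤ _ := by gcongr; linarith) T ⟨hT0.le, le_rfl⟩
  have e1 := hw.lint_Qr_invariant ψ hψ (fun z => ϕ z.1 z.2) hs0.continuous.measurable C₁
    fun z hz => c₁ (z.1, z.2, 0) hz
  have e2 : ∀ p : Ph, transportD (fun t x _ => ϕ t x) p.1 p.2.1 p.2.2 = trD Φ p :=
    transportD_eq (φ := fun t x _ => ϕ t x) hd
  simp only [e2, mul_assoc]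
  refine ⟨integrableOn_region i1 fun p hp => by rw [z2 p hp, mul_zero, mul_zero], i4, ?_⟩
  rw [integral_region (T := T) fun p hp => by rw [z2 p hp, mul_zero, mul_zero]]
  have e0 : ∫ q in cell ×ˢ (univ : Set R3), rl F T q.1 q.2 * (ψ q.2 * Φ (T, q.1, q.2)) = 0 := by
    simp only [z1 (T, _, _) le_rfl, mul_zero, integral_zero]
  rw [e0, integral_add i1 i2, show ∫ p in strip T, Qr F p * (ψ p.2.2 * Φ p) = 0 from e1,
    add_zero] at e
  exact (add_comm _ _).trans e.symm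

end
end Crest.Agent.R68.W3A
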