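import Crest.Agent.R68.W2

/-! # Row 68: weak-solution module, part 3B: strong `L¹` continuity -/

set_option autoImplicit false
open MeasureTheory Set Filter Topology
open scoped ENNReal NNReal
open Crest.AnalysisR.VecCalc3 Crest.AnalysisR.PDE.Boltzmann

namespace Crest.Agent.R68
noncomputable section

/-- continuity of translations in `L¹(ℝ³)` -/
theorem W3B_translate (ψ : R3 → ℝ) (hψ : Integrable ψ) :
    Tendsto (fun z : R3 => ∫⁻ x, ‖ψ (x + z) - ψ x‖ₑ) (𝓝 0) (𝓝 0) := by
  have hm : MemLp ψ 1 (volume : Measure R3) := memLp_one_iff_integrable.2 hψ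
  let g : C(R3 × R3, R3) := ⟨fun p => p.2 + p.1, by fun_prop⟩
  have hg : ∀ z, MeasurePreserving (g.curry z) (volume : Measure R3) volume := fun z =>
    measurePreserving_add_right volume z
  have hc : Continuous fun z : R3 =>
      Lp.compMeasurePreserving (g.curry z) (hg z) (hm.toLp ψ) :=
    continuous_const.compMeasurePreservingLp g.curry.continuous hg ENNReal.one_ne_top
  have h1 : Tendsto (fun z : R3 => edist (Lp.compMeasurePreserving (g.curry z) (hg z) (hm.toLp ψ))
      (Lp.compMeasurePreserving (g.curry 0) (hg 0) (hm.toLp ψ))) (𝓝 0) (𝓝 0) :=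
    tendsto_iff_edist_tendsto_0.1 (hc.tendsto 0)
  refine h1.congr fun z => ?_
  rw [Lp.edist_def, eLpNorm_one_eq_lintegral_enorm]
  refine lintegral_congr_ae ?_
  have e : ∀ z : R3, (Lp.compMeasurePreserving (g.curry z) (hg z) (hm.toLp ψ) : R3 → ℝ) =ᵐ[volume]
      fun x => ψ (x + z) := fun z =>
    (Lp.coeFn_compMeasurePreserving _ (hg z)).trans
      ((hg z).quasiMeasurePreserving.ae_eq_comp hm.coeFn_toLp)
  filter_upwards [e z, e 0] with x h1 h2
  rw [Pi.sub_apply, h1, h2, add_zero]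

theorem W3B_norm_cell {x : R3} (hx : x ∈ cell) : ‖x‖ ≤ 2 := by
  rw [EuclideanSpace.norm_eq]
  refine Real.sqrt_le_iff.2 ⟨by norm_num, ?_⟩
  have h : ∀ i, ‖x i‖ ^ 2 ≤ 1 := fun i => by
    have := hx i
    rw [Real.norm_eq_abs, sq_abs]
    nlinarith [this.1, this.2]
  rw [Fin.sum_univ_three]
  linarith [h 0, h 1, h 2]

/-- continuity of translations in `L¹` of the torus -/
theorem W3B_translate_cell (φ : R3 → ℝ) (hφ : Measurable φ) (hp : ∀ x m, φ (x + lat m) = φ x)
    (hi : ∫⁻ x in cell, ‖φ x‖ₑ ≠ ⊤) :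
    Tendsto (fun z : R3 => ∫⁻ x in cell, ‖φ (x + z) - φ x‖ₑ) (𝓝 0) (𝓝 0) := by
  set B : Set R3 := {x : R3 | ‖x - 0‖ ≤ 3} with hB
  have hBm : MeasurableSet B := by
    refine measurableSet_le (by fun_prop) measurable_const
  have hψ : Integrable (B.indicator φ) := by
    rw [integrable_indicator_iff hBm]
    refine ⟨hφ.aestronglyMeasurable, ?_⟩
    refine lt_of_le_of_lt (lint_ball_le_cell (fun x => ‖φ x‖ₑ) hφ.enorm
      (fun x m => by rw [hp]) 0 3 (by norm_num)) ?_
    exact ENNReal.mul_lt_top ENNReal.ofReal_lt_top hi.lt_top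
  refine tendsto_of_tendsto_of_tendsto_of_le_of_le' tendsto_const_nhds (W3B_translate _ hψ)
    (Eventually.of_forall fun _ => zero_le) ?_
  filter_upwards [Metric.closedBall_mem_nhds (0 : R3) one_pos] with z hz
  refine le_trans (le_of_eq ?_) (setLIntegral_le_lintegral cell _)
  refine setLIntegral_congr_fun measurableSet_cell fun x hx => ?_
  have h1 := W3B_norm_cell hx
  have h2 : ‖z‖ ≤ 1 := by simpa using hz
  have h3 : x + z ∈ B := by
    have := norm_add_le x z
    simp only [hB, mem_ofPred_eq, sub_zero]; linarith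
  have h4 : x ∈ B := by
    simp only [hB, mem_ofPred_eq, sub_zero]; linarith
  simp only [indicator_of_mem h3, indicator_of_mem h4]

theorem W3B_lint_swap (f : R3 × R3 → ℝ≥0∞) (hf : Measurable f) :
    ∫⁻ q in cell ×ˢ (univ : Set R3), f q = ∫⁻ v, ∫⁻ x in cell, f (x, v) := by
  rw [Measure.volume_eq_prod, ← Measure.prod_restrict, Measure.restrict_univ,
    lintegral_prod_symm' f hf]

/-- continuity of shears in `L¹` of the phase space -/
theorem W3B_shear (g : R3 × R3 → ℝ) (hg : Measurable g)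
    (hp : ∀ x v m, g (x + lat m, v) = g (x, v))
    (hi : ∫⁻ q in cell ×ˢ (univ : Set R3), ‖g q‖ₑ ≠ ⊤) :
    Tendsto (fun τ : ℝ => ∫⁻ q in cell ×ˢ (univ : Set R3), ‖g (q.1 + τ • q.2, q.2) - g q‖ₑ)
      (𝓝 0) (𝓝 0) := by
  have hm : ∀ τ : ℝ, Measurable fun q : R3 × R3 => ‖g (q.1 + τ • q.2, q.2) - g q‖ₑ := fun τ =>
    ((hg.comp (by fun_prop)).sub hg).enorm
  have hm0 : Measurable fun v : R3 => ∫⁻ x in cell, ‖g (x, v)‖ₑ :=
    hg.enorm.lintegral_prod_left'
  rw [W3B_lint_swap _ hg.enorm] at hi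
  simp only [W3B_lint_swap _ (hm _)]
  have key := tendsto_lintegral_filter_of_dominated_convergence (μ := (volume : Measure R3))
    (l := 𝓝 (0 : ℝ)) (F := fun τ v => ∫⁻ x in cell, ‖g (x + τ • v, v) - g (x, v)‖ₑ)
    (f := fun _ => 0) (fun v => 2 * ∫⁻ x in cell, ‖g (x, v)‖ₑ)
    (Eventually.of_forall fun τ => (hm τ).lintegral_prod_left')
    (Eventually.of_forall fun τ => Eventually.of_forall fun v => ?_) ?_ ?_
  · simpa using key
  · have h1 : Measurable fun x : R3 => ‖g (x, v)‖ₑ := (hg.comp (by fun_prop)).enorm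
    have h2 := lint_cell_shift (fun x => ‖g (x, v)‖ₑ) h1 (fun x m => by rw [hp]) (τ • v)
    calc ∫⁻ x in cell, ‖g (x + τ • v, v) - g (x, v)‖ₑ
        ≤ ∫⁻ x in cell, (‖g (x + τ • v, v)‖ₑ + ‖g (x, v)‖ₑ) :=
          lintegral_mono fun x => enorm_sub_le
      _ = _ := by rw [lintegral_add_right _ h1, h2, two_mul]
  · rw [lintegral_const_mul _ hm0]
    exact ENNReal.mul_ne_top (by norm_num) hi
  · filter_upwards [ae_lt_top hm0 hi] with v hv
    have h1 := W3B_translate_cell (fun x => g (x, v)) (hg.comp (by fun_prop))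
      (fun x m => hp x v m) hv.ne
    have h2 : Tendsto (fun τ : ℝ => τ • v) (𝓝 0) (𝓝 0) := by
      have : Continuous fun τ : ℝ => τ • v := by fun_prop
      simpa using this.tendsto 0
    exact h1.comp h2

theorem W3B_per_Qr {F : PF} (hF : Per F) (t : ℝ) (x v : R3) (m : Fin 3 → ℤ) :
    Qr F (t, x + lat m, v) = Qr F (t, x, v) := by
  unfold Qr
  rw [(hF.QF hF) t x v m, hF t x v m, hF.LF t x v m]

/-- continuity in `L¹` along the characteristics -/
theorem W3B_char {F : PF} {T : ℝ} (h : WSol F T) {t : ℝ} (ht : t ∈ Icc 0 T) :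
    Tendsto (fun s => ∫⁻ q in cell ×ˢ (univ : Set R3),
      ‖(F (ch q s)).toReal - (F (ch q t)).toReal‖ₑ) (𝓝[Icc 0 T] t) (𝓝 0) := by
  have hQ : Measurable fun p => ‖Qr F p‖ₑ := (measurable_Qr h.meas).enorm
  have hch : ∀ s, Measurable fun q : R3 × R3 => (F (ch q s)).toReal := fun s =>
    (h.meas.comp (measurable_ch.comp (measurable_id.prodMk measurable_const))).ennreal_toReal
  have hb : Measurable fun q : R3 × R3 => ∫⁻ s in Ioo 0 T, ‖Qr F (ch q s)‖ₑ :=
    (hQ.comp measurable_ch).lintegral_prod_right'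
  have key := tendsto_lintegral_filter_of_dominated_convergence
    (μ := (volume : Measure (R3 × R3)).restrict (cell ×ˢ (univ : Set R3)))
    (l := 𝓝[Icc 0 T] t) (F := fun s q => ‖(F (ch q s)).toReal - (F (ch q t)).toReal‖ₑ)
    (f := fun _ => 0) (fun q => 2 * ∫⁻ s in Ioo 0 T, ‖Qr F (ch q s)‖ₑ)
    (Eventually.of_forall fun s => ((hch s).sub (hch t)).enorm) ?_ ?_ ?_
  · simpa using key
  · filter_upwards [self_mem_nhdsWithin] with s hs
    filter_upwards [h.linear] with q hq
    have hb : ∀ r ∈ Icc 0 T, ‖∫ s in Ioo 0 r, Qr F (ch q s)‖ₑ ≤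
        ∫⁻ s in Ioo 0 T, ‖Qr F (ch q s)‖ₑ := fun r hr =>
      (enorm_integral_le_lintegral_enorm _).trans
        (lintegral_mono_set (Ioo_subset_Ioo_right hr.2))
    rw [hq.2.2 s hs, hq.2.2 t ht, add_sub_add_left_eq_sub, two_mul]
    exact enorm_sub_le.trans (add_le_add (hb s hs) (hb t ht))
  · rw [lintegral_const_mul _ hb, lint_strip_ch (fun p => ‖Qr F p‖ₑ) hQ
      (fun t x v m => by simp only [W3B_per_Qr h.per]) 0 T]
    refine ENNReal.mul_ne_top (by norm_num) ?_
    have := (h.integrableOn_Qr 0).2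
    simp only [pow_zero, one_mul] at this
    exact this.ne
  · filter_upwards [h.linear] with q hq
    have h1 : IntegrableOn (fun s => Qr F (ch q s)) (Icc 0 T) :=
      (integrableOn_Icc_iff_integrableOn_Ioo).2 hq.1
    have h2 := intervalIntegral.continuousOn_primitive h1 t ht
    simp only [integral_Ioc_eq_integral_Ioo] at h2
    have h3 : Tendsto (fun s => (F (ch q s)).toReal - (F (ch q t)).toReal) (𝓝[Icc 0 T] t) (𝓝 0) := by
      have h4 := h2.tendsto.sub_const (∫ s in Ioo 0 t, Qr F (ch q s))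
      rw [sub_self] at h4
      refine h4.congr' ?_
      filter_upwards [self_mem_nhdsWithin] with s hs
      rw [hq.2.2 s hs, hq.2.2 t ht, add_sub_add_left_eq_sub]
    simpa using h3.enorm

theorem W3B_l1_continuous {F : PF} (h : ∀ T, 0 < T → WSol F T) (t : ℝ) (ht : 0 ≤ t) :
    Tendsto (fun s => ∫⁻ q in cell ×ˢ Set.univ,
      ‖rl F s q.1 q.2 - rl F t q.1 q.2‖ₑ ∂(volume : Measure (R3 × R3))) (nhdsWithin t (Set.Ici 0))
      (nhds 0) := by
  have hW := h (t + 1) (by linarith)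
  have htT : t ∈ Icc 0 (t + 1) := ⟨ht, by linarith⟩
  have hm : ∀ s, Measurable fun q : R3 × R3 => rl F s q.1 q.2 := fun s =>
    (hW.meas.comp (measurable_const.prodMk measurable_id)).ennreal_toReal
  have hper : ∀ s x v m, rl F s (x + lat m) v = rl F s x v := fun s x v m => by
    simp only [rl, hW.per s x v m]
  have hle : 𝓝[Ici 0] t ≤ 𝓝[Icc 0 (t + 1)] t := by
    rw [← Ici_inter_Iic, nhdsWithin_inter_of_mem']
    exact mem_nhdsWithin_of_mem_nhds (Iic_mem_nhds (by linarith))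
  have h1 := (W3B_char hW htT).mono_left hle
  have hi : ∫⁻ q in cell ×ˢ (univ : Set R3), ‖rl F t q.1 q.2‖ₑ ≠ ⊤ := by
    obtain ⟨C, hC, hmo⟩ := hW.moment 0
    refine ne_top_of_le_ne_top hC (le_trans (lintegral_mono fun q => ?_) (hmo t htT))
    simp only [rl, pow_zero, ENNReal.ofReal_one, one_mul]
    rw [Real.enorm_eq_ofReal ENNReal.toReal_nonneg]
    exact ENNReal.ofReal_toReal_le
  have h2 := W3B_shear (fun q => rl F t q.1 q.2) (hm t) (hper t) hi
  have h3 : Tendsto (fun s : ℝ => s - t) (𝓝[Ici 0] t) (𝓝 0) := by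
    have : Continuous fun s : ℝ => s - t := by fun_prop
    simpa using (this.tendsto t).mono_left nhdsWithin_le_nhds
  have h4 := h1.add (h2.comp h3)
  rw [add_zero] at h4
  refine tendsto_of_tendsto_of_tendsto_of_le_of_le tendsto_const_nhds h4 (fun _ => zero_le)
    fun s => ?_
  have e1 := lint_cell_ch (fun p => ‖rl F s p.2.1 p.2.2 - rl F t p.2.1 p.2.2‖ₑ)
    ((((hm s).sub (hm t)).enorm).comp measurable_snd) (fun _ x v m => by simp only [hper]) s
  have m2 : Measurable fun q : R3 × R3 =>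
      ‖rl F t (q.1 + (s - t) • q.2) q.2 - rl F t q.1 q.2‖ₑ :=
    (((hm t).comp (f := fun q : R3 × R3 => (q.1 + (s - t) • q.2, q.2)) (by fun_prop)).sub
      (hm t)).enorm
  have e2 := lint_cell_ch
    (fun p => ‖rl F t (p.2.1 + (s - t) • p.2.2) p.2.2 - rl F t p.2.1 p.2.2‖ₑ)
    (m2.comp measurable_snd) (fun _ x v m => by
      simp only [add_right_comm x (lat m), hper]) t
  have m1 : Measurable fun q : R3 × R3 => ‖(F (ch q s)).toReal - (F (ch q t)).toReal‖ₑ := by
    have hch : ∀ s, Measurable fun q : R3 × R3 => (F (ch q s)).toReal := fun s =>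
      (hW.meas.comp (measurable_ch.comp (measurable_id.prodMk measurable_const))).ennreal_toReal
    exact ((hch s).sub (hch t)).enorm
  simp only [Function.comp]
  rw [← e1, ← e2, ← lintegral_add_left m1]
  refine lintegral_mono fun q => ?_
  have e3 : q.1 + t • q.2 + (s - t) • q.2 = q.1 + s • q.2 := by
    rw [add_assoc, ← add_smul]; congr 2; ring
  simp only [ch, rl, e3]
  calc _ = ‖((F (s, q.1 + s • q.2, q.2)).toReal - (F (t, q.1 + t • q.2, q.2)).toReal) -
        ((F (t, q.1 + s • q.2, q.2)).toReal - (F (t, q.1 + t • q.2, q.2)).toReal)‖ₑ := by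
        congr 1; ring
    _ ≤ _ := enorm_sub_le

end
end Crest.Agent.R68
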