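import Crest.Agent.R68.W2
import Crest.Agent.R68.W3B
import Crest.Agent.R68.W3AuxA

/-! # Row 68: weak-solution module, part 3: distributional statements and continuity -/

set_option autoImplicit false
open MeasureTheory Set Filter Topology
open scoped ENNReal NNReal
open Crest.AnalysisR.VecCalc3 Crest.AnalysisR.PDE.Boltzmann

namespace Crest.Agent.R68
noncomputable section

/-- `d/ds φ (s, x + s v, v) = transportD φ` for smooth `φ` (chain rule, `v = Σ v i • single i 1`);
smooth periodic functions and their first derivatives are bounded on `[0,T] × ℝ³ × B(0,R)`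
(compactness of `[0,T] × [0,1]³ × closedBall`, periodicity); outside `strip T` (inside `region`, up to the
null set `t = T`) `φ` and `transportD φ` vanish. -/
theorem isWeakSolution_of {F : PF} (h : ∀ T, 0 < T → WSol F T) : IsWeakSolution (rl F) (rl F 0) :=
  W3A.weak h

theorem hasLocalConservation_of {F : PF} (h : ∀ T, 0 < T → WSol F T) :
    HasLocalConservation (rl F) (rl F 0) :=
  W3A.cons h

/-- `‖F(s) - F(t)‖₁ ≤ ‖F♯(s) - F♯(t)‖₁ + ‖G(x - s v) - G(x - t v)‖₁` with `G = F♯(t) ∈ L¹(cell × ℝ³)`
periodic; the first term is at most `∫_{(s,t)} |Qr|`, the second tends to `0` by continuity of shear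
translations in `L¹` (approximate the periodic `G` by a continuous compactly supported function
inside the open cell: `Integrable.exists_hasCompactSupport_integral_sub_le`, or use
`Lp.compMeasurePreserving` continuity on `(Fin 3 → UnitAddCircle) × R3`). -/
theorem l1_continuous_of {F : PF} (h : ∀ T, 0 < T → WSol F T) (t : ℝ) (ht : 0 ≤ t) :
    Tendsto (fun s => ∫⁻ q in cell ×ˢ Set.univ,
      ‖rl F s q.1 q.2 - rl F t q.1 q.2‖ₑ ∂(volume : Measure (R3 × R3))) (nhdsWithin t (Set.Ici 0))
      (nhds 0) :=
  W3B_l1_continuous h t ht

end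
end Crest.Agent.R68
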