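import Crest.Agent.R68.PrePost

/-! # Row 68: auxiliary lemmas for the velocity part of the entropy inequality -/

set_option autoImplicit false
open MeasureTheory Set Filter Topology
open scoped ENNReal NNReal
open Crest.AnalysisR.VecCalc3 Crest.AnalysisR.PDE.Boltzmann

namespace Crest.Agent.R68.W4A
noncomputable section

/-- collision space -/
abbrev X : Type := R3 × R3 × R3
/-- its measure -/
abbrev m3 : Measure X := volume.prod (volume.prod sphereMeasure)
/-- exchange of the particles -/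
def sw (z : X) : X := (z.2.1, z.1, z.2.2)
/-- the collision map -/
def pp (z : X) : X := (postVel z.1 z.2.1 z.2.2, postVelStar z.1 z.2.1 z.2.2, z.2.2)
/-- the cross section -/
def ar (z : X) : ℝ := |inner ℝ (z.1 - z.2.1) z.2.2|
/-- tensor product -/
def pr (u u' : R3 → ℝ) (z : X) : ℝ := u z.1 * u' z.2.1
/-- the collisional difference -/
def dl (φ : R3 → ℝ) (z : X) : ℝ := φ (pp z).1 + φ (pp z).2.1 - φ z.1 - φ z.2.1

@[fun_prop] theorem measurable_post {α : Type} [MeasurableSpace α] {a b c : α → R3}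
    (ha : Measurable a) (hb : Measurable b) (hc : Measurable c) :
    Measurable fun x => postVel (a x) (b x) (c x) := by unfold postVel; fun_prop
@[fun_prop] theorem measurable_postS {α : Type} [MeasurableSpace α] {a b c : α → R3}
    (ha : Measurable a) (hb : Measurable b) (hc : Measurable c) :
    Measurable fun x => postVelStar (a x) (b x) (c x) := by unfold postVelStar; fun_prop
@[fun_prop] theorem measurable_sw : Measurable sw := by unfold sw; fun_prop
@[fun_prop] theorem measurable_pp : Measurable pp :=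
  measurable_postVel.prodMk (measurable_postVelStar.prodMk (by fun_prop))
@[fun_prop] theorem measurable_ar : Measurable ar := by unfold ar; fun_prop
@[fun_prop] theorem measurable_pr {u u' : R3 → ℝ} (hu : Measurable u) (hu' : Measurable u') :
    Measurable (pr u u') := by unfold pr; fun_prop
@[fun_prop] theorem measurable_dl {φ : R3 → ℝ} (h : Measurable φ) : Measurable (dl φ) := by
  unfold dl; fun_prop
@[fun_prop] theorem measurable_jb : Measurable jb := by unfold jb; fun_prop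
@[fun_prop] theorem measurable_maxwellian : Measurable maxwellian := by
  unfold maxwellian; fun_prop

theorem one_le_jb (v : R3) : 1 ≤ jb v := by simp [jb]
theorem jb_pos (v : R3) : 0 < jb v := one_pos.trans_le (one_le_jb v)
theorem ar_nonneg (z : X) : 0 ≤ ar z := abs_nonneg _
theorem maxwellian_pos (v : R3) : 0 < maxwellian v := by unfold maxwellian; positivity

theorem lint3 (Ψ : X → ℝ≥0∞) (h : Measurable Ψ) :
    ∫⁻ z, Ψ z ∂m3 = ∫⁻ v, ∫⁻ vs, ∫⁻ w, Ψ (v, vs, w) ∂sphereMeasure := by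
  rw [lintegral_prod _ h.aemeasurable]
  refine lintegral_congr fun v => ?_
  exact lintegral_prod _ (h.comp measurable_prodMk_left).aemeasurable

theorem mp_of_lint {T : X → X} (hT : Measurable T)
    (h : ∀ Ψ : X → ℝ≥0∞, Measurable Ψ → ∫⁻ z, Ψ (T z) ∂m3 = ∫⁻ z, Ψ z ∂m3) :
    MeasurePreserving T m3 m3 := by
  refine ⟨hT, Measure.ext fun s hs => ?_⟩
  rw [← lintegral_indicator_one hs, ← lintegral_indicator_one hs,
    lintegral_map (measurable_one.indicator hs) hT]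
  exact h _ (measurable_one.indicator hs)

theorem mp_pp : MeasurePreserving pp m3 m3 := mp_of_lint measurable_pp fun Ψ h => by
  rw [lint3 (fun z => Ψ (pp z)) (h.comp measurable_pp), lint3 _ h]
  exact lint_prepost Ψ h

theorem mp_sw : MeasurePreserving sw m3 m3 := mp_of_lint measurable_sw fun Ψ h => by
  rw [lint3 (fun z => Ψ (sw z)) (h.comp measurable_sw), lint3 _ h]
  refine lintegral_lintegral_swap (f := fun v vs => ∫⁻ w, Ψ (vs, v, w) ∂sphereMeasure) ?_
  refine (Measurable.lintegral_prod_right' (f := fun x : (R3 × R3) × R3 => Ψ (x.1.2, x.1.1, x.2))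
    (by fun_prop)).aemeasurable

theorem ae_one : ∀ᵐ z ∂m3, ‖z.2.2‖ = 1 :=
  (Measure.quasiMeasurePreserving_snd.comp Measure.quasiMeasurePreserving_snd).ae ae_norm_one

theorem ar_sw (z : X) : ar (sw z) = ar z := by
  simp only [ar, sw]
  rw [← neg_sub, inner_neg_left, abs_neg]

theorem pp_sw (z : X) : pp (sw z) = sw (pp z) := by
  exact Prod.ext (postVel_swap _ _ _) (Prod.ext (postVel_swap _ _ _).symm rfl)

theorem ar_pp {z : X} (hz : ‖z.2.2‖ = 1) : ar (pp z) = ar z :=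
  (ENNReal.ofReal_eq_ofReal_iff (ar_nonneg _) (ar_nonneg _)).1 (ab_post z.1 z.2.1 z.2.2 hz)

theorem pp_pp {z : X} (hz : ‖z.2.2‖ = 1) : pp (pp z) = z :=
  Prod.ext (post_post _ _ _ hz).1 (Prod.ext (post_post _ _ _ hz).2 rfl)

theorem dl_pp (φ : R3 → ℝ) {z : X} (hz : ‖z.2.2‖ = 1) : dl φ (pp z) = -dl φ z := by
  simp only [dl, pp_pp hz]
  ring

theorem energy {z : X} (hz : ‖z.2.2‖ = 1) :
    ‖(pp z).1‖ ^ 2 + ‖(pp z).2.1‖ ^ 2 = ‖z.1‖ ^ 2 + ‖z.2.1‖ ^ 2 := by
  simpa [pp] using post_energy z.1 z.2.1 z.2.2 0 hz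

theorem pr_M_pp {z : X} (hz : ‖z.2.2‖ = 1) :
    pr maxwellian maxwellian (pp z) = pr maxwellian maxwellian z := by
  have h := energy hz
  simp only [pr, maxwellian]
  rw [mul_mul_mul_comm, ← Real.exp_add, mul_mul_mul_comm, ← Real.exp_add]
  congr 2
  linarith

theorem ar_le {z : X} (hz : ‖z.2.2‖ = 1) : ar z ≤ jb z.1 * jb z.2.1 := by
  have h1 := abs_real_inner_le_norm (z.1 - z.2.1) z.2.2
  have h2 := norm_sub_le z.1 z.2.1
  rw [hz, mul_one] at h1
  have := mul_nonneg (norm_nonneg z.1) (norm_nonneg z.2.1)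
  simp only [ar, jb]
  nlinarith

theorem four_le {φ : R3 → ℝ} {K : ℝ} (hK : 0 ≤ K) (hφ : ∀ v, |φ v| ≤ K * jb v ^ 2) {z : X}
    (hz : ‖z.2.2‖ = 1) :
    |φ (pp z).1| + |φ (pp z).2.1| + |φ z.1| + |φ z.2.1| ≤ 6 * K * (jb z.1 ^ 2 * jb z.2.1 ^ 2) := by
  have h := energy hz
  have h1 : jb (pp z).1 ^ 2 + jb (pp z).2.1 ^ 2 + jb z.1 ^ 2 + jb z.2.1 ^ 2 ≤
      6 * (jb z.1 ^ 2 * jb z.2.1 ^ 2) := by
    have a1 : 1 + ‖z.1‖ ^ 2 ≤ jb z.1 ^ 2 := by simp only [jb]; nlinarith [norm_nonneg z.1]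
    have a2 : 1 + ‖z.2.1‖ ^ 2 ≤ jb z.2.1 ^ 2 := by simp only [jb]; nlinarith [norm_nonneg z.2.1]
    have a3 : ∀ v : R3, jb v ^ 2 ≤ 2 + 2 * ‖v‖ ^ 2 := fun v => by
      simp only [jb]; nlinarith [sq_nonneg (‖v‖ - 1)]
    have a4 := mul_le_mul a1 a2 (by positivity) (by positivity)
    have a5 := mul_nonneg (sq_nonneg ‖z.1‖) (sq_nonneg ‖z.2.1‖)
    have a6 := mul_nonneg (sub_nonneg.2 (one_le_pow₀ (n := 2) (one_le_jb z.1)))
      (sub_nonneg.2 (one_le_pow₀ (n := 2) (one_le_jb z.2.1)))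
    have a7 := mul_le_mul (one_le_pow₀ (n := 2) (one_le_jb z.1))
      (one_le_pow₀ (n := 2) (one_le_jb z.2.1)) zero_le_one (by positivity)
    nlinarith [a3 (pp z).1, a3 (pp z).2.1]
  have := mul_le_mul_of_nonneg_left h1 hK
  linarith [hφ (pp z).1, hφ (pp z).2.1, hφ z.1, hφ z.2.1]

theorem sphere_real_le : sphereMeasure.real univ ≤ 13 := by
  have := ENNReal.toReal_mono (by simp) sphere_univ_le
  simpa [Measure.real] using this

/-- functions with a third moment -/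
structure Mo (u : R3 → ℝ) : Prop where
  meas : Measurable u
  nn : ∀ v, 0 ≤ u v
  int : Integrable fun v => u v * jb v ^ 3

theorem int_of {φ u u' : R3 → ℝ} {K : ℝ} (hK : 0 ≤ K) (hφ : ∀ v, |φ v| ≤ K * jb v ^ 2)
    (hu : Mo u) (hu' : Mo u') {c : X → ℝ} (hc : Measurable c)
    (hc' : ∀ z, |c z| ≤ |φ (pp z).1| + |φ (pp z).2.1| + |φ z.1| + |φ z.2.1|) :
    Integrable (fun z => ar z * pr u u' z * c z) m3 ∧
      |∫ z, ar z * pr u u' z * c z ∂m3| ≤
        78 * K * ((∫ v, u v * jb v ^ 3) * ∫ v, u' v * jb v ^ 3) := by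
  have h1 : Integrable (fun z : X => 6 * K * (u z.1 * jb z.1 ^ 3 * (u' z.2.1 * jb z.2.1 ^ 3))) m3 :=
    (hu.int.mul_prod (hu'.int.comp_fst sphereMeasure)).const_mul _
  have h2 : ∀ᵐ z ∂m3, ‖ar z * pr u u' z * c z‖ ≤
      6 * K * (u z.1 * jb z.1 ^ 3 * (u' z.2.1 * jb z.2.1 ^ 3)) := by
    filter_upwards [ae_one] with z hz
    have a1 := mul_nonneg (hu.nn z.1) (hu'.nn z.2.1)
    have a2 := jb_pos z.1
    have a3 := jb_pos z.2.1
    rw [Real.norm_eq_abs, abs_mul, abs_mul, abs_of_nonneg (ar_nonneg z), pr, abs_of_nonneg a1]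
    calc _ ≤ jb z.1 * jb z.2.1 * (u z.1 * u' z.2.1) * (6 * K * (jb z.1 ^ 2 * jb z.2.1 ^ 2)) :=
          mul_le_mul (mul_le_mul_of_nonneg_right (ar_le hz) a1) ((hc' z).trans (four_le hK hφ hz))
            (abs_nonneg _) (by positivity)
      _ = _ := by ring
  have := hu.meas
  have := hu'.meas
  refine ⟨h1.mono' (Measurable.aestronglyMeasurable (by fun_prop)) h2,
    (norm_integral_le_of_norm_le h1 h2).trans ?_⟩
  rw [integral_const_mul, integral_prod_mul (fun v => u v * jb v ^ 3)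
    (fun y : R3 × R3 => u' y.1 * jb y.1 ^ 3), integral_fun_fst (fun v => u' v * jb v ^ 3),
    smul_eq_mul]
  have b1 : 0 ≤ ∫ v, u v * jb v ^ 3 :=
    integral_nonneg fun v => mul_nonneg (hu.nn v) (pow_pos (jb_pos v) 3).le
  have b2 : 0 ≤ ∫ v, u' v * jb v ^ 3 :=
    integral_nonneg fun v => mul_nonneg (hu'.nn v) (pow_pos (jb_pos v) 3).le
  have := mul_le_mul_of_nonneg_left sphere_real_le (mul_nonneg hK (mul_nonneg b1 b2))
  linarith

theorem mo_maxwellian : Mo maxwellian := by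
  refine ⟨measurable_maxwellian, fun v => (maxwellian_pos v).le, ?_⟩
  refine (((integrable_one_add_norm (E := R3) (μ := volume) (r := 4) (by norm_num)).const_mul
    ((2 * Real.pi) ^ (-(3 / 2 : ℝ)) * Real.exp (49 / 2))).mono'
    (Measurable.aestronglyMeasurable (by fun_prop)) (Eventually.of_forall fun v => ?_))
  have h0 := jb_pos v
  have h1 : jb v ^ 7 ≤ Real.exp (49 / 2) * Real.exp (‖v‖ ^ 2 / 2) := by
    calc jb v ^ 7 ≤ Real.exp ‖v‖ ^ 7 := by
          gcongr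
          simpa [jb, add_comm] using Real.add_one_le_exp ‖v‖
      _ ≤ _ := by
          rw [← Real.exp_nat_mul, ← Real.exp_add]
          refine Real.exp_le_exp.2 ?_
          push_cast
          nlinarith [sq_nonneg (‖v‖ - 7)]
  rw [Real.norm_eq_abs, abs_of_pos (mul_pos (maxwellian_pos v) (pow_pos h0 3)), maxwellian,
    mul_assoc, mul_assoc]
  refine mul_le_mul_of_nonneg_left ?_ (by positivity)
  rw [Real.rpow_neg (by positivity), show (4 : ℝ) = (4 : ℕ) by norm_num, Real.rpow_natCast,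
    neg_div, Real.exp_neg, ← div_eq_mul_inv, ← div_eq_inv_mul,
    div_le_div_iff₀ (Real.exp_pos _) (by positivity)]
  calc jb v ^ 3 * (1 + ‖v‖) ^ 4 = jb v ^ 7 := by simp only [jb]; ring
    _ ≤ _ := h1

theorem abs_dl_le (φ : R3 → ℝ) (z : X) :
    |dl φ z| ≤ |φ (pp z).1| + |φ (pp z).2.1| + |φ z.1| + |φ z.2.1| := by
  rw [abs_le, dl]
  constructor <;>
    linarith [le_abs_self (φ (pp z).1), le_abs_self (φ (pp z).2.1), le_abs_self (φ z.1),
      le_abs_self (φ z.2.1), neg_abs_le (φ (pp z).1), neg_abs_le (φ (pp z).2.1),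
      neg_abs_le (φ z.1), neg_abs_le (φ z.2.1)]

/-- `F` is integrable with integral `c` -/
structure HI (F : X → ℝ) (c : ℝ) : Prop where
  int : Integrable F m3
  eq : ∫ z, F z ∂m3 = c

theorem HI.add {F G : X → ℝ} {a b : ℝ} (h : HI F a) (h' : HI G b) :
    HI (fun z => F z + G z) (a + b) :=
  ⟨h.int.add h'.int, by rw [integral_add h.int h'.int, h.eq, h'.eq]⟩

theorem HI.sub {F G : X → ℝ} {a b : ℝ} (h : HI F a) (h' : HI G b) :
    HI (fun z => F z - G z) (a - b) :=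
  ⟨h.int.sub h'.int, by rw [integral_sub h.int h'.int, h.eq, h'.eq]⟩

theorem HI.mul {F : X → ℝ} {a : ℝ} (h : HI F a) (c : ℝ) : HI (fun z => c * F z) (c * a) :=
  ⟨h.int.const_mul c, by rw [integral_const_mul, h.eq]⟩

theorem HI.congr {F G : X → ℝ} {a : ℝ} (h : HI F a) (h' : ∀ z : X, ‖z.2.2‖ = 1 → F z = G z) :
    HI G a :=
  ⟨h.int.congr (ae_one.mono h'), by rw [← integral_congr_ae (ae_one.mono h'), h.eq]⟩

theorem HI.comp {F : X → ℝ} {a : ℝ} (h : HI F a) {T : X → X} (hT : MeasurePreserving T m3 m3) :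
    HI (fun z => F (T z)) a := by
  refine ⟨hT.integrable_comp_of_integrable h.int, ?_⟩
  rw [← integral_map hT.measurable.aemeasurable (hT.map_eq.symm ▸ h.int.aestronglyMeasurable),
    hT.map_eq, h.eq]

theorem HI.unique {F : X → ℝ} {a b : ℝ} (h : HI F a) (h' : HI F b) : a = b := h.eq.symm.trans h'.eq

theorem sw_term (u : R3 → ℝ) (c : X → ℝ) (z : X) :
    ar (sw z) * pr u u (sw z) * c z = ar z * pr u u z * c z := by
  simp only [ar_sw]
  simp only [pr, sw]
  ring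

theorem hi_gain {g φ : R3 → ℝ} {K : ℝ} (hK : 0 ≤ K) (hg : Mo g) (hφm : Measurable φ)
    (hφ : ∀ v, |φ v| ≤ K * jb v ^ 2) : Integrable (fun z => ar z * pr g g z * φ (pp z).1) m3 :=
  (int_of hK hφ hg hg (c := fun z => φ (pp z).1) (by fun_prop) fun z => by
    linarith [abs_nonneg (φ (pp z).2.1), abs_nonneg (φ z.1), abs_nonneg (φ z.2.1)]).1

theorem hi_loss {g φ : R3 → ℝ} {K : ℝ} (hK : 0 ≤ K) (hg : Mo g) (hφm : Measurable φ)
    (hφ : ∀ v, |φ v| ≤ K * jb v ^ 2) : Integrable (fun z => ar z * pr g g z * φ z.1) m3 :=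
  (int_of hK hφ hg hg (c := fun z => φ z.1) (by fun_prop) fun z => by
    linarith [abs_nonneg (φ (pp z).1), abs_nonneg (φ (pp z).2.1), abs_nonneg (φ z.2.1)]).1

theorem diss_nonneg {A B : ℝ} (hA : 0 < A) (hB : 0 < B) : 0 ≤ (A - B) * Real.log (A / B) := by
  rcases le_total B A with h | h
  · exact mul_nonneg (sub_nonneg.2 h) (Real.log_nonneg ((one_le_div hB).2 h))
  · exact mul_nonneg_of_nonpos_of_nonpos (sub_nonpos.2 h)
      (Real.log_nonpos (by positivity) ((div_le_one hB).2 h))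

/-- The real-valued entropy inequality. -/
theorem key {g G φ l : R3 → ℝ} {K ε : ℝ} (hK : 0 ≤ K) (hε : 0 ≤ ε) (hg : Mo g)
    (hG : ∀ v, G v = g v + ε * maxwellian v) (hG0 : ∀ v, 0 < G v) (hφm : Measurable φ)
    (hφ : ∀ v, |φ v| ≤ K * jb v ^ 2) (hl0 : ∀ v, 0 ≤ l v)
    (hl : ∀ v, Real.log (G v) = φ v + l v)
    (hL : Integrable (fun z => ar z * pr G G z * l z.1) m3) :
    Integrable (fun z => ar z * ((pr G G (pp z) - pr G G z) *
      Real.log (pr G G (pp z) / pr G G z))) m3 ∧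
    (∫ z, ar z * pr g g z * φ (pp z).1 ∂m3 - ∫ z, ar z * pr g g z * φ z.1 ∂m3) +
      4⁻¹ * ∫ z, ar z * ((pr G G (pp z) - pr G G z) * Real.log (pr G G (pp z) / pr G G z)) ∂m3 ≤
      ∫ z, ar z * pr G G z * l z.1 ∂m3 +
        ε * K * 78 * ((∫ v, g v * jb v ^ 3) * ∫ v, maxwellian v * jb v ^ 3) := by
  have hM := mo_maxwellian
  have hgm := hg.meas
  have hGm : Measurable G := by
    rw [show G = fun v => g v + ε * maxwellian v from funext hG]
    fun_prop
  have I : ∀ {u u' : R3 → ℝ}, Mo u → Mo u' → _ := fun hu hu' =>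
    int_of hK hφ hu hu' (measurable_dl hφm) (abs_dl_le φ)
  have p1 : HI _ _ := ⟨hi_gain hK hg hφm hφ, rfl⟩
  have p3 : HI _ _ := ⟨hi_loss hK hg hφm hφ, rfl⟩
  have i1 := (((p1.add (p1.comp mp_sw)).sub p3).sub (p3.comp mp_sw)).congr
    (G := fun z => ar z * pr g g z * dl φ z) fun z _ => by
      simp only [ar_sw, pp_sw, dl]
      simp only [pr, sw]
      ring
  have anti : ∀ {u : R3 → ℝ} {c : ℝ}, HI (fun z => ar z * pr u u z * dl φ z) c →
      HI (fun z => ar z * pr u u (pp z) * dl φ z) (-1 * c) := fun h =>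
    ((h.comp mp_pp).mul (-1)).congr fun z hz => by
      rw [ar_pp hz, dl_pp φ hz]
      ring
  have i2 : HI _ _ := ⟨(I hg hM).1, rfl⟩
  have i3 : HI _ _ := ⟨(I hM hg).1, rfl⟩
  have i4 : HI _ _ := ⟨(I hM hM).1, rfl⟩
  have e4 := i4.unique ((anti i4).congr fun z hz => by rw [pr_M_pp hz])
  have iJ := (((i1.add (i2.mul ε)).add (i3.mul ε)).add (i4.mul (ε ^ 2))).congr
    (G := fun z => ar z * pr G G z * dl φ z) fun z _ => by
      simp only [pr, hG]
      ring
  have iL : HI _ _ := ⟨hL, rfl⟩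
  have iL2 := (iL.comp mp_sw).congr (G := fun z => ar z * pr G G z * l z.2.1) fun z _ =>
    sw_term G (fun z => l z.2.1) z
  have iB := (((((anti iJ).sub iJ).add iL).add iL2).add (iL.comp mp_pp)).add (iL2.comp mp_pp)
  have hB : ∀ᵐ z ∂m3, ‖ar z * ((pr G G (pp z) - pr G G z) * Real.log (pr G G (pp z) / pr G G z))‖ ≤
      ar z * pr G G (pp z) * dl φ z - ar z * pr G G z * dl φ z + ar z * pr G G z * l z.1 +
      ar z * pr G G z * l z.2.1 + ar (pp z) * pr G G (pp z) * l (pp z).1 +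
      ar (pp z) * pr G G (pp z) * l (pp z).2.1 := by
    filter_upwards [ae_one] with z hz
    have hA : 0 < pr G G (pp z) := mul_pos (hG0 _) (hG0 _)
    have hB : 0 < pr G G z := mul_pos (hG0 _) (hG0 _)
    have h1 : Real.log (pr G G (pp z) / pr G G z) =
        dl φ z + (l (pp z).1 + l (pp z).2.1 - l z.1 - l z.2.1) := by
      rw [Real.log_div hA.ne' hB.ne', pr, pr, Real.log_mul (hG0 _).ne' (hG0 _).ne',
        Real.log_mul (hG0 _).ne' (hG0 _).ne', hl, hl, hl, hl, dl]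
      ring
    rw [Real.norm_eq_abs, abs_of_nonneg (mul_nonneg (ar_nonneg z) (diss_nonneg hA hB)), h1,
      ar_pp hz]
    have h2 := mul_nonneg (ar_nonneg z) (mul_nonneg hA.le (add_nonneg (hl0 z.1) (hl0 z.2.1)))
    have h3 := mul_nonneg (ar_nonneg z)
      (mul_nonneg hB.le (add_nonneg (hl0 (pp z).1) (hl0 (pp z).2.1)))
    linarith
  refine ⟨iB.int.mono' (Measurable.aestronglyMeasurable (by fun_prop)) hB, ?_⟩
  have h1 := ((le_abs_self _).trans (norm_integral_le_of_norm_le iB.int hB)).trans_eq iB.eq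
  have h2 := mul_le_mul_of_nonneg_left (neg_le_of_abs_le (I hg hM).2) hε
  have h3 := mul_le_mul_of_nonneg_left (neg_le_of_abs_le (I hM hg).2) hε
  have e5 : ∫ z, ar z * pr maxwellian maxwellian z * dl φ z ∂m3 = 0 := by linarith
  rw [e5] at h1
  linarith

theorem fub {Ψ : X → ℝ≥0∞} (hΨ : Measurable Ψ) (hfin : ∀ᵐ z ∂m3, Ψ z < ⊤) {φ : R3 → ℝ} {c : ℝ}
    (h : HI (fun z => (Ψ z).toReal * φ z.1) c) :
    Integrable (fun v => (∫⁻ vs, ∫⁻ w, Ψ (v, vs, w) ∂sphereMeasure).toReal * φ v) ∧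
      ∫ v, (∫⁻ vs, ∫⁻ w, Ψ (v, vs, w) ∂sphereMeasure).toReal * φ v = c := by
  have h1 : (fun v => ∫ y, (Ψ (v, y)).toReal * φ v ∂(volume.prod sphereMeasure)) =ᵐ[volume]
      fun v => (∫⁻ vs, ∫⁻ w, Ψ (v, vs, w) ∂sphereMeasure).toReal * φ v := by
    filter_upwards [Measure.ae_ae_of_ae_prod hfin] with v hv
    have hm : AEMeasurable (fun y => Ψ (v, y)) (volume.prod sphereMeasure) :=
      (hΨ.comp measurable_prodMk_left).aemeasurable
    rw [integral_mul_const, integral_toReal hm hv, lintegral_prod _ hm]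
  refine ⟨h.int.integral_prod_left.congr h1, ?_⟩
  rw [← integral_congr_ae h1, ← h.eq, integral_prod _ h.int]

theorem toReal_mom (f : R3 → ℝ≥0∞) (v : R3) :
    (f v * ENNReal.ofReal (jb v ^ 3)).toReal = (f v).toReal * jb v ^ 3 := by
  rw [ENNReal.toReal_mul, ENNReal.toReal_ofReal (pow_pos (jb_pos v) 3).le]

theorem mo_toReal {f : R3 → ℝ≥0∞} (hf : Measurable f)
    (hm : ∫⁻ v, f v * ENNReal.ofReal (jb v ^ 3) ≠ ⊤) : Mo fun v => (f v).toReal :=
  ⟨by fun_prop, fun _ => ENNReal.toReal_nonneg, by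
    simpa only [toReal_mom] using integrable_toReal_of_lintegral_ne_top (by fun_prop) hm⟩

theorem gain_loss {f : R3 → ℝ≥0∞} (hf : Measurable f)
    (hm : ∫⁻ v, f v * ENNReal.ofReal (jb v ^ 3) ≠ ⊤) {φ : R3 → ℝ} {K : ℝ} (hK : 0 ≤ K)
    (hφm : Measurable φ) (hφ : ∀ v, |φ v| ≤ K * jb v ^ 2) :
    ∫ v, ((Qp f f v).toReal - (f v * LL f v).toReal) * φ v =
      ∫ z, ar z * pr (fun v => (f v).toReal) (fun v => (f v).toReal) z * φ (pp z).1 ∂m3 -
        ∫ z, ar z * pr (fun v => (f v).toReal) (fun v => (f v).toReal) z * φ z.1 ∂m3 := by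
  have hg := mo_toReal hf hm
  have h0 : ∀ᵐ v, f v < ⊤ := by
    filter_upwards [ae_lt_top (by fun_prop) hm] with v hv
    exact ENNReal.lt_top_of_mul_ne_top_left hv.ne
      (ENNReal.ofReal_pos.2 (pow_pos (jb_pos v) 3)).ne'
  have h1 : ∀ᵐ z ∂m3, f z.1 < ⊤ ∧ f z.2.1 < ⊤ :=
    (Measure.quasiMeasurePreserving_fst.ae h0).and
      ((Measure.quasiMeasurePreserving_fst.comp Measure.quasiMeasurePreserving_snd).ae h0)
  have hab := measurable_ab
  have p1 : HI _ _ := ⟨hi_gain hK hg hφm hφ, rfl⟩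
  have p3 : HI _ _ := ⟨hi_loss hK hg hφm hφ, rfl⟩
  have g1 := fub (Ψ := fun z => ab z.1 z.2.1 z.2.2 * (f (pp z).1 * f (pp z).2.1)) (φ := φ)
    (by fun_prop) ((mp_pp.quasiMeasurePreserving.ae h1).mono fun z hz =>
      ENNReal.mul_lt_top ENNReal.ofReal_lt_top (ENNReal.mul_lt_top hz.1 hz.2))
    ((p1.comp mp_pp).congr fun z hz => by
      rw [ar_pp hz, pp_pp hz, ENNReal.toReal_mul, ENNReal.toReal_mul, ab,
        ENNReal.toReal_ofReal (abs_nonneg _)]
      rfl)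
  have g2 := fub (Ψ := fun z => f z.1 * (ab z.1 z.2.1 z.2.2 * f z.2.1)) (φ := φ)
    (by fun_prop) (h1.mono fun z hz =>
      ENNReal.mul_lt_top hz.1 (ENNReal.mul_lt_top ENNReal.ofReal_lt_top hz.2))
    (p3.congr fun z _ => by
      rw [ENNReal.toReal_mul, ENNReal.toReal_mul, ab, ENNReal.toReal_ofReal (abs_nonneg _)]
      simp only [ar, pr]
      ring)
  have e : ∀ v, f v * LL f v = ∫⁻ vs, ∫⁻ w, f v * (ab v vs w * f vs) ∂sphereMeasure := fun v => by
    have hm : Measurable fun y : R3 × R3 => ab v y.1 y.2 * f y.1 :=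
      (hab.comp measurable_prodMk_left).mul (by fun_prop)
    rw [LL, ← lintegral_const_mul _ hm.lintegral_prod_right']
    exact lintegral_congr fun vs =>
      (lintegral_const_mul _ (hm.comp measurable_prodMk_left)).symm
  simp only [sub_mul, e]
  rw [← g1.2, ← g2.2]
  exact integral_sub g1.1 g2.1

theorem lint_l {G l : R3 → ℝ} (hG : Measurable G) (hl : Measurable l) (hG0 : ∀ v, 0 < G v)
    (hl0 : ∀ v, 0 ≤ l v) : ∫⁻ z, ENNReal.ofReal (ar z * pr G G z * l z.1) ∂m3 ≤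
      ∫⁻ v, ∫⁻ vs, 13 * ENNReal.ofReal (jb v * jb vs * G v * G vs * l v) := by
  calc _ ≤ ∫⁻ z, ENNReal.ofReal (jb z.1 * jb z.2.1 * G z.1 * G z.2.1 * l z.1) ∂m3 := by
        refine lintegral_mono_ae (ae_one.mono fun z hz => ENNReal.ofReal_le_ofReal ?_)
        have := mul_le_mul_of_nonneg_right (ar_le hz)
          (mul_nonneg (mul_pos (hG0 z.1) (hG0 z.2.1)).le (hl0 z.1))
        simp only [pr]
        linarith
    _ ≤ _ := by
        rw [lint3 _ (by fun_prop)]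
        refine lintegral_mono fun v => lintegral_mono fun vs => ?_
        simp only [lintegral_const]
        rw [mul_comm]
        exact mul_le_mul_left sphere_univ_le _

theorem final {f : R3 → ℝ≥0∞} (hf : Measurable f)
    (hm : ∫⁻ v, f v * ENNReal.ofReal (jb v ^ 3) ≠ ⊤) {G φ l : R3 → ℝ} {K ε : ℝ} (hK : 0 ≤ K)
    (hε : 0 ≤ ε) (hG : ∀ v, G v = (f v).toReal + ε * maxwellian v) (hG0 : ∀ v, 0 < G v)
    (hφm : Measurable φ) (hφ : ∀ v, |φ v| ≤ K * jb v ^ 2) (hlm : Measurable l)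
    (hl0 : ∀ v, 0 ≤ l v) (hl : ∀ v, Real.log (G v) = φ v + l v) {D E : ℝ≥0∞}
    (hD : D = 4⁻¹ * ∫⁻ v, ∫⁻ vs, ∫⁻ w, ENNReal.ofReal |inner ℝ (v - vs) w| *
      pairDissipation (G (postVel v vs w) * G (postVelStar v vs w)) (G v * G vs) ∂sphereMeasure)
    (hE : E = (∫⁻ v, ∫⁻ vs, 13 * ENNReal.ofReal (jb v * jb vs * G v * G vs * l v)) +
      ENNReal.ofReal (ε * K) * 100 *
        (∫⁻ v, f v * ENNReal.ofReal (jb v ^ 3)) * ∫⁻ v, mu v * ENNReal.ofReal (jb v ^ 3))
    (he : E ≠ ⊤) :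
    D ≠ ⊤ ∧ (∫ v, ((Qp f f v).toReal - (f v * LL f v).toReal) * φ v) + D.toReal ≤ E.toReal := by
  have hg := mo_toReal hf hm
  have hGm : Measurable G := by
    rw [show G = fun v => (f v).toReal + ε * maxwellian v from funext hG]
    fun_prop
  obtain ⟨he1, he2⟩ := ENNReal.add_ne_top.1 (hE ▸ he)
  have l1 := lint_l hGm hlm hG0 hl0
  have l0 : 0 ≤ᵐ[m3] fun z => ar z * pr G G z * l z.1 := Eventually.of_forall fun z =>
    mul_nonneg (mul_nonneg (ar_nonneg z) (mul_pos (hG0 _) (hG0 _)).le) (hl0 _)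
  have hL : Integrable (fun z => ar z * pr G G z * l z.1) m3 :=
    ⟨Measurable.aestronglyMeasurable (by fun_prop),
      (hasFiniteIntegral_iff_ofReal l0).2 (l1.trans_lt he1.lt_top)⟩
  obtain ⟨k1, k2⟩ := key hK hε hg hG hG0 hφm hφ hl0 hl hL
  have d0 : ∀ z, 0 ≤ ar z * ((pr G G (pp z) - pr G G z) * Real.log (pr G G (pp z) / pr G G z)) :=
    fun z => mul_nonneg (ar_nonneg z)
      (diss_nonneg (mul_pos (hG0 _) (hG0 _)) (mul_pos (hG0 _) (hG0 _)))
  have hD' : D = 4⁻¹ * ENNReal.ofReal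
      (∫ z, ar z * ((pr G G (pp z) - pr G G z) * Real.log (pr G G (pp z) / pr G G z)) ∂m3) := by
    rw [hD, ofReal_integral_eq_lintegral_ofReal k1 (Eventually.of_forall d0),
      lint3 _ (by fun_prop)]
    congr 1
    refine lintegral_congr fun v => lintegral_congr fun vs => lintegral_congr fun w => ?_
    rw [pairDissipation, if_neg fun h => (mul_pos (hG0 _) (hG0 _)).ne' h.1,
      if_pos ⟨mul_pos (hG0 _) (hG0 _), mul_pos (hG0 _) (hG0 _)⟩,
      ENNReal.ofReal_mul (ar_nonneg _)]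
    rfl
  refine ⟨hD' ▸ ENNReal.mul_ne_top (by simp) ENNReal.ofReal_ne_top, ?_⟩
  have m1 : (∫⁻ v, f v * ENNReal.ofReal (jb v ^ 3)).toReal = ∫ v, (f v).toReal * jb v ^ 3 := by
    rw [← integral_toReal (by fun_prop) (ae_lt_top (by fun_prop) hm)]
    simp only [toReal_mom]
  have m2 : (∫⁻ v, mu v * ENNReal.ofReal (jb v ^ 3)).toReal = ∫ v, maxwellian v * jb v ^ 3 := by
    have h0 : ∀ v, 0 ≤ maxwellian v * jb v ^ 3 := fun v =>
      (mul_pos (maxwellian_pos v) (pow_pos (jb_pos v) 3)).le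
    rw [integral_eq_lintegral_of_nonneg_ae (Eventually.of_forall h0)
      mo_maxwellian.int.aestronglyMeasurable]
    simp only [mu, ENNReal.ofReal_mul (maxwellian_pos _).le]
  have l2 := ENNReal.toReal_mono he1 l1
  rw [← integral_eq_lintegral_of_nonneg_ae l0 hL.aestronglyMeasurable] at l2
  have b1 : 0 ≤ ∫ v, (f v).toReal * jb v ^ 3 := m1 ▸ ENNReal.toReal_nonneg
  have b2 : 0 ≤ ∫ v, maxwellian v * jb v ^ 3 := m2 ▸ ENNReal.toReal_nonneg
  have b3 := mul_nonneg (mul_nonneg hε hK) (mul_nonneg b1 b2)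
  rw [gain_loss hf hm hK hφm hφ, hD', hE, ENNReal.toReal_add he1 he2, ENNReal.toReal_mul,
    ENNReal.toReal_mul, ENNReal.toReal_mul, ENNReal.toReal_mul, m1, m2,
    ENNReal.toReal_ofReal (integral_nonneg d0), ENNReal.toReal_ofReal (mul_nonneg hε hK)]
  simp only [ENNReal.toReal_inv, ENNReal.toReal_ofNat]
  linarith

end
end Crest.Agent.R68.W4A
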