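import Crest.Agent.R68.W2
import Crest.Agent.R68.W4A

/-! # Row 68: weak-solution module, part 4: the entropy inequality, velocity part -/

set_option autoImplicit false
open MeasureTheory Set Filter Topology
open scoped ENNReal NNReal
open Crest.AnalysisR.VecCalc3 Crest.AnalysisR.PDE.Boltzmann

namespace Crest.Agent.R68
noncomputable section

/-- local dissipation of a real velocity distribution -/
def Dloc (g : R3 → ℝ) : ℝ≥0∞ :=
  4⁻¹ * ∫⁻ v, ∫⁻ vs, ∫⁻ w, ENNReal.ofReal |inner ℝ (v - vs) w| *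
    pairDissipation (g (postVel v vs w) * g (postVelStar v vs w)) (g v * g vs) ∂sphereMeasure

/-- regularised distribution `f + ε M` -/
def reg (ε : ℝ) (f : R3 → ℝ≥0∞) (v : R3) : ℝ := (f v).toReal + ε * maxwellian v

/-- truncated logarithm of the regularised distribution -/
def lg (ε N : ℝ) (f : R3 → ℝ≥0∞) (v : R3) : ℝ := Real.log (min (reg ε f v) N)

/-- error term of the renormalised entropy inequality -/
def entErr (ε N : ℝ) (f : R3 → ℝ≥0∞) : ℝ≥0∞ :=
  (∫⁻ v, ∫⁻ vs, 13 * ENNReal.ofReal (jb v * jb vs * reg ε f v * reg ε f vs *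
      max (Real.log (reg ε f v / N)) 0)) +
    ENNReal.ofReal (ε * (10 + Real.log N - Real.log ε)) * 100 *
      (∫⁻ v, f v * ENNReal.ofReal (jb v ^ 3)) * ∫⁻ v, mu v * ENNReal.ofReal (jb v ^ 3)

theorem abs_lg_le {ε N : ℝ} (hε : ε ∈ Ioc (0 : ℝ) 1) (hN : 1 ≤ N) (f : R3 → ℝ≥0∞) (v : R3) :
    |lg ε N f v| ≤ (10 + Real.log N - Real.log ε) * jb v ^ 2 := by
  have hM := W4A.maxwellian_pos v
  have h0 := mul_pos hε.1 hM
  have h1 := Real.log_nonneg hN
  have h2 := Real.log_nonpos hε.1.le hε.2
  have h3 : 1 + ‖v‖ ^ 2 ≤ jb v ^ 2 := by simp only [jb]; nlinarith [norm_nonneg v]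
  have h4 : Real.log (maxwellian v) = -(3 / 2) * Real.log (2 * Real.pi) - ‖v‖ ^ 2 / 2 := by
    rw [maxwellian, Real.log_mul (by positivity) (by positivity), Real.log_rpow (by positivity),
      Real.log_exp]
    ring
  have h5 := Real.log_le_sub_one_of_pos (x := 2 * Real.pi) (by positivity)
  have h6 := Real.log_nonneg (x := 2 * Real.pi) (by linarith [Real.pi_gt_three])
  have h7 := sq_nonneg ‖v‖
  have h8 : maxwellian v ≤ 1 := (Real.log_nonpos_iff hM.le).1 (by linarith)
  have h9 : ε * maxwellian v ≤ min (reg ε f v) N :=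
    le_min (le_add_of_nonneg_left ENNReal.toReal_nonneg)
      ((mul_le_one₀ hε.2 hM.le h8).trans hN)
  have a1 := Real.log_le_log h0 h9
  have a2 := Real.log_le_log (h0.trans_le h9) (min_le_right (reg ε f v) N)
  rw [Real.log_mul hε.1.ne' hM.ne', h4] at a1
  have a3 := mul_le_mul_of_nonneg_left h3 (a := 10 + Real.log N - Real.log ε) (by linarith)
  have a4 := mul_nonneg h1 h7
  have a5 := mul_nonneg (neg_nonneg.2 h2) h7
  rw [abs_le, lg]
  constructor <;> linarith [Real.pi_lt_d2]

/-- Symmetrisation: with `φ = lg ε N f`, `Δ = φ' + φ'⁎ - φ - φ⁎`,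
`∫ (Q⁺ - Q⁻) φ = -¼ ∫∫∫ |a| (f' f'⁎ - f f⁎) Δ` (`lint_prepost`, `postVel_swap`);
`G' G'⁎ - G G⁎ = f' f'⁎ - f f⁎ + ε (f' M'⁎ + M' f'⁎ - f M⁎ - M f⁎)` (`M' M'⁎ = M M⁎`);
`(A - B) Δ ≥ (A - B) log (A/B) - A (l' + l'⁎) - B (l + l⁎)`, `l = log⁺ (G/N)`; the four `l` terms have
equal integrals; `|Δ| ≤ 6 K jb v ^ 2 jb v⁎ ^ 2`-type bounds from `abs_lg_le` for the `ε` terms. -/
theorem entropy_velocity (f : R3 → ℝ≥0∞) (hf : Measurable f) {ε N : ℝ} (hε : ε ∈ Ioc (0 : ℝ) 1)
    (hN : 1 ≤ N) (hm : ∫⁻ v, f v * ENNReal.ofReal (jb v ^ 3) ≠ ⊤) (he : entErr ε N f ≠ ⊤) :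
    Dloc (reg ε f) ≠ ⊤ ∧
    (∫ v, ((Qp f f v).toReal - (f v * LL f v).toReal) * lg ε N f v) + (Dloc (reg ε f)).toReal ≤
      (entErr ε N f).toReal := by
  have hG0 : ∀ v, 0 < reg ε f v := fun v =>
    add_pos_of_nonneg_of_pos ENNReal.toReal_nonneg (mul_pos hε.1 (W4A.maxwellian_pos v))
  have hN0 : 0 < N := one_pos.trans_le hN
  refine W4A.final hf hm (G := reg ε f) (l := fun v => max (Real.log (reg ε f v / N)) 0)
    (K := 10 + Real.log N - Real.log ε)
    (by linarith [Real.log_nonneg hN, Real.log_nonpos hε.1.le hε.2]) hε.1.le (fun _ => rfl) hG0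
    (by unfold lg reg; fun_prop) (abs_lg_le hε hN f) (by unfold reg; fun_prop)
    (fun _ => le_max_right _ _) (fun v => ?_) rfl rfl he
  rw [lg, Real.log_div (hG0 v).ne' hN0.ne']
  rcases le_total (reg ε f v) N with h | h
  · rw [min_eq_left h, max_eq_right (sub_nonpos.2 (Real.log_le_log (hG0 v) h)), add_zero]
  · rw [min_eq_right h, max_eq_left (sub_nonneg.2 (Real.log_le_log hN0 h))]
    ring

theorem w4_pairDissipation_pos {A B : ℝ} (hA : 0 < A) (hB : 0 < B) :
    pairDissipation A B = ENNReal.ofReal ((A - B) * (Real.log A - Real.log B)) := by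
  unfold pairDissipation
  rw [if_neg (fun h => hA.ne' h.1), if_pos ⟨hA, hB⟩, Real.log_div hA.ne' hB.ne']

theorem w4_tendsto_top {A B : ℕ → ℝ} {b : ℝ} (hA : ∀ n, 0 < A n) (hb0 : 0 < b)
    (ha : Tendsto A atTop (𝓝 0)) (hb : Tendsto B atTop (𝓝 b)) :
    Tendsto (fun n => (A n - B n) * (Real.log (A n) - Real.log (B n))) atTop atTop := by
  have h1 : Tendsto (fun n => B n - A n) atTop (𝓝 (b - 0)) := hb.sub ha
  have h2 : Tendsto (fun n => Real.log (A n)) atTop atBot := by
    refine Real.tendsto_log_nhdsGT_zero.comp ?_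
    exact tendsto_nhdsWithin_iff.2 ⟨ha, Eventually.of_forall hA⟩
  have h3 : Tendsto (fun n => Real.log (B n)) atTop (𝓝 (Real.log b)) := hb.log hb0.ne'
  have h4 : Tendsto (fun n => Real.log (B n) + -Real.log (A n)) atTop atTop :=
    h3.add_atTop (tendsto_neg_atBot_atTop.comp h2)
  have h5 := Tendsto.pos_mul_atTop (by simpa using hb0) h1 h4
  refine h5.congr fun n => ?_
  ring

/-- lower semicontinuity of the dissipation integrand -/
theorem pairDissipation_le_liminf {A B : ℕ → ℝ} {a b : ℝ} (hA : ∀ n, 0 < A n) (hB : ∀ n, 0 < B n)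
    (ha : Tendsto A atTop (𝓝 a)) (hb : Tendsto B atTop (𝓝 b)) :
    pairDissipation a b ≤ liminf (fun n => pairDissipation (A n) (B n)) atTop := by
  have ha0 : 0 ≤ a := ge_of_tendsto' ha fun n => (hA n).le
  have hb0 : 0 ≤ b := ge_of_tendsto' hb fun n => (hB n).le
  have hE : (fun n => pairDissipation (A n) (B n)) =
      fun n => ENNReal.ofReal ((A n - B n) * (Real.log (A n) - Real.log (B n))) :=
    funext fun n => w4_pairDissipation_pos (hA n) (hB n)
  rw [hE]
  rcases ha0.eq_or_lt with ha1 | ha1 <;> rcases hb0.eq_or_lt with hb1 | hb1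
  · subst ha1 hb1
    simp [pairDissipation]
  · subst ha1
    have := ENNReal.tendsto_ofReal_atTop.comp (w4_tendsto_top hA hb1 ha hb)
    exact le_top.trans (this.liminf_eq).ge
  · subst hb1
    have h := w4_tendsto_top hB ha1 hb ha
    have h' : Tendsto (fun n => (A n - B n) * (Real.log (A n) - Real.log (B n))) atTop atTop :=
      h.congr fun n => by ring
    have := ENNReal.tendsto_ofReal_atTop.comp h'
    exact le_top.trans (this.liminf_eq).ge
  · rw [w4_pairDissipation_pos ha1 hb1]
    have h : Tendsto (fun n => (A n - B n) * (Real.log (A n) - Real.log (B n))) atTop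
        (𝓝 ((a - b) * (Real.log a - Real.log b))) :=
      (ha.sub hb).mul ((ha.log ha1.ne').sub (hb.log hb1.ne'))
    exact (ENNReal.tendsto_ofReal h).liminf_eq.ge

theorem measurable_pairDissipation :
    Measurable (fun x : ℝ × ℝ => pairDissipation x.1 x.2) := by
  unfold pairDissipation
  refine Measurable.ite ?_ measurable_const (Measurable.ite ?_ ?_ measurable_const)
  · exact (measurableSet_eq_fun measurable_fst measurable_const).inter
      (measurableSet_eq_fun measurable_snd measurable_const)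
  · exact (measurableSet_lt measurable_const measurable_fst).inter
      (measurableSet_lt measurable_const measurable_snd)
  · exact ((measurable_fst.sub measurable_snd).mul
      (measurable_fst.div measurable_snd).log).ennreal_ofReal

theorem w4_mul_liminf_le {c : ℝ≥0∞} (hc : c ≠ ⊤) (u : ℕ → ℝ≥0∞) :
    c * liminf u atTop ≤ liminf (fun n => c * u n) atTop :=
  (ENNReal.liminf_const_mul_of_ne_top hc).ge

/-- the integrand of the dissipation is jointly measurable -/
theorem w4_measurable_integrand {α : Type*} [MeasurableSpace α] (g : α → R3 → ℝ)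
    (hg : Measurable (fun x : α × R3 => g x.1 x.2)) :
    Measurable (fun x : ((α × R3) × R3) × R3 => ENNReal.ofReal |inner ℝ (x.1.1.2 - x.1.2) x.2| *
      pairDissipation (g x.1.1.1 (postVel x.1.1.2 x.1.2 x.2) *
        g x.1.1.1 (postVelStar x.1.1.2 x.1.2 x.2)) (g x.1.1.1 x.1.1.2 * g x.1.1.1 x.1.2)) := by
  have hT : Measurable (fun x : ((α × R3) × R3) × R3 => ((x.1.1.2, x.1.2, x.2) : R3 × R3 × R3)) := by
    fun_prop
  have h1 : Measurable (fun x : ((α × R3) × R3) × R3 => postVel x.1.1.2 x.1.2 x.2) :=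
    measurable_postVel.comp hT
  have h2 : Measurable (fun x : ((α × R3) × R3) × R3 => postVelStar x.1.1.2 x.1.2 x.2) :=
    measurable_postVelStar.comp hT
  have ha : Measurable (fun x : ((α × R3) × R3) × R3 => x.1.1.1) := by fun_prop
  have g1 : Measurable (fun x : ((α × R3) × R3) × R3 => g x.1.1.1 (postVel x.1.1.2 x.1.2 x.2)) :=
    hg.comp (ha.prodMk h1)
  have g2 : Measurable (fun x : ((α × R3) × R3) × R3 =>
      g x.1.1.1 (postVelStar x.1.1.2 x.1.2 x.2)) := hg.comp (ha.prodMk h2)
  have g3 : Measurable (fun x : ((α × R3) × R3) × R3 => g x.1.1.1 x.1.1.2) :=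
    hg.comp (measurable_fst.comp measurable_fst)
  have g4 : Measurable (fun x : ((α × R3) × R3) × R3 => g x.1.1.1 x.1.2) :=
    hg.comp (ha.prodMk (measurable_snd.comp measurable_fst))
  have hi : Measurable (fun x : ((α × R3) × R3) × R3 =>
      ENNReal.ofReal |inner ℝ (x.1.1.2 - x.1.2) x.2|) := by
    refine Measurable.ennreal_ofReal (Measurable.abs ?_)
    exact Measurable.inner (by fun_prop) measurable_snd
  exact hi.mul (measurable_pairDissipation.comp ((g1.mul g2).prodMk (g3.mul g4)))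

theorem w4_measurable_inner2 {α : Type*} [MeasurableSpace α] (g : α → R3 → ℝ)
    (hg : Measurable (fun x : α × R3 => g x.1 x.2)) :
    Measurable (fun x : (α × R3) × R3 => ∫⁻ w, ENNReal.ofReal |inner ℝ (x.1.2 - x.2) w| *
      pairDissipation (g x.1.1 (postVel x.1.2 x.2 w) *
        g x.1.1 (postVelStar x.1.2 x.2 w)) (g x.1.1 x.1.2 * g x.1.1 x.2) ∂sphereMeasure) :=
  (w4_measurable_integrand g hg).lintegral_prod_right'

theorem w4_measurable_inner1 {α : Type*} [MeasurableSpace α] (g : α → R3 → ℝ)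
    (hg : Measurable (fun x : α × R3 => g x.1 x.2)) :
    Measurable (fun x : α × R3 => ∫⁻ vs, ∫⁻ w, ENNReal.ofReal |inner ℝ (x.2 - vs) w| *
      pairDissipation (g x.1 (postVel x.2 vs w) *
        g x.1 (postVelStar x.2 vs w)) (g x.1 x.2 * g x.1 vs) ∂sphereMeasure) :=
  (w4_measurable_inner2 g hg).lintegral_prod_right'

theorem w4_maxwellian_pos (v : R3) : 0 < maxwellian v := by
  unfold maxwellian
  have := Real.pi_pos
  positivity

theorem w4_measurable_maxwellian : Measurable maxwellian := by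
  unfold maxwellian
  fun_prop

theorem w4_fatou (G : ℕ → R3 → ℝ) (g : R3 → ℝ) (hGm : Measurable (fun x : ℕ × R3 => G x.1 x.2))
    (hGpos : ∀ n v, 0 < G n v) (hGlim : ∀ v, Tendsto (fun n => G n v) atTop (𝓝 (g v))) :
    Dloc g ≤ liminf (fun n : ℕ => Dloc (G n)) atTop := by
  have m1 : ∀ n, Measurable (fun v : R3 => ∫⁻ vs, ∫⁻ w, ENNReal.ofReal |inner ℝ (v - vs) w| *
      pairDissipation (G n (postVel v vs w) * G n (postVelStar v vs w)) (G n v * G n vs)
        ∂sphereMeasure) := fun n =>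
    (w4_measurable_inner1 G hGm).comp (f := fun v : R3 => (n, v)) measurable_prodMk_left
  have m2 : ∀ n v, Measurable (fun vs : R3 => ∫⁻ w, ENNReal.ofReal |inner ℝ (v - vs) w| *
      pairDissipation (G n (postVel v vs w) * G n (postVelStar v vs w)) (G n v * G n vs)
        ∂sphereMeasure) := fun n v =>
    (w4_measurable_inner2 G hGm).comp (f := fun vs : R3 => ((n, v), vs)) measurable_prodMk_left
  have m3 : ∀ n v vs, Measurable (fun w : R3 => ENNReal.ofReal |inner ℝ (v - vs) w| *
      pairDissipation (G n (postVel v vs w) * G n (postVelStar v vs w)) (G n v * G n vs)) :=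
    fun n v vs => (w4_measurable_integrand G hGm).comp (f := fun w : R3 => (((n, v), vs), w))
      measurable_prodMk_left
  unfold Dloc
  refine le_trans ?_ (w4_mul_liminf_le (by simp) _)
  refine mul_le_mul_right ?_ _
  refine le_trans ?_ (lintegral_liminf_le m1)
  refine lintegral_mono fun v => ?_
  refine le_trans ?_ (lintegral_liminf_le fun n => m2 n v)
  refine lintegral_mono fun vs => ?_
  refine le_trans ?_ (lintegral_liminf_le fun n => m3 n v vs)
  refine lintegral_mono fun w => ?_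
  refine le_trans ?_ (w4_mul_liminf_le ENNReal.ofReal_ne_top _)
  refine mul_le_mul_right ?_ _
  exact pairDissipation_le_liminf (fun n => mul_pos (hGpos n _) (hGpos n _))
    (fun n => mul_pos (hGpos n _) (hGpos n _)) ((hGlim _).mul (hGlim _)) ((hGlim _).mul (hGlim _))

/-- Fatou -/
theorem Dloc_le_liminf (f : R3 → ℝ≥0∞) (hf : Measurable f) :
    Dloc (fun v => (f v).toReal) ≤ liminf (fun n : ℕ => Dloc (reg (1 / ((n : ℝ) + 1)) f)) atTop := by
  refine w4_fatou (fun n : ℕ => reg (1 / ((n : ℝ) + 1)) f) _ ?_ ?_ ?_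
  · refine measurable_from_prod_countable_right fun n => ?_
    change Measurable (fun v => (f v).toReal + (1 / ((n : ℝ) + 1)) * maxwellian v)
    exact hf.ennreal_toReal.add (w4_measurable_maxwellian.const_mul _)
  · intro n v
    have := w4_maxwellian_pos v
    simp only [reg]
    positivity
  · intro v
    have h := (tendsto_one_div_add_atTop_nhds_zero_nat (𝕜 := ℝ)).mul_const (maxwellian v)
    have h2 := h.const_add (f v).toReal
    simpa [reg] using h2

theorem measurable_Dloc_param {α : Type*} [MeasurableSpace α] (g : α → R3 → ℝ)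
    (hg : Measurable (fun x : α × R3 => g x.1 x.2)) : Measurable (fun a => Dloc (g a)) := by
  unfold Dloc
  exact ((w4_measurable_inner1 g hg).lintegral_prod_right').const_mul _

theorem dissipation_eq (f : R3 → R3 → ℝ) (hf : Measurable (fun q : R3 × R3 => f q.1 q.2)) :
    dissipation f = ∫⁻ x in cell, Dloc (f x) := by
  unfold dissipation Dloc
  rw [lintegral_const_mul _ ((w4_measurable_inner1 f hf).lintegral_prod_right')]
  congr 1
  rw [Measure.volume_eq_prod, ← Measure.prod_restrict, Measure.restrict_univ,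
    lintegral_prod _ (w4_measurable_inner1 f hf).aemeasurable]

end
end Crest.Agent.R68
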